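import Crest.Agent.T27.Basic_55

/-!
# Row 27 frame: counting lemmas (port of `PVc/R17/CountAux.lean`, `Count.lean`)

Sums over arbitrary finite sets need the extra hypothesis that the elements are rows (`Rep`).
-/

set_option autoImplicit false
set_option linter.unusedSectionVars false
set_option linter.unusedVariables false

noncomputable section

namespace Crest.Agent.T27

variable [Fr0]

namespace CountAux

open Finset

theorem card_erase_le (X : ℕ) : (((ball X).erase 0).card : ℝ) ≤ c7 * X := by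
  have h1 := card_ball_le X
  rw [card_erase_of_mem (zero_mem_ball X)]
  exact_mod_cast (by omega : (ball X).card - 1 ≤ (kk + 7) * X)

theorem mem_erase_ball {X : ℕ} {z : O} :
    z ∈ (ball X).erase 0 ↔ z ≠ 0 ∧ Rep z ∧ nm z ≤ X := by
  rw [mem_erase, mem_ball]

/-- Abel summation against the bound `#{0 < N n ≤ X} ≤ c7 X`. -/
theorem abel (g : ℕ → ℝ) (h0 : ∀ k, 0 ≤ g k) (hg : ∀ k, 1 ≤ k → g (k + 1) ≤ g k) (X : ℕ) :
    ∑ n ∈ (ball X).erase 0, g (nm n) ≤ c7 * ∑ k ∈ range X, g (k + 1) := by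
  have key : ∀ X : ℕ, ∑ n ∈ (ball X).erase 0, g (nm n) +
      (c7 * X - (((ball X).erase 0).card : ℝ)) * g X ≤ c7 * ∑ k ∈ range X, g (k + 1) := by
    intro X
    induction X with
    | zero =>
      have : (ball 0).erase 0 = ∅ := eq_empty_of_forall_notMem fun z hz => by
        rw [mem_erase_ball] at hz
        exact hz.1 (nm_eq_zero.1 (by omega))
      simp [this]
    | succ X ih =>
      have hs : (ball X).erase 0 ⊆ (ball (X + 1)).erase 0 := fun z hz => by
        rw [mem_erase_ball] at hz ⊢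
        exact ⟨hz.1, hz.2.1, by omega⟩
      have h1 : ∑ n ∈ (ball (X + 1)).erase 0 \ (ball X).erase 0, g (nm n) =
          ((((ball (X + 1)).erase 0).card : ℝ) - ((ball X).erase 0).card) * g (X + 1) := by
        rw [sum_congr rfl (g := fun _ => g (X + 1)), sum_const, card_sdiff_of_subset hs,
          nsmul_eq_mul, Nat.cast_sub (card_le_card hs)]
        intro z hz
        rw [mem_sdiff, mem_erase_ball, mem_erase_ball] at hz
        congr 1
        have := hz.2
        push Not at this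
        have := this hz.1.1 hz.1.2.1
        omega
      have h2 : (c7 * X - (((ball X).erase 0).card : ℝ)) * g (X + 1) ≤
          (c7 * X - (((ball X).erase 0).card : ℝ)) * g X := by
        have h3 := card_erase_le X
        rcases Nat.eq_zero_or_pos X with rfl | hX
        · have h4 : (0 : ℝ) ≤ (((ball 0).erase 0).card : ℝ) := Nat.cast_nonneg _
          have h5 : (c7 * ((0 : ℕ) : ℝ) - (((ball 0).erase 0).card : ℝ)) = 0 := by
            simp only [Nat.cast_zero] at h3 ⊢
            linarith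
          rw [h5, zero_mul, zero_mul]
        · exact mul_le_mul_of_nonneg_left (hg X hX) (by linarith)
      rw [← sum_sdiff hs, h1, sum_range_succ]
      push_cast
      linarith
  have h1 := key X
  have h2 := mul_nonneg (sub_nonneg.2 (card_erase_le X)) (h0 X)
  linarith

omit [Fr0] in
theorem rpow_step_le {p : ℝ} (hp0 : 0 ≤ p) (hp1 : p ≤ 1) (k : ℕ) :
    p * ((k + 1 : ℕ) : ℝ) ^ (p - 1) ≤ ((k + 1 : ℕ) : ℝ) ^ p - (k : ℝ) ^ p := by
  have hk : (0 : ℝ) < ((k + 1 : ℕ) : ℝ) := by positivity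
  have h1 := rpow_one_add_le_one_add_mul_self (s := -((k + 1 : ℕ) : ℝ)⁻¹)
    (neg_le_neg (inv_le_one_of_one_le₀ (by exact_mod_cast Nat.le_add_left 1 k))) hp0 hp1
  have h2 : 1 + -((k + 1 : ℕ) : ℝ)⁻¹ = k / ((k + 1 : ℕ) : ℝ) := by
    field_simp
    push_cast
    ring
  rw [h2, Real.div_rpow (Nat.cast_nonneg _) hk.le, div_le_iff₀ (Real.rpow_pos_of_pos hk _)] at h1
  rw [Real.rpow_sub_one hk.ne', div_eq_mul_inv]
  linarith

theorem sum_rpow_le {σ : ℝ} (hσ : -1 < σ) :
    ∃ C : ℝ, 0 < C ∧ ∀ X : ℕ, 1 ≤ X → ∑ n ∈ (ball X).erase 0, nr n ^ σ ≤ C * (X : ℝ) ^ (1 + σ) := by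
  rcases le_or_gt 0 σ with h | h
  · refine ⟨c7, c7_pos, fun X hX => ?_⟩
    have hX' : (0 : ℝ) < X := by exact_mod_cast hX
    refine (sum_le_card_nsmul _ _ ((X : ℝ) ^ σ) fun z hz => Real.rpow_le_rpow (Nat.cast_nonneg _)
      (by exact_mod_cast (mem_erase_ball.1 hz).2.2) h).trans ?_
    rw [nsmul_eq_mul, Real.rpow_add hX', Real.rpow_one, ← mul_assoc]
    exact mul_le_mul_of_nonneg_right (card_erase_le X) (by positivity)
  · have hp : 0 < 1 + σ := by linarith
    refine ⟨c7 / (1 + σ), by positivity, fun X _ => ?_⟩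
    refine (abel (fun k => (k : ℝ) ^ σ) (fun k => by positivity) (fun k hk =>
      Real.rpow_le_rpow_of_nonpos (by exact_mod_cast hk) (by simp) h.le) X).trans ?_
    have h1 : ∀ Y : ℕ, (1 + σ) * ∑ k ∈ range Y, ((k + 1 : ℕ) : ℝ) ^ σ ≤ (Y : ℝ) ^ (1 + σ) := by
      intro Y
      induction Y with
      | zero => simp; positivity
      | succ Y ih =>
        have := rpow_step_le hp.le (by linarith) Y
        rw [show 1 + σ - 1 = σ by ring] at this
        rw [sum_range_succ]
        linarith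
    rw [div_mul_eq_mul_div, le_div_iff₀ hp]
    have := mul_le_mul_of_nonneg_left (h1 X) c7_pos.le
    linarith









end CountAux

open CountAux

theorem Count_pow_card_pf_le {ε : ℝ} (hε : 0 < ε) (B : ℝ) :
    ∃ C : ℝ, 0 < C ∧ ∀ n : O, n ≠ 0 → B ^ (pf n).card ≤ C * nr n ^ ε := by
  classical
  set B' := max |B| 1 with hB'
  have h1 : 1 ≤ B' := le_max_right _ _
  set T := ball ⌈B' ^ ε⁻¹⌉₊
  refine ⟨B' ^ T.card, by positivity, fun n hn => ?_⟩
  have h2 : ∀ p ∈ pf n, B' ≤ (if p ∈ T then B' else 1) * nr p ^ ε := by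
    intro p hp
    split_ifs with h
    · exact le_mul_of_one_le_right (by linarith)
        (Real.one_le_rpow (one_le_nr ((mem_pf hn).1 hp).1.ne_zero) hε.le)
    · rw [((mem_pf hn).1 hp).2.1.mem_ball, not_le] at h
      rw [one_mul, ← Real.rpow_inv_rpow (by linarith : 0 ≤ B') hε.ne']
      exact Real.rpow_le_rpow (by positivity) (Nat.ceil_le.1 h.le) hε.le
  calc B ^ (pf n).card ≤ B' ^ (pf n).card := (le_abs_self _).trans (by
        rw [abs_pow]
        exact pow_le_pow_left₀ (abs_nonneg _) (le_max_left _ _) _)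
    _ = ∏ _p ∈ pf n, B' := (Finset.prod_const _).symm
    _ ≤ ∏ p ∈ pf n, (if p ∈ T then B' else 1) * nr p ^ ε :=
        Finset.prod_le_prod (fun _ _ => by linarith) h2
    _ = B' ^ (pf n ∩ T).card * nr (rad n) ^ ε := by
        rw [Finset.prod_mul_distrib, Finset.prod_ite_mem, Finset.prod_const,
          Real.finsetProd_rpow _ _ (fun _ _ => Nat.cast_nonneg _), rad, nr, nm_prod, Nat.cast_prod]
    _ ≤ _ := mul_le_mul (pow_le_pow_right₀ h1 (Finset.card_le_card Finset.inter_subset_right))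
        (Real.rpow_le_rpow (Nat.cast_nonneg _) (Nat.cast_le.2 (nm_le_of_dvd (rad_dvd n) hn)) hε.le)
        (by positivity) (by positivity)





/-- `B ^ ω(n) ≪ N(n)^ε`. -/
theorem pow_card_pf_le {ε : ℝ} (hε : 0 < ε) (B : ℝ) :
    ∃ C : ℝ, 0 < C ∧ ∀ n : O, n ≠ 0 → B ^ (pf n).card ≤ C * nr n ^ ε := by
  exact Count_pow_card_pf_le hε B

















/-- `∑_{N n ≤ X} N(n)^σ ≪ X^{1+σ}` for `σ > -1`. -/
theorem sum_nr_rpow_le {σ : ℝ} (hσ : -1 < σ) :
    ∃ C : ℝ, 0 < C ∧ ∀ X : ℕ, 1 ≤ X → ∑ n ∈ (ball X).erase 0, nr n ^ σ ≤ C * (X : ℝ) ^ (1 + σ) := by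
  exact sum_rpow_le hσ





end Crest.Agent.T27
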