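import Crest.Agent.T27.ThW_80
import Crest.Agent.T27.ThB_54
import Crest.Agent.T27.MelA_71
import Crest.Agent.T27.ThA_54
import Crest.Agent.T27.HeckeA_87
import Crest.Agent.T27.HeckeD_87

-- ▼ part T27/ThG2_80
section

/-!
# Row 27, theta module A1: `GeomStmt`
-/

set_option autoImplicit false

noncomputable section

namespace Crest.Agent.T27.TH.G

open scoped ComplexConjugate ENNReal NumberField
open MeasureTheory NumberField
open Crest.Agent.R17 (H hy hp μH Qf actC IsWt)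

variable {F : Type} [Field F] [NumberField F] [Emb F]

/-- Rows with entries in `M⁻¹ 𝒪`. -/
abbrev Rows (F : Type) [Field F] (M : ℕ) : Set (F × F) :=
  {u : F × F | IsIntegral ℤ ((M : F) * u.1) ∧ IsIntegral ℤ ((M : F) * u.2)}

theorem exp_neg_Qv (v : Pl F → ℝ) (w : HH F) (u : F × F) :
    Real.exp (-Qv v w u) =
      Real.exp (-∑ j, Real.exp (v j + lF w j) * ‖em u.1 j - (0 : Pl F → ℂ) j‖ ^ 2) *
        Real.exp (-∑ j, Real.exp (v j - lF w j) * ‖em u.2 j - (-(em u.1 * zF w)) j‖ ^ 2) := by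
  rw [← Real.exp_add, Qv_eq, ← neg_add, ← Finset.sum_add_distrib]
  congr 2
  refine Finset.sum_congr rfl fun j _ => ?_
  rw [QF_eq, Real.exp_add, Real.exp_sub, Pi.zero_apply, sub_zero, Pi.neg_apply, sub_neg_eq_add,
    Pi.mul_apply, add_comm (em u.2 j)]
  field_simp
  ring

/-- The Gaussian sum over rows, uniformly in all parameters. -/
theorem sum_exp_Qv_le {M : ℕ} (hM : M ≠ 0) : ∃ C : ℝ, 0 < C ∧
    ∀ (v : Pl F → ℝ) (w : HH F) (S : Finset (F × F)), (∀ u ∈ S, u ∈ Rows F M) →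
      ∑ u ∈ S, Real.exp (-Qv v w u) ≤
        C * ((1 + ∏ j, (Real.exp (v j + lF w j))⁻¹) * (1 + ∏ j, (Real.exp (v j - lF w j))⁻¹)) := by
  classical
  obtain ⟨C, hC, h⟩ := gauss_sum_le (F := F) hM
  refine ⟨C * C, by positivity, fun v w S hS => ?_⟩
  have hsub : S ⊆ S.image Prod.fst ×ˢ S.image Prod.snd := fun u hu =>
    Finset.mem_product.2 ⟨Finset.mem_image_of_mem _ hu, Finset.mem_image_of_mem _ hu⟩
  refine (Finset.sum_le_sum_of_subset_of_nonneg hsub fun _ _ _ => (Real.exp_pos _).le).trans ?_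
  rw [Finset.sum_product]
  have h1 := h 0 (fun j => Real.exp (v j + lF w j)) (S.image Prod.fst) (fun _ => Real.exp_pos _)
    fun x hx => by
      obtain ⟨u, hu, rfl⟩ := Finset.mem_image.1 hx
      exact (hS u hu).1
  have h2 := fun c : F => h (-(em c * zF w)) (fun j => Real.exp (v j - lF w j)) (S.image Prod.snd)
    (fun _ => Real.exp_pos _) fun x hx => by
      obtain ⟨u, hu, rfl⟩ := Finset.mem_image.1 hx
      exact (hS u hu).2
  simp only [exp_neg_Qv, ← Finset.mul_sum]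
  refine (Finset.sum_le_sum fun c _ =>
    mul_le_mul_of_nonneg_left (h2 c) (Real.exp_pos _).le).trans ?_
  rw [← Finset.sum_mul]
  refine (mul_le_mul_of_nonneg_right h1 (by positivity)).trans (le_of_eq ?_)
  ring

theorem tsum_exp_Qv_le {M : ℕ} (hM : M ≠ 0) : ∃ C : ℝ, 0 < C ∧ ∀ (v : Pl F → ℝ) (w : HH F),
    (Summable fun u : F × F => (Rows F M).indicator (fun u => Real.exp (-Qv v w u)) u) ∧
      ∑' u : F × F, (Rows F M).indicator (fun u => Real.exp (-Qv v w u)) u ≤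
        C * ((1 + ∏ j, (Real.exp (v j + lF w j))⁻¹) * (1 + ∏ j, (Real.exp (v j - lF w j))⁻¹)) := by
  classical
  obtain ⟨C, hC, h⟩ := sum_exp_Qv_le (F := F) hM
  refine ⟨C, hC, fun v w => ?_⟩
  have key : ∀ S : Finset (F × F),
      ∑ u ∈ S, (Rows F M).indicator (fun u => Real.exp (-Qv v w u)) u ≤
        C * ((1 + ∏ j, (Real.exp (v j + lF w j))⁻¹) *
          (1 + ∏ j, (Real.exp (v j - lF w j))⁻¹)) := fun S => by
    simp only [Set.indicator_apply]
    rw [← Finset.sum_filter]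
    exact h v w _ fun u hu => (Finset.mem_filter.1 hu).2
  have hs := summable_of_sum_le
    (fun u => Set.indicator_nonneg (fun _ _ => (Real.exp_pos _).le) u) key
  exact ⟨hs, hs.tsum_le_of_sum_le key⟩

theorem summ {M : ℕ} (hM : M ≠ 0) (v : Pl F → ℝ) (w : HH F) :
    Summable fun u : F × F => (Rows F M).indicator (fun u => Real.exp (-Qv v w u)) u := by
  obtain ⟨C, -, h⟩ := tsum_exp_Qv_le (F := F) hM
  exact (h v w).1

theorem summable_wOf {Δ : Subgroup (SL F)} (hΔ : Δ ≤ Gam0 F) (w : HH F) :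
    Summable fun δ : Δ =>
      Real.exp (-(Qv 0 ((δ : SL F) • w) (1, 0) + Qv 0 ((δ : SL F) • w) (0, 1))) := by
  have hs := summ one_ne_zero 0 w
  have h0 : ∀ u, 0 ≤ (Rows F 1).indicator (fun u => Real.exp (-Qv 0 w u)) u :=
    fun u => Set.indicator_nonneg (fun _ _ => (Real.exp_pos _).le) u
  have h2 := hs.mul_of_nonneg hs h0 h0
  have hi : Function.Injective fun δ : Δ =>
      ((((δ : SL F) 0 0, (δ : SL F) 0 1), ((δ : SL F) 1 0, (δ : SL F) 1 1)) : (F × F) × F × F) := by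
    intro δ δ' h
    simp only [Prod.mk.injEq] at h
    refine Subtype.ext (Matrix.SpecialLinearGroup.ext _ _ fun i j => ?_)
    fin_cases i <;> fin_cases j
    exacts [h.1.1, h.1.2, h.2.1, h.2.2]
  refine (h2.comp_injective hi).congr fun δ => ?_
  have hδ := hΔ δ.2
  simp only [Function.comp, Qv_smul_SL, rmul_one_zero, rmul_zero_one, row2]
  rw [Set.indicator_of_mem (by exact ⟨den_one.2 (hδ _ _), den_one.2 (hδ _ _)⟩),
    Set.indicator_of_mem (by exact ⟨den_one.2 (hδ _ _), den_one.2 (hδ _ _)⟩), ← Real.exp_add,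
    neg_add]

theorem isWt_wOf {Δ : Subgroup (SL F)} (hΔ : Δ ≤ Gam0 F) : IsWt Δ (wOf Δ : HH F → ℝ) := by
  have hE : Continuous fun w : HH F => Real.exp (-(Qv 0 w (1, 0) + Qv 0 w (0, 1))) :=
    Real.continuous_exp.comp ((continuous_Qv _ _).add (continuous_Qv _ _)).neg
  have hm : ∀ δ : Δ, Measurable fun w : HH F =>
      Real.exp (-(Qv 0 ((δ : SL F) • w) (1, 0) + Qv 0 ((δ : SL F) • w) (0, 1))) := fun δ => by
    simp only [Qv_smul_SL]
    exact (Real.continuous_exp.comp ((continuous_Qv _ _).add (continuous_Qv _ _)).neg).measurable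
  refine ⟨hE.measurable.div (Measurable.tsum hm), fun w =>
    div_nonneg (Real.exp_pos _).le (tsum_nonneg fun _ => (Real.exp_pos _).le), fun w => ?_⟩
  have hpos := (summable_wOf hΔ w).tsum_pos (fun _ => (Real.exp_pos _).le) 1 (Real.exp_pos _)
  have h1 := (summable_wOf hΔ w).hasSum.div_const
    (∑' δ : Δ, Real.exp (-(Qv 0 ((δ : SL F) • w) (1, 0) + Qv 0 ((δ : SL F) • w) (0, 1))))
  rw [div_self hpos.ne'] at h1
  refine (funext fun γ => ?_ : _ = fun γ : Δ => wOf Δ (γ • w)) ▸ h1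
  unfold wOf
  congr 1
  symm
  simp only [Subgroup.smul_def, ← mul_smul, ← Subgroup.coe_mul]
  exact (Equiv.mulRight γ).tsum_eq fun δ : Δ =>
    Real.exp (-(Qv 0 ((δ : SL F) • w) (1, 0) + Qv 0 ((δ : SL F) • w) (0, 1)))

theorem thY_aut (ξ : F × F → ℂ) (γ : SL F) (v : Pl F → ℝ) (w : HH F) :
    thY (tr ξ (γ : Mat F)) v (γ • w) = thY ξ v w := by
  unfold thY
  congr 1
  simp only [Qv_smul_SL, tr]
  exact (rowEquiv γ).tsum_eq fun u => ξ u * (Real.exp (-Qv v w u) : ℂ)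

omit [NumberField F] [Emb F] in
theorem adm_bound {ξ : F × F → ℂ} (hξ : Adm ξ) : ∃ (M : ℕ) (B : ℝ), M ≠ 0 ∧ 0 ≤ B ∧
    ∀ (u : F × F) (φ : F × F → ℝ), 0 ≤ φ u → ‖ξ u * (φ u : ℂ)‖ ≤ B * (Rows F M).indicator φ u := by
  obtain ⟨B, hB⟩ := hξ.bdd
  obtain ⟨M, hM, h⟩ := hξ.supp
  have hB0 : 0 ≤ B := (norm_nonneg _).trans (hB 0)
  refine ⟨M, B, hM, hB0, fun u φ hφ => ?_⟩
  by_cases h0 : ξ u = 0
  · rw [h0, zero_mul, norm_zero]
    exact mul_nonneg hB0 (Set.indicator_apply_nonneg fun _ => hφ)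
  · rw [Set.indicator_of_mem (by exact ⟨(h u h0).1, (h u h0).2.1⟩), norm_mul, Complex.norm_real,
      Real.norm_of_nonneg hφ]
    exact mul_le_mul_of_nonneg_right (hB u) hφ


/-- The comparison constant between `Qf w` and the standard form. -/
def Kf (w : H) : ℝ := (2 + (1 + 2 * ‖w.1‖ ^ 2) / hy w ^ 2) * hy w

theorem Kf_pos (w : H) : 0 < Kf w := by
  have := R17.hy_pos w
  unfold Kf
  positivity

theorem continuous_Kf : Continuous Kf := by
  have := R17.continuous_hy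
  unfold Kf
  refine Continuous.mul (continuous_const.add (Continuous.div (by fun_prop) (by fun_prop)
    fun w => (pow_pos (R17.hy_pos w) 2).ne')) this

theorem le_Kf_mul (w : H) (c d : ℂ) : ‖d‖ ^ 2 + ‖c‖ ^ 2 ≤ Kf w * Qf w c d := by
  have hy0 := R17.hy_pos w
  have h2 : ‖d‖ ≤ ‖c * w.1 + d‖ + ‖c‖ * ‖w.1‖ := by
    rw [← norm_mul]
    simpa using norm_sub_le (c * w.1 + d) (c * w.1)
  have h3 : ‖d‖ ^ 2 ≤ 2 * ‖c * w.1 + d‖ ^ 2 + 2 * (‖c‖ ^ 2 * ‖w.1‖ ^ 2) := by
    have := pow_le_pow_left₀ (norm_nonneg _) h2 2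
    nlinarith [sq_nonneg (‖c * w.1 + d‖ - ‖c‖ * ‖w.1‖)]
  have h4 : Kf w * Qf w c d =
      2 * ‖c * w.1 + d‖ ^ 2 + (1 + 2 * ‖w.1‖ ^ 2) * ‖c‖ ^ 2 + (2 * (‖c‖ ^ 2 * hy w ^ 2) +
        (1 + 2 * ‖w.1‖ ^ 2) / hy w ^ 2 * ‖c * w.1 + d‖ ^ 2) := by
    rw [Kf, Qf]; field_simp; ring
  rw [h4]
  have h5 : 0 ≤ 2 * (‖c‖ ^ 2 * hy w ^ 2) +
      (1 + 2 * ‖w.1‖ ^ 2) / hy w ^ 2 * ‖c * w.1 + d‖ ^ 2 := by positivity
  nlinarith

/-- Locally uniform lower bound for `Qv`. -/
theorem exists_Qv_ge (v : Pl F → ℝ) (w₀ : HH F) : ∃ (v' : Pl F → ℝ) (U : Set (HH F)),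
    U ∈ nhds w₀ ∧ ∀ w ∈ U, ∀ u, Qv v' (pt 0 0) u ≤ Qv v w u := by
  refine ⟨fun j => v j - Real.log (Kf (w₀ j) + 1), {w | ∀ j, Kf (w j) < Kf (w₀ j) + 1}, ?_,
    fun w hw u => Finset.sum_le_sum fun j _ => ?_⟩
  · rw [Set.ofPred_forall]
    exact (isOpen_iInter_of_finite fun j => isOpen_lt
      (continuous_Kf.comp (continuous_apply j)) continuous_const).mem_nhds
      (Set.mem_iInter.2 fun j => lt_add_one (Kf (w₀ j)))
  have h0 := Kf_pos (w₀ j)
  have h1 := le_Kf_mul (w j) (em u.1 j) (em u.2 j)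
  have h2 : Qf (pt (0 : Pl F → ℂ) 0 j) (em u.1 j) (em u.2 j) = ‖em u.2 j‖ ^ 2 + ‖em u.1 j‖ ^ 2 := by
    simp [Qf, pt, hy]
  rw [h2, Real.exp_sub, Real.exp_log (by linarith), div_mul_eq_mul_div, mul_div_assoc]
  refine mul_le_mul_of_nonneg_left ?_ (Real.exp_pos _).le
  rw [div_le_iff₀ (by linarith), mul_comm]
  exact h1.trans (mul_le_mul_of_nonneg_right (hw j).le (R17.Qf_nonneg _ _ _))

theorem continuous_thY {ξ : F × F → ℂ} (hξ : Adm ξ) (v : Pl F → ℝ) : Continuous (thY ξ v) := by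
  obtain ⟨M, B, hM, hB, h⟩ := adm_bound hξ
  refine continuous_const.mul (continuous_iff_continuousAt.2 fun w₀ => ?_)
  obtain ⟨v', U, hU, hv'⟩ := exists_Qv_ge v w₀
  refine (continuousOn_tsum (s := U) (fun u => ?_) ((summ hM v' (pt 0 0)).mul_left B)
    fun u w hw => ?_).continuousAt hU
  · exact (continuous_const.mul (Complex.continuous_ofReal.comp
      (Real.continuous_exp.comp (continuous_Qv v u).neg))).continuousOn
  refine (h u (fun u => Real.exp (-Qv v w u)) (Real.exp_pos _).le).trans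
    (mul_le_mul_of_nonneg_left ?_ hB)
  exact Set.indicator_le_indicator (Real.exp_le_exp.2 (neg_le_neg (hv' w hw u)))

theorem one_add_le {κ : Type} [Fintype κ] {E : ℝ} (hE : 0 ≤ E) {a : κ → ℝ} (ha : ∀ j, 0 ≤ a j) :
    1 + E * ∏ j, a j ≤ (1 + E) * ∏ j, (1 + a j) := by
  have h1 : 1 ≤ ∏ j, (1 + a j) := by
    simpa using Finset.prod_le_prod (s := Finset.univ) (f := fun _ : κ => (1 : ℝ))
      (g := fun j => 1 + a j) (fun _ _ => zero_le_one) fun j _ => by linarith [ha j]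
  have h2 : ∏ j, a j ≤ ∏ j, (1 + a j) :=
    Finset.prod_le_prod (fun j _ => ha j) fun j _ => by linarith
  nlinarith [mul_le_mul_of_nonneg_left h2 hE]

theorem norm_thY_le {ξ : F × F → ℂ} (hξ : Adm ξ) : ∃ C : ℝ, 0 ≤ C ∧ ∀ (v : Pl F → ℝ) (w : HH F),
    ‖thY ξ v w‖ ≤ C * Real.exp (4 / 3 * ∑ j, v j) *
      ((1 + ∏ j, (Real.exp (v j + lF w j))⁻¹) * (1 + ∏ j, (Real.exp (v j - lF w j))⁻¹)) := by
  obtain ⟨M, B, hM, hB, h⟩ := adm_bound hξ
  obtain ⟨C, hC, h2⟩ := tsum_exp_Qv_le (F := F) hM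
  refine ⟨B * C, by positivity, fun v w => ?_⟩
  have h3 := tsum_of_norm_bounded ((h2 v w).1.hasSum.mul_left B) fun u =>
    h u (fun u => Real.exp (-Qv v w u)) (Real.exp_pos _).le
  rw [thY, norm_mul, Complex.norm_real, Real.norm_of_nonneg (Real.exp_pos _).le]
  refine (mul_le_mul_of_nonneg_left (h3.trans (mul_le_mul_of_nonneg_left (h2 v w).2 hB))
    (Real.exp_pos _).le).trans (le_of_eq ?_)
  ring

theorem thY_le {ξ : F × F → ℂ} (hξ : Adm ξ) (v : Pl F → ℝ) : ∃ C : ℝ, ∀ w : HH F,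
    ‖thY ξ v w‖ ≤ C * ∏ j, (1 + Real.exp (w j).2) * (1 + Real.exp (-(w j).2)) := by
  obtain ⟨C, hC, h⟩ := norm_thY_le hξ
  set E := ∏ j, Real.exp (-v j) with hE
  have hE0 : 0 ≤ E := Finset.prod_nonneg fun _ _ => (Real.exp_pos _).le
  refine ⟨C * Real.exp (4 / 3 * ∑ j, v j) * ((1 + E) * (1 + E)), fun w => (h v w).trans ?_⟩
  have h1 : ∏ j, (Real.exp (v j + lF w j))⁻¹ = E * ∏ j, Real.exp (-(w j).2) := by
    rw [hE, ← Finset.prod_mul_distrib]
    refine Finset.prod_congr rfl fun j _ => ?_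
    rw [← Real.exp_neg, ← Real.exp_add, neg_add, lF]
  have h2 : ∏ j, (Real.exp (v j - lF w j))⁻¹ = E * ∏ j, Real.exp (w j).2 := by
    rw [hE, ← Finset.prod_mul_distrib]
    refine Finset.prod_congr rfl fun j _ => ?_
    rw [← Real.exp_neg, ← Real.exp_add, neg_sub, lF, sub_eq_neg_add]
  rw [h1, h2, mul_assoc _ ((1 + E) * (1 + E)), Finset.prod_mul_distrib]
  refine mul_le_mul_of_nonneg_left ?_ (by positivity)
  refine (mul_le_mul (one_add_le hE0 fun _ => (Real.exp_pos _).le)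
    (one_add_le hE0 fun _ => (Real.exp_pos _).le) (by positivity) (by positivity)).trans
    (le_of_eq ?_)
  ring

end Crest.Agent.T27.TH.G

namespace Crest.Agent.T27.TH

/-- **Leaf A1**. -/
theorem geomStmt_80 (F : Type) [Field F] [NumberField F] [Emb F] : GeomStmt F where
  meas _ := G.measurePreserving_act
  cont _ := G.continuous_act
  lint _ := G.lintegral_μHH
  int _ := G.integral_μHH
  wt _ := G.isWt_wOf
  summ _ v w hM := G.summ hM v w
  aut := G.thY_aut
  thY_cont _ v hξ := G.continuous_thY hξ v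
  thY_le _ v hξ := G.thY_le hξ v

end Crest.Agent.T27.TH
end
end

-- ▼ part T27/ThC1_50
section

/-!
# Row 27, theta module C1 (part 1): symbols, residue field sums, constant terms
-/

set_option autoImplicit false

noncomputable section

namespace Crest.Agent.T27.TH.C50

open scoped ComplexConjugate
open NumberField

variable {F : Type} [Field F] [NumberField F] [Emb F]

/-! ## the norm -/

theorem nF_mul (x y : F) : nF (x * y) = nF x * nF y := by
  simp only [nF, em, map_mul, norm_mul, mul_pow, Finset.prod_mul_distrib]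

theorem nF_pos {x : F} (h : x ≠ 0) : 0 < nF x :=
  Finset.prod_pos fun _ _ => pow_pos (norm_pos_iff.2 ((map_ne_zero _).2 h)) 2

theorem nF_one : nF (1 : F) = 1 := by simp [nF, em]

theorem nF_pow (x : F) (n : ℕ) : nF (x ^ n) = nF x ^ n := by
  induction n with
  | zero => rw [pow_zero, pow_zero, nF_one]
  | succ n ih => rw [pow_succ, nF_mul, ih, pow_succ]

theorem nF_inv {x : F} (h : x ≠ 0) : nF x⁻¹ = (nF x)⁻¹ := by
  have := nF_mul x x⁻¹
  rw [mul_inv_cancel₀ h, nF_one] at this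
  exact eq_inv_of_mul_eq_one_right this.symm

/-- `N(x)^{1/3}`. -/
def cr (x : F) : ℝ := nF x ^ (1 / 3 : ℝ)

theorem cr_pos {x : F} (h : x ≠ 0) : 0 < cr x := Real.rpow_pos_of_pos (nF_pos h) _

theorem cr_cube {x : F} (h : x ≠ 0) : cr x ^ 3 = nF x := by
  rw [cr, ← Real.rpow_natCast, ← Real.rpow_mul (nF_pos h).le]; norm_num

theorem cr_mul {x y : F} (hx : x ≠ 0) (hy : y ≠ 0) : cr (x * y) = cr x * cr y := by
  rw [cr, nF_mul, Real.mul_rpow (nF_pos hx).le (nF_pos hy).le]; rfl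

theorem cr_one : cr (1 : F) = 1 := by rw [cr, nF_one, Real.one_rpow]

theorem cr_pow {x : F} (h : x ≠ 0) (n : ℕ) : cr (x ^ n) = cr x ^ n := by
  induction n with
  | zero => rw [pow_zero, pow_zero, cr_one]
  | succ n ih => rw [pow_succ, cr_mul (pow_ne_zero _ h) h, ih, pow_succ]

theorem cr_inv {x : F} (h : x ≠ 0) : cr x⁻¹ = (cr x)⁻¹ := by
  have := cr_mul h (inv_ne_zero h)
  rw [mul_inv_cancel₀ h, cr_one] at this
  exact eq_inv_of_mul_eq_one_right this.symm

theorem rpow_two_thirds {x : F} (h : x ≠ 0) : nF x ^ (2 / 3 : ℝ) = cr x ^ 2 := by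
  rw [cr, ← Real.rpow_natCast, ← Real.rpow_mul (nF_pos h).le]; norm_num

/-! ## linear combinations of good row functions -/

theorem good_sum (hT : TauStmt F) {ι : Type} (s : Finset ι) (ξ : ι → F × F → ℂ)
    (h : ∀ i ∈ s, Good (ξ i)) :
    Good (∑ i ∈ s, ξ i) ∧ ∀ r, tau (∑ i ∈ s, ξ i) r = ∑ i ∈ s, tau (ξ i) r := by
  classical
  induction s using Finset.induction_on with
  | empty => exact ⟨by simpa using hT.good_zero, fun r => by simpa using hT.tau_zero r⟩
  | insert a s ha ih =>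
    obtain ⟨h1, h2⟩ := ih fun i hi => h i (Finset.mem_insert_of_mem hi)
    have h3 := h a (Finset.mem_insert_self _ _)
    rw [Finset.sum_insert ha]
    refine ⟨hT.good_add _ _ h3 h1, fun r => ?_⟩
    rw [hT.tau_add _ _ h3 h1, h2, Finset.sum_insert ha]

/-- The vanishing criterion for a linear combination of translates. -/
theorem vanish_comb (hT : TauStmt F) (hTh : ThetaStmt F) {ι : Type} [Fintype ι] (c : ι → ℂ)
    (ξ : ι → F × F → ℂ) (g : ι → Mat F) (hξ : ∀ i, Good (ξ i)) (hg : ∀ i, (g i).det ≠ 0)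
    (h : ∀ γ : SL F, ∑ i, c i * tau (tr (ξ i) ((γ : Mat F) * g i)) 0 = 0) (r : F) :
    ∑ i, c i * tau (tr (ξ i) (g i)) r = 0 := by
  have key : ∀ γ : Mat F, γ.det ≠ 0 → Good (∑ i, fun u => c i * tr (ξ i) (γ * g i) u) ∧
      ∀ r, tau (∑ i, fun u => c i * tr (ξ i) (γ * g i) u) r =
        ∑ i, c i * tau (tr (ξ i) (γ * g i)) r := fun γ hγ => by
    have hd : ∀ i, (γ * g i).det ≠ 0 := fun i => by
      rw [Matrix.det_mul]; exact mul_ne_zero hγ (hg i)
    obtain ⟨h1, h2⟩ := good_sum hT Finset.univ (fun i => fun u => c i * tr (ξ i) (γ * g i) u)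
      fun i _ => hT.good_smul _ _ (hT.good_tr _ _ (hξ i) (hd i))
    refine ⟨h1, fun r => ?_⟩
    rw [h2]
    exact Finset.sum_congr rfl fun i _ => hT.tau_smul _ _ (hT.good_tr _ _ (hξ i) (hd i)) r
  obtain ⟨h1, h2⟩ := key 1 (by simp)
  have h3 := hTh.vanish _ h1 (fun γ => by
    have e : tr (∑ i, fun u => c i * tr (ξ i) (1 * g i) u) (γ : Mat F) =
        ∑ i, fun u => c i * tr (ξ i) ((γ : Mat F) * g i) u := by
      funext u
      simp only [tr, Finset.sum_apply, Matrix.one_mul, rmul_mul]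
    rw [e, (key γ (by rw [γ.det_coe]; exact one_ne_zero)).2, h]) r
  rw [h2] at h3
  simpa only [Matrix.one_mul] using h3

variable [Ar F]

/-! ## symbols -/

theorem conj_of_cube {z : ℂ} (h : z ^ 3 = 1) : conj z = z ^ 2 := by
  have hn : ‖z‖ = 1 := by
    have h1 : ‖z‖ ^ 3 = 1 := by rw [← norm_pow, h, norm_one]
    exact (pow_eq_one_iff_of_nonneg (norm_nonneg z) three_ne_zero).1 h1
  have h2 : z * conj z = 1 := by rw [Complex.mul_conj, Complex.normSq_eq_norm_sq, hn]; simp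
  linear_combination (-conj z) * h + z ^ 2 * h2

/-- The symbol on `R`. -/
def sr (x y : RR F) : ℂ := Ar.sy (x : F) (y : F)

theorem sr_mul_left (x x' : RR F) {y : RR F} (hy : y ≠ 0) : sr (x * x') y = sr x y * sr x' y :=
  Ar.sy_mul_left _ x.2 _ x'.2 _ y.2 (fun h => hy (Subtype.ext h))

theorem sr_mul_right (x : RR F) {y y' : RR F} (hy : y ≠ 0) (hy' : y' ≠ 0) :
    sr x (y * y') = sr x y * sr x y' :=
  Ar.sy_mul_right _ x.2 _ y.2 _ y'.2 (fun h => hy (Subtype.ext h)) (fun h => hy' (Subtype.ext h))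

theorem sr_congr {x x' y : RR F} (hy : y ≠ 0) (h : y ∣ x - x') : sr x y = sr x' y := by
  obtain ⟨t, ht⟩ := h
  have e : x = x' + y * t := by linear_combination ht
  rw [e]
  exact Ar.sy_congr _ x'.2 _ y.2 _ t.2 (fun h => hy (Subtype.ext h))

theorem sr_cube {x y : RR F} (hy : y ≠ 0) (h : IsCoprime x y) : sr x y ^ 3 = 1 := Ar.sy_cube x y hy h

theorem sr_zero {x y : RR F} (hy : y ≠ 0) (h : ¬ IsCoprime x y) : sr x y = 0 := Ar.sy_zero x y hy h

theorem conj_sr (x : RR F) {y : RR F} (hy : y ≠ 0) : conj (sr x y) = sr x y ^ 2 := by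
  by_cases h : IsCoprime x y
  · exact conj_of_cube (sr_cube hy h)
  · rw [sr_zero hy h]; simp

theorem sr_one_left {y : RR F} (hy : y ≠ 0) : sr 1 y = 1 := by
  have h1 := sr_mul_left 1 1 hy
  have h2 := sr_cube hy (isCoprime_one_left (x := y))
  rw [mul_one] at h1
  linear_combination (sr 1 y + 1) * h1 + h2

theorem sr_one_right (x : RR F) : sr x 1 = 1 :=
  Ar.sy_unit _ x.2 _ (1 : RR F).2 (by simp) (by simp)

theorem sr_pow_left (x : RR F) {y : RR F} (hy : y ≠ 0) (n : ℕ) : sr (x ^ n) y = sr x y ^ n := by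
  induction n with
  | zero => rw [pow_zero, pow_zero, sr_one_left hy]
  | succ n ih => rw [pow_succ, sr_mul_left _ _ hy, ih, pow_succ]

theorem sr_pow_right (x : RR F) {y : RR F} (hy : y ≠ 0) (n : ℕ) : sr x (y ^ n) = sr x y ^ n := by
  induction n with
  | zero => rw [pow_zero, pow_zero, sr_one_right]
  | succ n ih => rw [pow_succ, sr_mul_right _ (pow_ne_zero _ hy) hy, ih, pow_succ]

theorem sr_neg_one {y : RR F} (hy : y ≠ 0) : sr (-1) y = 1 := by
  have h1 := sr_pow_left (-1) hy 3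
  have h2 := sr_cube hy (isCoprime_one_left (x := y)).neg_left
  rw [show (-1 : RR F) ^ 3 = -1 by ring, h2] at h1
  exact h1

theorem cc_self {x : F} (hx : x ≠ 0) : Ar.cc x x = 1 := by
  have h1 := Ar.cc_swap x x hx hx
  have h2 := Ar.cc_cube x x hx hx
  linear_combination (-Ar.cc x x) * h1 + h2

theorem cc_div_self {x y : F} (hx : x ≠ 0) (hy : y ≠ 0) : Ar.cc (x / y) y = Ar.cc x y := by
  have h := Ar.cc_mul_left (x / y) y y (div_ne_zero hx hy) hy hy
  rw [div_mul_cancel₀ _ hy, cc_self hy, mul_one] at h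
  exact h.symm

theorem conj_cc {x y : RR F} (hx : x ≠ 0) (hy : y ≠ 0) (h : IsCoprime x y) :
    conj (Ar.cc (x : F) (y : F)) = sr x y ^ 2 * sr y x := by
  rw [Ar.cc_eq x y hx hy h, map_mul, Complex.conj_conj]
  exact congrArg (· * sr y x) (conj_sr x hy)

theorem cop_iff {x y : RR F} : Cop (x : F) (y : F) ↔ IsCoprime x y := by
  constructor
  · rintro ⟨-, -, a, ha, b, hb, h⟩
    exact ⟨⟨a, ha⟩, ⟨b, hb⟩, Subtype.ext h⟩
  · rintro ⟨a, b, h⟩
    exact ⟨x.2, y.2, a, a.2, b, b.2, congrArg Subtype.val h⟩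

theorem N_ne : (Ar.N F : F) ≠ 0 := by
  have := Ar.two_le (F := F)
  exact Nat.cast_ne_zero.2 (by omega)

theorem exists_den (x : F) : ∃ b : RR F, b ≠ 0 ∧ (b : F) * x ∈ (Ar.R : Subring F) := by
  obtain ⟨k, hk⟩ := Ar.pow_mem_L x
  obtain ⟨m, hm, h⟩ := (Ar.mem_L _).1 hk
  have hm0 : m ≠ 0 := by
    rintro rfl
    have := Ar.two_le (F := F)
    rw [Nat.coprime_zero_left] at hm
    omega
  refine ⟨(m : RR F), Nat.cast_ne_zero.2 hm0, (Ar.mem_R _).2 ⟨k, ?_⟩⟩
  have e : (Ar.N F : F) ^ k * (((m : RR F) : F) * x) = (m : F) * ((Ar.N F : F) ^ k * x) := by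
    rw [SubringClass.coe_natCast]; ring
  rw [e]; exact h

/-- Every non-zero vector is a multiple of a primitive one. -/
theorem exists_prim (α : F) {β : F} (hβ : β ≠ 0) :
    ∃ (ρ : F) (a b : RR F), ρ ≠ 0 ∧ b ≠ 0 ∧ IsCoprime a b ∧ α = ρ * a ∧ β = ρ * b := by
  obtain ⟨c, hc, h1⟩ := exists_den α
  obtain ⟨d, hd, h2⟩ := exists_den β
  have hc' : (c : F) ≠ 0 := fun h => hc (Subtype.ext h)
  have hd' : (d : F) ≠ 0 := fun h => hd (Subtype.ext h)
  let x : RR F := d * ⟨_, h1⟩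
  let y : RR F := c * ⟨_, h2⟩
  have hy : y ≠ 0 := mul_ne_zero hc fun h => mul_ne_zero hd' hβ (congrArg Subtype.val h)
  obtain ⟨g, hg⟩ : ∃ g, Ideal.span {x, y} = Ideal.span {g} :=
    (IsPrincipalIdealRing.principal (Ideal.span {x, y})).principal
  have hx' : g ∣ x := Ideal.mem_span_singleton.1
    (show x ∈ Ideal.span {g} from hg ▸ Ideal.subset_span (by simp))
  have hy' : g ∣ y := Ideal.mem_span_singleton.1
    (show y ∈ Ideal.span {g} from hg ▸ Ideal.subset_span (by simp))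
  obtain ⟨a, ha⟩ := hx'
  obtain ⟨b, hb⟩ := hy'
  have hg0 : g ≠ 0 := by rintro rfl; exact hy (by rw [hb, zero_mul])
  have hb0 : b ≠ 0 := by rintro rfl; exact hy (by rw [hb, mul_zero])
  obtain ⟨u, v, huv⟩ := Ideal.mem_span_pair.1
    (show g ∈ Ideal.span {x, y} from hg ▸ Ideal.mem_span_singleton_self g)
  have hg' : (g : F) ≠ 0 := fun h => hg0 (Subtype.ext h)
  have ha' : (d : F) * (c * α) = g * a := congrArg Subtype.val ha
  have hb' : (c : F) * (d * β) = g * b := congrArg Subtype.val hb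
  refine ⟨g / (c * d), a, b, div_ne_zero hg' (mul_ne_zero hc' hd'), hb0,
    ⟨u, v, mul_left_cancel₀ hg0 ?_⟩, ?_, ?_⟩
  · rw [ha, hb] at huv; linear_combination huv
  · field_simp; linear_combination ha'
  · field_simp; linear_combination hb'

/-! ## constant terms -/

/-- The constant term at the column `(α, β)`. -/
def CT (f : F × F → ℂ) (α β : F) : ℂ := tau (tr (xiF f) (gam α β)) 0

omit [NumberField F] [Emb F] [Ar F] in
theorem det_gam (α : F) {β : F} (hβ : β ≠ 0) : (gam α β).det = 1 := by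
  rw [gam, Matrix.det_fin_two_of]; field_simp; ring

/-- The content of `CuspStmt` for a fixed constant. -/
def CuspK (κ : ℝ) : Prop := ∀ f : F × F → ℂ, Test f → Good (xiF f) ∧ tau (xiF f) 0 = κ * LamF f ∧
    (∀ (g : Mat F) (ρ α β : F), g.det ≠ 0 → ρ ≠ 0 → β ≠ 0 → Cop α β →
      g 1 0 = -(ρ * β) → g 1 1 = ρ * α →
      tau (tr (xiF f) g) 0 =
        ((nF ρ ^ (2 / 3 : ℝ) * nF g.det ^ (1 / 3 : ℝ) : ℝ) : ℂ) * (κ * Ar.sy α β * CF f α β)) ∧
    (∀ m : F, m ≠ 0 → ∀ r, tau (xiF (opS m f)) r = ((absS m ^ 4)⁻¹ : ℝ) * tau (xiF f) r) ∧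
    ∀ r, tau (xiF f) r ≠ 0 → r ∈ (Ar.R : Subring F)

variable {κ : ℝ}

theorem CT_eq (hC : CuspK (F := F) κ) {f : F × F → ℂ} (hf : Test f) {ρ α β : F} (hρ : ρ ≠ 0)
    {a b : RR F} (hb : b ≠ 0) (h : IsCoprime a b) (h1 : α = ρ * a) (h2 : β = ρ * b) :
    CT f α β = (cr ρ : ℂ) ^ 2 * (κ * sr a b * CF f a b) := by
  have hb' : (b : F) ≠ 0 := fun h => hb (Subtype.ext h)
  have hβ : β ≠ 0 := h2 ▸ mul_ne_zero hρ hb'
  rw [CT, (hC f hf).2.2.1 (gam α β) ρ a b (by rw [det_gam α hβ]; exact one_ne_zero) hρ hb'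
    (cop_iff.2 h) (by simp [gam, h2]) (by simp [gam, h1]), det_gam α hβ, nF_one, Real.one_rpow,
    mul_one, rpow_two_thirds hρ]
  push_cast
  rfl

theorem tau_tr_eq (hC : CuspK (F := F) κ) {f : F × F → ℂ} (hf : Test f) {g : Mat F}
    (hg : g.det ≠ 0) {ρ α β : F} (hρ : ρ ≠ 0) (hβ : β ≠ 0) (h0 : g 1 0 = -(ρ * β))
    (h1 : g 1 1 = ρ * α) :
    tau (tr (xiF f) g) 0 = (cr ρ : ℂ) ^ 2 * (cr g.det : ℂ) * CT f α β := by
  obtain ⟨ρ', a, b, hρ', hb, h, e1, e2⟩ := exists_prim α hβ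
  have hb' : (b : F) ≠ 0 := fun h => hb (Subtype.ext h)
  rw [CT_eq hC hf hρ' hb h e1 e2, (hC f hf).2.2.1 g (ρ * ρ') a b hg (mul_ne_zero hρ hρ') hb'
    (cop_iff.2 h) (by rw [h0, e2]; ring) (by rw [h1, e1]; ring),
    rpow_two_thirds (mul_ne_zero hρ hρ'), cr_mul hρ hρ',
    show nF g.det ^ (1 / 3 : ℝ) = cr g.det from rfl, sr]
  push_cast
  ring

/-! ## sums over the residue field -/

section Res

variable {p : RR F}

/-- The residue ring. -/
abbrev Kp (p : RR F) : Type := RR F ⧸ Ideal.span {p}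

/-- The residue class. -/
def rd (p : RR F) : RR F →+* Kp p := Ideal.Quotient.mk _

theorem mk_eq_zero {x : RR F} : rd p x = 0 ↔ p ∣ x := by
  rw [rd, Ideal.Quotient.eq_zero_iff_mem, Ideal.mem_span_singleton]

theorem mk_eq_iff {x y : RR F} : rd p x = rd p y ↔ p ∣ x - y := by
  rw [← sub_eq_zero, ← map_sub, mk_eq_zero]

theorem mk_out (x : Kp p) : rd p x.out = x := Ideal.Quotient.mk_out x

/-- The character of the residue field. -/
def chi (p : RR F) (x : Kp p) : ℂ := sr x.out p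

theorem chi_mk (hp : p ≠ 0) (x : RR F) : chi p (rd p x) = sr x p :=
  sr_congr hp (mk_eq_iff.1 (mk_out _))

theorem chi_mul (hp : p ≠ 0) (x y : Kp p) : chi p (x * y) = chi p x * chi p y := by
  conv_lhs => rw [← mk_out x, ← mk_out y, ← map_mul, chi_mk hp, sr_mul_left _ _ hp]
  rfl

theorem chi_zero (hp : Prime p) : chi p 0 = 0 := by
  rw [← map_zero (rd p), chi_mk hp.ne_zero]
  exact sr_zero hp.ne_zero fun h => hp.not_isUnit (isCoprime_zero_left.1 h)

theorem chi_cube (hp : Prime p) {x : Kp p} (hx : x ≠ 0) : chi p x ^ 3 = 1 :=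
  sr_cube hp.ne_zero ((hp.coprime_iff_not_dvd.2 fun h => hx (by
    rw [← mk_out x]; exact mk_eq_zero.2 h)).symm)

theorem chi_neg (hp : p ≠ 0) (x : Kp p) : chi p (-x) = chi p x := by
  rw [← neg_one_mul, chi_mul hp, ← map_one (rd p), ← map_neg, chi_mk hp, sr_neg_one hp, one_mul]

theorem isField (hp : Prime p) : IsField (Kp p) := by
  have := PrincipalIdealRing.isMaximal_of_irreducible hp.irreducible
  exact (Ideal.Quotient.maximal_ideal_iff_isField_quotient _).1 this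

variable [Fintype (Kp p)]

theorem sum_affine (hp : Prime p) (φ : Kp p → ℂ) {u : Kp p} (hu : u ≠ 0) (v : Kp p) :
    ∑ x, φ (v + x * u) = ∑ x, φ x := by
  let _ := (isField hp).toField
  exact Fintype.sum_bijective (fun x => v + x * u)
    ((Equiv.addLeft v).bijective.comp (Equiv.mulRight₀ u hu).bijective) _ _ fun _ => rfl

theorem sum_chi_pow (hp : Prime p) {n : ℕ} (hn : n = 1 ∨ n = 2) : ∑ x, chi p x ^ n = 0 := by
  obtain ⟨x₀, h1, h2⟩ := Ar.sy_nontriv p hp
  have h3 : sr x₀ p ^ 3 = 1 := sr_cube hp.ne_zero h1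
  have h4 : sr x₀ p ^ n ≠ 1 := by
    rcases hn with rfl | rfl
    · rwa [pow_one]
    · intro h; exact h2 (by change sr x₀ p = 1; linear_combination (-sr x₀ p) * h + h3)
  have hu : rd p x₀ ≠ 0 := fun h => hp.coprime_iff_not_dvd.1 h1.symm (mk_eq_zero.1 h)
  have h5 := sum_affine hp (fun x => chi p x ^ n) hu 0
  simp only [zero_add, chi_mul hp.ne_zero, chi_mk hp.ne_zero, mul_pow] at h5
  rw [← Finset.sum_mul] at h5
  exact (mul_eq_zero.1 (by linear_combination h5 :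
    (∑ x, chi p x ^ n) * (sr x₀ p ^ n - 1) = 0)).resolve_right (sub_ne_zero.2 h4)

theorem sum_chi (hp : Prime p) : ∑ x, chi p x = 0 := by
  simpa using sum_chi_pow hp (Or.inl rfl)

theorem sum_chi_sq (hp : Prime p) : ∑ x, chi p x ^ 2 = 0 := sum_chi_pow hp (Or.inr rfl)

theorem sum_chi_aff (hp : Prime p) {u : Kp p} (hu : u ≠ 0) (v : Kp p) :
    ∑ x, chi p (v + x * u) = 0 := by rw [sum_affine hp (chi p) hu, sum_chi hp]

theorem sum_chi_cube (hp : Prime p) : ∑ x, chi p x ^ 3 = (Fintype.card (Kp p) : ℂ) - 1 := by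
  classical
  have e : ∀ x, chi p x ^ 3 = 1 - if x = 0 then 1 else 0 := fun x => by
    split_ifs with h
    · rw [h, chi_zero hp]; simp
    · rw [chi_cube hp h, sub_zero]
  simp only [e, Finset.sum_sub_distrib]
  simp

open Classical in
theorem sum_delta (hp : Prime p) {u : Kp p} (hu : u ≠ 0) (v : Kp p) (c : ℂ) :
    ∑ x, (if v + x * u = 0 then c else 0) = c := by
  rw [sum_affine hp (fun x => if x = 0 then c else 0) hu]
  simp

open Classical in
theorem sum_delta_sq (hp : Prime p) {u : Kp p} (hu : u ≠ 0) (v : Kp p) (c : ℂ) :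
    ∑ x, chi p x ^ 2 * (if v + x * u = 0 then c else 0) = chi p v ^ 2 * chi p u * c := by
  rw [← sum_delta hp hu v (chi p v ^ 2 * chi p u * c)]
  refine Finset.sum_congr rfl fun x _ => ?_
  split_ifs with h
  · have e : v = -(x * u) := by linear_combination h
    rw [e, chi_neg hp.ne_zero, chi_mul hp.ne_zero]
    linear_combination (-chi p x ^ 2 * c) * chi_cube hp hu
  · rw [mul_zero]

theorem sum_jac (hp : Prime p) {v : Kp p} (hv : v ≠ 0) (u : Kp p) :
    ∑ x, chi p x ^ 2 * chi p (v + x * u) = -chi p u := by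
  classical
  let _ := (isField hp).toField
  have h1 : ∑ x : Kp p, chi p (u + x⁻¹ * v) = 0 := by
    rw [← sum_chi_aff hp hv u]
    exact Fintype.sum_bijective (fun x => x⁻¹) inv_involutive.bijective _ _ fun _ => rfl
  have e : ∀ x : Kp p, chi p x ^ 2 * chi p (v + x * u) =
      chi p (u + x⁻¹ * v) - if x = 0 then chi p u else 0 := fun x => by
    split_ifs with h
    · rw [h, chi_zero hp]; simp
    · have : v + x * u = x * (u + x⁻¹ * v) := by field_simp; ring
      rw [this, chi_mul hp.ne_zero]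
      linear_combination chi p (u + x⁻¹ * v) * chi_cube hp h
  simp only [e, Finset.sum_sub_distrib, h1]
  simp

theorem card_eq (hp : p ≠ 0) : (Fintype.card (Kp p) : ℝ) = Ar.nm (p : F) := by
  rw [Ar.nm_eq p hp, Nat.card_eq_fintype_card]

end Res

end Crest.Agent.T27.TH.C50
end
end

-- ▼ part T27/ThC2_50
section

/-!
# Row 27, theta module C1 (part 2): the constant terms of the Hecke identity
-/

set_option autoImplicit false

noncomputable section

namespace Crest.Agent.T27.TH.C50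

open scoped ComplexConjugate
open NumberField

variable {F : Type} [Field F] [NumberField F] [Emb F] [Ar F]

/-- The data of the computation: a prime, a level, deep representatives of the residue classes. -/
structure Dat (κ : ℝ) (f : F × F → ℂ) (p : RR F) (j : ℕ) (a : Kp p → RR F) : Prop where
  hO : OpStmt F
  hI : IntStmt F
  hC : CuspK (F := F) κ
  hp : Prime p
  hf : TestFn j f
  hT : TestFn j (opT (p : F) f)
  mk_a : ∀ x, rd p (a x) = x
  deep : ∀ x, Deep j ((a x : F) / p)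

theorem coe_ne {x : RR F} (h : x ≠ 0) : (x : F) ≠ 0 := fun h' => h (Subtype.ext h')

theorem absS_pos {x : F} (h : x ≠ 0) : 0 < absS x := div_pos (Ar.nm_pos x h) (nF_pos h)

theorem nm_eq_absS {x : F} (h : x ≠ 0) : Ar.nm x = absS x * cr x ^ 3 := by
  rw [cr_cube h, absS, div_mul_cancel₀ _ (nF_pos h).ne']

namespace Dat

variable {κ : ℝ} {f : F × F → ℂ} {p : RR F} {j : ℕ} {a : Kp p → RR F} (D : Dat κ f p j a)
include D

theorem p0 : p ≠ 0 := D.hp.ne_zero
theorem P0 : (p : F) ≠ 0 := coe_ne D.p0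
theorem tf : Test f := ⟨j, D.hf⟩
theorem tT : Test (opT (p : F) f) := ⟨j, D.hT⟩
theorem tC : Test (opC (p : F) f) := D.hO.test_opC f p D.P0 D.tf
theorem s0 : (absS (p : F) : ℂ) ≠ 0 := Complex.ofReal_ne_zero.2 (absS_pos D.P0).ne'

theorem chi_a (x : Kp p) : sr (a x) p = chi p x := by rw [← chi_mk D.p0, D.mk_a]

theorem mk_aff (x : Kp p) (u v : RR F) : rd p (v + a x * u) = rd p v + x * rd p u := by
  rw [map_add, map_mul, D.mk_a]

theorem cop {x : RR F} (h : ¬ p ∣ x) : IsCoprime x p := (D.hp.coprime_iff_not_dvd.2 h).symm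

omit D in
theorem mk_ne {x : RR F} (h : ¬ p ∣ x) : rd p x ≠ 0 := fun h' => h (mk_eq_zero.1 h')

theorem shift_f (x : Kp p) {A A' B : F} (hB : B ≠ 0) (h : A' = A + (a x : F) / p * B) :
    CF f A' B = CF f A B := by rw [h, D.hI.P0 f j A B _ D.hf hB (D.deep x)]

theorem shift_T (x : Kp p) {A A' B : F} (hB : B ≠ 0) (h : A' = A + (a x : F) / p * B) :
    CF (opT (p : F) f) A' B = CF (opT (p : F) f) A B := by
  rw [h, D.hI.P0 _ j A B _ D.hT hB (D.deep x)]

theorem P1 {A B A' B' : F} (hB : B ≠ 0) (h1 : A' = (p : F) ^ 3 * A) (h2 : B' = (p : F) ^ 3 * B) :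
    CF f A B = (absS (p : F) : ℂ) ^ 2 * CF f A' B' := by
  rw [h1, h2, D.hI.P1 f p A B D.tf D.P0 hB]
  push_cast
  field_simp [D.s0]

theorem P2 {A A' B : F} (hB : B ≠ 0) (h1 : A' = (p : F) ^ 3 * A) :
    CF (opC (p : F) f) A' B = ((absS (p : F) : ℂ) ^ 3)⁻¹ * CF f A B := by
  rw [h1, D.hI.P2 f p A B D.tf D.P0 hB]
  push_cast
  rfl

theorem P3 {A A' B B' : F} (hB : B ≠ 0) (h1 : A' = (p : F) ^ 2 * A) (h2 : B' = (p : F) * B) :
    CF (opT (p : F) f) A' B' =
      ((absS (p : F) : ℂ) ^ 3)⁻¹ * conj (Ar.cc B (p : F)) * CF f A B := by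
  rw [h1, h2, D.hI.P3 f p A B D.tf D.P0 hB]
  push_cast
  rfl

theorem cr2 : (cr ((p : F) ^ 2) : ℂ) = (cr (p : F) : ℂ) ^ 2 := by rw [cr_pow D.P0]; push_cast; rfl
theorem cr3 : (cr ((p : F) ^ 3) : ℂ) = (cr (p : F) : ℂ) ^ 3 := by rw [cr_pow D.P0]; push_cast; rfl
theorem cr4 : (cr ((p : F) ^ 4) : ℂ) = (cr (p : F) : ℂ) ^ 4 := by rw [cr_pow D.P0]; push_cast; rfl

omit D [Ar F] in
theorem cr1 : (cr (1 : F) : ℂ) = 1 := by rw [cr_one]; rfl

variable [Fintype (Kp p)]

theorem card : (Fintype.card (Kp p) : ℂ) = (absS (p : F) : ℂ) * (cr (p : F) : ℂ) ^ 3 := by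
  have := card_eq D.p0
  rw [nm_eq_absS D.P0] at this
  exact_mod_cast congrArg (fun x : ℝ => (x : ℂ)) this

omit D in
/-- The identity between the constant terms at the column `(α, β)`. -/
def HK (f : F × F → ℂ) (p : RR F) [Fintype (Kp p)] (a : Kp p → RR F) (α β : F) : Prop :=
  (cr (p : F) : ℂ) ^ 3 * ∑ x, CT f ((p : F) ^ 3 * α + a x * (p : F) ^ 2 * β) ((p : F) ^ 3 * β) =
    ((absS (p : F) : ℂ) * (cr (p : F) : ℂ) ^ 3) ^ 2 * (CT (opC (p : F) f) ((p : F) ^ 3 * α) β +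
      ∑ x, chi p x ^ 2 * CT (opT (p : F) f) ((p : F) ^ 2 * α + a x * β) (p * β))

theorem HK0 {α b : RR F} (h : IsCoprime α b) (hb : ¬ p ∣ b) : HK f p a α b := by
  classical
  have b0 : b ≠ 0 := by rintro rfl; exact hb (dvd_zero _)
  have B0 := coe_ne b0
  have P0 := D.P0
  have s0 := D.s0
  have hpb : IsCoprime p b := (D.cop hb).symm
  have hu := sr_cube b0 hpb
  have hv := sr_cube D.p0 (D.cop hb)
  have e1 : ∀ x, CT f ((p : F) ^ 3 * α + a x * (p : F) ^ 2 * b) ((p : F) ^ 3 * b) =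
      chi p x * ((cr (p : F) : ℂ) ^ 4 * κ * sr b p * sr p b * sr α b * CF f (p * α) (p * b)) +
        if x = 0 then (cr (p : F) : ℂ) ^ 6 * κ * sr α b * CF f α b else 0 := fun x => by
    split_ifs with hx
    · obtain ⟨a', ha'⟩ : p ∣ a x := mk_eq_zero.1 (by rw [D.mk_a, hx])
      have ha : (a x : F) = p * a' := congrArg Subtype.val ha'
      rw [CT_eq D.hC D.tf (pow_ne_zero 3 P0) b0 (h.add_mul_right_left a')
        (by push_cast; rw [ha]; ring) rfl, sr_congr (x' := α) b0 (by simp),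
        D.shift_f x (A := α) B0 (by push_cast; rw [ha]; field_simp), D.cr3, hx, chi_zero D.hp]
      ring
    · have hn : ¬ p ∣ p * α + a x * b := fun h' => by
        have := mk_eq_zero.2 h'
        rw [D.mk_aff, mk_eq_zero.2 (dvd_mul_right p α), zero_add] at this
        exact (D.hp.dvd_or_dvd (mk_eq_zero.1 (by rw [map_mul, D.mk_a]; exact this) :
          p ∣ a x * b)).elim (fun h => hx (by rw [← D.mk_a x]; exact mk_eq_zero.2 h)) hb
      rw [CT_eq D.hC D.tf (pow_ne_zero 2 P0) (mul_ne_zero D.p0 b0)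
        ((D.cop hn).mul_right ((hpb.mul_left h).add_mul_right_left (a x)))
        (by push_cast; ring) (by push_cast; ring), sr_mul_right _ D.p0 b0,
        sr_congr (x' := a x * b) D.p0 (by simp), sr_congr (x := p * α + a x * b) (x' := p * α) b0
          (by simp), sr_mul_left _ _ D.p0, sr_mul_left _ _ b0, D.chi_a, D.cr2,
        D.shift_f x (A := p * α) (coe_ne (mul_ne_zero D.p0 b0)) (by push_cast; field_simp)]
      push_cast
      ring
  have e2 : CT (opC (p : F) f) ((p : F) ^ 3 * α) b =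
      κ * sr α b * ((absS (p : F) : ℂ) ^ 3)⁻¹ * CF f α b := by
    rw [CT_eq D.hC D.tC one_ne_zero b0 (hpb.pow_left.mul_left h : IsCoprime (p ^ 3 * α) b)
      (by push_cast; ring) (one_mul _).symm, sr_mul_left _ _ b0, sr_pow_left _ b0, hu,
      D.P2 (A := α) B0 (by push_cast; ring), cr1]
    ring
  have e3 : ∀ x, chi p x ^ 2 * CT (opT (p : F) f) ((p : F) ^ 2 * α + a x * b) (p * b) =
      chi p x ^ 3 * (κ * sr α b * ((absS (p : F) : ℂ) ^ 3)⁻¹ * CF f α b) := fun x => by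
    by_cases hx : x = 0
    · rw [hx, chi_zero D.hp]; ring
    · have hn : ¬ p ∣ p ^ 2 * α + a x * b := fun h' => by
        have := mk_eq_zero.2 h'
        rw [D.mk_aff, mk_eq_zero.2 ((dvd_pow_self p two_ne_zero).mul_right α), zero_add] at this
        exact (D.hp.dvd_or_dvd (mk_eq_zero.1 (by rw [map_mul, D.mk_a]; exact this) :
          p ∣ a x * b)).elim (fun h => hx (by rw [← D.mk_a x]; exact mk_eq_zero.2 h)) hb
      rw [CT_eq D.hC D.tT one_ne_zero (mul_ne_zero D.p0 b0)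
        ((D.cop hn).mul_right ((hpb.pow_left.mul_left h).add_mul_right_left (a x)))
        (by push_cast; ring) (by push_cast; ring), sr_mul_right _ D.p0 b0,
        sr_congr (x' := a x * b) D.p0 (by simp [sq, mul_assoc]),
        sr_congr (x := p ^ 2 * α + a x * b) (x' := p ^ 2 * α) b0 (by simp), sr_mul_left _ _ D.p0,
        sr_mul_left _ _ b0, sr_pow_left _ b0, D.chi_a, cr1,
        D.shift_T x (A := (p : F) ^ 2 * α) (coe_ne (mul_ne_zero D.p0 b0))
          (by push_cast; field_simp),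
        D.P3 (A := α) (B := b) B0 rfl (by push_cast; rfl), conj_cc b0 D.p0 (D.cop hb)]
      linear_combination (chi p x ^ 3 * κ * sr α b * ((absS (p : F) : ℂ) ^ 3)⁻¹ * CF f α b) *
        (sr p b ^ 3 * hv + hu)
  unfold HK
  simp only [e1, e2, e3, Finset.sum_add_distrib, ← Finset.sum_mul, sum_chi D.hp, sum_chi_cube D.hp,
    D.card, Finset.sum_ite_eq', Finset.mem_univ, if_true]
  field_simp
  ring

theorem HK1 {α b : RR F} (h : IsCoprime α b) (hb : ¬ p ∣ b) :
    HK f p a α ((p : F) * b) := by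
  classical
  have b0 : b ≠ 0 := by rintro rfl; exact hb (dvd_zero _)
  have B0 := coe_ne b0
  have P0 := D.P0
  have s0 := D.s0
  have hpb : IsCoprime p b := (D.cop hb).symm
  have hu := sr_cube b0 hpb
  have hv := sr_cube D.p0 (D.cop hb)
  have e1 : ∀ x, CT f ((p : F) ^ 3 * α + a x * (p : F) ^ 2 * (p * b)) ((p : F) ^ 3 * (p * b)) =
      chi p (rd p α + x * rd p b) * ((cr (p : F) : ℂ) ^ 6 * κ * sr α b * CF f α (p * b)) +
        if rd p α + x * rd p b = 0 then
          (cr (p : F) : ℂ) ^ 8 * κ * sr α b * sr p b ^ 2 * CF f (α / p) b else 0 := fun x => by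
    split_ifs with hx
    · obtain ⟨a', ha'⟩ : p ∣ α + a x * b := mk_eq_zero.1 (by rw [D.mk_aff, hx])
      have ha : (α : F) + a x * b = p * a' := congrArg Subtype.val ha'
      have hc : IsCoprime a' b :=
        (show IsCoprime (p * a') b from ha' ▸ h.add_mul_right_left (a x)).of_mul_left_right
      have hs : sr p b * sr a' b = sr α b := by
        rw [← sr_mul_left _ _ b0, ← ha']; exact sr_congr b0 (by simp)
      rw [CT_eq D.hC D.tf (pow_ne_zero 4 P0) b0 hc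
        (by linear_combination (p : F) ^ 3 * ha) (by ring),
        D.shift_f x (A := α / p) B0 (by field_simp; linear_combination -ha), D.cr4, hx,
        chi_zero D.hp, ← hs]
      linear_combination (-(cr (p : F) : ℂ) ^ 8 * κ * sr a' b * CF f (α / p) b) * hu
    · have hn : ¬ p ∣ α + a x * b := fun h' => hx (by rw [← D.mk_aff]; exact mk_eq_zero.2 h')
      rw [CT_eq D.hC D.tf (pow_ne_zero 3 P0) (mul_ne_zero D.p0 b0)
        ((D.cop hn).mul_right (h.add_mul_right_left (a x)))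
        (by push_cast; ring) (by push_cast; ring), sr_mul_right _ D.p0 b0,
        sr_congr (x := α + a x * b) (x' := α) b0 (by simp), ← chi_mk D.p0, D.mk_aff, D.cr3,
        D.shift_f x (A := α) (coe_ne (mul_ne_zero D.p0 b0)) (by push_cast; field_simp)]
      push_cast
      ring
  have e2 : CT (opC (p : F) f) ((p : F) ^ 3 * α) (p * b) = (cr (p : F) : ℂ) ^ 2 *
      κ * sr α b * sr p b ^ 2 * ((absS (p : F) : ℂ) ^ 3)⁻¹ * CF f (α / p) b := by
    rw [CT_eq D.hC D.tC P0 b0 (hpb.pow_left.mul_left h : IsCoprime (p ^ 2 * α) b)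
      (by push_cast; ring) rfl, sr_mul_left _ _ b0, sr_pow_left _ b0,
      D.P2 (A := α / p) B0 (by push_cast; field_simp)]
    ring
  have e3 : ∀ x, chi p x ^ 2 * CT (opT (p : F) f) ((p : F) ^ 2 * α + a x * (p * b)) (p * (p * b)) =
      chi p x ^ 3 * ((cr (p : F) : ℂ) ^ 2 *
        κ * sr α b * sr p b ^ 2 * ((absS (p : F) : ℂ) ^ 3)⁻¹ * CF f (α / p) b) := fun x => by
    by_cases hx : x = 0
    · rw [hx, chi_zero D.hp]; ring
    · have hn : ¬ p ∣ p * α + a x * b := fun h' => by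
        have := mk_eq_zero.2 h'
        rw [D.mk_aff, mk_eq_zero.2 (dvd_mul_right p α), zero_add] at this
        exact (D.hp.dvd_or_dvd (mk_eq_zero.1 (by rw [map_mul, D.mk_a]; exact this) :
          p ∣ a x * b)).elim (fun h => hx (by rw [← D.mk_a x]; exact mk_eq_zero.2 h)) hb
      rw [CT_eq D.hC D.tT P0 (mul_ne_zero D.p0 b0)
        ((D.cop hn).mul_right ((hpb.mul_left h).add_mul_right_left (a x)))
        (by push_cast; ring) (by push_cast; ring), sr_mul_right _ D.p0 b0,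
        sr_congr (x' := a x * b) D.p0 (by simp),
        sr_congr (x := p * α + a x * b) (x' := p * α) b0 (by simp), sr_mul_left _ _ D.p0,
        sr_mul_left _ _ b0, D.chi_a,
        D.shift_T x (A := (p : F) * α) (coe_ne (mul_ne_zero D.p0 b0))
          (by push_cast; field_simp),
        D.P3 (A := α / p) (B := b) B0 (by field_simp) (by push_cast; rfl),
        conj_cc b0 D.p0 (D.cop hb)]
      linear_combination (chi p x ^ 3 * (cr (p : F) : ℂ) ^ 2 * κ * sr α b * sr p b ^ 2 *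
        ((absS (p : F) : ℂ) ^ 3)⁻¹ * CF f (α / p) b) * hv
  unfold HK
  simp only [e1, e2, e3, Finset.sum_add_distrib, ← Finset.sum_mul, sum_chi_aff D.hp (mk_ne hb),
    sum_chi_cube D.hp, D.card, sum_delta D.hp (mk_ne hb)]
  field_simp
  ring

theorem HK2 {α b : RR F} (h : IsCoprime α b) (hb : ¬ p ∣ b) (hα : ¬ p ∣ α) :
    HK f p a α ((p : F) ^ 2 * b) := by
  classical
  have b0 : b ≠ 0 := by rintro rfl; exact hb (dvd_zero _)
  have B0 := coe_ne b0
  have P0 := D.P0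
  have s0 := D.s0
  have hpb : IsCoprime p b := (D.cop hb).symm
  have hu := sr_cube b0 hpb
  have hv := sr_cube D.p0 (D.cop hb)
  have e1 : ∀ x, CT f ((p : F) ^ 3 * α + a x * (p : F) ^ 2 * ((p : F) ^ 2 * b))
      ((p : F) ^ 3 * ((p : F) ^ 2 * b)) =
      (cr (p : F) : ℂ) ^ 6 * κ * sr α p ^ 2 * sr α b * CF f α ((p : F) ^ 2 * b) := fun x => by
    have hn : ¬ p ∣ α + a x * p * b := fun h' =>
      hα ((dvd_add_left (((dvd_mul_left p (a x))).mul_right b)).1 h')
    rw [CT_eq D.hC D.tf (pow_ne_zero 3 P0) (mul_ne_zero (pow_ne_zero 2 D.p0) b0)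
      ((D.cop hn).pow_right.mul_right (h.add_mul_right_left (a x * p)))
      (by push_cast; ring) (by push_cast; ring), sr_mul_right _ (pow_ne_zero 2 D.p0) b0,
      sr_pow_right _ D.p0, sr_congr (x := α + a x * p * b) (x' := α) b0 (by simp),
      sr_congr (x := α + a x * p * b) (x' := α) D.p0
        (by simpa using (dvd_mul_left p (a x)).mul_right b), D.cr3,
      D.shift_f x (A := α) (coe_ne (mul_ne_zero (pow_ne_zero 2 D.p0) b0))
        (by push_cast; field_simp)]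
    push_cast
    ring
  have e2 : CT (opC (p : F) f) ((p : F) ^ 3 * α) ((p : F) ^ 2 * b) = (cr (p : F) : ℂ) ^ 4 *
      κ * sr α b * sr p b * ((absS (p : F) : ℂ) ^ 3)⁻¹ * CF f (α / (p : F) ^ 2) b := by
    rw [CT_eq D.hC D.tC (pow_ne_zero 2 P0) b0 (hpb.mul_left h)
      (by push_cast; ring) rfl, sr_mul_left _ _ b0, D.cr2,
      D.P2 (A := α / (p : F) ^ 2) B0 (by push_cast; field_simp)]
    ring
  have e3 : ∀ x, chi p x ^ 2 * CT (opT (p : F) f) ((p : F) ^ 2 * α + a x * ((p : F) ^ 2 * b))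
      (p * ((p : F) ^ 2 * b)) =
      chi p x ^ 2 * chi p (rd p α + x * rd p b) * ((cr (p : F) : ℂ) ^ 4 *
        κ * sr α b * sr b p ^ 2 * sr p b * ((absS (p : F) : ℂ) ^ 3)⁻¹ *
          CF f (α / (p : F) ^ 2) b) + chi p x ^ 2 *
        if rd p α + x * rd p b = 0 then (cr (p : F) : ℂ) ^ 6 * κ * sr α b * sr b p ^ 2 *
          (absS (p : F) : ℂ)⁻¹ * CF f α ((p : F) ^ 2 * b) else 0 := fun x => by
    split_ifs with hx
    · obtain ⟨a', ha'⟩ : p ∣ α + a x * b := mk_eq_zero.1 (by rw [D.mk_aff, hx])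
      have ha : (α : F) + a x * b = p * a' := congrArg Subtype.val ha'
      have hc : IsCoprime a' b :=
        (show IsCoprime (p * a') b from ha' ▸ h.add_mul_right_left (a x)).of_mul_left_right
      have hs : sr p b * sr a' b = sr α b := by
        rw [← sr_mul_left _ _ b0, ← ha']; exact sr_congr b0 (by simp)
      rw [CT_eq D.hC D.tT (pow_ne_zero 3 P0) b0 hc
        (by linear_combination (p : F) ^ 2 * ha) (by ring),
        D.shift_T x (A := α / p) B0 (by field_simp; linear_combination -ha), D.cr3, hx,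
        chi_zero D.hp, ← hs,
        D.P3 (A := α / (p : F) ^ 3) (B := b / p) (div_ne_zero B0 P0) (by field_simp) (by field_simp),
        cc_div_self B0 P0, conj_cc b0 D.p0 (D.cop hb),
        D.P1 (A' := α) (B' := (p : F) ^ 2 * b) (div_ne_zero B0 P0) (by field_simp) (by field_simp)]
      field_simp
      ring
    · have hn : ¬ p ∣ α + a x * b := fun h' => hx (by rw [← D.mk_aff]; exact mk_eq_zero.2 h')
      rw [CT_eq D.hC D.tT (pow_ne_zero 2 P0) (mul_ne_zero D.p0 b0)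
        ((D.cop hn).mul_right (h.add_mul_right_left (a x)))
        (by push_cast; ring) (by push_cast; ring), sr_mul_right _ D.p0 b0,
        sr_congr (x := α + a x * b) (x' := α) b0 (by simp), ← chi_mk D.p0, D.mk_aff, D.cr2,
        D.shift_T x (A := α) (coe_ne (mul_ne_zero D.p0 b0)) (by push_cast; field_simp),
        D.P3 (A := α / (p : F) ^ 2) (B := b) B0 (by field_simp) (by push_cast; rfl),
        conj_cc b0 D.p0 (D.cop hb)]
      ring
  unfold HK
  simp only [e1, e2, e3, Finset.sum_add_distrib, ← Finset.sum_mul, sum_jac D.hp (mk_ne hα),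
    sum_delta_sq D.hp (mk_ne hb), Finset.sum_const, Finset.card_univ, nsmul_eq_mul, D.card,
    chi_mk D.p0]
  field_simp
  linear_combination ((cr (p : F) : ℂ) ^ 10 * κ * sr α b * (sr p b * CF f (α / (p : F) ^ 2) b -
    (cr (p : F) : ℂ) ^ 2 * sr α p ^ 2 * (absS (p : F) : ℂ) ^ 2 * CF f α ((p : F) ^ 2 * b))) * hv

theorem HK3 {α b : RR F} (h : IsCoprime α b) (b0 : b ≠ 0) (hα : ¬ p ∣ α) :
    HK f p a α ((p : F) ^ 3 * b) := by
  classical
  have B0 := coe_ne b0
  have P0 := D.P0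
  have s0 := D.s0
  have hz := sr_cube D.p0 (D.cop hα)
  have e1 : ∀ x, CT f ((p : F) ^ 3 * α + a x * (p : F) ^ 2 * ((p : F) ^ 3 * b))
      ((p : F) ^ 3 * ((p : F) ^ 3 * b)) =
      (cr (p : F) : ℂ) ^ 6 * κ * sr α b * CF f α ((p : F) ^ 3 * b) := fun x => by
    have hd : p ∣ a x * p ^ 2 * b := ((dvd_pow_self p two_ne_zero).mul_left (a x)).mul_right b
    have hn : ¬ p ∣ α + a x * p ^ 2 * b := fun h' => hα ((dvd_add_left hd).1 h')
    rw [CT_eq D.hC D.tf (pow_ne_zero 3 P0) (mul_ne_zero (pow_ne_zero 3 D.p0) b0)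
      ((D.cop hn).pow_right.mul_right (h.add_mul_right_left (a x * p ^ 2)))
      (by push_cast; ring) (by push_cast; ring), sr_mul_right _ (pow_ne_zero 3 D.p0) b0,
      sr_pow_right _ D.p0, sr_congr (x := α + a x * p ^ 2 * b) (x' := α) b0 (by simp),
      sr_congr (x := α + a x * p ^ 2 * b) (x' := α) D.p0 (by simpa using hd), D.cr3, hz,
      D.shift_f x (A := α) (coe_ne (mul_ne_zero (pow_ne_zero 3 D.p0) b0))
        (by push_cast; field_simp)]
    push_cast
    ring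
  have e2 : CT (opC (p : F) f) ((p : F) ^ 3 * α) ((p : F) ^ 3 * b) = (cr (p : F) : ℂ) ^ 6 *
      κ * sr α b * (absS (p : F) : ℂ)⁻¹ * CF f α ((p : F) ^ 3 * b) := by
    rw [CT_eq D.hC D.tC (pow_ne_zero 3 P0) b0 h rfl rfl, D.cr3,
      D.P2 (A := α / (p : F) ^ 3) B0 (by field_simp),
      D.P1 (A' := α) (B' := (p : F) ^ 3 * b) B0 (by field_simp) rfl]
    field_simp
  have e3 : ∀ x, CT (opT (p : F) f) ((p : F) ^ 2 * α + a x * ((p : F) ^ 3 * b))
      (p * ((p : F) ^ 3 * b)) = (cr (p : F) : ℂ) ^ 4 * κ * sr α p ^ 2 * sr α b *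
        CF (opT (p : F) f) α ((p : F) ^ 2 * b) := fun x => by
    have hn : ¬ p ∣ α + a x * p * b := fun h' =>
      hα ((dvd_add_left (((dvd_mul_left p (a x))).mul_right b)).1 h')
    rw [CT_eq D.hC D.tT (pow_ne_zero 2 P0) (mul_ne_zero (pow_ne_zero 2 D.p0) b0)
      ((D.cop hn).pow_right.mul_right (h.add_mul_right_left (a x * p)))
      (by push_cast; ring) (by push_cast; ring), sr_mul_right _ (pow_ne_zero 2 D.p0) b0,
      sr_pow_right _ D.p0, sr_congr (x := α + a x * p * b) (x' := α) b0 (by simp),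
      sr_congr (x := α + a x * p * b) (x' := α) D.p0
        (by simpa using (dvd_mul_left p (a x)).mul_right b), D.cr2,
      D.shift_T x (A := α) (coe_ne (mul_ne_zero (pow_ne_zero 2 D.p0) b0))
        (by push_cast; field_simp)]
    push_cast
    ring
  unfold HK
  simp only [e1, e2, e3, ← Finset.sum_mul, sum_chi_sq D.hp, Finset.sum_const, Finset.card_univ,
    nsmul_eq_mul, D.card]
  field_simp
  ring

theorem HK_all {α β : RR F} (h : IsCoprime α β) (hβ : β ≠ 0) : HK f p a α β := by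
  by_cases h1 : p ∣ β
  swap
  · exact D.HK0 h h1
  obtain ⟨b1, rfl⟩ := h1
  have hα : ¬ p ∣ α := D.hp.coprime_iff_not_dvd.1 h.of_mul_right_left.symm
  by_cases h2 : p ∣ b1
  swap
  · exact D.HK1 h.of_mul_right_right h2
  obtain ⟨b2, rfl⟩ := h2
  by_cases h3 : p ∣ b2
  swap
  · have := D.HK2 h.of_mul_right_right.of_mul_right_right h3 hα
    rwa [show (p : F) ^ 2 * b2 = ((p * (p * b2) : RR F) : F) by push_cast; ring] at this
  obtain ⟨b3, rfl⟩ := h3
  have := D.HK3 h.of_mul_right_right.of_mul_right_right.of_mul_right_right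
    (by rintro rfl; exact hβ (by simp)) hα
  rwa [show (p : F) ^ 3 * b3 = ((p * (p * (p * b3)) : RR F) : F) by push_cast; ring] at this

end Dat

end Crest.Agent.T27.TH.C50
end
end

-- ▼ part T27/ThC_50
section

/-!
# Row 27, theta module C1: the Hecke relations (`HeckeStmt`)
-/

set_option autoImplicit false

noncomputable section

namespace Crest.Agent.T27.TH.C50

open scoped ComplexConjugate
open NumberField

variable {F : Type} [Field F] [NumberField F] [Emb F] [Ar F]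

theorem N_mem_L : (Ar.N F : F) ∈ (Ar.L : Subring F) := natCast_mem _ _


theorem pow_mul_mem {k J : ℕ} (h : k ≤ J) {x : F} (hx : (Ar.N F : F) ^ k * x ∈ (Ar.L : Subring F)) :
    (Ar.N F : F) ^ J * x ∈ (Ar.L : Subring F) := by
  obtain ⟨i, rfl⟩ := Nat.exists_eq_add_of_le h
  rw [pow_add, mul_comm _ ((Ar.N F : F) ^ i), mul_assoc]
  exact mul_mem (pow_mem N_mem_L i) hx

theorem eF_eq_psi {J : ℕ} {x y : F} (hx : (Ar.N F : F) ^ J * x ∈ (Ar.L : Subring F))
    (hy : Deep J y) : eF (x * y) = Ar.psi (x * y) := by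
  obtain ⟨l, hl, rfl⟩ := hy
  refine (Ar.psi_L _ ?_).symm
  rw [← mul_assoc, mul_comm x]
  exact mul_mem hx hl

theorem exists_reps {p : RR F} (hp : p ≠ 0) (J : ℕ) :
    ∃ a : Kp p → RR F, (∀ x, rd p (a x) = x) ∧ ∀ x, Deep J ((a x : F) / p) := by
  have h : ∀ x : Kp p, ∃ y : RR F, rd p y = x ∧ Deep J ((y : F) / p) := fun x => by
    obtain ⟨r, hr, l, hl, h⟩ := Ar.approx (((x.out : RR F) : F) / p) ((Ar.N F : F) ^ J)
      (pow_ne_zero _ N_ne)
    refine ⟨x.out - p * ⟨r, hr⟩, ?_, l, hl, ?_⟩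
    · rw [map_sub, mk_out, mk_eq_zero.2 (dvd_mul_right _ _), sub_zero]
    · have := coe_ne hp
      push_cast
      rw [sub_div, h, mul_div_cancel_left₀ _ this]
      ring
  choose a h1 h2 using h
  exact ⟨a, h1, h2⟩

theorem psi_congr {x y : F} (h : x - y ∈ (Ar.R : Subring F)) : Ar.psi x = Ar.psi y := by
  rw [show x = y + (x - y) by ring, Ar.psi_add, Ar.psi_R _ h, mul_one]

namespace Dat

variable {κ : ℝ} {f : F × F → ℂ} {p : RR F} {j : ℕ} {a : Kp p → RR F} (D : Dat κ f p j a)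
include D

theorem t0 : (cr (p : F) : ℂ) ≠ 0 := Complex.ofReal_ne_zero.2 (cr_pos D.P0).ne'

omit D in
/-- The coefficients of the combination. -/
def co (p : RR F) : Kp p ⊕ Unit ⊕ Kp p → ℂ :=
  Sum.elim (fun _ => 1) (Sum.elim (fun _ => -((absS (p : F) : ℂ) * (cr (p : F) : ℂ) ^ 3) ^ 2)
    fun x => -((absS (p : F) : ℂ) * (cr (p : F) : ℂ) ^ 3) ^ 2 * chi p x ^ 2)

omit D in
/-- The row functions of the combination. -/
def rw_ (f : F × F → ℂ) (p : RR F) : Kp p ⊕ Unit ⊕ Kp p → F × F → ℂ :=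
  Sum.elim (fun _ => xiF f) (Sum.elim (fun _ => xiF (opC (p : F) f)) fun _ => xiF (opT (p : F) f))

omit D in
/-- The matrices of the combination. -/
def ma (p : RR F) (a : Kp p → RR F) : Kp p ⊕ Unit ⊕ Kp p → Mat F :=
  Sum.elim (fun x => !![1, -((a x : F) / p); 0, 1])
    (Sum.elim (fun _ => !![((p : F) ^ 3)⁻¹, 0; 0, 1])
      fun x => !![((p : F) ^ 2)⁻¹, -((a x : F) / (p : F) ^ 3); 0, (p : F)⁻¹])

theorem good (i : Kp p ⊕ Unit ⊕ Kp p) : Good (rw_ f p i) := by
  rcases i with x | x | x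
  exacts [(D.hC _ D.tf).1, (D.hC _ D.tC).1, (D.hC _ D.tT).1]

omit D in
theorem det1 (x : Kp p) : (ma p a (Sum.inl x)).det = 1 := by
  simp [ma, Matrix.det_fin_two_of]

omit D in
theorem det2 (x : Unit) : (ma p a (Sum.inr (Sum.inl x))).det = ((p : F) ^ 3)⁻¹ := by
  simp [ma, Matrix.det_fin_two_of]

omit D in
theorem det3 (x : Kp p) : (ma p a (Sum.inr (Sum.inr x))).det = ((p : F) ^ 3)⁻¹ := by
  simp only [ma, Sum.elim_inr, Matrix.det_fin_two_of]
  rw [mul_zero, sub_zero, ← mul_inv]; ring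

theorem det_ne (i : Kp p ⊕ Unit ⊕ Kp p) : (ma p a i).det ≠ 0 := by
  have := inv_ne_zero (pow_ne_zero 3 D.P0)
  rcases i with x | x | x
  · rw [det1]; exact one_ne_zero
  · rwa [det2]
  · rwa [det3]

theorem cr_inv3 : (cr (((p : F) ^ 3)⁻¹) : ℂ) = ((cr (p : F) : ℂ) ^ 3)⁻¹ := by
  rw [cr_inv (pow_ne_zero 3 D.P0), cr_pow D.P0]; push_cast; rfl

variable (hT : TauStmt F)
include hT

theorem tau1 (x : Kp p) (r : F) : tau (tr (rw_ f p (Sum.inl x)) (ma p a (Sum.inl x))) r =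
    eF (r * ((a x : F) / p)) * tau (xiF f) r := by
  have := hT.tau_tri _ (D.good (Sum.inl x)) 1 (-((a x : F) / p)) 1 r one_ne_zero one_ne_zero
  rw [nF_one, Real.one_rpow] at this
  simpa [ma, rw_] using this

theorem tau2 (x : Unit) (r : F) :
    tau (tr (rw_ f p (Sum.inr (Sum.inl x))) (ma p a (Sum.inr (Sum.inl x)))) r =
    ((cr (p : F) : ℂ) ^ 3)⁻¹ * tau (xiF (opC (p : F) f)) (r / (p : F) ^ 3) := by
  have := hT.tau_tri _ (D.good (Sum.inr (Sum.inl x))) ((p : F) ^ 3)⁻¹ 0 1 r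
    (inv_ne_zero (pow_ne_zero 3 D.P0)) one_ne_zero
  rw [nF_one, one_mul, show nF ((p : F) ^ 3)⁻¹ ^ (1 / 3 : ℝ) = cr ((p : F) ^ 3)⁻¹ from rfl,
    D.cr_inv3, mul_zero, zero_div, neg_zero, show eF (0 : F) = 1 by simp [eF, eV, em], mul_one,
    div_one, ← div_eq_mul_inv] at this
  exact this

theorem tau3 (x : Kp p) (r : F) :
    tau (tr (rw_ f p (Sum.inr (Sum.inr x))) (ma p a (Sum.inr (Sum.inr x)))) r =
    ((cr (p : F) : ℂ) ^ 5)⁻¹ * eF (r / p * ((a x : F) / p)) *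
      tau (xiF (opT (p : F) f)) (r / p) := by
  have P0 := D.P0
  have := hT.tau_tri _ (D.good (Sum.inr (Sum.inr x))) ((p : F) ^ 2)⁻¹ (-((a x : F) / (p : F) ^ 3))
    (p : F)⁻¹ r (inv_ne_zero (pow_ne_zero 2 P0)) (inv_ne_zero P0)
  rw [show nF ((p : F) ^ 2)⁻¹ ^ (1 / 3 : ℝ) = cr ((p : F) ^ 2)⁻¹ from rfl,
    cr_inv (pow_ne_zero 2 P0), cr_pow P0, nF_inv P0, ← cr_cube P0,
    show -(r * -((a x : F) / (p : F) ^ 3) / (p : F)⁻¹) = r / p * ((a x : F) / p) by field_simp,
    show r * ((p : F) ^ 2)⁻¹ / (p : F)⁻¹ = r / p by field_simp, ← mul_inv, ← pow_add] at this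
  push_cast at this
  exact this

variable [Fintype (Kp p)]

/-- All the constant terms of the combination vanish. -/
theorem ct_zero (γ : SL F) :
    ∑ i, co p i * tau (tr (rw_ f p i) ((γ : Mat F) * ma p a i)) 0 = 0 := by
  have P0 := D.P0
  have t0 := D.t0
  have s0 := D.s0
  by_cases h : γ 1 0 = 0
  · have hd := γ.det_coe
    rw [Matrix.det_fin_two, h, mul_zero, sub_zero] at hd
    have h0 : γ 0 0 ≠ 0 := left_ne_zero_of_mul_eq_one hd
    have h1 : γ 1 1 ≠ 0 := right_ne_zero_of_mul_eq_one hd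
    have e : (γ : Mat F) = !![γ 0 0, γ 0 1; 0, γ 1 1] := by rw [← h]; exact Matrix.eta_fin_two _
    have e0 : eF (0 : F) = 1 := by simp [eF, eV, em]
    have e1 : ∀ i, tau (tr (rw_ f p i) ((γ : Mat F) * ma p a i)) 0 =
        ((nF (γ 1 1) * nF (γ 0 0) ^ (1 / 3 : ℝ) : ℝ) : ℂ) * tau (tr (rw_ f p i) (ma p a i)) 0 :=
      fun i => by
        rw [tr_mul]
        conv_lhs => rw [e]
        rw [hT.tau_tri _ (hT.good_tr _ _ (D.good i) (D.det_ne i)) _ _ _ _ h0 h1]
        simp [e0]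
    simp only [e1, Fintype.sum_sum_type, D.tau1 hT, D.tau2 hT, D.tau3 hT, co, Sum.elim_inl,
      Sum.elim_inr, zero_mul, zero_div, e0, (D.hC _ D.tf).2.1, (D.hC _ D.tC).2.1,
      D.hI.lam_opC f p D.tf P0, mul_assoc, ← Finset.mul_sum, ← Finset.sum_mul, sum_chi_sq D.hp,
      Finset.sum_const, Finset.card_univ, nsmul_eq_mul, D.card, Fintype.card_unit]
    push_cast
    field_simp
    ring
  · obtain ⟨ρ, α, β, hρ, hβ, hc, e1, e2⟩ := exists_prim (γ 1 1) (neg_ne_zero.2 h)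
    have e3 : γ 1 0 = -(ρ * β) := by rw [← e2, neg_neg]
    have B0 := coe_ne hβ
    have hρ' : ρ * ((p : F) ^ 3)⁻¹ ≠ 0 := mul_ne_zero hρ (inv_ne_zero (pow_ne_zero 3 P0))
    have hd : ∀ i, ((γ : Mat F) * ma p a i).det = (ma p a i).det := fun i => by
      rw [Matrix.det_mul, γ.det_coe, one_mul]
    have k1 : ∀ x, tau (tr (rw_ f p (Sum.inl x)) ((γ : Mat F) * ma p a (Sum.inl x))) 0 =
        (cr (ρ * ((p : F) ^ 3)⁻¹) : ℂ) ^ 2 *
          CT f ((p : F) ^ 3 * α + a x * (p : F) ^ 2 * β) ((p : F) ^ 3 * β) := fun x => by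
      rw [show rw_ f p (Sum.inl x) = xiF f from rfl,
        tau_tr_eq D.hC D.tf (hd _ ▸ D.det_ne _) hρ' (mul_ne_zero (pow_ne_zero 3 P0) B0)
          (α := (p : F) ^ 3 * α + a x * (p : F) ^ 2 * β), hd, det1, cr1, mul_one]
      · simp only [ma, Sum.elim_inl, Matrix.mul_apply, Fin.sum_univ_two, e1, e3]
        simp
        field_simp
      · simp only [ma, Sum.elim_inl, Matrix.mul_apply, Fin.sum_univ_two, e1, e3]
        simp
        field_simp
        ring
    have k2 : ∀ x, tau (tr (rw_ f p (Sum.inr (Sum.inl x)))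
        ((γ : Mat F) * ma p a (Sum.inr (Sum.inl x)))) 0 =
        (cr (ρ * ((p : F) ^ 3)⁻¹) : ℂ) ^ 2 * ((cr (p : F) : ℂ) ^ 3)⁻¹ *
          CT (opC (p : F) f) ((p : F) ^ 3 * α) β := fun x => by
      rw [show rw_ f p (Sum.inr (Sum.inl x)) = xiF (opC (p : F) f) from rfl,
        tau_tr_eq D.hC D.tC (hd _ ▸ D.det_ne _) hρ' B0 (α := (p : F) ^ 3 * α), hd, det2,
        D.cr_inv3]
      · simp only [ma, Sum.elim_inl, Sum.elim_inr, Matrix.mul_apply, Fin.sum_univ_two, e1, e3]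
        simp
        field_simp
      · simp only [ma, Sum.elim_inl, Sum.elim_inr, Matrix.mul_apply, Fin.sum_univ_two, e1, e3]
        simp
        field_simp
    have k3 : ∀ x, tau (tr (rw_ f p (Sum.inr (Sum.inr x)))
        ((γ : Mat F) * ma p a (Sum.inr (Sum.inr x)))) 0 =
        (cr (ρ * ((p : F) ^ 3)⁻¹) : ℂ) ^ 2 * ((cr (p : F) : ℂ) ^ 3)⁻¹ *
          CT (opT (p : F) f) ((p : F) ^ 2 * α + a x * β) (p * β) := fun x => by
      rw [show rw_ f p (Sum.inr (Sum.inr x)) = xiF (opT (p : F) f) from rfl,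
        tau_tr_eq D.hC D.tT (hd _ ▸ D.det_ne _) hρ' (mul_ne_zero P0 B0)
          (α := (p : F) ^ 2 * α + a x * β), hd, det3, D.cr_inv3]
      · simp only [ma, Sum.elim_inr, Matrix.mul_apply, Fin.sum_univ_two, e1, e3]
        simp
        field_simp
      · simp only [ma, Sum.elim_inr, Matrix.mul_apply, Fin.sum_univ_two, e1, e3]
        simp
        field_simp
        ring
    have H := D.HK_all hc hβ
    unfold HK at H
    have e4 : ∀ (x : Kp p) (A B C : ℂ), -A ^ 2 * chi p x ^ 2 * (B * C) =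
        -A ^ 2 * B * (chi p x ^ 2 * C) := fun _ _ _ _ => by ring
    simp only [Fintype.sum_sum_type, k1, k2, k3, co, Sum.elim_inl, Sum.elim_inr, one_mul, e4,
      ← Finset.mul_sum, Finset.sum_const, Finset.card_univ, Fintype.card_unit, one_smul]
    generalize (∑ x, CT f ((p : F) ^ 3 * α + a x * (p : F) ^ 2 * β) ((p : F) ^ 3 * β)) = S1 at H ⊢
    generalize (∑ x, chi p x ^ 2 * CT (opT (p : F) f) ((p : F) ^ 2 * α + a x * β) (p * β)) = S3
      at H ⊢
    generalize CT (opC (p : F) f) ((p : F) ^ 3 * α) β = S2 at H ⊢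
    generalize (cr (ρ * ((p : F) ^ 3)⁻¹) : ℂ) = c
    have H' : S1 = ((cr (p : F) : ℂ) ^ 3)⁻¹ *
        (((absS (p : F) : ℂ) * (cr (p : F) : ℂ) ^ 3) ^ 2 * (S2 + S3)) := by
      rw [← H, ← mul_assoc, inv_mul_cancel₀ (pow_ne_zero 3 t0), one_mul]
    rw [H']
    ring

/-- The Hecke identity read on the Fourier coefficients. -/
theorem coeff (hTh : ThetaStmt F) (r : F) :
    (∑ x, eF (r * ((a x : F) / p))) * tau (xiF f) r =
      ((absS (p : F) : ℂ) * (cr (p : F) : ℂ) ^ 3) ^ 2 *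
        (((cr (p : F) : ℂ) ^ 3)⁻¹ * tau (xiF (opC (p : F) f)) (r / (p : F) ^ 3) +
          ((cr (p : F) : ℂ) ^ 5)⁻¹ * (∑ x, chi p x ^ 2 * eF (r / p * ((a x : F) / p))) *
            tau (xiF (opT (p : F) f)) (r / p)) := by
  have H := vanish_comb hT hTh (co p) (rw_ f p) (ma p a) D.good D.det_ne (D.ct_zero hT) r
  have e4 : ∀ (x : Kp p) (A B C E : ℂ), -A ^ 2 * chi p x ^ 2 * (B * C * E) =
      -A ^ 2 * B * E * (chi p x ^ 2 * C) := fun _ _ _ _ _ => by ring
  simp only [Fintype.sum_sum_type, D.tau1 hT, D.tau2 hT, D.tau3 hT, co, Sum.elim_inl, Sum.elim_inr,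
    one_mul, e4, ← Finset.mul_sum, ← Finset.sum_mul, Finset.sum_const, Finset.card_univ,
    Fintype.card_unit, one_smul] at H
  linear_combination H

end Dat

omit [Ar F] in
theorem sixth_pow {x : F} (hx : x ≠ 0) (n : ℕ) {r : F} (hr : r ≠ 0) :
    nF (x ^ n * r) ^ (1 / 6 : ℝ) = Real.sqrt (cr x) ^ n * nF r ^ (1 / 6 : ℝ) := by
  have h1 : nF x ^ (1 / 6 : ℝ) = Real.sqrt (cr x) := by
    rw [Real.sqrt_eq_rpow, cr, ← Real.rpow_mul (nF_pos hx).le]; norm_num
  rw [nF_mul, Real.mul_rpow (nF_pos (pow_ne_zero _ hx)).le (nF_pos hr).le, nF_pow, ← h1,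
    ← Real.rpow_natCast, ← Real.rpow_natCast, ← Real.rpow_mul (nF_pos hx).le,
    ← Real.rpow_mul (nF_pos hx).le, mul_comm (n : ℝ)]

theorem sqrt_nm {x : F} (hx : x ≠ 0) :
    Real.sqrt (Ar.nm x) = Real.sqrt (absS x) * Real.sqrt (cr x) ^ 3 := by
  rw [nm_eq_absS hx, Real.sqrt_mul (absS_pos hx).le, pow_succ (cr x) 2,
    Real.sqrt_mul (sq_nonneg _), Real.sqrt_sq (cr_pos hx).le, pow_succ (Real.sqrt _) 2,
    Real.sq_sqrt (cr_pos hx).le]

end Crest.Agent.T27.TH.C50

namespace Crest.Agent.T27.TH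

open C50 NumberField

/-- **The Hecke relations.** -/
theorem hecke_50 (F : Type) [Field F] [NumberField F] [Emb F] [Ar F] (hO : OpStmt F)
    (hI : IntStmt F) (hC : CuspStmt F) (hT : TauStmt F) (hTh : ThetaStmt F) : HeckeStmt F := by
  intro f hf p r hp hr
  obtain ⟨κ, -, hC⟩ := hC
  have P0 := coe_ne hp.ne_zero
  have R0 := coe_ne hr
  have := Ar.fin_quot p hp.ne_zero
  let _ : Fintype (Kp p) := Fintype.ofFinite _
  obtain ⟨j1, h1⟩ := hf
  obtain ⟨j2, h2⟩ := hO.test_opT f p P0 ⟨j1, h1⟩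
  obtain ⟨k0, hk0⟩ := Ar.pow_mem_L (r : F)
  obtain ⟨k1, hk1⟩ := Ar.pow_mem_L ((p : F) * r)
  obtain ⟨k2, hk2⟩ := Ar.pow_mem_L ((p : F) ^ 2 * r)
  obtain ⟨k3, hk3⟩ := Ar.pow_mem_L ((p : F) ^ 3 * r)
  obtain ⟨a, ha1, ha2⟩ := exists_reps hp.ne_zero (j1 + j2 + k0 + k1 + k2 + k3)
  have D : Dat κ f p (j1 + j2 + k0 + k1 + k2 + k3) a :=
    ⟨hO, hI, hC, hp, hO.mono _ _ _ h1 (by omega), hO.mono _ _ _ h2 (by omega), ha1, ha2⟩
  have one : ∀ (k : ℕ) (y : RR F), (Ar.N F : F) ^ k * ((p : F) * y) ∈ (Ar.L : Subring F) →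
      k ≤ j1 + j2 + k0 + k1 + k2 + k3 → ∀ x, eF ((p : F) * y * ((a x : F) / p)) = 1 :=
    fun k y hy hk x => by
      rw [eF_eq_psi (pow_mul_mem hk hy) (ha2 x),
        show (p : F) * y * ((a x : F) / p) = ((y * a x : RR F) : F) by push_cast; field_simp]
      exact Ar.psi_R _ (y * a x).2
  have o1 := one k1 r hk1 (by omega)
  have o2 := one k2 (p * r) (by push_cast; rwa [← mul_assoc (p : F), ← sq]) (by omega)
  have o3 := one k3 (p ^ 2 * r) (by push_cast; rwa [← mul_assoc (p : F), ← pow_succ']) (by omega)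
  push_cast at o2 o3
  simp only [← mul_assoc (p : F), ← sq, ← pow_succ'] at o2 o3
  have t0 := D.t0
  have s0 := D.s0
  have hs : (absS (p : F) : ℂ) = (Real.sqrt (absS (p : F)) : ℂ) ^ 2 := by
    rw [← Complex.ofReal_pow, Real.sq_sqrt (absS_pos P0).le]
  have ht : (cr (p : F) : ℂ) = (Real.sqrt (cr (p : F)) : ℂ) ^ 2 := by
    rw [← Complex.ofReal_pow, Real.sq_sqrt (cr_pos P0).le]
  have nd : ¬ p ∣ r → tau (xiF (opC (p : F) f)) (r / p) = 0 ∧
      tau (xiF (opC (p : F) f)) (r / (p : F) ^ 2) = 0 := fun hn => by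
    have e : (r : F) / p ∉ (Ar.R : Subring F) := fun h =>
      hn ⟨⟨_, h⟩, Subtype.ext (by push_cast; field_simp)⟩
    refine ⟨by_contra fun h => e ((hC _ D.tC).2.2.2.2 _ h), by_contra fun h => e ?_⟩
    have := mul_mem p.2 ((hC _ D.tC).2.2.2.2 _ h)
    rwa [show (p : F) * (r / (p : F) ^ 2) = r / p by field_simp] at this
  refine ⟨?_, fun hn => ?_, fun hn => ?_⟩
  · have H := D.coeff hT hTh ((p : F) ^ 3 * r)
    rw [show (p : F) ^ 3 * r / (p : F) ^ 3 = r by field_simp,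
      show (p : F) ^ 3 * r / p = (p : F) ^ 2 * r by field_simp] at H
    simp only [o2, o3, mul_one, sum_chi_sq hp, Finset.sum_const, Finset.card_univ, nsmul_eq_mul,
      D.card, mul_zero, zero_mul, add_zero] at H
    have H' : tau (xiF f) ((p : F) ^ 3 * r) = absS (p : F) * tau (xiF (opC (p : F) f)) r := by
      field_simp at H
      linear_combination H
    rw [tt, tt, H', sixth_pow P0 3 R0, Real.sqrt_mul (absS_pos P0).le, sqrt_nm P0]
    push_cast
    rw [hs]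
    simp only [← hs]
    linear_combination (tau (xiF (opC (p : F) f)) r * (Real.sqrt (cr (p : F)) : ℂ) ^ 3 *
      ((nF (r : F) ^ (1 / 6 : ℝ) : ℝ) : ℂ)) * hs
  · have H := D.coeff hT hTh ((p : F) ^ 2 * r)
    rw [show (p : F) ^ 2 * r / (p : F) ^ 3 = r / p by field_simp,
      show (p : F) ^ 2 * r / p = (p : F) * r by field_simp, (nd hn).1] at H
    simp only [o1, o2, mul_one, sum_chi_sq hp, Finset.sum_const, Finset.card_univ, nsmul_eq_mul,
      D.card, mul_zero, zero_mul, add_zero] at H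
    rw [tt, (mul_eq_zero.1 H).resolve_left (mul_ne_zero s0 (pow_ne_zero 3 t0)), zero_mul]
  · have H := D.coeff hT hTh ((p : F) * r)
    rw [show (p : F) * r / (p : F) ^ 3 = r / (p : F) ^ 2 by field_simp,
      show (p : F) * r / p = r by field_simp, (nd hn).2] at H
    have hg : ∑ x, chi p x ^ 2 * eF (r * ((a x : F) / p)) =
        (Real.sqrt (Ar.nm (p : F)) : ℂ) * gn (r : F) p := by
      rw [gn, ← mul_assoc, mul_inv_cancel₀ (Complex.ofReal_ne_zero.2
        (Real.sqrt_pos.2 (Ar.nm_pos _ P0)).ne'), one_mul, finsum_eq_sum_of_fintype]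
      refine Finset.sum_congr rfl fun x _ => ?_
      rw [eF_eq_psi (pow_mul_mem (by omega) hk0) (ha2 x), chi, ← conj_sr _ hp.ne_zero, sr]
      congr 1
      obtain ⟨c, hc⟩ : p ∣ a x - x.out := mk_eq_iff.1 (by rw [ha1, mk_out])
      have hc' : (a x : F) - (x.out : RR F) = p * c := congrArg Subtype.val hc
      refine psi_congr ?_
      rw [show (r : F) * ((a x : F) / p) - r * ((x.out : RR F) : F) / p = ((r * c : RR F) : F) by
        push_cast; rw [← mul_div_assoc, ← sub_div, ← mul_sub, hc']; field_simp]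
      exact (r * c).2
    simp only [o1, mul_one, Finset.sum_const, Finset.card_univ, nsmul_eq_mul,
      D.card, mul_zero, zero_add, hg] at H
    have H' : tau (xiF f) ((p : F) * r) = absS (p : F) * ((cr (p : F) : ℂ) ^ 2)⁻¹ *
        ((Real.sqrt (Ar.nm (p : F)) : ℂ) * gn (r : F) p) * tau (xiF (opT (p : F) f)) r := by
      field_simp at H ⊢
      linear_combination H
    have e := sixth_pow P0 1 R0
    rw [pow_one, pow_one] at e
    have e2 : absS (p : F) ^ (3 / 2 : ℝ) = Real.sqrt (absS (p : F)) ^ 3 := by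
      rw [Real.sqrt_eq_rpow, ← Real.rpow_natCast, ← Real.rpow_mul (absS_pos P0).le]; norm_num
    rw [tt, tt, H', e, e2, sqrt_nm P0]
    push_cast
    generalize (Real.sqrt (absS (p : F)) : ℂ) = σ at hs
    generalize (Real.sqrt (cr (p : F)) : ℂ) = u at ht
    rw [hs, ht]
    have u0 : u ≠ 0 := fun h => t0 (by rw [ht, h]; ring)
    field_simp

end Crest.Agent.T27.TH
end
end

-- ▼ part T27/MelB_71
section

/-!
# Row 27, reflection, Mellin part B (helper71): unfolding over the unit torus and Mellin transfer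

* `exists_weight` : a weight for a discrete group of translations of `P → ℝ`;
* `unfold_family` : unfolding of a countable family of integrable functions;
* `transfer_torus` : the `r`-variable Voronoi identity implies the reflection formula;
* `transfer_F` : the same in the language of `ThA_54` (number fields).
-/

set_option autoImplicit false

noncomputable section

namespace Crest.Agent.T27.Mel

open scoped ComplexConjugate Topology ENNReal
open MeasureTheory Complex Filter Set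
open Crest.Agent.R17

/-! ## unfolding of a family -/

section family

variable {Γ X : Type*} [Group Γ] [Countable Γ] [MulAction Γ X] [MeasurableSpace X]
  {μ : Measure X} {ϖ : X → ℝ}

theorem unfold_family (h : IsWt Γ ϖ)
    (hμ : ∀ γ : Γ, MeasurePreserving (fun x : X => γ • x) μ μ) {ι : Type*} [Countable ι]
    {φ : ι → X → ℂ} (hφm : ∀ i, Measurable (φ i)) (hφ : ∑' i, ∫⁻ x, ‖φ i x‖ₑ ∂μ ≠ ⊤) :
    Integrable (fun x => (ϖ x : ℂ) * ∑' q : ι × Γ, φ q.1 (q.2 • x)) μ ∧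
      ∫ x, (ϖ x : ℂ) * ∑' q : ι × Γ, φ q.1 (q.2 • x) ∂μ = ∑' i, ∫ x, φ i x ∂μ := by
  have hϖ : Measurable fun x => (ϖ x : ℂ) := Complex.measurable_ofReal.comp h.meas
  have hn : ∀ x, ‖(ϖ x : ℂ)‖ₑ = ENNReal.ofReal (ϖ x) := fun x => by
    rw [← ofReal_norm, Complex.norm_real, Real.norm_of_nonneg (h.nonneg x)]
  have hm0 : ∀ q : ι × Γ, Measurable fun x => φ q.1 (q.2 • x) := fun q =>
    (hφm q.1).comp (hμ q.2).measurable
  have hm : ∀ q : ι × Γ, Measurable fun x => (ϖ x : ℂ) * φ q.1 (q.2 • x) := fun q =>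
    hϖ.mul (hm0 q)
  have hrow : ∀ i, ∑' γ : Γ, ∫⁻ x, ‖(ϖ x : ℂ) * φ i (γ • x)‖ₑ ∂μ = ∫⁻ x, ‖φ i x‖ₑ ∂μ := by
    intro i
    rw [← lintegral_tsum fun γ => (hm (i, γ)).enorm.aemeasurable]
    simp only [enorm_mul, hn, ENNReal.tsum_mul_left]
    exact h.lintegral_unfold hμ (hφm i).enorm
  have htot : ∑' q : ι × Γ, ∫⁻ x, ‖(ϖ x : ℂ) * φ q.1 (q.2 • x)‖ₑ ∂μ ≠ ⊤ := by
    rw [ENNReal.tsum_prod']
    simpa only [hrow] using hφ
  have hfin : ∀ i, ∫⁻ x, ‖φ i x‖ₑ ∂μ ≠ ⊤ := fun i => ENNReal.ne_top_of_tsum_ne_top hφ i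
  refine ⟨⟨(hϖ.mul (Measurable.tsum hm0)).aestronglyMeasurable, ?_⟩, ?_⟩
  · refine lt_of_le_of_lt (lintegral_mono fun x => ?_)
      ((lintegral_tsum fun q => (hm q).enorm.aemeasurable).trans_lt htot.lt_top)
    simp only [← tsum_mul_left]
    exact enorm_tsum_le_tsum_enorm
  simp only [← tsum_mul_left]
  rw [integral_tsum (fun q => (hm q).aestronglyMeasurable) htot]
  have hs : Summable fun q : ι × Γ => ∫ x, (ϖ x : ℂ) * φ q.1 (q.2 • x) ∂μ := by
    refine Summable.of_enorm (ne_top_of_le_ne_top htot (ENNReal.tsum_le_tsum fun q => ?_))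
    exact enorm_integral_le_lintegral_enorm _
  rw [hs.tsum_prod]
  refine tsum_congr fun i => ?_
  have hi : Integrable (φ i) μ := ⟨(hφm i).aestronglyMeasurable, (hfin i).lt_top⟩
  rw [← (h.integral_unfold hμ (hφm i) hi).2]
  simp only [← tsum_mul_left]
  rw [integral_tsum (fun γ => (hm (i, γ)).aestronglyMeasurable) (by rw [hrow]; exact hfin i)]

end family

/-! ## weights for discrete groups of translations -/

section weight

variable {P : Type*} {G : Type*} [Group G]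

theorem l_one {l : G → P → ℝ} (hl : ∀ g g', l (g * g') = l g + l g') : l 1 = 0 := by
  have := hl 1 1
  rw [mul_one] at this
  exact left_eq_add.1 this

theorem l_inv {l : G → P → ℝ} (hl : ∀ g g', l (g * g') = l g + l g') (g : G) : l g⁻¹ = -l g := by
  have := hl g⁻¹ g
  rw [inv_mul_cancel, l_one hl] at this
  exact eq_neg_of_add_eq_zero_left this.symm

/-- The action by translations. -/
@[reducible] def actL (l : G → P → ℝ) (hl : ∀ g g', l (g * g') = l g + l g') :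
    MulAction G (P → ℝ) where
  smul g x := x + l g
  one_smul x := by
    show x + l 1 = x
    rw [l_one hl, add_zero]
  mul_smul g g' x := by
    show x + l (g * g') = x + l g' + l g
    rw [hl]; abel

variable [Fintype P]

omit [Group G] in
theorem exists_pos_summable (l : G → P → ℝ) (hd : ∀ R : ℝ, {g | ‖l g‖ ≤ R}.Finite) :
    ∃ φ : (P → ℝ) → ℝ, Measurable φ ∧ (∀ x, 0 < φ x) ∧ ∀ x, Summable fun g => φ (x + l g) := by
  classical
  set n : ℕ → ℕ := fun k => (hd (2 * k + 1)).toFinset.card with hn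
  set ψ : ℕ → ℝ := fun k => (1 / 2) ^ k / (1 + n k) with hψ
  have hψ0 : ∀ k, 0 < ψ k := fun k => by simp only [hψ]; positivity
  refine ⟨fun x => ψ ⌊‖x‖⌋₊, (measurable_from_top (f := ψ)).comp (Nat.measurable_floor.comp
    measurable_norm), fun x => hψ0 _, fun x => ?_⟩
  -- outside of the finite set `‖l g‖ ≤ 2 ‖x‖ + 1`
  rw [← (hd (2 * ‖x‖ + 1)).summable_compl_iff]
  refine summable_of_sum_le (fun g => (hψ0 _).le) (c := 2) fun S => ?_
  set k : ↥{g | ‖l g‖ ≤ 2 * ‖x‖ + 1}ᶜ → ℕ := fun g => ⌊‖x + l g‖⌋₊ with hk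
  have hfib : ∀ j, ∑ g ∈ S.filter (fun g => k g = j), ψ (k g) ≤ (1 / 2) ^ j := by
    intro j
    rw [Finset.sum_congr rfl (g := fun _ => ψ j) fun g hg => by rw [(Finset.mem_filter.1 hg).2],
      Finset.sum_const, nsmul_eq_mul]
    have hc : (S.filter fun g => k g = j).card ≤ n j := by
      refine Finset.card_le_card_of_injOn (fun g => g.1) (fun g hg => ?_)
        (fun a _ b _ hab => Subtype.ext hab)
      have h1 : k g = j := (Finset.mem_filter.1 (Finset.mem_coe.1 hg)).2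
      have h2 : ¬ ‖l g.1‖ ≤ 2 * ‖x‖ + 1 := g.2
      have h3 : ‖x + l g.1‖ < j + 1 := by
        rw [← h1]; exact Nat.lt_floor_add_one _
      have h4 : ‖l g.1‖ ≤ ‖x + l g.1‖ + ‖x‖ := by
        simpa using norm_sub_le (x + l g.1) x
      simp only [Finset.mem_coe, Set.Finite.mem_toFinset, Set.mem_ofPred_eq]
      linarith
    have hc' : ((S.filter fun g => k g = j).card : ℝ) ≤ 1 + n j := by
      have : ((S.filter fun g => k g = j).card : ℝ) ≤ n j := by exact_mod_cast hc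
      linarith
    calc ((S.filter fun g => k g = j).card : ℝ) * ψ j ≤ (1 + n j) * ψ j :=
          mul_le_mul_of_nonneg_right hc' (hψ0 j).le
      _ = (1 / 2) ^ j := by simp only [hψ]; field_simp
  calc ∑ g ∈ S, ψ ⌊‖x + l g.1‖⌋₊ = ∑ j ∈ S.image k, ∑ g ∈ S.filter (fun g => k g = j), ψ (k g) :=
        (Finset.sum_fiberwise_of_maps_to (fun g hg => Finset.mem_image_of_mem k hg) _).symm
    _ ≤ ∑ j ∈ S.image k, (1 / 2 : ℝ) ^ j := Finset.sum_le_sum fun j _ => hfib j
    _ ≤ ∑' j : ℕ, (1 / 2 : ℝ) ^ j :=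
        summable_geometric_two.sum_le_tsum _ fun j _ => by positivity
    _ = 2 := tsum_geometric_two

theorem exists_weight [Countable G] {l : G → P → ℝ} (hl : ∀ g g', l (g * g') = l g + l g')
    (hd : ∀ R : ℝ, {g | ‖l g‖ ≤ R}.Finite) :
    ∃ ϖ : (P → ℝ) → ℝ, Measurable ϖ ∧ (∀ x, 0 ≤ ϖ x) ∧
      ∀ x, HasSum (fun g => ϖ (x + l g)) 1 := by
  obtain ⟨φ, hm, hpos, hs⟩ := exists_pos_summable l hd
  have hT : ∀ x, 0 < ∑' g, φ (x + l g) := fun x =>
    (hs x).tsum_pos (fun g => (hpos _).le) 1 (hpos _)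
  refine ⟨fun x => φ x / ∑' g, φ (x + l g),
    hm.div (Measurable.tsum fun g => hm.comp (measurable_add_const _)),
    fun x => div_nonneg (hpos x).le (hT x).le, fun x => ?_⟩
  have e : ∀ g, ∑' g', φ (x + l g + l g') = ∑' g', φ (x + l g') := fun g => by
    rw [← (Equiv.mulLeft g).tsum_eq fun g' => φ (x + l g')]
    simp only [Equiv.coe_mulLeft, hl, add_assoc]
  simp only [e]
  have := (hs x).hasSum.div_const (∑' g', φ (x + l g'))
  rwa [div_self (hT x).ne'] at this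

end weight

/-! ## the profile in logarithmic coordinates -/

theorem measurable_U1exp : Measurable fun y : ℝ => (U1 (Real.exp y) : ℂ) :=
  (continuous_ofReal.comp (continuousOn_U1.comp_continuous Real.continuous_exp
    fun y => Real.exp_pos y)).measurable

theorem mellin_log {w : ℂ} (hw : -(1 / 3) < w.re) :
    Integrable (fun y : ℝ => (U1 (Real.exp y) : ℂ) * cexp (w * y)) ∧
      ∫ y : ℝ, (U1 (Real.exp y) : ℂ) * cexp (w * y) = GG w := by
  obtain ⟨h1, h2⟩ := mellin_U1 hw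
  have e : ∀ x : ℝ, |Real.exp x| • ((U1 (Real.exp x) : ℂ) * ((Real.exp x : ℝ) : ℂ) ^ (w - 1)) =
      (U1 (Real.exp x) : ℂ) * cexp (w * x) := by
    intro x
    rw [abs_of_pos (Real.exp_pos x), Complex.cpow_def_of_ne_zero (ofReal_ne_zero.2 (Real.exp_pos x).ne'),
      ← Complex.ofReal_log (Real.exp_pos x).le, Real.log_exp, Complex.real_smul, Complex.ofReal_exp,
      mul_left_comm, ← Complex.exp_add]
    congr 2
    ring
  rw [← Real.range_exp, ← Set.image_univ] at h1 h2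
  rw [integrableOn_image_iff_integrableOn_abs_deriv_smul MeasurableSet.univ
    (fun x _ => (Real.hasDerivAt_exp x).hasDerivWithinAt) Real.exp_injective.injOn,
    integrableOn_univ] at h1
  rw [integral_image_eq_integral_abs_deriv_smul MeasurableSet.univ
    (fun x _ => (Real.hasDerivAt_exp x).hasDerivWithinAt) Real.exp_injective.injOn,
    Measure.restrict_univ] at h2
  simp only [e] at h1 h2
  exact ⟨h1, h2⟩

section torus

variable {P : Type*} [Fintype P] {G : Type*} [Group G] [Countable G]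

/-- The product profile. -/
def PU (y : P → ℝ) : ℂ := ∏ j, (U1 (Real.exp (y j)) : ℂ)

theorem measurable_PU : Measurable (PU : (P → ℝ) → ℂ) :=
  Finset.measurable_prod _ fun j _ => measurable_U1exp.comp (measurable_pi_apply j)

theorem mellin_PU {w : ℂ} (hw : -(1 / 3) < w.re) :
    Integrable (fun y : P → ℝ => PU y * cexp (w * ((∑ j, y j : ℝ) : ℂ))) ∧
      ∫ y : P → ℝ, PU y * cexp (w * ((∑ j, y j : ℝ) : ℂ)) = GG w ^ Fintype.card P := by
  obtain ⟨h1, h2⟩ := mellin_log hw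
  have e : ∀ y : P → ℝ, PU y * cexp (w * ((∑ j, y j : ℝ) : ℂ)) =
      ∏ j, ((U1 (Real.exp (y j)) : ℂ) * cexp (w * (y j : ℝ))) := by
    intro y
    rw [Finset.prod_mul_distrib, ← Complex.exp_sum, ← Finset.mul_sum, ofReal_sum, PU]
  simp only [e]
  exact ⟨Integrable.fintype_prod (f := fun _ (y : ℝ) => (U1 (Real.exp y) : ℂ) * cexp (w * y))
    fun _ => h1, by
      rw [integral_fintype_prod_volume_eq_pow (fun y : ℝ => (U1 (Real.exp y) : ℂ) * cexp (w * y)),
        h2]⟩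

/-- The sum over all translates. -/
def fT {ι : Type*} (l : G → P → ℝ) (a : ι → ℂ) (p : ι → P → ℝ) (x : P → ℝ) : ℂ :=
  ∑' q : ι × G, a q.1 * PU (p q.1 + l q.2 + x)

theorem exp_cpow (y : ℝ) (w : ℂ) : ((Real.exp y : ℝ) : ℂ) ^ w = cexp (w * y) := by
  rw [Complex.cpow_def_of_ne_zero (ofReal_ne_zero.2 (Real.exp_pos y).ne'),
    ← Complex.ofReal_log (Real.exp_pos y).le, Real.log_exp, mul_comm]

theorem unfold_torus {l : G → P → ℝ} (hl : ∀ g g', l (g * g') = l g + l g')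
    (h0 : ∀ g, ∑ j, l g j = 0) {ϖ : (P → ℝ) → ℝ} (hm : Measurable ϖ) (hpos : ∀ x, 0 ≤ ϖ x)
    (hs : ∀ x, HasSum (fun g => ϖ (x + l g)) 1) {ι : Type*} [Countable ι] {a : ι → ℂ}
    {p : ι → P → ℝ} {w : ℂ} (hw : -(1 / 3) < w.re)
    (ha : Summable fun i => ‖a i‖ * Real.exp (∑ j, p i j) ^ (-w.re)) :
    Integrable (fun x : P → ℝ => (ϖ x : ℂ) * fT l a p x * cexp (w * ((∑ j, x j : ℝ) : ℂ))) ∧
      ∫ x : P → ℝ, (ϖ x : ℂ) * fT l a p x * cexp (w * ((∑ j, x j : ℝ) : ℂ)) =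
        GG w ^ Fintype.card P * dS a (fun i => Real.exp (∑ j, p i j)) w := by
  let _ := actL l hl
  have hW : IsWt G ϖ := ⟨hm, hpos, hs⟩
  have hμ : ∀ g : G, MeasurePreserving (fun x : P → ℝ => g • x) volume volume := fun g =>
    measurePreserving_add_right volume (l g)
  obtain ⟨i1, i2⟩ := mellin_PU (P := P) hw
  set Φ : (P → ℝ) → ℂ := fun y => PU y * cexp (w * ((∑ j, y j : ℝ) : ℂ)) with hΦ
  have hΦm : Measurable Φ := measurable_PU.mul (by fun_prop)
  set c : ι → ℂ := fun i => a i * ((Real.exp (∑ j, p i j) : ℝ) : ℂ) ^ (-w) with hc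
  have hcs : Summable fun i => ‖c i‖ := by
    refine ha.congr fun i => ?_
    rw [hc, norm_mul, Complex.norm_cpow_eq_rpow_re_of_pos (Real.exp_pos _), neg_re]
  have key := unfold_family hW hμ (φ := fun i x => c i * Φ (p i + x))
    (fun i => (hΦm.comp (measurable_const_add _)).const_mul _) (by
      have e : ∀ i, ∫⁻ x, ‖c i * Φ (p i + x)‖ₑ = ‖c i‖ₑ * ∫⁻ x, ‖Φ x‖ₑ := fun i => by
        simp only [enorm_mul]
        rw [lintegral_const_mul' _ _ enorm_ne_top,
          lintegral_add_left_eq_self (fun x => ‖Φ x‖ₑ) (p i)]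
      simp only [e]
      rw [ENNReal.tsum_mul_right]
      refine ENNReal.mul_ne_top ?_ i1.2.ne
      simp only [← ofReal_norm]
      rw [← ENNReal.ofReal_tsum_of_nonneg (fun _ => norm_nonneg _) hcs]
      exact ENNReal.ofReal_ne_top)
  have e : ∀ x : P → ℝ, (ϖ x : ℂ) * ∑' q : ι × G, c q.1 * Φ (p q.1 + q.2 • x) =
      (ϖ x : ℂ) * fT l a p x * cexp (w * ((∑ j, x j : ℝ) : ℂ)) := by
    intro x
    rw [mul_assoc, fT, ← tsum_mul_right]
    congr 1
    refine tsum_congr fun q => ?_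
    have e1 : p q.1 + q.2 • x = p q.1 + l q.2 + x := by
      show p q.1 + (x + l q.2) = _
      abel
    have e2 : ∑ j, (p q.1 + l q.2 + x) j = ∑ j, p q.1 j + ∑ j, x j := by
      simp only [Pi.add_apply, Finset.sum_add_distrib, h0, add_zero]
    rw [e1, hc, hΦ]
    simp only
    rw [e2, exp_cpow, ofReal_add, mul_add, Complex.exp_add, neg_mul, Complex.exp_neg]
    field_simp
  simp only [e] at key
  refine ⟨key.1, key.2.trans ?_⟩
  rw [dS, ← tsum_mul_left]
  refine tsum_congr fun i => ?_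
  rw [integral_const_mul, integral_add_left_eq_self Φ (p i), i2, mul_comm]

/-- **Mellin transfer with unfolding over the torus.** -/
theorem transfer_torus {l : G → P → ℝ} (hl : ∀ g g', l (g * g') = l g + l g')
    (h0 : ∀ g, ∑ j, l g j = 0) (hd : ∀ R : ℝ, {g | ‖l g‖ ≤ R}.Finite)
    {ι κ : Type*} [Countable ι] [Countable κ] {a : ι → ℂ} {p : ι → P → ℝ} {b : κ → ℂ}
    {q : κ → P → ℝ}
    (ha : ∀ σ : ℝ, 3 ≤ σ → Summable fun i => ‖a i‖ * Real.exp (∑ j, p i j) ^ (-σ))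
    (hb : ∀ σ : ℝ, 3 ≤ σ → Summable fun k => ‖b k‖ * Real.exp (∑ j, q k j) ^ (-σ)) {ω : ℂ}
    (h : ∀ x : P → ℝ, fT l a p x = ω * (Real.exp (-∑ j, x j) : ℝ) * fT l b q (-x))
    {X : ℝ} (hX : 0 < X) (s : ℂ) :
    ∑' i, a i * Wc (Real.exp (∑ j, p i j) / X) s =
      ω * (X : ℂ) * ∑' k, b k * VR (Fintype.card P) (X * Real.exp (∑ j, q k j)) s := by
  obtain ⟨ϖ, hm, hpos, hs⟩ := exists_weight hl hd
  have hs' : ∀ x, HasSum (fun g => ϖ (-(x + l g))) 1 := fun x => by
    refine (Equiv.inv G).hasSum_iff.1 ?_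
    simpa only [Function.comp_def, Equiv.inv_apply, l_inv hl, neg_add, neg_neg] using hs (-x)
  have hA := fun (w : ℂ) (hw : 3 ≤ w.re) =>
    unfold_torus hl h0 hm hpos hs (w := w) (by linarith) (ha _ hw)
  have hB := fun (w : ℂ) (hw : 3 ≤ w.re) =>
    unfold_torus hl h0 (ϖ := fun x => ϖ (-x)) (hm.comp measurable_neg) (fun x => hpos _) hs'
      (w := w) (by linarith) (hb _ hw)
  set H : (P → ℝ) → ℂ := fun x => (ϖ x : ℂ) * fT l a p x with hH
  have hrefl : ∀ (t : ℂ) (x : P → ℝ), H (-x) * cexp ((1 - t) * ((∑ j, (-x) j : ℝ) : ℂ)) =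
      ω * ((ϖ (-x) : ℂ) * fT l b q x * cexp (t * ((∑ j, x j : ℝ) : ℂ))) := by
    intro t x
    have e : ∑ j, (-x) j = -∑ j, x j := by simp
    rw [hH]
    simp only
    rw [h (-x), neg_neg, e, neg_neg, ofReal_exp, ofReal_neg,
      show t * ((∑ j, x j : ℝ) : ℂ) = ((∑ j, x j : ℝ) : ℂ) + (1 - t) * -((∑ j, x j : ℝ) : ℂ) by ring,
      Complex.exp_add]
    ring
  have hlm : Measurable fun x : P → ℝ => ∑ j, x j := by fun_prop
  have hHm : AEStronglyMeasurable H volume := by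
    have h1 := (hA 3 (by simp)).1.1.mul
      (show Measurable fun x : P → ℝ => cexp (-(3 * ((∑ j, x j : ℝ) : ℂ))) by
        fun_prop).aestronglyMeasurable
    refine h1.congr (ae_of_all _ fun x => ?_)
    simp only [Pi.mul_apply, hH]
    rw [mul_assoc, ← Complex.exp_add, add_neg_cancel, Complex.exp_zero, mul_one]
  have hnorm : ∀ (w : ℂ) (x : P → ℝ), ‖H x * cexp (w * ((∑ j, x j : ℝ) : ℂ))‖ =
      ‖H x‖ * Real.exp (w.re * ∑ j, x j) := fun w x => by
    rw [norm_mul, Complex.norm_exp]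
    simp only [mul_re, ofReal_re, ofReal_im, mul_zero, sub_zero]
  have hI1 : ∀ σ : ℝ, 3 ≤ σ → Integrable fun x => ‖H x‖ * Real.exp (σ * ∑ j, x j) := by
    intro σ hσ
    exact (hA σ (by simpa using hσ)).1.norm.congr (ae_of_all _ fun x => hnorm σ x)
  have hI2 : ∀ σ : ℝ, σ ≤ -2 → Integrable fun x => ‖H x‖ * Real.exp (σ * ∑ j, x j) := by
    intro σ hσ
    have h1 := ((hB (1 - σ) (by simp; linarith)).1.const_mul ω).congr
      (ae_of_all _ fun x => (hrefl (1 - σ) x).symm)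
    have h2 := (h1.comp_neg).norm
    refine h2.congr (ae_of_all _ fun x => ?_)
    simp only [neg_neg, sub_sub_cancel]
    exact hnorm σ x
  have hmid : ∀ σ : ℝ, -2 ≤ σ → σ ≤ 3 → ∀ x : P → ℝ, ‖H x‖ * Real.exp (σ * ∑ j, x j) ≤
      ‖H x‖ * Real.exp (-2 * ∑ j, x j) + ‖H x‖ * Real.exp (3 * ∑ j, x j) := by
    intro σ h1 h2 x
    rw [← mul_add]
    refine mul_le_mul_of_nonneg_left ?_ (norm_nonneg _)
    rcases le_total 0 (∑ j, x j) with h | h
    · exact (Real.exp_le_exp.2 (mul_le_mul_of_nonneg_right h2 h)).trans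
        (le_add_of_nonneg_left (Real.exp_pos _).le)
    · exact (Real.exp_le_exp.2 (mul_le_mul_of_nonpos_right h1 h)).trans
        (le_add_of_nonneg_right (Real.exp_pos _).le)
  have hsum := (hI2 (-2) le_rfl).add (hI1 3 le_rfl)
  have hI : ∀ σ : ℝ, Integrable fun x => ‖H x‖ * Real.exp (σ * ∑ j, x j) := by
    intro σ
    rcases le_total 3 σ with h1 | h1
    · exact hI1 σ h1
    rcases le_total σ (-2) with h2 | h2
    · exact hI2 σ h2
    refine hsum.mono' (hHm.norm.mul (Measurable.aestronglyMeasurable (by fun_prop)))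
      (ae_of_all _ fun x => ?_)
    rw [Real.norm_of_nonneg (by positivity)]
    exact hmid σ h2 h1 x
  have hdiff := HeckeA87.differentiable_integral_exp hHm hlm hI
  refine transfer_core (Fintype.card P) (fun _ => Real.exp_pos _) (fun _ => Real.exp_pos _)
    (ha 3 le_rfl) (hb 3 le_rfl)
    (L := fun w => ∫ x, H x * cexp (w * ((∑ j, x j : ℝ) : ℂ)))
    (K := ∫ x, (‖H x‖ * Real.exp (-2 * ∑ j, x j) + ‖H x‖ * Real.exp (3 * ∑ j, x j)))
    (fun w h1 h2 => ⟨hdiff w, norm_integral_le_of_norm_le hsum (ae_of_all _ fun x => ?_)⟩)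
    (fun w hw => (hA w hw.ge).2) (fun t ht => ?_) hX s
  · rw [hnorm]
    exact hmid _ h1 h2 x
  · rw [← (hB t ht.ge).2, ← integral_const_mul, ← integral_neg_eq_self]
    simp only [hrefl]

end torus

/-! ## number fields -/

section field

open NumberField TH

variable {F : Type} [Field F] [NumberField F] [Emb F]

theorem norm_em (x : F) (j : Pl F) : ‖em x j‖ = j x := by
  conv_rhs => rw [← Emb.mk_σ j]
  rfl

theorem em_mul (x y : F) (j : Pl F) : em (x * y) j = em x j * em y j := map_mul _ _ _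

theorem norm_em_pos {x : F} (hx : x ≠ 0) (j : Pl F) : 0 < ‖em x j‖ :=
  norm_pos_iff.2 ((map_ne_zero _).2 hx)

theorem nF_eq_norm (x : F) : nF x = |((Algebra.norm ℚ x : ℚ) : ℝ)| := by
  have := Emb.tc (F := F)
  rw [← Rat.cast_abs, ← InfinitePlace.prod_eq_abs_norm, nF]
  refine Finset.prod_congr rfl fun j _ => ?_
  rw [norm_em, (IsTotallyComplex.isComplex j).mult_eq_two]

theorem nF_pos {x : F} (hx : x ≠ 0) : 0 < nF x :=
  Finset.prod_pos fun j _ => pow_pos (norm_em_pos hx j) 2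

theorem nF_mul (x y : F) : nF (x * y) = nF x * nF y := by
  simp only [nF, em_mul, norm_mul, mul_pow, Finset.prod_mul_distrib]

theorem nF_one : nF (1 : F) = 1 := by simp [nF, TH.em]

theorem one_le_nF {x : F} (hx : x ≠ 0) (hi : IsIntegral ℤ x) : 1 ≤ nF x := by
  obtain ⟨z, hz⟩ := IsIntegrallyClosed.isIntegral_iff.1 (Algebra.isIntegral_norm ℚ hi)
  have h0 : z ≠ 0 := by
    rintro rfl
    exact (Algebra.norm_ne_zero_iff.2 hx) (by rw [← hz, map_zero])
  rw [nF_eq_norm, ← hz]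
  simp only [algebraMap_int_eq, eq_intCast, Rat.cast_intCast]
  exact_mod_cast Int.one_le_abs h0

theorem exp_lg {x : F} (hx : x ≠ 0) (j : Pl F) : Real.exp (lg x j) = ‖em x j‖ ^ 2 :=
  Real.exp_log (pow_pos (norm_em_pos hx j) 2)

theorem exp_sum_lg {x : F} (hx : x ≠ 0) : Real.exp (∑ j, lg x j) = nF x := by
  rw [Real.exp_sum, nF]
  exact Finset.prod_congr rfl fun j _ => exp_lg hx j

theorem lg_mul {x y : F} (hx : x ≠ 0) (hy : y ≠ 0) : lg (x * y) = lg x + lg y := by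
  funext j
  simp only [lg, Pi.add_apply, em_mul, norm_mul, mul_pow]
  exact Real.log_mul (pow_pos (norm_em_pos hx j) 2).ne' (pow_pos (norm_em_pos hy j) 2).ne'

theorem nF_unit {U : Subgroup Fˣ} (hU : ∀ u ∈ U, IsIntegral ℤ (u : F)) {u : Fˣ} (hu : u ∈ U) :
    nF (u : F) = 1 := by
  have h1 := one_le_nF u.ne_zero (hU u hu)
  have h2 := one_le_nF (u⁻¹).ne_zero (hU _ (U.inv_mem hu))
  have h3 : nF (u : F) * nF ((u⁻¹ : Fˣ) : F) = 1 := by rw [← nF_mul, Units.mul_inv, nF_one]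
  nlinarith

omit [Emb F] in
theorem countable_F : Countable F := Countable.of_equiv _ (Module.finBasis ℚ F).equivFun.toEquiv.symm

theorem finite_units {U : Subgroup Fˣ} (hU : ∀ u ∈ U, IsIntegral ℤ (u : F)) (R : ℝ) :
    {u : U | ‖lg ((u : Fˣ) : F)‖ ≤ R}.Finite := by
  refine Set.Finite.of_finite_image (f := fun u : U => ((u : Fˣ) : F))
    ((Embeddings.finite_of_norm_le F ℂ (1 + Real.exp R)).subset ?_)
    fun a _ b _ hab => Subtype.ext (Units.ext hab)
  rintro _ ⟨u, hu, rfl⟩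
  refine ⟨hU _ u.2, fun φ => ?_⟩
  have h1 : ‖φ ((u : Fˣ) : F)‖ = ‖em ((u : Fˣ) : F) (InfinitePlace.mk φ)‖ := by
    rw [norm_em]; rfl
  have h2 : ‖em ((u : Fˣ) : F) (InfinitePlace.mk φ)‖ ^ 2 ≤ Real.exp R := by
    rw [← exp_lg (u : Fˣ).ne_zero]
    refine Real.exp_le_exp.2 ((le_abs_self _).trans ?_)
    exact (norm_le_pi_norm (lg ((u : Fˣ) : F)) _).trans hu
  rw [h1]
  nlinarith [sq_nonneg (‖em ((u : Fˣ) : F) (InfinitePlace.mk φ)‖ - 1), Real.exp_pos R]

/-- `e` is a system of representatives modulo `U` for the support of `a`. -/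
structure Reps {ι : Type*} (U : Subgroup Fˣ) (a : F → ℂ) (e : ι → F) : Prop where
  ne : ∀ i, e i ≠ 0
  inj : ∀ u ∈ U, ∀ i i', (u : F) * e i = e i' → i = i'
  surj : ∀ x, a x ≠ 0 → ∃ u ∈ U, ∃ i, x = (u : F) * e i
  inv : ∀ u ∈ U, ∀ i, a ((u : F) * e i) = a (e i)

omit [Emb F] in
theorem Reps.countable {ι : Type*} {U : Subgroup Fˣ} {a : F → ℂ} {e : ι → F} (h : Reps U a e) :
    Countable ι := by
  have := countable_F (F := F)
  exact Function.Injective.countable (f := e) fun i i' hi => h.inj 1 U.one_mem i i' (by simpa using hi)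

omit [NumberField F] [Emb F] in
theorem Reps.tsum_eq {ι : Type*} {U : Subgroup Fˣ} {a : F → ℂ} {e : ι → F} (h : Reps U a e)
    (k : F → ℂ) : ∑' x : F, a x * k x = ∑' q : ι × U, a (e q.1) * k (((q.2 : Fˣ) : F) * e q.1) := by
  have hinj : Function.Injective fun q : ι × U => ((q.2 : Fˣ) : F) * e q.1 := by
    rintro ⟨i, u⟩ ⟨i', u'⟩ hq
    simp only at hq
    have h1 : i = i' := h.inj (u'⁻¹ * u : U) (u'⁻¹ * u).2 i i' (by
      rw [Subgroup.coe_mul, Units.val_mul, mul_assoc, hq, ← mul_assoc, Subgroup.coe_inv,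
        Units.inv_mul, one_mul])
    subst h1
    rw [Subtype.ext (Units.ext (mul_right_cancel₀ (h.ne i) hq))]
  rw [← hinj.tsum_eq (f := fun x => a x * k x)]
  · exact tsum_congr fun q => by rw [h.inv _ q.2.2]
  · intro x hx
    obtain ⟨u, hu, i, rfl⟩ := h.surj x (left_ne_zero_of_mul hx)
    exact ⟨(i, ⟨u, hu⟩), rfl⟩

/-- **Mellin transfer over a number field.**  From the Voronoi identity in all the archimedean
variables to the reflection formula for sums over representatives modulo a group of units. -/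
theorem transfer_F {U : Subgroup Fˣ} (hU : ∀ u ∈ U, IsIntegral ℤ (u : F)) {ι κ : Type*}
    {a b : F → ℂ} {e : ι → F} {e' : κ → F} (he : Reps U a e) (he' : Reps U b e')
    (ha : ∀ σ : ℝ, 3 ≤ σ → Summable fun i => ‖a (e i)‖ * nF (e i) ^ (-σ))
    (hb : ∀ σ : ℝ, 3 ≤ σ → Summable fun k => ‖b (e' k)‖ * nF (e' k) ^ (-σ))
    {A B : Pl F → ℝ} (hA : ∀ j, 0 < A j) (hB : ∀ j, 0 < B j) {ω : ℂ}
    (h : ∀ x : Pl F → ℝ, (∀ j, 0 < x j) →
      ∑' ρ : F, a ρ * ∏ j, (U1 (A j * ‖em ρ j‖ ^ 2 * x j) : ℂ) =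
        ω * ((∏ j, x j : ℝ) : ℂ)⁻¹ * ∑' ν : F, b ν * ∏ j, (U1 (B j * ‖em ν j‖ ^ 2 / x j) : ℂ))
    {X : ℝ} (hX : 0 < X) (s : ℂ) :
    ∑' i, a (e i) * Wc (nF (e i) / X) s = ω * (((∏ j, A j) * X : ℝ) : ℂ) *
      ∑' k, b (e' k) * VR (Fintype.card (Pl F)) ((∏ j, A j) * (∏ j, B j) * X * nF (e' k)) s := by
  have := countable_F (F := F)
  have := he.countable
  have := he'.countable
  have : Countable U := Function.Injective.countable (f := fun u : U => ((u : Fˣ) : F))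
    fun a b hab => Subtype.ext (Units.ext hab)
  have hPA : 0 < ∏ j, A j := Finset.prod_pos fun j _ => hA j
  have hPB : 0 < ∏ j, B j := Finset.prod_pos fun j _ => hB j
  have hexp : ∀ (A : Pl F → ℝ), (∀ j, 0 < A j) → ∀ x : F, x ≠ 0 →
      Real.exp (∑ j, (Real.log (A j) + lg x j)) = (∏ j, A j) * nF x := fun A hA x hx => by
    rw [Finset.sum_add_distrib, Real.exp_add, exp_sum_lg hx, Real.exp_sum]
    simp only [Real.exp_log (hA _)]
  have hsum : ∀ (A : Pl F → ℝ), (∀ j, 0 < A j) → ∀ (σ c : ℝ) (y : F), y ≠ 0 →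
      (∏ j, A j) ^ (-σ) * (c * nF y ^ (-σ)) =
        c * Real.exp (∑ j, (Real.log (A j) + lg y j)) ^ (-σ) := by
    intro A hA σ c y hy
    rw [hexp A hA _ hy, Real.mul_rpow (Finset.prod_pos fun j _ => hA j).le (nF_pos hy).le]
    ring
  have key := transfer_torus (G := U) (l := fun u => lg ((u : Fˣ) : F))
    (fun g g' => by
      rw [Subgroup.coe_mul, Units.val_mul, lg_mul (g : Fˣ).ne_zero (g' : Fˣ).ne_zero])
    (fun g => Real.exp_injective (by
      rw [exp_sum_lg (g : Fˣ).ne_zero, nF_unit hU g.2, Real.exp_zero]))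
    (finite_units hU) (a := fun i => a (e i)) (p := fun i j => Real.log (A j) + lg (e i) j)
    (b := fun k => b (e' k)) (q := fun k j => Real.log (B j) + lg (e' k) j)
    (fun σ hσ => ((ha σ hσ).mul_left _).congr fun i => hsum A hA σ _ _ (he.ne i))
    (fun σ hσ => ((hb σ hσ).mul_left _).congr fun i => hsum B hB σ _ _ (he'.ne i))
    (ω := ω) (fun x => ?_) (mul_pos hPA hX) s
  · simp only [hexp A hA _ (he.ne _), hexp B hB _ (he'.ne _), mul_div_mul_left _ _ hPA.ne'] at key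
    rw [key]
    congr 1
    refine tsum_congr fun k => ?_
    congr 2
    ring
  have h1 := h (fun j => Real.exp (x j)) fun j => Real.exp_pos _
  rw [he.tsum_eq, he'.tsum_eq, ← Real.exp_sum, ← ofReal_inv, ← Real.exp_neg] at h1
  have e1 : ∀ (A : Pl F → ℝ), (∀ j, 0 < A j) → ∀ (y : F) (u : Fˣ) (x : Pl F → ℝ), y ≠ 0 →
      PU ((fun j => Real.log (A j) + lg y j) + lg (u : F) + x) =
        ∏ j, (U1 (A j * ‖em ((u : F) * y) j‖ ^ 2 * Real.exp (x j)) : ℂ) := by
    intro A hA y u x hy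
    refine Finset.prod_congr rfl fun j _ => ?_
    simp only [Pi.add_apply, Real.exp_add, Real.exp_log (hA _), exp_lg hy, exp_lg u.ne_zero,
      em_mul, norm_mul, mul_pow]
    congr 2
    ring
  simp only [fT, e1 A hA _ _ _ (he.ne _), e1 B hB _ _ _ (he'.ne _), Pi.neg_apply, Real.exp_neg (x _),
    ← div_eq_mul_inv]
  exact h1

end field

end Crest.Agent.T27.Mel
end
end

-- ▼ part T27/MelC_71

/-!
# Row 27, reflection, Mellin part C (helper71): convergence of sums over representatives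

* `summable_reps` : `∑ N(x_i)^{-σ} < ∞` (`σ > 1`) for elements of a lattice that are pairwise
  inequivalent modulo the units `≡ 1 mod K`;
* `summable_Sparts` : the same for every `σ > 0` if the `x_i` are `S`-units;
* `transfer_F'` : `transfer_F` with the summability hypotheses discharged.
-/

set_option autoImplicit false

noncomputable section

namespace Crest.Agent.T27.Mel

open scoped ComplexConjugate Topology
open MeasureTheory Complex Filter Set NumberField UniqueFactorizationMonoid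
open Crest.Agent.R17 TH

section ideals

variable {F : Type} [Field F]

/-- The `x i` are pairwise inequivalent modulo the units of `𝒪_F` congruent to `1` modulo `K`. -/
def Ineq {ι : Type*} (K : ℕ) (x : ι → F) : Prop :=
  ∀ u : F, IsIntegral ℤ u → IsIntegral ℤ u⁻¹ → u ≠ 0 → (∃ y, IsIntegral ℤ y ∧ u = 1 + K * y) →
    ∀ i i', u * x i = x i' → i = i'

theorem Ineq.mul {ι : Type*} {K : ℕ} {x : ι → F} (h : Ineq K x) {c : F} (hc : c ≠ 0) :
    Ineq K fun i => c * x i := fun u h1 h2 h3 h4 i i' h5 =>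
  h u h1 h2 h3 h4 i i' (mul_left_cancel₀ hc ((mul_left_comm _ _ _).trans h5))

variable [NumberField F]

theorem summable_of_ideal {ι : Type*} {K : ℕ} (hK : K ≠ 0) {y : ι → 𝓞 F}
    (hin : Ineq K fun i => (y i : F)) {g : Ideal (𝓞 F) → ℝ} (hg0 : ∀ I, 0 ≤ g I)
    (hg : Summable g) : Summable fun i => g (Ideal.span {y i}) := by
  classical
  have h1 : ∀ i, ∃ a, Ideal.span {a} = Ideal.span {y i} := fun i => ⟨y i, rfl⟩
  set gen : Ideal (𝓞 F) → 𝓞 F := fun I => if h : ∃ a, Ideal.span {a} = I then h.choose else 0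
    with hgen
  have h2 : ∀ i, ∃ u : (𝓞 F)ˣ, gen (Ideal.span {y i}) * u = y i := fun i => by
    have : Ideal.span {gen (Ideal.span {y i})} = Ideal.span {y i} := by
      simp only [hgen]
      rw [dif_pos (h1 i)]
      exact (h1 i).choose_spec
    exact Ideal.span_singleton_eq_span_singleton.1 this
  choose u hu using h2
  have hKne : Ideal.span {(K : 𝓞 F)} ≠ ⊥ := by
    rw [Ne, Ideal.span_singleton_eq_bot]
    exact_mod_cast hK
  have : Finite (𝓞 F ⧸ Ideal.span {(K : 𝓞 F)}) := Ideal.finiteQuotientOfFreeOfNeBot _ hKne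
  have hinj : Function.Injective fun i =>
      (Ideal.span {y i}, Ideal.Quotient.mk (Ideal.span {(K : 𝓞 F)}) (u i : 𝓞 F)) := by
    intro i i' h
    obtain ⟨e1, e2⟩ := Prod.ext_iff.1 h
    simp only at e1 e2
    obtain ⟨z, hz⟩ := Ideal.mem_span_singleton'.1 (Ideal.Quotient.eq.1 e2.symm)
    set v : (𝓞 F)ˣ := u i' * (u i)⁻¹ with hv
    have hv1 : ((v : 𝓞 F) : F) * ((v⁻¹ : (𝓞 F)ˣ) : 𝓞 F) = 1 := by
      have := congrArg (algebraMap (𝓞 F) F) v.mul_inv
      rwa [map_mul, map_one] at this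
    refine hin ((v : 𝓞 F) : F) (v : 𝓞 F).isIntegral_coe ?_ (left_ne_zero_of_mul_eq_one hv1)
      ⟨((z * ((u i)⁻¹ : (𝓞 F)ˣ) : 𝓞 F) : F), RingOfIntegers.isIntegral_coe _, ?_⟩ i i' ?_
    · rw [← eq_inv_of_mul_eq_one_right hv1]
      exact RingOfIntegers.isIntegral_coe _
    · have : (v : 𝓞 F) = 1 + K * (z * ((u i)⁻¹ : (𝓞 F)ˣ)) := by
        have h3 : (u i' : 𝓞 F) = u i + z * K := by rw [hz]; ring
        rw [hv, Units.val_mul, h3, add_mul, Units.mul_inv]
        ring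
      rw [this]
      push_cast
      rfl
    · have : (v : 𝓞 F) * y i = y i' := by
        conv_lhs => rw [← hu i]
        conv_rhs => rw [← hu i', ← e1]
        rw [hv, Units.val_mul, mul_mul_mul_comm, Units.inv_mul, mul_one, mul_comm]
      have := congrArg (algebraMap (𝓞 F) F) this
      rwa [map_mul] at this
  have h3 : Summable fun p : Ideal (𝓞 F) × (𝓞 F ⧸ Ideal.span {(K : 𝓞 F)}) => g p.1 * (1 : ℝ) :=
    hg.mul_of_nonneg (g := fun _ => (1 : ℝ)) Summable.of_finite hg0 fun _ => zero_le_one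
  simpa only [Function.comp_def, mul_one] using h3.comp_injective hinj

theorem summable_pi_geometric {S : Type*} [Fintype S] {r : ℝ} (h0 : 0 ≤ r) (h1 : r < 1) :
    Summable fun e : S → ℕ => ∏ P, r ^ e P := by
  classical
  refine summable_of_sum_le (fun e => by positivity) (c := ∏ _P : S, (1 - r)⁻¹) fun T => ?_
  obtain ⟨n, hn⟩ : ∃ n, ∀ e ∈ T, ∀ P, e P < n :=
    ⟨T.sup (fun e => Finset.univ.sup e) + 1, fun e he P => Nat.lt_succ_of_le
      ((Finset.le_sup (f := e) (Finset.mem_univ P)).trans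
        (Finset.le_sup (f := fun e => Finset.univ.sup e) he))⟩
  calc ∑ e ∈ T, ∏ P, r ^ e P ≤ ∑ e ∈ Fintype.piFinset fun _ : S => Finset.range n, ∏ P, r ^ e P :=
        Finset.sum_le_sum_of_subset_of_nonneg
          (fun e he => Fintype.mem_piFinset.2 fun P => Finset.mem_range.2 (hn e he P))
          fun _ _ _ => by positivity
    _ = ∏ _P : S, ∑ k ∈ Finset.range n, r ^ k := (Finset.prod_univ_sum _ fun _ k => r ^ k).symm
    _ ≤ ∏ _P : S, (1 - r)⁻¹ := by
        refine Finset.prod_le_prod (fun _ _ => by positivity) fun _ _ => ?_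
        rw [← tsum_geometric_of_lt_one h0 h1]
        exact (summable_geometric_of_lt_one h0 h1).sum_le_tsum _ fun _ _ => by positivity

/-- Ideals dividing a power of a fixed ideal. -/
theorem summable_ideal_S {J : Ideal (𝓞 F)} (hJ : J ≠ ⊥) {ε : ℝ} (hε : 0 < ε) :
    Summable ({I : Ideal (𝓞 F) | ∃ k : ℕ, I ∣ J ^ k}.indicator
      fun I => (Ideal.absNorm I : ℝ) ^ (-ε)) := by
  classical
  rw [← summable_subtype_iff_indicator]
  set S := (normalizedFactors J).toFinset with hS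
  have hne : ∀ I : {I : Ideal (𝓞 F) | ∃ k : ℕ, I ∣ J ^ k}, (I : Ideal (𝓞 F)) ≠ ⊥ := by
    rintro ⟨I, k, hk⟩ h
    exact pow_ne_zero k hJ (zero_dvd_iff.1 (by simpa only [show I = 0 from h] using hk))
  have hsub : ∀ I : {I : Ideal (𝓞 F) | ∃ k : ℕ, I ∣ J ^ k},
      ∀ P ∈ normalizedFactors (I : Ideal (𝓞 F)), P ∈ S := by
    intro I P hP
    obtain ⟨k, hk⟩ := I.2
    have h1 := (dvd_iff_normalizedFactors_le_normalizedFactors (hne I) (pow_ne_zero k hJ)).1 hk
    rw [normalizedFactors_pow] at h1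
    exact Multiset.mem_toFinset.2 (Multiset.mem_of_mem_nsmul (Multiset.mem_of_le h1 hP))
  set e : {I : Ideal (𝓞 F) | ∃ k : ℕ, I ∣ J ^ k} → (S → ℕ) :=
    fun I P => (normalizedFactors (I : Ideal (𝓞 F))).count (P : Ideal (𝓞 F)) with he
  have hinj : Function.Injective e := by
    intro I I' h
    have : normalizedFactors (I : Ideal (𝓞 F)) = normalizedFactors (I' : Ideal (𝓞 F)) := by
      ext P
      by_cases hP : P ∈ S
      · exact congrFun h ⟨P, hP⟩
      · rw [Multiset.count_eq_zero.2 fun h => hP (hsub I P h),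
          Multiset.count_eq_zero.2 fun h => hP (hsub I' P h)]
    refine Subtype.ext ?_
    rw [← Ideal.prod_normalizedFactors_eq_self (hne I), this,
      Ideal.prod_normalizedFactors_eq_self (hne I')]
  have hr0 : (0 : ℝ) ≤ (2 : ℝ) ^ (-ε) := by positivity
  have hr1 : (2 : ℝ) ^ (-ε) < 1 := Real.rpow_lt_one_of_one_lt_of_neg one_lt_two (by linarith)
  refine Summable.of_nonneg_of_le (fun I => by simp only [Function.comp_apply]; positivity)
    (fun I => ?_) ((summable_pi_geometric (S := S) hr0 hr1).comp_injective hinj)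
  simp only [Function.comp_apply]
  have h1 : 2 ^ Multiset.card (normalizedFactors (I : Ideal (𝓞 F))) ≤
      Ideal.absNorm (I : Ideal (𝓞 F)) := by
    conv_rhs => rw [← Ideal.prod_normalizedFactors_eq_self (hne I), map_multiset_prod]
    rw [← Multiset.card_map Ideal.absNorm]
    refine Multiset.pow_card_le_prod fun n hn => ?_
    obtain ⟨P, hP, rfl⟩ := Multiset.mem_map.1 hn
    have hp := prime_of_normalized_factor P hP
    have a0 : Ideal.absNorm P ≠ 0 := fun h => hp.ne_zero (Ideal.absNorm_eq_zero_iff.1 h)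
    have a1 : Ideal.absNorm P ≠ 1 := fun h =>
      hp.not_isUnit (Ideal.isUnit_iff.2 (Ideal.absNorm_eq_one_iff.1 h))
    omega
  have h2 : ∑ P : S, e I P = Multiset.card (normalizedFactors (I : Ideal (𝓞 F))) := by
    rw [← Multiset.sum_count_eq_card (hsub I), ← Finset.sum_coe_sort S]
  rw [Finset.prod_pow_eq_pow_sum, h2, ← Real.rpow_natCast, ← Real.rpow_mul zero_le_two, mul_comm,
    Real.rpow_mul zero_le_two, Real.rpow_natCast]
  exact Real.rpow_le_rpow_of_nonpos (by positivity) (by exact_mod_cast h1) (by linarith)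

variable [Emb F]

theorem nF_coe (y : 𝓞 F) : nF (y : F) = (Ideal.absNorm (Ideal.span {y}) : ℝ) := by
  rw [nF_eq_norm, Ideal.absNorm_span_singleton, Nat.cast_natAbs, ← Algebra.coe_norm_int]
  push_cast
  rfl

theorem summable_aux {ι : Type*} {M K : ℕ} (hM : M ≠ 0) (hK : K ≠ 0) {x : ι → F} {y : ι → 𝓞 F}
    (hy : ∀ i, (y i : F) = (M : F) * x i) (hin : Ineq K x) {σ : ℝ} {T : Set (Ideal (𝓞 F))}
    (hT : ∀ i, Ideal.span {y i} ∈ T)
    (hs : Summable (T.indicator fun I => (Ideal.absNorm I : ℝ) ^ (-σ))) :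
    Summable fun i => nF (x i) ^ (-σ) := by
  have hM' : (M : F) ≠ 0 := by exact_mod_cast hM
  have h1 := summable_of_ideal hK (y := y) (by simpa only [hy] using hin.mul hM')
    (fun I => Set.indicator_nonneg (fun _ _ => by positivity) I) hs
  refine (h1.mul_left (nF (M : F) ^ σ)).congr fun i => ?_
  have h0 : 0 ≤ nF (x i) := Finset.prod_nonneg fun j _ => by positivity
  rw [Set.indicator_of_mem (hT i), ← nF_coe, hy, nF_mul, Real.mul_rpow (nF_pos hM').le h0,
    ← mul_assoc, ← Real.rpow_add (nF_pos hM'), add_neg_cancel, Real.rpow_zero, one_mul]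

omit [NumberField F] [Emb F] in
theorem exists_int {x : F} (h : IsIntegral ℤ x) : ∃ y : 𝓞 F, (y : F) = x := ⟨⟨x, h⟩, rfl⟩

/-- Convergence of Dirichlet series over representatives. -/
theorem summable_reps {ι : Type*} {M K : ℕ} (hM : M ≠ 0) (hK : K ≠ 0) {x : ι → F}
    (hx : ∀ i, IsIntegral ℤ ((M : F) * x i)) (hin : Ineq K x) {σ : ℝ} (hσ : 1 < σ) :
    Summable fun i => nF (x i) ^ (-σ) := by
  choose y hy using fun i => exists_int (hx i)
  exact summable_aux hM hK hy hin (T := univ) (fun _ => mem_univ _)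
    (by rw [Set.indicator_univ]; exact HeckeD87.summable_ideal hσ)

theorem le_nF {M : ℕ} (hM : M ≠ 0) {x : F} (h0 : x ≠ 0) (hx : IsIntegral ℤ ((M : F) * x)) :
    (nF (M : F))⁻¹ ≤ nF x := by
  have hM' : (M : F) ≠ 0 := by exact_mod_cast hM
  have := one_le_nF (mul_ne_zero hM' h0) hx
  rw [nF_mul] at this
  rw [inv_le_iff_one_le_mul₀' (nF_pos hM')]
  exact this

/-- Convergence of Dirichlet series over `S`-units with bounded denominators. -/
theorem summable_Sparts {ι : Type*} {M K : ℕ} (hM : M ≠ 0) (hK : K ≠ 0) {x : ι → F}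
    (h0 : ∀ i, x i ≠ 0) (hx : ∀ i, IsIntegral ℤ ((M : F) * x i))
    (hd : ∀ i, ∃ k : ℕ, IsIntegral ℤ ((M : F) ^ k / x i)) (hin : Ineq K x) :
    (∃ c₀ : ℝ, 0 < c₀ ∧ ∀ i, c₀ ≤ nF (x i)) ∧
      ∀ ε : ℝ, 0 < ε → Summable fun i => nF (x i) ^ (-ε) := by
  have hM' : (M : F) ≠ 0 := by exact_mod_cast hM
  refine ⟨⟨_, inv_pos.2 (nF_pos hM'), fun i => le_nF hM (h0 i) (hx i)⟩, fun ε hε => ?_⟩
  have hJ : Ideal.span {(M : 𝓞 F)} ≠ ⊥ := by
    rw [Ne, Ideal.span_singleton_eq_bot]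
    exact_mod_cast hM
  choose y hy using fun i => exists_int (hx i)
  refine summable_aux hM hK hy hin (fun i => ?_) (summable_ideal_S hJ hε)
  obtain ⟨k, hk⟩ := hd i
  obtain ⟨z, hz⟩ := exists_int hk
  refine ⟨k + 1, ?_⟩
  rw [Ideal.span_singleton_pow, Ideal.dvd_span_singleton, Ideal.mem_span_singleton]
  refine ⟨z, RingOfIntegers.ext ?_⟩
  have := h0 i
  have e : ((y i * z : 𝓞 F) : F) = (y i : F) * z := map_mul (algebraMap (𝓞 F) F) _ _
  have e' : (((M : 𝓞 F) ^ (k + 1) : 𝓞 F) : F) = (M : F) ^ (k + 1) := by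
    simp only [map_pow, map_natCast]
  rw [e, e', hy, hz]
  field_simp
  ring

end ideals

variable {F : Type} [Field F] [NumberField F] [Emb F]

omit [NumberField F] [Emb F] in
theorem Reps.ineq {ι : Type*} {U : Subgroup Fˣ} {a : F → ℂ} {e : ι → F} (h : Reps U a e) {K : ℕ}
    (hK : ∀ u : Fˣ, IsIntegral ℤ (u : F) → IsIntegral ℤ (u : F)⁻¹ →
      (∃ y, IsIntegral ℤ y ∧ (u : F) = 1 + K * y) → u ∈ U) : Ineq K e :=
  fun u h1 h2 h3 h4 i i' h5 => h.inj (Units.mk0 u h3) (hK _ h1 h2 h4) i i' h5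

/-- Absolute convergence over representatives for coefficients of moderate growth. -/
theorem summable_coef {ι : Type*} {M K : ℕ} (hM : M ≠ 0) (hK : K ≠ 0) {a : F → ℂ} {e : ι → F}
    (h0 : ∀ i, e i ≠ 0) (hin : Ineq K e) (hs : ∀ x, a x ≠ 0 → IsIntegral ℤ ((M : F) * x)) {C : ℝ}
    (hb : ∀ x, x ≠ 0 → ‖a x‖ ≤ C * (1 + nF x)) {σ : ℝ} (hσ : 2 < σ) :
    Summable fun i => ‖a (e i)‖ * nF (e i) ^ (-σ) := by
  obtain ⟨T, hT⟩ : ∃ T : Set ι, ∀ i, i ∈ T ↔ a (e i) ≠ 0 := ⟨{i | a (e i) ≠ 0}, fun _ => Iff.rfl⟩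
  have h1 : Summable ((fun i => ‖a (e i)‖ * nF (e i) ^ (-σ)) ∘ ((↑) : T → ι)) := by
    have hin' : Ineq K fun i : T => e i := fun u h1 h2 h3 h4 i i' h5 =>
      Subtype.ext (hin u h1 h2 h3 h4 _ _ h5)
    have hx : ∀ i : T, IsIntegral ℤ ((M : F) * e i) := fun i => hs _ ((hT _).1 i.2)
    have s1 := summable_reps hM hK hx hin' (σ := σ) (by linarith)
    have s2 := summable_reps hM hK hx hin' (σ := σ - 1) (by linarith)
    refine Summable.of_nonneg_of_le (fun i => mul_nonneg (norm_nonneg _)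
      (Real.rpow_nonneg (nF_pos (h0 i)).le _)) (fun i => ?_) ((s1.add s2).mul_left C)
    have hp := nF_pos (h0 i)
    refine (mul_le_mul_of_nonneg_right (hb _ (h0 i)) (Real.rpow_nonneg hp.le _)).trans (le_of_eq ?_)
    rw [show -(σ - 1) = 1 + -σ by ring, Real.rpow_add hp, Real.rpow_one]
    ring
  refine (summable_subtype_iff_indicator.1 h1).congr fun i => ?_
  by_cases h : i ∈ T
  · rw [Set.indicator_of_mem h]
  · rw [Set.indicator_of_notMem h, not_not.1 (mt (hT i).2 h), norm_zero, zero_mul]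

/-- **Mellin transfer over a number field**, for coefficients of moderate growth supported in a
lattice and a group `U` of units containing a congruence subgroup. -/
theorem transfer_F' {U : Subgroup Fˣ} (hU : ∀ u ∈ U, IsIntegral ℤ (u : F)) {K : ℕ} (hK0 : K ≠ 0)
    (hK : ∀ u : Fˣ, IsIntegral ℤ (u : F) → IsIntegral ℤ (u : F)⁻¹ →
      (∃ y, IsIntegral ℤ y ∧ (u : F) = 1 + K * y) → u ∈ U) {ι κ : Type*}
    {a b : F → ℂ} {e : ι → F} {e' : κ → F} (he : Reps U a e) (he' : Reps U b e')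
    {M : ℕ} (hM : M ≠ 0) (hsa : ∀ x, a x ≠ 0 → IsIntegral ℤ ((M : F) * x))
    (hsb : ∀ x, b x ≠ 0 → IsIntegral ℤ ((M : F) * x)) {C : ℝ}
    (ha : ∀ x, x ≠ 0 → ‖a x‖ ≤ C * (1 + nF x)) (hb : ∀ x, x ≠ 0 → ‖b x‖ ≤ C * (1 + nF x))
    {A B : Pl F → ℝ} (hA : ∀ j, 0 < A j) (hB : ∀ j, 0 < B j) {ω : ℂ}
    (h : ∀ x : Pl F → ℝ, (∀ j, 0 < x j) →
      ∑' ρ : F, a ρ * ∏ j, (U1 (A j * ‖em ρ j‖ ^ 2 * x j) : ℂ) =
        ω * ((∏ j, x j : ℝ) : ℂ)⁻¹ * ∑' ν : F, b ν * ∏ j, (U1 (B j * ‖em ν j‖ ^ 2 / x j) : ℂ))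
    {X : ℝ} (hX : 0 < X) (s : ℂ) :
    ∑' i, a (e i) * R17.Wc (nF (e i) / X) s = ω * (((∏ j, A j) * X : ℝ) : ℂ) *
      ∑' k, b (e' k) * VR (Fintype.card (Pl F)) ((∏ j, A j) * (∏ j, B j) * X * nF (e' k)) s :=
  transfer_F hU he he'
    (fun _ hσ => summable_coef hM hK0 he.ne (he.ineq hK) hsa ha (by linarith))
    (fun _ hσ => summable_coef hM hK0 he'.ne (he'.ineq hK) hsb hb (by linarith)) hA hB h hX s

end Crest.Agent.T27.Mel
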