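import Crest.Agent.T27.RecDefs_64

/-!
# Row 27, sextic reciprocity by a Euclidean algorithm on polynomials, part 1

General properties of the symbol `zm`: transport along additive isomorphisms, the symbol
`zz ζ a b c` on `A / (b, c)`, independence of the lattice, and the case of a finite base field.
-/

set_option autoImplicit false

noncomputable section

namespace Crest.Agent.T27.Mn

open Rc Polynomial

theorem zm_equiv {S S' Q Q' : Type*} [CommRing S] [CommRing S'] [AddCommGroup Q] [Module S Q]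
    [AddCommGroup Q'] [Module S' Q'] [Finite Q] {ζ a : S} {ζ' a' : S'}
    (hζ : ζ ^ 2 - ζ + 1 = 0) (h6 : IsUnit (6 : S)) (hζ' : ζ' ^ 2 - ζ' + 1 = 0)
    (h6' : IsUnit (6 : S')) (e : Q ≃+ Q') (h1 : ∀ q, e (ζ • q) = ζ' • e q)
    (h2 : ∀ q, e (a • q) = a' • e q) (ha : ∀ q : Q, a • q = 0 → q = 0) :
    zm ζ a Q = zm ζ' a' Q' := by
  classical
  have : Finite Q' := Finite.of_equiv Q e.toEquiv
  cases nonempty_fintype Q
  cases nonempty_fintype Q'
  have ha' : ∀ q : Q', a' • q = 0 → q = 0 := fun q h => by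
    obtain ⟨q, rfl⟩ := e.surjective q
    rw [← h2, e.map_eq_zero_iff] at h
    rw [ha q h, map_zero]
  have hs' := isSec_sec (Q := Q') hζ' h6'
  have hs : IsSec ζ Q fun q => sec ζ' Q' (e q) := fun q hq => by
    show sec ζ' Q' (e (ζ • q)) = _
    rw [h1]
    exact hs' _ fun h => hq (e.map_eq_zero_iff.1 h)
  rw [zm_eq hζ h6 ha hs, zm_eq hζ' h6' ha' hs']
  refine Fintype.sum_equiv e.toEquiv _ _ fun q => ?_
  simp [h2]

theorem map_zeta {A C : Type*} [CommRing A] [CommRing C] (ψ : A →+* C) {ζ : A}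
    (hζ : ζ ^ 2 - ζ + 1 = 0) : ψ ζ ^ 2 - ψ ζ + 1 = 0 := by
  simpa using congrArg ψ hζ

theorem map_six {A C : Type*} [CommRing A] [CommRing C] (ψ : A →+* C) (h6 : IsUnit (6 : A)) :
    IsUnit (6 : C) := by
  simpa [map_ofNat] using h6.map ψ

theorem smul_inj {A : Type*} [CommRing A] {I : Ideal A} {a : A} (h : ∀ x, a * x ∈ I → x ∈ I)
    (q : A ⧸ I) (hq : a • q = 0) : q = 0 := by
  obtain ⟨x, rfl⟩ := Ideal.Quotient.mk_surjective q
  have h1 : Ideal.Quotient.mk I (a * x) = 0 := hq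
  rw [Ideal.Quotient.eq_zero_iff_mem] at h1 ⊢
  exact h x h1

theorem finite_quot {A C : Type*} [CommRing A] [CommRing C] (ψ : A →+* C) {I : Ideal A}
    {J : Ideal C} (hI : ∀ x, ψ x ∈ J → x ∈ I) [Finite (C ⧸ J)] : Finite (A ⧸ I) := by
  have h1 : Finite (A ⧸ J.comap ψ) :=
    Finite.of_injective _ (Ideal.quotientMap_injective (I := J) (f := ψ))
  exact Finite.of_surjective _ (Ideal.Quotient.factor_surjective (S := J.comap ψ) (T := I) hI)

/-- transport along a ring homomorphism which induces an isomorphism of the quotients -/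
theorem zm_hom {A C : Type*} [CommRing A] [CommRing C] (ψ : A →+* C) {I : Ideal A} {J : Ideal C}
    (hI : ∀ x, x ∈ I ↔ ψ x ∈ J) (hs : ∀ c, ∃ x, c - ψ x ∈ J) [Finite (C ⧸ J)] {ζ a : A}
    (hζ : ζ ^ 2 - ζ + 1 = 0) (h6 : IsUnit (6 : A)) (ha : ∀ x, a * x ∈ I → x ∈ I) :
    zm ζ a (A ⧸ I) = zm (ψ ζ) (ψ a) (C ⧸ J) := by
  have hle : I ≤ J.comap ψ := fun x hx => (hI x).1 hx
  have : Finite (A ⧸ I) := finite_quot ψ fun x hx => (hI x).2 hx
  have hb : Function.Bijective (Ideal.quotientMap J ψ hle) := by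
    refine ⟨Ideal.quotientMap_injective' fun x hx => (hI x).2 hx, fun c => ?_⟩
    obtain ⟨c, rfl⟩ := Ideal.Quotient.mk_surjective c
    obtain ⟨x, hx⟩ := hs c
    exact ⟨Ideal.Quotient.mk I x, by
      rw [Ideal.quotientMap_mk, eq_comm, Ideal.Quotient.eq]; exact hx⟩
  have key : ∀ (b : A) (q : A ⧸ I), (RingEquiv.ofBijective _ hb).toAddEquiv (b • q) =
      ψ b • (RingEquiv.ofBijective _ hb).toAddEquiv q := fun b q => by
    obtain ⟨x, rfl⟩ := Ideal.Quotient.mk_surjective q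
    show Ideal.quotientMap J ψ hle (Ideal.Quotient.mk I (b * x)) =
      ψ b • Ideal.quotientMap J ψ hle (Ideal.Quotient.mk I x)
    rw [Ideal.quotientMap_mk, Ideal.quotientMap_mk, map_mul]
    rfl
  exact zm_equiv hζ h6 (map_zeta ψ hζ) (map_six ψ h6) _ (key ζ) (key a) (smul_inj ha)

section zz
variable {A : Type*} [CommRing A]

/-- the symbol of `a` on `A / (b, c)` -/
def zz (ζ a b c : A) : ZMod 6 := zm ζ a (A ⧸ Ideal.span {b, c})

/-- `a`, `b`, `c` generate the unit ideal -/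
def Un (a b c : A) : Prop := ∃ u v w : A, u * a + v * b + w * c = 1

theorem Un.canc {a b c : A} (h : Un a b c) (x : A) (hx : a * x ∈ Ideal.span {b, c}) :
    x ∈ Ideal.span ({b, c} : Set A) := by
  obtain ⟨u, v, w, h⟩ := h
  obtain ⟨s, t, hst⟩ := Ideal.mem_span_pair.1 hx
  exact Ideal.mem_span_pair.2 ⟨u * s + v * x, u * t + w * x, by
    linear_combination u * hst + x * h⟩

theorem Un.swap₁ {a b c : A} (h : Un a b c) : Un b a c := by
  obtain ⟨u, v, w, h⟩ := h
  exact ⟨v, u, w, by linear_combination h⟩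

theorem Un.swap₂ {a b c : A} (h : Un a b c) : Un a c b := by
  obtain ⟨u, v, w, h⟩ := h
  exact ⟨u, w, v, by linear_combination h⟩

theorem zz_comm (ζ a b c : A) : zz ζ a b c = zz ζ a c b := by
  rw [zz, zz, Set.pair_comm]

theorem span_add (b c r : A) : Ideal.span ({b, c + r * b} : Set A) = Ideal.span {b, c} := by
  ext x
  simp only [Ideal.mem_span_pair]
  exact ⟨fun ⟨s, t, h⟩ => ⟨s + t * r, t, by linear_combination h⟩,
    fun ⟨s, t, h⟩ => ⟨s - t * r, t, by linear_combination h⟩⟩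

theorem zz_add (ζ a b c r : A) : zz ζ a b (c + r * b) = zz ζ a b c := by
  rw [zz, zz, span_add]

theorem zz_congr (ζ a b c r : A) : zz ζ (a + r * b) b c = zz ζ a b c :=
  zm_congr ζ fun q => by
    obtain ⟨x, rfl⟩ := Ideal.Quotient.mk_surjective q
    show Ideal.Quotient.mk _ ((a + r * b) * x) = Ideal.Quotient.mk _ (a * x)
    rw [Ideal.Quotient.eq]
    exact Ideal.mem_span_pair.2 ⟨r * x, 0, by ring⟩

theorem zz_one (ζ a c : A) : zz ζ a 1 c = 0 := by
  have : Subsingleton (A ⧸ Ideal.span ({1, c} : Set A)) :=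
    Ideal.Quotient.subsingleton_iff.2 ((Ideal.eq_top_iff_one _).2
      (Ideal.mem_span_pair.2 ⟨1, 0, by ring⟩))
  exact zm_subsingleton ζ a

variable {ζ : A}


theorem zz_mul_right (hζ : ζ ^ 2 - ζ + 1 = 0) (h6 : IsUnit (6 : A)) {a b c c' : A}
    (hc : ∀ x, b ∣ c * x → b ∣ x) [Finite (A ⧸ Ideal.span ({b, c * c'} : Set A))]
    (h : Un a b (c * c')) : zz ζ a b (c * c') = zz ζ a b c + zz ζ a b c' := by
  let i : (A ⧸ Ideal.span ({b, c'} : Set A)) →ₗ[A] A ⧸ Ideal.span ({b, c * c'} : Set A) :=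
    Submodule.mapQ _ _ (LinearMap.mulLeft A c) fun x hx => by
      obtain ⟨s, t, rfl⟩ := Ideal.mem_span_pair.1 hx
      exact Ideal.mem_span_pair.2 ⟨c * s, t, by simp only [LinearMap.mulLeft_apply]; ring⟩
  let p : (A ⧸ Ideal.span ({b, c * c'} : Set A)) →ₗ[A] A ⧸ Ideal.span ({b, c} : Set A) :=
    Submodule.mapQ _ _ LinearMap.id fun x hx => by
      obtain ⟨s, t, rfl⟩ := Ideal.mem_span_pair.1 hx
      exact Ideal.mem_span_pair.2 ⟨s, t * c', by
        show _ = s * b + t * (c * c')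
        ring⟩
  have hi : ∀ x, i (Ideal.Quotient.mk _ x) = Ideal.Quotient.mk _ (c * x) := fun _ => rfl
  have hp : ∀ x, p (Ideal.Quotient.mk _ x) = Ideal.Quotient.mk _ x := fun _ => rfl
  rw [add_comm]
  refine zm_exact hζ h6 i p ((injective_iff_map_eq_zero _).2 fun q hq => ?_) (fun q => ?_)
    (fun q => ?_) (smul_inj h.canc)
  · obtain ⟨x, rfl⟩ := Ideal.Quotient.mk_surjective q
    rw [hi, Ideal.Quotient.eq_zero_iff_mem, Ideal.mem_span_pair] at hq
    obtain ⟨s, t, hst⟩ := hq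
    obtain ⟨k, hk⟩ := hc (x - t * c') ⟨s, by linear_combination -hst⟩
    rw [Ideal.Quotient.eq_zero_iff_mem, Ideal.mem_span_pair]
    exact ⟨k, t, by linear_combination -hk⟩
  · obtain ⟨x, rfl⟩ := Ideal.Quotient.mk_surjective q
    exact ⟨_, hp x⟩
  · obtain ⟨x, rfl⟩ := Ideal.Quotient.mk_surjective q
    rw [hp, Ideal.Quotient.eq_zero_iff_mem, Ideal.mem_span_pair]
    constructor
    · rintro ⟨s, t, rfl⟩
      refine ⟨Ideal.Quotient.mk _ t, ?_⟩
      rw [hi, Ideal.Quotient.eq, Ideal.mem_span_pair]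
      exact ⟨-s, 0, by ring⟩
    · rintro ⟨q, hq⟩
      obtain ⟨y, rfl⟩ := Ideal.Quotient.mk_surjective q
      rw [hi, Ideal.Quotient.eq, Ideal.mem_span_pair] at hq
      obtain ⟨s, t, hst⟩ := hq
      exact ⟨-s, y - t * c', by linear_combination -hst⟩

end zz

/-- independence of the lattice: `ψ` induces an injection of `A / (Q)` in the domain `S`, and an
element `δ ≡ 1 (mod f)` multiplies `S` into the image. -/
theorem zz_lattice {A S : Type*} [CommRing A] [CommRing S] [IsDomain S] (ψ : A →+* S) {ζ : A}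
    (hζ : ζ ^ 2 - ζ + 1 = 0) (h6 : IsUnit (6 : A)) {Q f g e : A} (hQ : ∀ x, ψ x = 0 ↔ Q ∣ x)
    (hδ : ∀ s, ∃ x, ψ (1 + f * e) * s = ψ x) (hg : ψ g ≠ 0)
    [Finite (S ⧸ Ideal.span {ψ g * ψ (1 + f * e)})] (h : Un f Q g) :
    zz ζ f Q g = zs (ψ ζ) (ψ f) (ψ g) := by
  let _ : Algebra A S := ψ.toAlgebra
  have hsm : ∀ (a : A) (s : S), a • s = ψ a * s := fun _ _ => rfl
  let L : Submodule A S := LinearMap.range (Algebra.linearMap A S)
  let N : Submodule A S := L.map (LinearMap.mulLeft A (ψ g))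
  have hL : ∀ s, s ∈ L ↔ ∃ x, ψ x = s := fun _ => Iff.rfl
  have hN : ∀ s, s ∈ N ↔ ∃ x, ψ g * ψ x = s := fun s =>
    ⟨fun ⟨_, ⟨x, rfl⟩, h⟩ => ⟨x, h⟩, fun ⟨x, h⟩ => ⟨_, ⟨x, rfl⟩, h⟩⟩
  have hQ0 : ψ Q = 0 := (hQ Q).2 dvd_rfl
  have hker : ∀ x, ψ x ∈ N ↔ x ∈ Ideal.span ({Q, g} : Set A) := fun x => by
    rw [hN, Ideal.mem_span_pair]
    constructor
    · rintro ⟨y, hy⟩
      obtain ⟨k, hk⟩ := (hQ (x - g * y)).1 (by rw [map_sub, map_mul, hy, sub_self])
      exact ⟨k, y, by linear_combination -hk⟩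
    · rintro ⟨s, t, rfl⟩
      exact ⟨t, by simp [hQ0, mul_comm]⟩
  have hfin : Finite (S ⧸ N) := by
    refine Finite.of_surjective (α := S ⧸ Ideal.span {ψ g * ψ (1 + f * e)})
      (Quotient.map' id fun a b hab => ?_) fun q => ?_
    · rw [Submodule.quotientRel_def] at hab ⊢
      obtain ⟨c, hc⟩ := Ideal.mem_span_singleton.1 hab
      obtain ⟨x, hx⟩ := hδ c
      exact (hN _).2 ⟨x, by rw [← hx, ← mul_assoc, ← hc]; rfl⟩
    · obtain ⟨s, rfl⟩ := Submodule.Quotient.mk_surjective N q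
      exact ⟨Ideal.Quotient.mk _ s, rfl⟩
  have hinj : ∀ q : S ⧸ N, f • q = 0 → q = 0 := fun q hq => by
    obtain ⟨s, rfl⟩ := Submodule.Quotient.mk_surjective N q
    rw [← Submodule.Quotient.mk_smul, Submodule.Quotient.mk_eq_zero, hsm] at hq
    rw [Submodule.Quotient.mk_eq_zero]
    obtain ⟨y, hy⟩ := (hN _).1 hq
    obtain ⟨x, hx⟩ := hδ s
    have h1 : s = ψ (x - e * g * y) := by
      simp only [map_sub, map_mul, map_add, map_one] at hx ⊢
      linear_combination hx + ψ e * hy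
    rw [h1, ← map_mul, hker] at hq
    rw [h1, hker]
    exact h.canc _ hq
  let i₁ : (A ⧸ Ideal.span ({Q, g} : Set A)) →ₗ[A] S ⧸ N :=
    Submodule.mapQ _ _ (Algebra.linearMap A S) fun x hx => (hker x).2 hx
  let p₁ : (S ⧸ N) →ₗ[A] S ⧸ L := Submodule.mapQ _ _ LinearMap.id fun s hs => by
    obtain ⟨x, rfl⟩ := (hN s).1 hs
    exact ⟨g * x, map_mul ψ g x⟩
  let i₂ : (S ⧸ L) →ₗ[A] S ⧸ N :=
    Submodule.mapQ _ _ (LinearMap.mulLeft A (ψ g)) fun s hs => ⟨s, hs, rfl⟩
  let J : Submodule A S := (Ideal.span {ψ g}).restrictScalars A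
  let p₂ : (S ⧸ N) →ₗ[A] S ⧸ J := Submodule.mapQ _ _ LinearMap.id fun s hs => by
    obtain ⟨x, rfl⟩ := (hN s).1 hs
    exact Ideal.mem_span_singleton.2 ⟨ψ x, rfl⟩
  have hi₁ : ∀ x, i₁ (Ideal.Quotient.mk _ x) = Submodule.Quotient.mk (ψ x) := fun _ => rfl
  have hp₁ : ∀ x, p₁ (Submodule.Quotient.mk x) = Submodule.Quotient.mk x := fun _ => rfl
  have hi₂ : ∀ x, i₂ (Submodule.Quotient.mk x) = Submodule.Quotient.mk (ψ g * x) := fun _ => rfl
  have hp₂ : ∀ x, p₂ (Submodule.Quotient.mk x) = Submodule.Quotient.mk x := fun _ => rfl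
  have e₁ : zm ζ f (S ⧸ N) = zz ζ f Q g + zm ζ f (S ⧸ L) := by
    refine zm_exact hζ h6 i₁ p₁ ((injective_iff_map_eq_zero _).2 fun q hq => ?_) (fun q => ?_)
      (fun q => ?_) hinj
    · obtain ⟨x, rfl⟩ := Ideal.Quotient.mk_surjective q
      rw [hi₁, Submodule.Quotient.mk_eq_zero, hker] at hq
      exact Ideal.Quotient.eq_zero_iff_mem.2 hq
    · obtain ⟨x, rfl⟩ := Submodule.Quotient.mk_surjective L q
      exact ⟨_, hp₁ x⟩
    · obtain ⟨s, rfl⟩ := Submodule.Quotient.mk_surjective N q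
      rw [hp₁, Submodule.Quotient.mk_eq_zero, hL]
      constructor
      · rintro ⟨x, rfl⟩
        exact ⟨_, hi₁ x⟩
      · rintro ⟨q, hq⟩
        obtain ⟨y, rfl⟩ := Ideal.Quotient.mk_surjective q
        rw [hi₁, Submodule.Quotient.eq] at hq
        obtain ⟨x, hx⟩ := (hN _).1 hq
        exact ⟨y - g * x, by rw [map_sub, map_mul, hx]; ring⟩
  have e₂ : zm ζ f (S ⧸ N) = zm ζ f (S ⧸ L) + zm ζ f (S ⧸ J) := by
    refine zm_exact hζ h6 i₂ p₂ ((injective_iff_map_eq_zero _).2 fun q hq => ?_) (fun q => ?_)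
      (fun q => ?_) hinj
    · obtain ⟨s, rfl⟩ := Submodule.Quotient.mk_surjective L q
      rw [hi₂, Submodule.Quotient.mk_eq_zero, hN] at hq
      obtain ⟨x, hx⟩ := hq
      exact (Submodule.Quotient.mk_eq_zero _).2 ⟨x, mul_left_cancel₀ hg hx⟩
    · obtain ⟨x, rfl⟩ := Submodule.Quotient.mk_surjective J q
      exact ⟨_, hp₂ x⟩
    · obtain ⟨s, rfl⟩ := Submodule.Quotient.mk_surjective N q
      rw [hp₂, Submodule.Quotient.mk_eq_zero]
      constructor
      · intro hs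
        obtain ⟨c, rfl⟩ := Ideal.mem_span_singleton.1 hs
        exact ⟨_, hi₂ c⟩
      · rintro ⟨q, hq⟩
        obtain ⟨y, rfl⟩ := Submodule.Quotient.mk_surjective L q
        rw [hi₂, Submodule.Quotient.eq] at hq
        obtain ⟨x, hx⟩ := (hN _).1 hq
        exact Ideal.mem_span_singleton.2 ⟨y - ψ x, by linear_combination hx⟩
  have : Finite (S ⧸ J) := Finite.of_surjective p₂ fun q => by
    obtain ⟨x, rfl⟩ := Submodule.Quotient.mk_surjective J q
    exact ⟨_, hp₂ x⟩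
  have e₃ : zm ζ f (S ⧸ J) = zs (ψ ζ) (ψ f) (ψ g) := by
    have key : ∀ (b : A) (q : S ⧸ J),
        (Submodule.Quotient.restrictScalarsEquiv A (Ideal.span {ψ g})).toAddEquiv (b • q) =
        ψ b • (Submodule.Quotient.restrictScalarsEquiv A (Ideal.span {ψ g})).toAddEquiv q :=
      fun b q => by
        obtain ⟨x, rfl⟩ := Submodule.Quotient.mk_surjective J q
        rfl
    refine zm_equiv hζ h6 (map_zeta ψ hζ) (map_six ψ h6) _ (key ζ) (key f) fun q hq => ?_
    obtain ⟨s, rfl⟩ := Submodule.Quotient.mk_surjective J q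
    rw [← Submodule.Quotient.mk_smul, Submodule.Quotient.mk_eq_zero, hsm] at hq
    rw [Submodule.Quotient.mk_eq_zero]
    obtain ⟨u, v, w, h⟩ := h
    obtain ⟨c, hc⟩ := Ideal.mem_span_singleton.1 hq
    have h1 := congrArg ψ h
    simp only [map_add, map_mul, map_one, hQ0] at h1
    exact Ideal.mem_span_singleton.2 ⟨ψ u * c + ψ w * s, by
      linear_combination (-s) * h1 + ψ u * hc⟩
  rw [← e₃]
  exact add_right_cancel (e₁.symm.trans (e₂.trans (add_comm _ _)))

/-- the norm relation over a finite field -/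
theorem zs_field {k : Type*} [Field k] [Finite k] {ζ : k} (hζ : ζ ^ 2 - ζ + 1 = 0)
    (h6 : IsUnit (6 : k)) (P : k[X]) (hP : P.Monic) (h0 : P.coeff 0 ≠ 0) :
    zs (C ζ) X P = zm ζ ((-1) ^ P.natDegree * P.coeff 0) k := by
  have hζ' := map_zeta (C : k →+* k[X]) hζ
  have h6' := map_six (C : k →+* k[X]) h6
  have hfin : ∀ P : k[X], P.Monic → Finite (k[X] ⧸ Ideal.span {P}) := fun P hP => by
    have : Module.Finite k (AdjoinRoot P) := hP.finite_adjoinRoot
    exact Module.finite_of_finite (M := AdjoinRoot P) k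
  have hinj : ∀ a : k, a ≠ 0 → ∀ q : k, a • q = 0 → q = 0 := fun a ha q h =>
    (mul_eq_zero.1 h).resolve_left ha
  induction hn : P.natDegree using Nat.strong_induction_on generalizing P with
  | _ n ih =>
    by_cases hu : IsUnit P
    · obtain rfl := hP.isUnit_iff.1 hu
      simp only [natDegree_one] at hn
      subst hn
      rw [zs_unit _ _ isUnit_one]
      simp [zm_one]
    obtain ⟨p, hp, hirr, P', rfl⟩ := exists_monic_irreducible_factor P hu
    have hP' : P'.Monic := hp.of_mul_monic_left hP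
    rw [mul_coeff_zero] at h0 ⊢
    have h1 : p.coeff 0 ≠ 0 := left_ne_zero_of_mul h0
    have h2 : P'.coeff 0 ≠ 0 := right_ne_zero_of_mul h0
    have hd := hp.natDegree_mul hP'
    have hpos : 0 < p.natDegree := hirr.natDegree_pos
    have := hfin _ hP
    have hcop : IsCoprime (X : k[X]) (p * P') := by
      rw [(irreducible_X).coprime_iff_not_dvd, X_dvd_iff, mul_coeff_zero]
      exact h0
    rw [zs_mul_right hζ' h6' hp.ne_zero hcop, ih P'.natDegree (by omega) P' hP' h2 rfl, ← hn, hd,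
      show (-1 : k) ^ (p.natDegree + P'.natDegree) * (p.coeff 0 * P'.coeff 0) =
        ((-1) ^ p.natDegree * p.coeff 0) * ((-1) ^ P'.natDegree * P'.coeff 0) by ring,
      zm_mul hζ h6 (hinj ((-1) ^ p.natDegree * p.coeff 0) (by simp [h1]))
        (hinj ((-1) ^ P'.natDegree * P'.coeff 0) (by simp [h2]))]
    congr 1
    have : Fact (Irreducible p) := ⟨hirr⟩
    have : Finite (AdjoinRoot p) := hfin p hp
    have : Finite (k[X] ⧸ Ideal.span {p}) := hfin p hp
    have : IsDomain (k[X] ⧸ Ideal.span {p}) := inferInstanceAs (IsDomain (AdjoinRoot p))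
    have hr0 : AdjoinRoot.root p ≠ 0 := fun h => by
      have := AdjoinRoot.mk_eq_zero.1 h
      have h3 := (hirr.associated_of_dvd irreducible_X this).symm.dvd
      exact h1 (X_dvd_iff.1 h3)
    have e1 : AdjoinRoot.root p ^ ((Nat.card (AdjoinRoot p) - 1) / 6) =
        algebraMap k (AdjoinRoot p) ζ ^ (zs (C ζ) X p).val :=
      zm_field (k := k[X] ⧸ Ideal.span {p}) hζ' h6' (a := X) hr0
    have e2 := zm_field (k := k) hζ h6 (a := (-1) ^ p.natDegree * p.coeff 0) (by simpa using h1)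
    have e3 : Algebra.norm k (AdjoinRoot.root p) = (-1) ^ p.natDegree * p.coeff 0 := by
      have := Algebra.PowerBasis.norm_gen_eq_coeff_zero_minpoly (AdjoinRoot.powerBasis hp.ne_zero)
      rwa [AdjoinRoot.minpoly_powerBasis_gen_of_monic hp, AdjoinRoot.powerBasis_gen,
        AdjoinRoot.powerBasis_dim] at this
    have e4 := FiniteField.algebraMap_norm_eq_pow (K := k) (x := AdjoinRoot.root p)
    have e5 := congrArg (algebraMap k (AdjoinRoot p)) e2
    simp only [Algebra.algebraMap_self, RingHom.id_apply] at e5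
    rw [map_pow, ← e3, e4, ← pow_mul, map_pow] at e5
    have hc := card_eq (Q := k) hζ h6
    have hdv : Nat.card k - 1 ∣ Nat.card (AdjoinRoot p) - 1 := by
      rw [Module.natCard_eq_pow_finrank (K := k) (V := AdjoinRoot p)]
      exact Nat.sub_one_dvd_pow_sub_one _ _
    have e6 : (Nat.card (AdjoinRoot p) - 1) / (Nat.card k - 1) * ((Nat.card k - 1) / 6) =
        (Nat.card (AdjoinRoot p) - 1) / 6 := by
      obtain ⟨m, hm⟩ := hdv
      have h7 : 1 < Nat.card k := Finite.one_lt_card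
      rw [hm, Nat.mul_div_cancel_left _ (by omega)]
      generalize (Nat.card k - 1) / 6 = t at hc
      rw [show Nat.card k - 1 = 6 * t by omega, mul_assoc, Nat.mul_div_cancel_left _ (by norm_num),
        mul_comm]
    rw [e6, e1, e3] at e5
    refine val_inj (map_zeta (algebraMap k (AdjoinRoot p)) hζ)
      (map_six (algebraMap k (AdjoinRoot p)) h6) (p := 0) not_isUnit_zero ?_
    rw [zero_dvd_iff, sub_eq_zero]
    exact e5

/-- some power of an element of a finite monoid is idempotent -/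
theorem exists_idem {M : Type*} [Monoid M] [Finite M] (a : M) :
    ∃ k, 0 < k ∧ a ^ k * a ^ k = a ^ k := by
  obtain ⟨i, j, hij, h⟩ := Finite.exists_ne_map_eq_of_infinite fun n : ℕ => a ^ n
  wlog hlt : i < j generalizing i j
  · exact this j i hij.symm h.symm (by omega)
  obtain ⟨p, rfl⟩ := Nat.exists_eq_add_of_lt hlt
  have h1 : ∀ n m, a ^ (i + m + n * (p + 1)) = a ^ (i + m) := fun n m => by
    induction n with
    | zero => simp
    | succ n ih =>
      rw [show i + m + (n + 1) * (p + 1) = (i + p + 1) + (m + n * (p + 1)) by ring, pow_add, ← h,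
        ← pow_add, ← add_assoc, ih]
  refine ⟨(i + 1) * (p + 1), by positivity, ?_⟩
  have h2 : (i + 1) * (p + 1) = i + (i * p + p + 1) := by ring
  rw [← pow_add]
  nth_rewrite 1 [h2]
  rw [h1, ← h2]

/-- stable range one modulo an element with finite quotient -/
theorem exists_coprime {R : Type*} [CommRing R] {y a b : R} [Finite (R ⧸ Ideal.span {y})]
    (h : IsCoprime a b) : ∃ e : R, IsCoprime e a ∧ ∀ n : ℕ, 0 < n → IsCoprime y (a + b * e ^ n) := by
  obtain ⟨k, hk, hi⟩ := exists_idem (Ideal.Quotient.mk (Ideal.span {y}) a)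
  rw [← map_pow, ← map_mul, Ideal.Quotient.eq, Ideal.mem_span_singleton] at hi
  refine ⟨1 - a ^ k, ⟨1, a ^ (k - 1), ?_⟩, fun n hn => ?_⟩
  · rw [← pow_succ, Nat.sub_add_cancel hk]; ring
  rw [← Ideal.isCoprime_span_singleton_iff, Ideal.isCoprime_iff_sup_eq]
  by_contra hne
  obtain ⟨m, hm, hle⟩ := Ideal.exists_le_maximal _ hne
  have hp := hm.isPrime
  have hy : y ∈ m := hle (Ideal.mem_sup_left (Ideal.mem_span_singleton_self _))
  have hz : a + b * (1 - a ^ k) ^ n ∈ m := hle (Ideal.mem_sup_right (Ideal.mem_span_singleton_self _))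
  have h1 : a ^ k * (1 - a ^ k) ∈ m := by
    obtain ⟨c, hc⟩ := hi
    rw [show a ^ k * (1 - a ^ k) = y * (-c) by linear_combination -hc]
    exact m.mul_mem_right _ hy
  have h2 : a ∈ m := by
    rcases hp.mem_or_mem h1 with h3 | h3
    · exact hp.mem_of_pow_mem _ h3
    · simpa using m.sub_mem hz (m.mul_mem_left b (m.pow_mem_of_mem h3 n hn))
  have h3 : b * (1 - a ^ k) ^ n ∈ m := by simpa using m.sub_mem hz h2
  apply hp.ne_top
  rw [Ideal.eq_top_iff_one]
  rcases hp.mem_or_mem h3 with h4 | h4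
  · obtain ⟨u, v, huv⟩ := h
    rw [← huv]
    exact m.add_mem (m.mul_mem_left _ h2) (m.mul_mem_left _ h4)
  · simpa using m.add_mem (hp.mem_of_pow_mem _ h4) (m.pow_mem_of_mem h2 k hk)

end Crest.Agent.T27.Mn
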