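import Mathlib

-- ▼ part T27/Rec1_64
section

/-!
# Row 27, sextic reciprocity over a number field, part 1: the symbol of a finite module

For a finite module `Q` over a ring containing a primitive sixth root of unity `ζ` and `1/6`, and a
scalar `a` acting bijectively, `zm ζ a Q ∈ ℤ/6` is the exponent given by Gauss's lemma: choose
`s : Q → ℤ/6` with `s (ζ x) = s x + 1` for `x ≠ 0` and sum `s (a x)` over the `x ≠ 0` with `s x = 0`.
It is additive in `a`, additive in short exact sequences, and for a field `Q` it is the exponent of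
the sextic residue character.
-/

set_option autoImplicit false

noncomputable section

namespace Crest.Agent.T27.Rc

open Finset

/-- sections of a free action of `ℤ/6` -/
theorem exists_sec {X : Type*} (ω : X → X) (h6 : ∀ x, ω^[6] x = x) (W : Set X)
    (hfree : ∀ x ∈ W, ∀ j, 0 < j → j < 6 → ω^[j] x ≠ x) :
    ∃ s : X → ZMod 6, ∀ x ∈ W, s (ω x) = s x + 1 := by
  have hmul : ∀ (k : ℕ) x, ω^[6 * k] x = x := fun k x => by
    rw [Function.iterate_mul]
    exact Function.iterate_fixed (h6 x) k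
  have hmod : ∀ (k : ℕ) x, ω^[k] x = ω^[k % 6] x := fun k x => by
    conv_lhs => rw [← Nat.mod_add_div k 6, Function.iterate_add_apply, hmul]
  let r : Setoid X := ⟨fun x y => ∃ j : ℕ, ω^[j] x = y,
    ⟨fun x => ⟨0, rfl⟩, fun {x y} ⟨j, hj⟩ => ⟨5 * j, by
      rw [← hj, ← Function.iterate_add_apply, show 5 * j + j = 6 * j by ring, hmul]⟩,
      fun {x y z} ⟨i, hi⟩ ⟨j, hj⟩ => ⟨j + i, by rw [Function.iterate_add_apply, hi, hj]⟩⟩⟩
  have hrep : ∀ x, ∃ j : ℕ, ω^[j] (Quotient.out (Quotient.mk r x)) = x := fun x =>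
    Quotient.exact (Quotient.out_eq (Quotient.mk r x))
  choose j hj using hrep
  refine ⟨fun x => (j x : ZMod 6), fun x hx => ?_⟩
  have h1 : Quotient.mk r (ω x) = Quotient.mk r x :=
    (Quotient.sound (s := r) (a := x) (b := ω x) (Exists.intro 1 rfl)).symm
  have h2 := hj (ω x)
  rw [h1] at h2
  have h3 := hj x
  set y := Quotient.out (Quotient.mk r x)
  have h4 : ω^[5 * j x] x = y := by
    conv_lhs => rw [← h3]
    rw [← Function.iterate_add_apply, show 5 * j (ω^[j x] y) + j x = 6 * j x by rw [h3]; ring, hmul]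
  have h5 : ω^[5 + (j (ω x) + 5 * j x)] x = x := by
    rw [Function.iterate_add_apply, Function.iterate_add_apply, h4, h2,
      ← Function.iterate_succ_apply]
    exact h6 x
  rw [hmod] at h5
  have h7 : (5 + (j (ω x) + 5 * j x)) % 6 = 0 := by
    by_contra h
    exact hfree x hx _ (Nat.pos_of_ne_zero h) (Nat.mod_lt _ (by norm_num)) h5
  have h8 : ((5 + (j (ω x) + 5 * j x) : ℕ) : ZMod 6) = 0 :=
    (ZMod.natCast_eq_zero_iff _ _).2 (Nat.dvd_of_mod_eq_zero h7)
  push_cast at h8
  have h9 : (6 : ZMod 6) = 0 := rfl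
  show (j (ω x) : ZMod 6) = (j x : ZMod 6) + 1
  linear_combination h8 - ((j x : ZMod 6) + 1) * h9

/-- the sum of an invariant function over a section does not depend on the section -/
theorem indep {X : Type*} (ω : X → X) (Sch : (X → ZMod 6) → Prop) (I : (X → ZMod 6) → ZMod 6)
    (hsum : ∀ F : ZMod 6 → X → ZMod 6, (∀ i, Sch (F i)) → I (fun x => ∑ i, F i x) = ∑ i, I (F i))
    (hinv : ∀ f, Sch f → I (fun x => f (ω x)) = I f) (f s s' : X → ZMod 6)
    (hS : ∀ i j, Sch (fun x => if s x = i ∧ s' x = j then f x else 0))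
    (hf : ∀ x, f (ω x) = f x) (hs : ∀ x, f x ≠ 0 → s (ω x) = s x + 1)
    (hs' : ∀ x, f x ≠ 0 → s' (ω x) = s' x + 1) :
    I (fun x => if s x = 0 then f x else 0) = I (fun x => if s' x = 0 then f x else 0) := by
  set A : ZMod 6 → ZMod 6 → ZMod 6 := fun i j => I (fun x => if s x = i ∧ s' x = j then f x else 0)
    with hA
  have h1 : ∀ i j, A (i + 1) (j + 1) = A i j := fun i j => by
    simp only [hA]
    rw [← hinv _ (hS (i + 1) (j + 1))]
    congr 1
    funext x
    by_cases h : f x = 0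
    · simp [hf, h]
    · simp [hf, hs x h, hs' x h]
  have h2 : ∀ (k : ℕ) i j, A (i + k) (j + k) = A i j := fun k => by
    induction k with
    | zero => simp
    | succ k ih => intro i j; rw [Nat.cast_succ, ← add_assoc, ← add_assoc, h1, ih]
  have h3 : ∀ j, A 0 j = A (-j) 0 := fun j => by
    rw [← h2 j.val (-j) 0]
    simp
  have h4 : I (fun x => if s x = 0 then f x else 0) = ∑ j, A 0 j := by
    rw [← hsum _ (fun j => hS 0 j)]
    congr 1
    funext x
    by_cases h : s x = 0 <;> simp [h]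
  have h5 : I (fun x => if s' x = 0 then f x else 0) = ∑ i, A i 0 := by
    rw [← hsum _ (fun i => hS i 0)]
    congr 1
    funext x
    by_cases h : s' x = 0 <;> simp [h]
  rw [h4, h5, Finset.sum_congr rfl fun j _ => h3 j]
  exact Equiv.sum_comp (Equiv.neg (ZMod 6)) (fun i => A i 0)

/-- the finite case -/
theorem indep_fin {X : Type*} [Fintype X] (ω : X → X) (hω : Function.Injective ω)
    (f s s' : X → ZMod 6) (hf : ∀ x, f (ω x) = f x) (hs : ∀ x, f x ≠ 0 → s (ω x) = s x + 1)
    (hs' : ∀ x, f x ≠ 0 → s' (ω x) = s' x + 1) :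
    ∑ x, (if s x = 0 then f x else 0) = ∑ x, (if s' x = 0 then f x else 0) :=
  indep ω (fun _ => True) (fun F => ∑ x, F x) (fun _ _ => Finset.sum_comm)
    (fun F _ => (Equiv.ofBijective ω (Finite.injective_iff_bijective.1 hω)).sum_comp F) f s s'
    (fun _ _ => trivial) hf hs hs'

/-- counting with a section -/
theorem card_sec {X : Type*} [Fintype X] (ω : X → X) (hω : Function.Injective ω) (W : X → Prop)
    [DecidablePred W] (hW : ∀ x, W (ω x) ↔ W x) (s : X → ZMod 6)
    (hs : ∀ x, W x → s (ω x) = s x + 1) :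
    (univ.filter W).card = 6 * (univ.filter fun x => W x ∧ s x = 0).card ∧
      ∑ x, (if W x then s x else 0) = 3 * ((univ.filter fun x => W x ∧ s x = 0).card : ZMod 6) := by
  have hb := Finite.injective_iff_bijective.1 hω
  have h1 : ∀ i : ZMod 6, (univ.filter fun x => W x ∧ s x = i).card =
      (univ.filter fun x => W x ∧ s x = i + 1).card := fun i => by
    refine Finset.card_bij (fun x _ => ω x) ?_ (fun x _ y _ h => hω h) ?_
    · intro x hx
      simp only [mem_filter, mem_univ, true_and] at hx ⊢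
      exact ⟨(hW x).2 hx.1, by rw [hs x hx.1, hx.2]⟩
    · intro y hy
      obtain ⟨x, rfl⟩ := hb.2 y
      simp only [mem_filter, mem_univ, true_and] at hy ⊢
      refine ⟨x, ⟨(hW x).1 hy.1, ?_⟩, rfl⟩
      have := hy.2
      rw [hs x ((hW x).1 hy.1)] at this
      exact add_right_cancel this
  have h2 : ∀ k : ℕ, (univ.filter fun x => W x ∧ s x = (k : ZMod 6)).card =
      (univ.filter fun x => W x ∧ s x = 0).card := fun k => by
    induction k with
    | zero => simp
    | succ k ih => rw [Nat.cast_succ, ← h1, ih]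
  have h3 : ∀ i : ZMod 6, (univ.filter fun x => W x ∧ s x = i).card =
      (univ.filter fun x => W x ∧ s x = 0).card := fun i => by
    rw [← h2 i.val]; simp
  constructor
  · rw [Finset.card_eq_sum_card_fiberwise (f := s) (t := univ) (fun _ _ => mem_univ _)]
    simp only [Finset.filter_filter, h3]
    simp [ZMod.card]
  · rw [← Finset.sum_filter, ← Finset.sum_fiberwise (s := univ.filter W) (g := s)]
    have h4 : ∀ i : ZMod 6, ∑ x ∈ (univ.filter W).filter (fun x => s x = i), s x =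
        ((univ.filter fun x => W x ∧ s x = 0).card : ZMod 6) * i := fun i => by
      rw [Finset.sum_congr rfl (g := fun _ => i) (fun x hx => (mem_filter.1 hx).2),
        Finset.filter_filter, Finset.sum_const, h3, nsmul_eq_mul]
    simp only [h4]
    rw [← Finset.mul_sum, mul_comm]
    congr 1

section root
variable {S : Type*} [CommRing S] {ζ : S}

theorem zeta_six (hζ : ζ ^ 2 - ζ + 1 = 0) : ζ ^ 6 = 1 := by
  linear_combination (ζ ^ 4 + ζ ^ 3 - ζ - 1) * hζ

theorem zeta_bezout (hζ : ζ ^ 2 - ζ + 1 = 0) {j : ℕ} (h0 : 0 < j) (h6 : j < 6) :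
    ∃ a b : ℤ, ((a : S) + (b : S) * ζ) * (ζ ^ j - 1) = 6 := by
  interval_cases j
  · exact ⟨0, -6, by push_cast; linear_combination (-6) * hζ⟩
  · exact ⟨-2, -2, by push_cast; linear_combination (-2 * ζ - 4) * hζ⟩
  · exact ⟨-3, 0, by push_cast; linear_combination (-3 * ζ - 3) * hζ⟩
  · exact ⟨-4, 2, by push_cast; linear_combination (2 * ζ ^ 3 - 2 * ζ ^ 2 - 4 * ζ - 2) * hζ⟩
  · exact ⟨-6, 6, by push_cast; linear_combination (6 * ζ ^ 4 - 6 * ζ ^ 2 - 6 * ζ) * hζ⟩

theorem pow_val_add (hζ : ζ ^ 2 - ζ + 1 = 0) (i j : ZMod 6) :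
    ζ ^ (i + j).val = ζ ^ i.val * ζ ^ j.val := by
  rw [ZMod.val_add, ← pow_eq_pow_mod _ (zeta_six hζ), pow_add]

theorem pow_val_sum (hζ : ζ ^ 2 - ζ + 1 = 0) {α : Type*} (T : Finset α) (f : α → ZMod 6) :
    ζ ^ (∑ i ∈ T, f i).val = ∏ i ∈ T, ζ ^ (f i).val := by
  classical
  induction T using Finset.induction_on with
  | empty => simp
  | insert a T ha ih => rw [sum_insert ha, prod_insert ha, pow_val_add hζ, ih]

end root

section mod
variable {S : Type*} [CommRing S]

/-- a section of the action of `ζ` on the non-zero elements of `Q` -/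
def IsSec (ζ : S) (Q : Type*) [AddCommGroup Q] [Module S Q] (s : Q → ZMod 6) : Prop :=
  ∀ q, q ≠ 0 → s (ζ • q) = s q + 1

/-- a chosen section -/
def sec (ζ : S) (Q : Type*) [AddCommGroup Q] [Module S Q] : Q → ZMod 6 :=
  Classical.epsilon (IsSec ζ Q)

open Classical in
/-- the exponent of the sextic symbol of `a` on the finite module `Q` -/
def zm (ζ a : S) (Q : Type*) [AddCommGroup Q] [Module S Q] : ZMod 6 :=
  ∑ᶠ q : Q, if sec ζ Q q = 0 then (if q = 0 then 0 else sec ζ Q (a • q)) else 0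

/-- the exponent of the sextic residue symbol `(a / b)₆ = ζ ^ zs ζ a b` -/
def zs (ζ a b : S) : ZMod 6 := zm ζ a (S ⧸ Ideal.span {b})

variable {ζ : S} {Q : Type*} [AddCommGroup Q] [Module S Q]

theorem zeta_inj (hζ : ζ ^ 2 - ζ + 1 = 0) : Function.Injective fun q : Q => ζ • q := fun x y h => by
  have h1 : ζ ^ 5 • ζ • x = ζ ^ 5 • ζ • y := congrArg _ h
  rwa [smul_smul, smul_smul, ← pow_succ, zeta_six hζ, one_smul, one_smul] at h1

theorem zeta_smul_eq_zero (hζ : ζ ^ 2 - ζ + 1 = 0) {q : Q} : ζ • q = 0 ↔ q = 0 :=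
  ⟨fun h => zeta_inj hζ (h.trans (smul_zero ζ).symm), fun h => by rw [h, smul_zero]⟩

theorem isSec_sec (hζ : ζ ^ 2 - ζ + 1 = 0) (h6 : IsUnit (6 : S)) : IsSec ζ Q (sec ζ Q) := by
  have hit : ∀ (j : ℕ) (x : Q), (fun q : Q => ζ • q)^[j] x = ζ ^ j • x := fun j x => by
    induction j with
    | zero => simp
    | succ j ih => rw [Function.iterate_succ_apply', ih, smul_smul, pow_succ']
  refine Classical.epsilon_spec (p := IsSec ζ Q) (exists_sec (fun q : Q => ζ • q)
    (fun x => by rw [hit, zeta_six hζ, one_smul]) {q | q ≠ 0} fun x hx j h0 hj h => hx ?_)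
  obtain ⟨a, b, hab⟩ := zeta_bezout hζ h0 hj
  rw [hit] at h
  have h1 : (6 : S) • x = 0 := by
    rw [← hab, mul_smul, sub_smul, h, one_smul, sub_self, smul_zero]
  exact (h6.smul_eq_zero).1 h1

theorem IsSec.pow (hζ : ζ ^ 2 - ζ + 1 = 0) {s : Q → ZMod 6} (hs : IsSec ζ Q s) (k : ℕ) {q : Q}
    (hq : q ≠ 0) : ζ ^ k • q ≠ 0 ∧ s (ζ ^ k • q) = s q + k := by
  induction k with
  | zero => simpa using hq
  | succ k ih =>
    rw [pow_succ', mul_smul]
    exact ⟨fun h => ih.1 ((zeta_smul_eq_zero hζ).1 h), by rw [hs _ ih.1, ih.2]; push_cast; ring⟩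

open Classical in
/-- the exponent can be computed with any section -/
theorem zm_eq [Fintype Q] (hζ : ζ ^ 2 - ζ + 1 = 0) (h6 : IsUnit (6 : S)) {a : S}
    (ha : ∀ q : Q, a • q = 0 → q = 0) {s : Q → ZMod 6} (hs : IsSec ζ Q s) :
    zm ζ a Q = ∑ q : Q, if s q = 0 then (if q = 0 then 0 else s (a • q)) else 0 := by
  rw [zm, finsum_eq_sum_of_fintype]
  have ht := isSec_sec (Q := Q) hζ h6
  generalize sec ζ Q = t at ht
  have hz := @zeta_smul_eq_zero S _ ζ Q _ _ hζ
  have hc : ∀ q : Q, a • ζ • q = ζ • a • q := fun q => smul_comm _ _ _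
  have hainj : Function.Injective fun q : Q => a • q := fun x y h =>
    sub_eq_zero.1 (ha _ (by rw [smul_sub]; exact sub_eq_zero.2 h))
  have ha' : ∀ q : Q, a • q = 0 ↔ q = 0 := fun q => ⟨ha q, fun h => by rw [h, smul_zero]⟩
  have h1 := indep_fin (fun q : Q => ζ • q) (zeta_inj hζ)
    (fun q => if q = 0 then 0 else t (a • q) - t q) t s
    (fun q => by
      by_cases h : q = 0
      · simp [h]
      · simp [h, hz, hc, ht q h, ht _ (fun h' => h (ha q h'))])
    (fun q h => ht q fun h' => h (by simp [h'])) (fun q h => hs q fun h' => h (by simp [h']))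
  have h2 := indep_fin (fun q : Q => ζ • q) (zeta_inj hζ)
    (fun q => if q = 0 then 0 else t (a • q) - s (a • q)) s (fun q => s (a • q))
    (fun q => by
      by_cases h : q = 0
      · simp [h]
      · simp [h, hz, hc, ht _ (fun h' => h (ha q h')), hs _ (fun h' => h (ha q h'))])
    (fun q h => hs q fun h' => h (by simp [h']))
    (fun q h => by
      rw [hc]
      exact hs _ fun h' => h (by simp [ha q h']))
  have h3 := (Equiv.ofBijective _ (Finite.injective_iff_bijective.1 hainj)).sum_comp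
    (fun q => if s q = 0 then (if q = 0 then 0 else t q - s q) else 0)
  simp only [Equiv.ofBijective_apply, ha'] at h3
  have h4 : ∑ q : Q, (if t q = 0 then (if q = 0 then 0 else t (a • q)) else 0) =
      ∑ q : Q, (if t q = 0 then (if q = 0 then 0 else t (a • q) - t q) else 0) :=
    Finset.sum_congr rfl fun q _ => by by_cases h : t q = 0 <;> simp [h]
  have h5 := sub_eq_zero.2 (h2.trans h3)
  rw [← Finset.sum_sub_distrib] at h5
  rw [h4, h1, ← sub_eq_zero, ← Finset.sum_sub_distrib]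
  refine Eq.trans (Finset.sum_congr rfl fun q _ => ?_) h5
  by_cases h : s q = 0 <;> by_cases h' : q = 0 <;> simp [h, h']
  ring

theorem zm_one (ζ : S) (Q : Type*) [AddCommGroup Q] [Module S Q] : zm ζ 1 Q = 0 := by
  rw [zm]
  refine finsum_eq_zero_of_forall_eq_zero fun q => ?_
  by_cases h : sec ζ Q q = 0 <;> simp [h]

theorem zm_congr (ζ : S) {a a' : S} (h : ∀ q : Q, a • q = a' • q) : zm ζ a Q = zm ζ a' Q := by
  simp only [zm, h]

theorem zm_subsingleton (ζ a : S) [Subsingleton Q] : zm ζ a Q = 0 :=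
  (zm_congr ζ fun _ => Subsingleton.elim _ _).trans (zm_one ζ Q)

theorem zm_mul [Finite Q] (hζ : ζ ^ 2 - ζ + 1 = 0) (h6 : IsUnit (6 : S)) {a a' : S}
    (ha : ∀ q : Q, a • q = 0 → q = 0) (ha' : ∀ q : Q, a' • q = 0 → q = 0) :
    zm ζ (a * a') Q = zm ζ a Q + zm ζ a' Q := by
  classical
  cases nonempty_fintype Q
  have hs := isSec_sec (Q := Q) hζ h6
  have hs' : IsSec ζ Q fun q => sec ζ Q (a' • q) := fun q hq => by
    show sec ζ Q (a' • ζ • q) = _
    rw [smul_comm]
    exact hs _ fun h => hq (ha' q h)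
  have hinj : Function.Injective fun q : Q => a' • q := fun x y h =>
    sub_eq_zero.1 (ha' _ (by rw [smul_sub]; exact sub_eq_zero.2 h))
  have hz := @zeta_smul_eq_zero S _ ζ Q _ _ hζ
  rw [zm_eq hζ h6 (fun q h => ha' q (ha _ (by rwa [← mul_smul]))) hs, zm_eq hζ h6 ha hs',
    zm_eq hζ h6 ha' hs]
  generalize sec ζ Q = s at hs hs'
  have h1 := indep_fin (fun q : Q => ζ • q) (zeta_inj hζ)
    (fun q => if q = 0 then 0 else s (a' • a • q) - s (a' • q)) s (fun q => s (a' • q))
    (fun q => by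
      by_cases h : q = 0
      · simp [h]
      · have e1 := hs' q h
        have e2 := hs' (a • q) fun h' => h (ha q h')
        simp only at e1 e2
        simp [h, hz, smul_comm a ζ q, e1, e2])
    (fun q h => hs q fun h' => h (by simp [h'])) (fun q h => hs' q fun h' => h (by simp [h']))
  have h2 : ∑ q : Q, (if s (a' • q) = 0 then (if q = 0 then 0 else s (a' • a • q)) else 0) =
      ∑ q : Q, (if s (a' • q) = 0 then (if q = 0 then 0 else s (a' • a • q) - s (a' • q)) else 0) :=
    Finset.sum_congr rfl fun q _ => by by_cases h : s (a' • q) = 0 <;> simp [h]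
  rw [h2, ← h1, ← Finset.sum_add_distrib]
  refine Finset.sum_congr rfl fun q _ => ?_
  by_cases h : s q = 0 <;> by_cases h' : q = 0 <;> simp [h, h', mul_comm a a', mul_smul]

/-- the number of orbits -/
theorem card_eq [Finite Q] (hζ : ζ ^ 2 - ζ + 1 = 0) (h6 : IsUnit (6 : S)) :
    Nat.card Q = 6 * ((Nat.card Q - 1) / 6) + 1 := by
  classical
  cases nonempty_fintype Q
  have h := (card_sec (fun q : Q => ζ • q) (zeta_inj hζ) (fun q => q ≠ 0)
    (fun q => (zeta_smul_eq_zero hζ).not) _ (isSec_sec hζ h6)).1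
  rw [Finset.filter_ne', Finset.card_erase_of_mem (mem_univ _), Finset.card_univ] at h
  have h1 : 0 < Fintype.card Q := Fintype.card_pos
  rw [Nat.card_eq_fintype_card]
  omega

/-- additivity in short exact sequences -/
theorem zm_exact {X Y : Type*} [AddCommGroup X] [Module S X] [AddCommGroup Y] [Module S Y]
    [Finite Q] (hζ : ζ ^ 2 - ζ + 1 = 0) (h6 : IsUnit (6 : S)) (i : X →ₗ[S] Q) (p : Q →ₗ[S] Y)
    (hi : Function.Injective i) (hp : Function.Surjective p) (hex : Function.Exact i p) {a : S}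
    (ha : ∀ q : Q, a • q = 0 → q = 0) : zm ζ a Q = zm ζ a X + zm ζ a Y := by
  classical
  have : Finite X := Finite.of_injective i hi
  have : Finite Y := Finite.of_surjective p hp
  cases nonempty_fintype Q
  cases nonempty_fintype X
  cases nonempty_fintype Y
  have haX : ∀ x : X, a • x = 0 → x = 0 := fun x h =>
    hi ((ha (i x) (by rw [← map_smul, h, map_zero])).trans (map_zero i).symm)
  have haY : ∀ y : Y, a • y = 0 → y = 0 := by
    have h1 : Function.Injective fun q : Q => a • q := fun x y h =>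
      sub_eq_zero.1 (ha _ (by rw [smul_sub]; exact sub_eq_zero.2 h))
    have h2 : Function.Surjective fun y : Y => a • y := fun y => by
      obtain ⟨q, rfl⟩ := hp y
      obtain ⟨q', rfl⟩ := Finite.injective_iff_surjective.1 h1 q
      exact ⟨p q', by simp⟩
    exact fun y h => Finite.injective_iff_surjective.2 h2 (h.trans (smul_zero a).symm)
  have hX := isSec_sec (Q := X) hζ h6
  have hY := isSec_sec (Q := Y) hζ h6
  have hl : ∀ x, Function.invFun i (i x) = x := Function.leftInverse_invFun hi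
  have hpi : ∀ x, p (i x) = 0 := fun x => (hex _).2 ⟨x, rfl⟩
  have hs : IsSec ζ Q fun q => if p q = 0 then sec ζ X (Function.invFun i q) else sec ζ Y (p q) := by
    intro q hq
    by_cases h : p q = 0
    · obtain ⟨x, rfl⟩ := (hex q).1 h
      simp only [← map_smul, hpi, hl, if_true]
      exact hX x fun h' => hq (by rw [h', map_zero])
    · simp only [map_smul, zeta_smul_eq_zero hζ, h, if_false]
      exact hY _ h
  rw [zm_eq hζ h6 ha hs, zm_eq hζ h6 haX hX, zm_eq hζ h6 haY hY,
    ← Finset.sum_filter_add_sum_filter_not univ (fun q => p q = 0)]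
  congr 1
  · symm
    refine Finset.sum_bij (fun x _ => i x) (fun x _ => by simp [hpi]) (fun x _ y _ h => hi h)
      (fun q hq => ?_) fun x _ => ?_
    · obtain ⟨x, rfl⟩ := (hex q).1 (mem_filter.1 hq).2
      exact ⟨x, mem_univ _, rfl⟩
    · simp only [← map_smul, hpi, hl, if_true, map_eq_zero_iff i hi]
  · set G : Y → ZMod 6 := fun y =>
      if sec ζ Y y = 0 then (if y = 0 then 0 else sec ζ Y (a • y)) else 0 with hG
    have h1 : ∑ q ∈ univ.filter (fun q => ¬ p q = 0), G (p q) = ∑ q, G (p q) :=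
      Finset.sum_filter_of_ne fun q _ h h' => h (by simp [hG, h'])
    have h2 : ∀ y : Y, (univ.filter fun q => p q = y).card = Fintype.card X := fun y => by
      obtain ⟨q₀, rfl⟩ := hp y
      symm
      refine Finset.card_bij (fun x _ => q₀ + i x) (fun x _ => by simp [hpi])
        (fun x _ y _ h => hi (add_left_cancel h)) fun q hq => ?_
      obtain ⟨x, hx⟩ := (hex (q - q₀)).1 (by rw [map_sub, (mem_filter.1 hq).2, sub_self])
      exact ⟨x, mem_univ _, by simp [hx]⟩
    have h3 : (Fintype.card X : ZMod 6) = 1 := by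
      rw [← Nat.card_eq_fintype_card, card_eq (Q := X) hζ h6]
      push_cast
      rw [show (6 : ZMod 6) = 0 from rfl, zero_mul, zero_add]
    have h4 : ∑ q, G (p q) = ∑ y, G y := by
      rw [← Finset.sum_fiberwise (s := univ) (g := p)]
      refine Finset.sum_congr rfl fun y _ => ?_
      rw [Finset.sum_congr rfl (g := fun _ => G y) fun q hq => by rw [(mem_filter.1 hq).2],
        Finset.sum_const, h2, nsmul_eq_mul, h3, one_mul]
    rw [← h4, ← h1]
    refine Finset.sum_congr rfl fun q hq => ?_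
    have h5 : ¬ p q = 0 := (mem_filter.1 hq).2
    have h7 : ¬ q = 0 := fun h => h5 (by rw [h, map_zero])
    have h8 : ¬ a • p q = 0 := fun h => h5 (haY _ h)
    simp [hG, h5, h7, h8]

/-- Gauss's lemma -/
theorem zm_field {k : Type*} [CommRing k] [IsDomain k] [Finite k] [Algebra S k]
    (hζ : ζ ^ 2 - ζ + 1 = 0) (h6 : IsUnit (6 : S)) {a : S} (ha : algebraMap S k a ≠ 0) :
    algebraMap S k a ^ ((Nat.card k - 1) / 6) = algebraMap S k ζ ^ (zm ζ a k).val := by
  classical
  cases nonempty_fintype k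
  have hs := isSec_sec (Q := k) hζ h6
  have ha' : ∀ q : k, a • q = 0 → q = 0 := fun q h => by
    rw [Algebra.smul_def] at h
    exact (mul_eq_zero.1 h).resolve_left ha
  rw [zm_eq hζ h6 ha' hs]
  generalize sec ζ k = s at hs
  set T := univ.filter fun q : k => q ≠ 0 ∧ s q = 0 with hT
  have hc : (Nat.card k - 1) / 6 = T.card := by
    have h := (card_sec (fun q : k => ζ • q) (zeta_inj hζ) (fun q => q ≠ 0)
      (fun q => (zeta_smul_eq_zero hζ).not) _ hs).1
    rw [Finset.filter_ne', Finset.card_erase_of_mem (mem_univ _), Finset.card_univ] at h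
    rw [Nat.card_eq_fintype_card, h, hT]
    simp
  have hsum : ∑ q : k, (if s q = 0 then (if q = 0 then 0 else s (a • q)) else 0) =
      ∑ q ∈ T, s (a • q) := by
    rw [hT, Finset.sum_filter]
    refine Finset.sum_congr rfl fun q _ => ?_
    by_cases h : s q = 0 <;> by_cases h' : q = 0 <;> simp [h, h']
  have hζ' : algebraMap S k ζ ^ 2 - algebraMap S k ζ + 1 = 0 := by
    simpa using congrArg (algebraMap S k) hζ
  rw [hc, hsum, pow_val_sum hζ']
  set τ : k → k := fun q => ζ ^ (5 * (s (a • q)).val) • a • q with hτ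
  have h66 : (6 : ZMod 6) = 0 := rfl
  have hτ1 : ∀ q ∈ T, τ q ∈ T := fun q hq => by
    have h1 := hs.pow hζ (5 * (s (a • q)).val) fun h => (mem_filter.1 hq).2.1 (ha' q h)
    refine mem_filter.2 ⟨mem_univ _, h1.1, h1.2.trans ?_⟩
    push_cast
    rw [ZMod.natCast_zmod_val]
    linear_combination s (a • q) * h66
  have hτ2 : ∀ q, ζ ^ (s (a • q)).val • τ q = a • q := fun q => by
    rw [hτ, smul_smul, ← pow_add, show (s (a • q)).val + 5 * (s (a • q)).val =
      6 * (s (a • q)).val by ring, pow_mul, zeta_six hζ, one_pow, one_smul]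
  have hτ3 : Set.InjOn τ T := fun x hx y hy h => by
    have hx' := (mem_filter.1 (mem_coe.1 hx)).2
    have hy' := (mem_filter.1 (mem_coe.1 hy)).2
    have h1 : y = ζ ^ ((s (a • y)).val + 5 * (s (a • x)).val) • x := by
      refine sub_eq_zero.1 (ha' _ ?_)
      have e := hτ2 y
      rw [← h] at e
      rw [smul_sub, smul_comm a, pow_add, mul_smul]
      exact sub_eq_zero.2 e.symm
    have h2 := (hs.pow hζ ((s (a • y)).val + 5 * (s (a • x)).val) hx'.1).2
    rw [← h1, hx'.2, hy'.2, zero_add] at h2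
    obtain ⟨c, hc⟩ := (ZMod.natCast_eq_zero_iff _ _).1 h2.symm
    rw [h1, hc, pow_mul, zeta_six hζ, one_pow, one_smul]
  have hτ4 : ∏ q ∈ T, τ q = ∏ q ∈ T, q := by
    have h1 : T.image τ = T := Finset.eq_of_subset_of_card_le
      (Finset.image_subset_iff.2 hτ1) (Finset.card_image_of_injOn hτ3).ge
    conv_rhs => rw [← h1]
    rw [Finset.prod_image hτ3]
  have hne : ∏ q ∈ T, q ≠ 0 := Finset.prod_ne_zero_iff.2 fun q hq => (mem_filter.1 hq).2.1
  refine mul_right_cancel₀ hne ?_
  conv_rhs => rw [← hτ4, ← Finset.prod_mul_distrib]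
  rw [← Finset.prod_const, ← Finset.prod_mul_distrib]
  refine Finset.prod_congr rfl fun q _ => ?_
  rw [← Algebra.smul_def, ← map_pow, ← Algebra.smul_def, hτ2]

end mod

end Crest.Agent.T27.Rc
end
end

-- ▼ part T27/RecDefs_64

/-!
# Row 27, sextic reciprocity over a number field: the symbol `zs` and the statement

`zs ζ a b ∈ ℤ/6` is the exponent of the sextic residue symbol `(a / b)₆ = ζ ^ zs ζ a b` in a ring
`S` containing a primitive sixth root of unity `ζ` (`ζ² - ζ + 1 = 0`, for example `ζ = 1 + ω`) and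
`1/6`.  It is additive in both arguments and satisfies Euler's criterion for prime `b`; in a
principal ideal domain these properties determine it.
-/

set_option autoImplicit false

noncomputable section

namespace Crest.Agent.T27.Rc

open Finset

variable {S : Type*} [CommRing S] {ζ : S}



theorem smul_inj_of_coprime {a b : S} (h : IsCoprime a b) (q : S ⧸ Ideal.span {b})
    (hq : a • q = 0) : q = 0 := by
  obtain ⟨x, rfl⟩ := Ideal.Quotient.mk_surjective q
  have h1 : Ideal.Quotient.mk (Ideal.span {b}) (a * x) = 0 := hq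
  rw [Ideal.Quotient.eq_zero_iff_mem, Ideal.mem_span_singleton] at h1 ⊢
  exact h.symm.dvd_of_dvd_mul_left h1

theorem zs_one_left (ζ b : S) : zs ζ 1 b = 0 := zm_one _ _

theorem zs_congr (ζ : S) {a a' b : S} (h : b ∣ a - a') : zs ζ a b = zs ζ a' b :=
  zm_congr ζ fun q => by
    obtain ⟨x, rfl⟩ := Ideal.Quotient.mk_surjective q
    show Ideal.Quotient.mk (Ideal.span {b}) (a * x) = Ideal.Quotient.mk (Ideal.span {b}) (a' * x)
    rw [Ideal.Quotient.eq, Ideal.mem_span_singleton, ← sub_mul]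
    exact h.mul_right x

theorem zs_unit (ζ a : S) {b : S} (h : IsUnit b) : zs ζ a b = 0 := by
  have : Subsingleton (S ⧸ Ideal.span {b}) :=
    Ideal.Quotient.subsingleton_iff.2 (Ideal.span_singleton_eq_top.2 h)
  exact zm_subsingleton ζ a

theorem zs_assoc [IsDomain S] (ζ a : S) {b b' : S} (h : Associated b b') : zs ζ a b = zs ζ a b' := by
  rw [zs, zs, Ideal.span_singleton_eq_span_singleton.2 h]

theorem zs_mul_left (hζ : ζ ^ 2 - ζ + 1 = 0) (h6 : IsUnit (6 : S)) {a a' b : S}
    [Finite (S ⧸ Ideal.span {b})] (h : IsCoprime a b) (h' : IsCoprime a' b) :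
    zs ζ (a * a') b = zs ζ a b + zs ζ a' b :=
  zm_mul hζ h6 (smul_inj_of_coprime h) (smul_inj_of_coprime h')

theorem zs_mul_right [IsDomain S] (hζ : ζ ^ 2 - ζ + 1 = 0) (h6 : IsUnit (6 : S)) {a b b' : S}
    (hb : b ≠ 0) [Finite (S ⧸ Ideal.span {b * b'})] (h : IsCoprime a (b * b')) :
    zs ζ a (b * b') = zs ζ a b + zs ζ a b' := by
  let i : (S ⧸ Ideal.span {b'}) →ₗ[S] S ⧸ Ideal.span {b * b'} :=
    Submodule.mapQ _ _ (LinearMap.mulLeft S b) fun x hx => by
      obtain ⟨y, rfl⟩ := Ideal.mem_span_singleton.1 hx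
      exact Ideal.mem_span_singleton.2 ⟨y, (mul_assoc _ _ _).symm⟩
  let p : (S ⧸ Ideal.span {b * b'}) →ₗ[S] S ⧸ Ideal.span {b} :=
    Submodule.mapQ _ _ LinearMap.id fun x hx =>
      Ideal.mem_span_singleton.2 ((dvd_mul_right b b').trans (Ideal.mem_span_singleton.1 hx))
  have hi : ∀ x, i (Ideal.Quotient.mk _ x) = Ideal.Quotient.mk _ (b * x) := fun _ => rfl
  have hp : ∀ x, p (Ideal.Quotient.mk _ x) = Ideal.Quotient.mk _ x := fun _ => rfl
  rw [add_comm]
  refine zm_exact hζ h6 i p ((injective_iff_map_eq_zero _).2 fun q hq => ?_) (fun q => ?_)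
    (fun q => ?_) (smul_inj_of_coprime h)
  · obtain ⟨x, rfl⟩ := Ideal.Quotient.mk_surjective q
    rw [hi, Ideal.Quotient.eq_zero_iff_mem, Ideal.mem_span_singleton] at hq
    rw [Ideal.Quotient.eq_zero_iff_mem, Ideal.mem_span_singleton]
    exact (mul_dvd_mul_iff_left hb).1 hq
  · obtain ⟨x, rfl⟩ := Ideal.Quotient.mk_surjective q
    exact ⟨_, hp x⟩
  · obtain ⟨x, rfl⟩ := Ideal.Quotient.mk_surjective q
    rw [hp, Ideal.Quotient.eq_zero_iff_mem, Ideal.mem_span_singleton]
    constructor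
    · rintro ⟨y, rfl⟩
      exact ⟨_, hi y⟩
    · rintro ⟨q, hq⟩
      obtain ⟨y, rfl⟩ := Ideal.Quotient.mk_surjective q
      rw [hi, Ideal.Quotient.eq, Ideal.mem_span_singleton] at hq
      have h1 := ((dvd_mul_right b b').trans hq)
      exact (dvd_sub_right (dvd_mul_right b y)).1 h1

/-- Euler's criterion -/
theorem zs_prime (hζ : ζ ^ 2 - ζ + 1 = 0) (h6 : IsUnit (6 : S)) {a p : S} (hp : Prime p)
    [Finite (S ⧸ Ideal.span {p})] (h : ¬ p ∣ a) :
    p ∣ a ^ ((Nat.card (S ⧸ Ideal.span {p}) - 1) / 6) - ζ ^ (zs ζ a p).val := by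
  have : (Ideal.span {p}).IsPrime := (Ideal.span_singleton_prime hp.ne_zero).2 hp
  have h1 := zm_field (k := S ⧸ Ideal.span {p}) hζ h6 (a := a) fun h' =>
    h (Ideal.mem_span_singleton.1 (Ideal.Quotient.eq_zero_iff_mem.1 h'))
  rw [← map_pow, ← map_pow] at h1
  exact Ideal.mem_span_singleton.1 (Ideal.Quotient.eq.1 h1)


/-- the exponent is determined by the congruence of `zs_prime` -/
theorem val_inj (hζ : ζ ^ 2 - ζ + 1 = 0) (h6 : IsUnit (6 : S)) {p : S} (hp : ¬ IsUnit p)
    {i j : ZMod 6} (h : p ∣ ζ ^ i.val - ζ ^ j.val) : i = j := by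
  by_contra hij
  have h0 : 0 < (i - j).val := ZMod.val_pos.2 (sub_ne_zero.2 hij)
  obtain ⟨a, b, hab⟩ := zeta_bezout hζ h0 (ZMod.val_lt _)
  have h1 : ζ ^ (i - j).val - 1 = ζ ^ (-j).val * (ζ ^ i.val - ζ ^ j.val) := by
    rw [mul_sub, ← pow_val_add hζ, ← pow_val_add hζ, neg_add_cancel, neg_add_eq_sub]
    simp
  refine hp (isUnit_of_dvd_unit ?_ h6)
  rw [← hab, h1]
  exact (h.mul_left _).mul_left _

/-- **Sextic reciprocity** over a number field `F`, in the ring `S = 𝓞_F[1/M]`, `6 ∣ M`.  The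
quotient `(a / b)₆ / (b / a)₆` is an alternating bimultiplicative function on `Fˣ` which is trivial
when one argument is `≡ 1 (mod M³)`. -/
def RecStmt : Prop :=
  ∀ (F : Type) [Field F] [NumberField F] (M : ℕ), 6 ∣ M → M ≠ 0 →
    ∀ (S : Type) [CommRing S] [Algebra S F], Function.Injective (algebraMap S F) →
      (∀ x : F, x ∈ (algebraMap S F).range ↔ ∃ j : ℕ, IsIntegral ℤ ((M : F) ^ j * x)) →
      ∀ ζ : S, ζ ^ 2 - ζ + 1 = 0 →
        IsUnit (6 : S) ∧ (∀ b : S, b ≠ 0 → Finite (S ⧸ Ideal.span {b})) ∧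
        ∃ T : F → F → ZMod 6,
          (∀ x x' y, x ≠ 0 → x' ≠ 0 → y ≠ 0 → T (x * x') y = T x y + T x' y) ∧
          (∀ x y, x ≠ 0 → y ≠ 0 → T y x = -T x y) ∧
          (∀ t y, IsIntegral ℤ t → y ≠ 0 → T (1 + (M : F) ^ 3 * t) y = 0) ∧
          ∀ a b : S, a ≠ 0 → b ≠ 0 → IsCoprime a b →
            T (algebraMap S F a) (algebraMap S F b) = zs ζ a b - zs ζ b a

end Crest.Agent.T27.Rc
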