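import Crest.Agent.T27.Sar_77

/-!
# Row 27, S-arithmetic, part 2 (helper77)

Ideals and quotients of `LocS F M`, the norm `nmS`, the ideal `idS n` of `𝓞 F` attached to
`n ∈ LocS F M`, existence of admissible `N`, `LS F N` is a principal ideal domain, the product
formula, `absS = |·|_S`, and the additive character `psiS` of `F / R`.
-/

set_option autoImplicit false
set_option linter.unusedSectionVars false

noncomputable section

open NumberField
open scoped nonZeroDivisors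

namespace Crest.Agent.T27

section loc

variable {F : Type*} [Field F] [NumberField F] {M : Submonoid ℕ}

theorem algebraMap_LocS_ne_zero {a : 𝓞 F} (ha : a ≠ 0) : algebraMap _ (LocS F M) a ≠ 0 :=
  fun h => ha (algebraMap_LocS_injective (h.trans (map_zero _).symm))

theorem map_under_LocS (h0 : 0 ∉ M) (J : Ideal (LocS F M)) :
    (J.under (𝓞 F)).map (algebraMap (𝓞 F) (LocS F M)) = J :=
  haveI := isLocalization_LocS (F := F) h0
  IsLocalization.map_under (castM F M) _ J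

theorem under_ne_bot (h0 : 0 ∉ M) {J : Ideal (LocS F M)} (hJ : J ≠ ⊥) : J.under (𝓞 F) ≠ ⊥ :=
  fun h => hJ (by rw [← map_under_LocS h0 J, h, Ideal.map_bot])

theorem under_bot_LocS : (⊥ : Ideal (LocS F M)).under (𝓞 F) = ⊥ :=
  Ideal.comap_bot_of_injective _ algebraMap_LocS_injective

theorem exists_pow_sub_one_mem (h0 : 0 ∉ M) {J : Ideal (LocS F M)} (hJ : J ≠ ⊥) {d : ℕ}
    (hd : d ∈ M) : ∃ k : ℕ, 0 < k ∧ (d : 𝓞 F) ^ k - 1 ∈ J.under (𝓞 F) := by
  have : Finite (𝓞 F ⧸ J.under (𝓞 F)) := Ideal.finiteQuotientOfFreeOfNeBot _ (under_ne_bot h0 hJ)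
  obtain ⟨a, b, hab, h⟩ := Finite.exists_ne_map_eq_of_infinite
    (fun k : ℕ => Ideal.Quotient.mk (J.under (𝓞 F)) ((d : 𝓞 F) ^ k))
  wlog hlt : a < b generalizing a b
  · exact this b a hab.symm h.symm (lt_of_le_of_ne (not_lt.1 hlt) hab.symm)
  obtain ⟨k, rfl⟩ := Nat.exists_eq_add_of_lt hlt
  refine ⟨k + 1, k.succ_pos, ?_⟩
  have h1 := Ideal.Quotient.eq.1 h.symm
  rw [Ideal.mem_under] at h1 ⊢
  have hu : IsUnit ((d : LocS F M) ^ a) := (isUnit_natCast_LocS h0 hd dvd_rfl).pow a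
  refine (Ideal.unit_mul_mem_iff_mem J hu).1 ?_
  convert h1 using 1
  simp only [map_sub, map_pow, map_natCast, map_one]
  ring

theorem isCoprime_under (h0 : 0 ∉ M) {J : Ideal (LocS F M)} (hJ : J ≠ ⊥) {d : ℕ}
    (hd : d ∈ M) : IsCoprime (J.under (𝓞 F)) (Ideal.span {(d : 𝓞 F)}) := by
  obtain ⟨k, hk, h⟩ := exists_pow_sub_one_mem h0 hJ hd
  rw [Ideal.isCoprime_iff_exists]
  exact ⟨-((d : 𝓞 F) ^ k - 1), neg_mem h, (d : 𝓞 F) ^ k,
    Ideal.mem_span_singleton.2 (dvd_pow_self _ hk.ne'), by ring⟩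

/-- Every element of `LocS F M` is congruent to an algebraic integer modulo a non-zero ideal. -/
theorem exists_sub_mem (h0 : 0 ∉ M) {J : Ideal (LocS F M)} (hJ : J ≠ ⊥) (x : LocS F M) :
    ∃ a : 𝓞 F, algebraMap _ _ a - x ∈ J := by
  obtain ⟨d, hd, a, ha⟩ := exists_eq_of_mem_LocS x.2
  obtain ⟨k, hk, h⟩ := exists_pow_sub_one_mem h0 hJ hd
  obtain ⟨k, rfl⟩ := Nat.exists_eq_succ_of_ne_zero hk.ne'
  refine ⟨(d : 𝓞 F) ^ k * a, ?_⟩
  rw [Ideal.mem_under] at h
  convert J.mul_mem_right x h using 1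
  apply Subtype.ext
  have : ((algebraMap (𝓞 F) (LocS F M) a : LocS F M) : F) = d * x := ha.symm
  simp only [map_mul, map_pow, map_natCast, map_sub, map_one]
  push_cast
  rw [this, pow_succ]; ring

/-- `𝓞 F / (J ∩ 𝓞 F) ≃ LocS / J`. -/
def quotEquivLocS (h0 : 0 ∉ M) {J : Ideal (LocS F M)} (hJ : J ≠ ⊥) :
    (𝓞 F ⧸ J.under (𝓞 F)) ≃+* (LocS F M ⧸ J) :=
  RingEquiv.ofBijective (Ideal.quotientMap J (algebraMap (𝓞 F) (LocS F M)) le_rfl)
    ⟨Ideal.quotientMap_injective, fun q => by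
      obtain ⟨x, rfl⟩ := Ideal.Quotient.mk_surjective q
      obtain ⟨a, ha⟩ := exists_sub_mem h0 hJ x
      exact ⟨Ideal.Quotient.mk _ a, Ideal.Quotient.eq.2 ha⟩⟩

theorem finite_quot_LocS (h0 : 0 ∉ M) {J : Ideal (LocS F M)} (hJ : J ≠ ⊥) :
    Finite (LocS F M ⧸ J) :=
  haveI : Finite (𝓞 F ⧸ J.under (𝓞 F)) :=
    Ideal.finiteQuotientOfFreeOfNeBot _ (under_ne_bot h0 hJ)
  Finite.of_equiv _ (quotEquivLocS h0 hJ).toEquiv

instance : Infinite (LocS F M) := Infinite.of_injective _ (Nat.cast_injective (R := LocS F M))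

instance : Countable (LocS F M) :=
  haveI : Countable F := (Module.finBasis ℚ F).equivFun.injective.countable
  inferInstance

theorem card_quot_LocS (h0 : 0 ∉ M) (J : Ideal (LocS F M)) :
    Nat.card (LocS F M ⧸ J) = Ideal.absNorm (J.under (𝓞 F)) := by
  by_cases hJ : J = ⊥
  · subst hJ
    rw [under_bot_LocS, Ideal.absNorm_bot, Nat.card_congr (RingEquiv.quotientBot _).toEquiv]
    exact Nat.card_eq_zero_of_infinite
  · rw [Ideal.absNorm_apply, Submodule.cardQuot_apply]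
    exact (Nat.card_congr (quotEquivLocS h0 hJ).toEquiv).symm

theorem under_map_LocS (h0 : 0 ∉ M) {I : Ideal (𝓞 F)}
    (hI : ∀ d ∈ M, IsCoprime I (Ideal.span {(d : 𝓞 F)})) :
    (I.map (algebraMap (𝓞 F) (LocS F M))).under (𝓞 F) = I := by
  have := isLocalization_LocS (F := F) h0
  refine le_antisymm (fun a ha => ?_) Ideal.le_comap_map
  rw [Ideal.mem_under, IsLocalization.mem_map_algebraMap_iff (castM F M)] at ha
  obtain ⟨⟨⟨i, hi⟩, ⟨_, d, hd, rfl⟩⟩, h⟩ := ha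
  simp only [← map_mul] at h
  have h1 := algebraMap_LocS_injective h
  obtain ⟨u, hu, v, hv, huv⟩ := Ideal.isCoprime_iff_exists.1 (hI d hd)
  obtain ⟨c, rfl⟩ := Ideal.mem_span_singleton'.1 hv
  have : a = a * u + c * i := by
    rw [← h1]
    change a = a * u + c * (a * d)
    linear_combination (-a) * huv
  rw [this]
  exact add_mem (I.mul_mem_left a hu) (I.mul_mem_left c hi)

theorem under_mul_LocS (h0 : 0 ∉ M) (J J' : Ideal (LocS F M)) :
    (J * J').under (𝓞 F) = J.under (𝓞 F) * J'.under (𝓞 F) := by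
  by_cases hJ : J = ⊥
  · simp [hJ, under_bot_LocS]
  by_cases hJ' : J' = ⊥
  · simp [hJ', under_bot_LocS]
  rw [← under_map_LocS h0 (I := J.under (𝓞 F) * J'.under (𝓞 F)) fun d hd =>
    (isCoprime_under h0 hJ hd).mul_left (isCoprime_under h0 hJ' hd), Ideal.map_mul,
    map_under_LocS h0, map_under_LocS h0]

/-- The ideal `n LocS ∩ 𝓞 F`. -/
def idS (n : LocS F M) : Ideal (𝓞 F) := (Ideal.span {n}).under (𝓞 F)

/-- The norm `#(LocS / n)`. -/
def nmS (n : LocS F M) : ℕ := Nat.card (LocS F M ⧸ Ideal.span {n})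

theorem mem_idS {n : LocS F M} {a : 𝓞 F} : a ∈ idS n ↔ n ∣ algebraMap _ _ a := by
  rw [idS, Ideal.mem_under, Ideal.mem_span_singleton]

theorem idS_zero : idS (0 : LocS F M) = ⊥ := by
  rw [idS, Ideal.span_singleton_zero, under_bot_LocS]


theorem idS_mul (h0 : 0 ∉ M) (m n : LocS F M) : idS (m * n) = idS m * idS n := by
  rw [idS, ← Ideal.span_singleton_mul_span_singleton, under_mul_LocS h0]; rfl

theorem map_idS (h0 : 0 ∉ M) (n : LocS F M) :
    (idS n).map (algebraMap (𝓞 F) (LocS F M)) = Ideal.span {n} := map_under_LocS h0 _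

theorem idS_eq_iff (h0 : 0 ∉ M) {m n : LocS F M} : idS m = idS n ↔ Associated m n := by
  rw [← Ideal.span_singleton_eq_span_singleton]
  exact ⟨fun h => by rw [← map_idS h0, h, map_idS h0], fun h => by rw [idS, h, idS]⟩

theorem idS_le_iff (h0 : 0 ∉ M) {m n : LocS F M} : idS m ≤ idS n ↔ n ∣ m := by
  rw [← Ideal.span_singleton_le_span_singleton]
  exact ⟨fun h => by rw [← map_idS h0, ← map_idS h0]; exact Ideal.map_mono h,
    fun h => Ideal.comap_mono h⟩

theorem idS_ne_bot (h0 : 0 ∉ M) {n : LocS F M} (hn : n ≠ 0) : idS n ≠ ⊥ :=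
  under_ne_bot h0 (by simpa using hn)

theorem idS_isCoprime (h0 : 0 ∉ M) {n : LocS F M} (hn : n ≠ 0) {d : ℕ} (hd : d ∈ M) :
    IsCoprime (idS n) (Ideal.span {(d : 𝓞 F)}) := isCoprime_under h0 (by simpa using hn) hd

theorem nmS_eq (h0 : 0 ∉ M) (n : LocS F M) : nmS n = Ideal.absNorm (idS n) :=
  card_quot_LocS h0 _

theorem nmS_mul (h0 : 0 ∉ M) (m n : LocS F M) : nmS (m * n) = nmS m * nmS n := by
  rw [nmS_eq h0, nmS_eq h0, nmS_eq h0, idS_mul h0, map_mul]

theorem nmS_ne_zero (h0 : 0 ∉ M) {n : LocS F M} (hn : n ≠ 0) : nmS n ≠ 0 := by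
  rw [nmS_eq h0, Ne, Ideal.absNorm_eq_zero_iff]; exact idS_ne_bot h0 hn

theorem nmS_zero (h0 : 0 ∉ M) : nmS (0 : LocS F M) = 0 := by
  rw [nmS_eq h0, idS_zero, Ideal.absNorm_bot]

theorem nmS_of_isUnit {n : LocS F M} (hn : IsUnit n) : nmS n = 1 := by
  have : Subsingleton (LocS F M ⧸ Ideal.span {n}) :=
    Ideal.Quotient.subsingleton_iff.2 (Ideal.span_singleton_eq_top.2 hn)
  exact Nat.card_unique

/-- The multiplicative extension of `nmS` to `F`. -/
def nmQ (M : Submonoid ℕ) (x : F) : ℝ :=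
  (nmS (IsLocalization.sec (LocS F M)⁰ x).1 : ℝ) / nmS ((IsLocalization.sec (LocS F M)⁰ x).2 : LocS F M)

theorem nmQ_eq (h0 : 0 ∉ M) {x : F} {a b : LocS F M} (hb : b ≠ 0) (h : x * b = a) :
    nmQ M x = (nmS a : ℝ) / nmS b := by
  have h1 := IsLocalization.sec_spec (LocS F M)⁰ x
  set s := IsLocalization.sec (LocS F M)⁰ x
  have h2 : (s.2 : LocS F M) ≠ 0 := nonZeroDivisors.ne_zero s.2.2
  have h3 : s.1 * b = a * s.2 := by
    apply Subtype.ext
    change (s.1 : F) * b = a * (s.2 : LocS F M)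
    change x * ((s.2 : LocS F M) : F) = (s.1 : F) at h1
    rw [← h1, ← h]; ring
  have h4 := congrArg (fun z => (nmS z : ℝ)) h3
  simp only [nmS_mul h0, Nat.cast_mul] at h4
  have h5 : (nmS b : ℝ) ≠ 0 := by exact_mod_cast nmS_ne_zero h0 hb
  have h6 : (nmS (s.2 : LocS F M) : ℝ) ≠ 0 := by exact_mod_cast nmS_ne_zero h0 h2
  rw [nmQ, div_eq_div_iff h6 h5, h4]

theorem nmQ_coe (h0 : 0 ∉ M) (a : LocS F M) : nmQ M (a : F) = nmS a := by
  rw [nmQ_eq h0 (a := a) (b := 1) one_ne_zero (by simp), nmS_of_isUnit isUnit_one]; simp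

theorem exists_mul_eq_LocS (x : F) : ∃ a b : LocS F M, b ≠ 0 ∧ x * b = a := by
  obtain ⟨m, hm, a, h⟩ := exists_nat_mul_eq x
  exact ⟨⟨a, coe_mem_LocS a⟩, m, by exact_mod_cast hm, by rw [mul_comm]; exact h⟩

theorem nmQ_mul (h0 : 0 ∉ M) (x y : F) : nmQ M (x * y) = nmQ M x * nmQ M y := by
  obtain ⟨a, b, hb, h⟩ := exists_mul_eq_LocS (M := M) x
  obtain ⟨c, d, hd, h'⟩ := exists_mul_eq_LocS (M := M) y
  rw [nmQ_eq h0 hb h, nmQ_eq h0 hd h', nmQ_eq h0 (a := a * c) (mul_ne_zero hb hd)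
    (by push_cast; rw [← h, ← h']; ring), nmS_mul h0, nmS_mul h0]
  push_cast; ring

theorem nmQ_zero (h0 : 0 ∉ M) : nmQ M (0 : F) = 0 := by
  have := nmQ_coe (F := F) h0 0
  rwa [nmS_zero h0, Nat.cast_zero] at this

theorem nmQ_pos (h0 : 0 ∉ M) {x : F} (hx : x ≠ 0) : 0 < nmQ M x := by
  obtain ⟨a, b, hb, h⟩ := exists_mul_eq_LocS (M := M) x
  have ha : a ≠ 0 := by
    rintro rfl
    exact mul_ne_zero hx (show (b : F) ≠ 0 by simpa using hb) h
  rw [nmQ_eq h0 hb h]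
  exact div_pos (by exact_mod_cast Nat.pos_of_ne_zero (nmS_ne_zero h0 ha))
    (by exact_mod_cast Nat.pos_of_ne_zero (nmS_ne_zero h0 hb))

theorem nmQ_of_mem_unitsIn (h0 : 0 ∉ M) {x : Fˣ} (hx : x ∈ unitsIn (LocS F M)) :
    nmQ M (x : F) = 1 := by
  have := nmQ_coe h0 (⟨(x : F), hx.1⟩ : LocS F M)
  rwa [nmS_of_isUnit (isUnit_iff_subring.2 ⟨x.ne_zero, hx.2⟩), Nat.cast_one] at this

end loc

/-! ## existence of admissible `N` -/

theorem exists_sgood (F : Type*) [Field F] [NumberField F] {M : ℕ} (hM : M ≠ 0) :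
    ∃ N, M ∣ N ∧ SGood F N := by
  classical
  choose rep hrep using ClassGroup.mk0_surjective (R := 𝓞 F)
  set N : ℕ := M * 6 * (discr F).natAbs * ∏ c, Ideal.absNorm (rep c : Ideal (𝓞 F)) with hN
  have hN0 : N ≠ 0 := mul_ne_zero (mul_ne_zero (mul_ne_zero hM (by norm_num))
    (by simpa using discr_ne_zero F))
    (Finset.prod_ne_zero_iff.2 fun c _ => Ideal.absNorm_ne_zero_of_nonZeroDivisors _)
  have h0 := zero_notMem_powers hN0
  refine ⟨N, Dvd.dvd.mul_right (Dvd.dvd.mul_right (dvd_mul_right M 6) _) _, hN0, ?_, ?_,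
    ⟨fun J => ?_⟩⟩
  · exact Dvd.dvd.mul_right (Dvd.dvd.mul_right (dvd_mul_left 6 M) _) _
  · exact Dvd.dvd.mul_right (dvd_mul_left _ _) _
  by_cases hJ : J = ⊥
  · rw [hJ]; exact bot_isPrincipal
  set I : (Ideal (𝓞 F))⁰ := ⟨J.under (𝓞 F), mem_nonZeroDivisors_of_ne_zero (under_ne_bot h0 hJ)⟩
  obtain ⟨x, y, hx, hy, h⟩ := ClassGroup.mk0_eq_mk0_iff.1 (hrep (ClassGroup.mk0 I)).symm
  have h1 := congrArg (Ideal.map (algebraMap (𝓞 F) (RS F N))) h
  have h2 : (rep (ClassGroup.mk0 I) : Ideal (𝓞 F)).map (algebraMap (𝓞 F) (RS F N)) = ⊤ := by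
    refine Ideal.eq_top_of_isUnit_mem _ (Ideal.mem_map_of_mem _ (Ideal.absNorm_mem _)) ?_
    rw [map_natCast]
    refine isUnit_natCast_LocS h0 (Submonoid.mem_powers N) ?_
    exact Dvd.dvd.mul_left (Finset.dvd_prod_of_mem _ (Finset.mem_univ _)) _
  rw [Ideal.map_mul, Ideal.map_mul, h2, Ideal.mul_top, Ideal.map_span, Ideal.map_span,
    Set.image_singleton, Set.image_singleton, map_under_LocS h0] at h1
  have hx' : algebraMap (𝓞 F) (RS F N) x ≠ 0 := algebraMap_LocS_ne_zero hx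
  obtain ⟨j, hj, hxy⟩ := Ideal.mem_span_singleton_mul.1 (h1 ▸ Ideal.mem_span_singleton_self _)
  refine ⟨j, le_antisymm (fun z hz => ?_) ((Ideal.span_singleton_le_iff_mem _).2 hj)⟩
  have h3 : algebraMap (𝓞 F) (RS F N) x * z ∈ Ideal.span {algebraMap (𝓞 F) (RS F N) y} :=
    h1 ▸ Ideal.mul_mem_mul (Ideal.mem_span_singleton_self _) hz
  rw [← hxy, Ideal.mem_span_singleton, mul_dvd_mul_iff_left hx'] at h3
  exact Ideal.mem_span_singleton.2 h3

section good

variable {F : Type*} [Field F] [NumberField F] {N : ℕ} [hG : SGood F N]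

include hG

variable (F N) in
theorem SGood.h0R : 0 ∉ Submonoid.powers N := zero_notMem_powers hG.ne

variable (F N) in
theorem SGood.h0L : 0 ∉ copM N := zero_notMem_copM (SGood.one_lt F N).ne'

theorem N_mem_of_isMaximal {J : Ideal (LS F N)} (hJ : J.IsMaximal) : (N : LS F N) ∈ J := by
  by_contra h
  obtain ⟨l, m, hm, h1⟩ := hJ.exists_inv h
  refine hJ.ne_top (Ideal.eq_top_of_isUnit_mem _ hm (isUnit_iff_subring.2 ?_))
  have : (m : F) = 1 + N * (-l : LS F N) := by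
    have := congrArg (fun z : LS F N => (z : F)) h1
    push_cast at this ⊢
    linear_combination this
  rw [this]
  exact one_add_mul_LS (-l).2

theorem finite_isMaximal_LS : {J : Ideal (LS F N) | J.IsMaximal}.Finite := by
  have : Finite (LS F N ⧸ Ideal.span {(N : LS F N)}) :=
    finite_quot_LocS (SGood.h0L F N) (by simpa using hG.ne)
  refine (Set.finite_range (Ideal.comap (Ideal.Quotient.mk (Ideal.span {(N : LS F N)})))).subset
    fun J hJ => ⟨J.map (Ideal.Quotient.mk _), ?_⟩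
  rw [Ideal.comap_map_quotientMk, sup_eq_right]
  exact (Ideal.span_singleton_le_iff_mem _).2 (N_mem_of_isMaximal hJ)

instance : IsPrincipalIdealRing (LS F N) :=
  haveI := isDedekindDomain_LocS (F := F) (SGood.h0L F N)
  IsPrincipalIdealRing.of_finite_maximals finite_isMaximal_LS

theorem finite_quot_RS {n : RS F N} (hn : n ≠ 0) : Finite (RS F N ⧸ Ideal.span {n}) :=
  finite_quot_LocS (SGood.h0R F N) (by simpa using hn)

theorem finite_quot_LS {n : LS F N} (hn : n ≠ 0) : Finite (LS F N ⧸ Ideal.span {n}) :=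
  finite_quot_LocS (SGood.h0L F N) (by simpa using hn)

theorem idS_isCoprime_N {n : RS F N} (hn : n ≠ 0) :
    IsCoprime (idS n) (Ideal.span {(N : 𝓞 F)}) :=
  idS_isCoprime (SGood.h0R F N) hn (Submonoid.mem_powers N)

/-- Every ideal of `𝓞 F` coprime to `N` comes from an element of `R`. -/
theorem exists_idS_eq {I : Ideal (𝓞 F)} (hI : IsCoprime I (Ideal.span {(N : 𝓞 F)})) :
    ∃ n : RS F N, n ≠ 0 ∧ idS n = I := by
  obtain ⟨n, hn⟩ := (IsPrincipalIdealRing.principal (I.map (algebraMap (𝓞 F) (RS F N)))).principal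
  have h1 : idS n = I := by
    rw [idS, ← Ideal.submodule_span_eq, ← hn]
    refine under_map_LocS (SGood.h0R F N) ?_
    rintro _ ⟨k, rfl⟩
    simpa [← Ideal.span_singleton_pow] using hI.pow_right (n := k)
  refine ⟨n, ?_, h1⟩
  rintro rfl
  rw [← h1, idS_zero, ← Ideal.zero_eq_bot, isCoprime_zero_left, Ideal.isUnit_iff,
    Ideal.span_singleton_eq_top] at hI
  exact inv_N_notMem_LS (F := F) (N := N)
    (by simpa using inv_mem_LS_of_isCoprime hG.ne (c := N) (by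
      obtain ⟨c, hc⟩ := hI.exists_left_inv
      exact ⟨c, 0, by simpa using hc⟩))

theorem pow_mem_idS_LS {m : LS F N} (hm : m ≠ 0) : ∃ k : ℕ, (N : 𝓞 F) ^ k ∈ idS m := by
  obtain ⟨k, hk⟩ := exists_pow_mul_mem_LS hG.ne (m : F)⁻¹
  exact ⟨k, mem_idS.2 ((dvd_iff_subring (by simpa using hm)).2 (by simpa [div_eq_mul_inv] using hk))⟩

/-- `a 𝓞 = (a R ∩ 𝓞)(a Λ ∩ 𝓞)`. -/
theorem idS_mul_idS (a : 𝓞 F) :
    idS (algebraMap _ (RS F N) a) * idS (algebraMap _ (LS F N) a) = Ideal.span {a} := by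
  by_cases ha : a = 0
  · simp [ha, idS_zero]
  have ha1 : algebraMap _ (RS F N) a ≠ 0 := algebraMap_LocS_ne_zero ha
  have ha2 : algebraMap _ (LS F N) a ≠ 0 := algebraMap_LocS_ne_zero ha
  have ha3 : (a : F) ≠ 0 := by simpa using ha
  obtain ⟨k, hk⟩ := pow_mem_idS_LS ha2
  have hc : IsCoprime (idS (algebraMap _ (RS F N) a)) (idS (algebraMap _ (LS F N) a)) := by
    refine IsCoprime.of_isCoprime_of_dvd_right ((idS_isCoprime_N ha1).pow_right (n := k)) ?_
    rw [Ideal.span_singleton_pow, Ideal.dvd_span_singleton]; exact hk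
  rw [Ideal.mul_eq_inf_of_isCoprime hc]
  ext x
  rw [Ideal.mem_inf, mem_idS, mem_idS, dvd_iff_subring (by exact ha3),
    dvd_iff_subring (by exact ha3), Ideal.mem_span_singleton]
  constructor
  · rintro ⟨h1, h2⟩
    obtain ⟨c, hc⟩ := exists_coe_of_mem_RS_LS h1 h2
    refine ⟨c, RingOfIntegers.ext ?_⟩
    change (x : F) = a * c
    rw [hc]; simp only [coe_algebraMap_LocS]; field_simp
  · rintro ⟨c, rfl⟩
    have : ((a * c : 𝓞 F) : F) / a = c := by
      change (a : F) * c / a = c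
      field_simp
    simp only [coe_algebraMap_LocS, this]
    exact ⟨coe_mem_LocS c, coe_mem_LocS c⟩

/-- The product formula. -/
theorem nmQ_mul_nmQ (x : F) :
    nmQ (Submonoid.powers N) x * nmQ (copM N) x = |((Algebra.norm ℚ x : ℚ) : ℝ)| := by
  have key : ∀ a : 𝓞 F, nmQ (Submonoid.powers N) (a : F) * nmQ (copM N) (a : F) =
      |((Algebra.norm ℚ (a : F) : ℚ) : ℝ)| := fun a => by
    have h1 := congrArg Ideal.absNorm (idS_mul_idS (N := N) a)
    rw [map_mul, ← nmS_eq (SGood.h0R F N), ← nmS_eq (SGood.h0L F N),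
      Ideal.absNorm_span_singleton] at h1
    have h2 := nmQ_coe (SGood.h0R F N) (algebraMap _ (RS F N) a)
    have h3 := nmQ_coe (SGood.h0L F N) (algebraMap _ (LS F N) a)
    rw [coe_algebraMap_LocS] at h2 h3
    rw [h2, h3, ← Nat.cast_mul, h1, ← Algebra.coe_norm_int]
    simp
  obtain ⟨a, b, hb, rfl⟩ := IsFractionRing.div_surjective (A := 𝓞 F) x
  have hb0 : (b : F) ≠ 0 := by simpa using nonZeroDivisors.ne_zero hb
  have h1 := key a
  have h2 := key b
  have h3 : (a : F) = (a : F) / b * b := by field_simp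
  have h4 : |((Algebra.norm ℚ (b : F) : ℚ) : ℝ)| ≠ 0 := by simpa using hb0
  change nmQ _ ((a : F) / b) * nmQ _ ((a : F) / b) = |((Algebra.norm ℚ ((a : F) / b) : ℚ) : ℝ)|
  rw [h3, nmQ_mul (SGood.h0R F N), nmQ_mul (SGood.h0L F N), map_mul, Rat.cast_mul, abs_mul,
    mul_mul_mul_comm, h2] at h1
  exact mul_right_cancel₀ h4 h1

/-- `|x|_S`. -/
def absS (N : ℕ) (x : F) : ℝ := (nmQ (copM N) x)⁻¹

theorem absS_mul (x y : F) : absS N (x * y) = absS N x * absS N y := by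
  rw [absS, nmQ_mul (SGood.h0L F N), mul_inv]; rfl

theorem absS_zero : absS N (0 : F) = 0 := by rw [absS, nmQ_zero (SGood.h0L F N), inv_zero]

theorem absS_pos {x : F} (hx : x ≠ 0) : 0 < absS N x := inv_pos.2 (nmQ_pos (SGood.h0L F N) hx)

theorem absS_card (m : LS F N) (hm : m ≠ 0) :
    absS N (m : F) * Nat.card (LS F N ⧸ Ideal.span {m}) = 1 := by
  rw [absS, nmQ_coe (SGood.h0L F N)]
  exact inv_mul_cancel₀ (by exact_mod_cast nmS_ne_zero (SGood.h0L F N) hm)

theorem absS_of_mem_UL {x : Fˣ} (hx : x ∈ UL F N) : absS N (x : F) = 1 := by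
  rw [absS, nmQ_of_mem_unitsIn (SGood.h0L F N) hx, inv_one]

theorem absS_one : absS N (1 : F) = 1 := absS_of_mem_UL (x := (1 : Fˣ)) (one_mem _)

theorem absS_inv (x : F) : absS N x⁻¹ = (absS N x)⁻¹ := by
  by_cases hx : x = 0
  · simp [hx, absS_zero]
  exact eq_inv_of_mul_eq_one_left (by rw [← absS_mul, inv_mul_cancel₀ hx, absS_one])

theorem absS_pow (x : F) (k : ℕ) : absS N (x ^ k) = absS N x ^ k := by
  induction k with
  | zero => simp [absS_one]
  | succ k ih => rw [pow_succ, absS_mul, ih, pow_succ]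

theorem nmQ_eq_absS (x : F) :
    nmQ (Submonoid.powers N) x = absS N x * |((Algebra.norm ℚ x : ℚ) : ℝ)| := by
  by_cases hx : x = 0
  · simp [hx, absS_zero, nmQ_zero (SGood.h0R F N)]
  rw [← nmQ_mul_nmQ (N := N), absS]
  have := (nmQ_pos (SGood.h0L F N) hx).ne'
  field_simp

/-- `#(R / n) = |n|_S |N n|`. -/
theorem nmS_eq_absS (n : RS F N) :
    (nmS n : ℝ) = absS N (n : F) * |((Algebra.norm ℚ (n : F) : ℚ) : ℝ)| := by
  rw [← nmQ_eq_absS, nmQ_coe (SGood.h0R F N)]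




end good

/-! ## the additive character of `F / R` -/

section psi

variable {F : Type*} [Field F] [NumberField F] {N : ℕ}

/-- An element of `Λ` congruent to `x` modulo `R`. -/
def sPart (N : ℕ) (x : F) : F := Classical.epsilon fun l => l ∈ LS F N ∧ x - l ∈ RS F N

/-- `exp(2πi Tr x)`. -/
def eTr (x : F) : ℂ := Complex.exp (2 * Real.pi * Complex.I * ((Algebra.trace ℚ F x : ℚ) : ℂ))

/-- The additive character `ψ^S` of `F / R`. -/
def psiS (N : ℕ) (x : F) : ℂ := eTr (sPart N x)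

theorem eTr_add (x y : F) : eTr (x + y) = eTr x * eTr y := by
  rw [eTr, map_add, Rat.cast_add, mul_add, Complex.exp_add]; rfl

theorem eTr_eq_one_iff {x : F} : eTr x = 1 ↔ ∃ k : ℤ, Algebra.trace ℚ F x = k := by
  rw [eTr, Complex.exp_eq_one_iff]
  refine exists_congr fun k => ?_
  rw [mul_comm (k : ℂ), mul_right_inj' Complex.two_pi_I_ne_zero, ← Rat.cast_intCast, Rat.cast_inj]

theorem eTr_of_isIntegral {x : F} (hx : IsIntegral ℤ x) : eTr x = 1 :=
  eTr_eq_one_iff.2 ⟨Algebra.trace ℤ (𝓞 F) ⟨x, hx⟩, (Algebra.coe_trace_int (⟨x, hx⟩ : 𝓞 F)).symm⟩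

theorem norm_eTr (x : F) : ‖eTr x‖ = 1 := by
  rw [eTr, show 2 * Real.pi * Complex.I * ((Algebra.trace ℚ F x : ℚ) : ℂ) =
    ((2 * Real.pi * (Algebra.trace ℚ F x : ℚ) : ℝ) : ℂ) * Complex.I by push_cast; ring]
  exact Complex.norm_exp_ofReal_mul_I _

theorem norm_psiS (x : F) : ‖psiS N x‖ = 1 := norm_eTr _

theorem sPart_spec (hN : N ≠ 0) (x : F) : sPart N x ∈ LS F N ∧ x - sPart N x ∈ RS F N := by
  refine Classical.epsilon_spec (p := fun l => l ∈ LS F N ∧ x - l ∈ RS F N) ?_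
  obtain ⟨r, hr, l, hl, h⟩ := exists_add_pow hN 0 x
  exact ⟨l, hl, by rw [h]; simpa using hr⟩

theorem psiS_eq (hN : N ≠ 0) {x l : F} (hl : l ∈ LS F N) (h : x - l ∈ RS F N) :
    psiS N x = eTr l := by
  obtain ⟨h1, h2⟩ := sPart_spec hN x
  have h3 : IsIntegral ℤ (sPart N x - l) := isIntegral_of_mem_RS_LS
    (by simpa using sub_mem h h2) (sub_mem h1 hl)
  rw [psiS, show sPart N x = sPart N x - l + l by ring, eTr_add, eTr_of_isIntegral h3, one_mul]

theorem psiS_add_of_mem (hN : N ≠ 0) {l r : F} (hl : l ∈ LS F N) (hr : r ∈ RS F N) :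
    psiS N (l + r) = eTr l := psiS_eq hN hl (by simpa using hr)

theorem psiS_of_mem_LS (hN : N ≠ 0) {l : F} (hl : l ∈ LS F N) : psiS N l = eTr l :=
  psiS_eq hN hl (by simp)

theorem psiS_of_mem_RS (hN : N ≠ 0) {r : F} (hr : r ∈ RS F N) : psiS N r = 1 := by
  rw [psiS_eq hN (zero_mem _) (by simpa using hr), eTr_of_isIntegral isIntegral_zero]

theorem psiS_add (hN : N ≠ 0) (x y : F) : psiS N (x + y) = psiS N x * psiS N y := by
  obtain ⟨h1, h2⟩ := sPart_spec hN x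
  obtain ⟨h3, h4⟩ := sPart_spec hN y
  rw [psiS_eq hN (add_mem h1 h3) (by convert add_mem h2 h4 using 1; ring), eTr_add]; rfl


theorem psiS_congr (hN : N ≠ 0) {x y : F} (h : x - y ∈ RS F N) : psiS N x = psiS N y := by
  rw [show x = y + (x - y) by ring, psiS_add hN, psiS_of_mem_RS hN h, mul_one]

theorem isIntegral_discr_mul {x : F} (h : ∀ a : 𝓞 F, eTr (x * a) = 1) :
    IsIntegral ℤ ((discr F : F) * x) := by
  classical
  have := isIntegral_discr_mul_of_mem_traceDual (A := ℤ) (K := ℚ) (L := F) (B := 𝓞 F)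
    (1 : Submodule (𝓞 F) F) (b := integralBasis F)
    (fun i => by rw [integralBasis_apply]; exact RingOfIntegers.isIntegral_coe _) (a := 1) (x := x)
    (Submodule.mem_one.2 ⟨1, by simp⟩) (by
      rw [Submodule.mem_traceDual]
      intro a ha
      obtain ⟨a, rfl⟩ := Submodule.mem_one.1 ha
      obtain ⟨k, hk⟩ := eTr_eq_one_iff.1 (h a)
      exact ⟨k, by rw [Algebra.traceForm_apply]; exact hk.symm⟩)
  rw [← coe_discr] at this
  simpa [Algebra.smul_def] using this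

/-- `R` is self-dual for `ψ^S`. -/
theorem mem_RS_of_psiS [hG : SGood F N] {x : F} (h : ∀ y ∈ RS F N, psiS N (x * y) = 1) :
    x ∈ RS F N := by
  obtain ⟨h1, h2⟩ := sPart_spec hG.ne x
  have h3 : IsIntegral ℤ ((discr F : F) * sPart N x) := isIntegral_discr_mul fun a => by
    rw [← h a (coe_mem_LocS a)]
    exact (psiS_eq hG.ne (mul_mem h1 (coe_mem_LocS a))
      (by rw [← sub_mul]; exact mul_mem h2 (coe_mem_LocS a))).symm
  obtain ⟨c, hc⟩ : (discr F) ∣ (N : ℤ) := Int.natAbs_dvd.1 (Int.natCast_dvd_natCast.2 hG.disc)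
  have h4 : sPart N x ∈ RS F N := mem_RS.2 ⟨1, by
    have : (N : F) ^ 1 * sPart N x = c * ((discr F : F) * sPart N x) := by
      have := congrArg (Int.cast : ℤ → F) hc
      push_cast at this
      rw [pow_one, this]; ring
    rw [this]; exact (isIntegral_intCast c).mul h3⟩
  simpa using add_mem h2 h4

end psi

end Crest.Agent.T27
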