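import Crest.Agent.T27.LS2Red_81_Mg
import Crest.Agent.T27.Mn1_85
import Crest.Agent.PVc.R17.Recip
import Crest.Agent.T27.RecDefs_64
import Crest.Agent.T27.Sar2_77
import Crest.Agent.T27.EndDefs_65
import Crest.Agent.PVc.R5.Mertens
import Crest.Agent.PVc.R27.Iface
import Crest.Agent.PVc.S0022_Mg

-- ▼ part T27/LS2_81
section

/-!
# Row 27: Heath-Brown's quadratic large sieve for every instance of `LF`
-/

set_option autoImplicit false

noncomputable section

namespace Crest.Agent.T27.LS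

variable [LF]

/-- **Quadratic large sieve** (rows are the moduli). -/
theorem quad_large_sieve {ε : ℝ} (hε : 0 < ε) : ∃ C : ℝ, 0 < C ∧
    ∀ (K N : ℝ) (β : O → ℂ), 1 ≤ K → 1 ≤ N →
      ∑ k ∈ sp K, ‖∑ n ∈ sp N, β n * quad k n‖ ^ 2 ≤
        C * (K * N) ^ ε * (K + N) * ∑ n ∈ sp N, ‖β n‖ ^ 2 := by
  refine final_of_step (LS_of_Core zero_le_two Core_two) (fun ξ h1 h2 h => ?_) hε
  refine LS_of_Core ?_ (Core_of_LSw h1 h2 (LSw_of_LS (by linarith) h))
  have : 1 / ξ ≤ 1 := by rw [div_le_one (by linarith)]; exact h1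
  linarith

/-- The same for arbitrary finite sets of squarefree primary elements. -/
theorem quad_large_sieve' {ε : ℝ} (hε : 0 < ε) : ∃ C : ℝ, 0 < C ∧
    ∀ (K N : ℝ) (S T : Finset O) (β : O → ℂ), 1 ≤ K → 1 ≤ N →
      (∀ k ∈ S, Primary k ∧ Squarefree k ∧ (nm k : ℝ) ≤ K) →
      (∀ n ∈ T, Primary n ∧ Squarefree n ∧ (nm n : ℝ) ≤ N) →
      ∑ k ∈ S, ‖∑ n ∈ T, β n * quad k n‖ ^ 2 ≤
        C * (K * N) ^ ε * (K + N) * ∑ n ∈ T, ‖β n‖ ^ 2 := by
  classical
  obtain ⟨C, hC, h⟩ := quad_large_sieve hε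
  refine ⟨C, hC, fun K N S T β hK hN hS hT => ?_⟩
  have hS' : S ⊆ sp K := fun k hk =>
    (mem_sp (by linarith)).2 ⟨⟨(hS k hk).1, (hS k hk).2.1⟩, (hS k hk).2.2⟩
  have hT' : T ⊆ sp N := fun k hk =>
    (mem_sp (by linarith)).2 ⟨⟨(hT k hk).1, (hT k hk).2.1⟩, (hT k hk).2.2⟩
  have h1 := h K N (fun n => if n ∈ T then β n else 0) hK hN
  have e1 : ∀ F : O → ℂ, ∑ n ∈ sp N, (if n ∈ T then β n else 0) * F n = ∑ n ∈ T, β n * F n := by
    intro F
    rw [← Finset.sum_subset hT' fun n _ hn => by rw [if_neg hn, zero_mul]]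
    exact Finset.sum_congr rfl fun n hn => by rw [if_pos hn]
  have e2 : ∑ n ∈ sp N, ‖(if n ∈ T then β n else 0)‖ ^ 2 = ∑ n ∈ T, ‖β n‖ ^ 2 := by
    rw [← Finset.sum_subset hT' fun n _ hn => by rw [if_neg hn]; simp]
    exact Finset.sum_congr rfl fun n hn => by rw [if_pos hn]
  rw [e2] at h1
  simp only [e1] at h1
  exact (Finset.sum_le_sum_of_subset_of_nonneg hS' fun _ _ _ => sq_nonneg _).trans h1

end Crest.Agent.T27.LS
end
end

-- ▼ part T27/Mn2_85
section

/-!
# Row 27, sextic reciprocity by a Euclidean algorithm on polynomials, part 2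

`O` is a Euclidean ring (`ℤ[ω]`), `A = O[1/T]`, and the reciprocity law is known in `A`.  For a
monic `Q ∈ O[t]` and `g ∈ O[t]` the symbol of `g` on `A[t] / (Q, t - τ)` (`τ = -1/T`) is equal to
the symbol of `t - τ` on `A[t] / (Q, g)`.  The variable `X` of `A[X]` is `t - τ`.
-/

set_option autoImplicit false

noncomputable section

namespace Crest.Agent.T27.Mn

open Rc Polynomial

/-- the data over the base ring -/
structure Bs (O A : Type*) [CommRing O] [CommRing A] [Algebra O A] where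
  ζ : A
  T : O
  τ : A
  nm : O → ℕ
  hζ : ζ ^ 2 - ζ + 1 = 0
  h6 : IsUnit (6 : A)
  hτ : algebraMap O A T * τ = -1
  hT : ¬ IsUnit T
  inj : Function.Injective (algebraMap O A)
  fin : ∀ y : A, y ≠ 0 → Finite (A ⧸ Ideal.span {y})
  den : ∀ a : A, ∃ (k : ℕ) (o : O), algebraMap O A T ^ k * a = algebraMap O A o
  euc : ∀ u w : O, u ≠ 0 → ¬ u ∣ w →
    ∃ s s', s ≠ s' ∧ nm (w + s * u) < nm u ∧ nm (w + s' * u) < nm u
  law : ∀ x y : A, x ≠ 0 → IsCoprime x y →
    (∃ (k : ℕ) (o : O), algebraMap O A T ^ k * y = algebraMap O A (1 + T * o)) →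
    zs ζ x y = zs ζ y x

theorem monic_dvd {A : Type*} [CommRing A] [IsDomain A] {P x : A[X]} (hP : P.Monic) {c : A}
    (hc : c ≠ 0) (h : P ∣ C c * x) : P ∣ x := by
  rw [← modByMonic_eq_zero_iff_dvd hP] at h ⊢
  rw [← smul_eq_C_mul, smul_modByMonic] at h
  exact (smul_eq_zero.1 h).resolve_left hc

theorem mem_pair_X {A : Type*} [CommRing A] (b x : A[X]) :
    x ∈ Ideal.span ({b, X} : Set A[X]) ↔ constantCoeff x ∈ Ideal.span {constantCoeff b} := by
  rw [Ideal.mem_span_pair, Ideal.mem_span_singleton]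
  constructor
  · rintro ⟨s, t, rfl⟩
    exact ⟨constantCoeff s, by simp [mul_comm]⟩
  · rintro ⟨c, hc⟩
    obtain ⟨k, hk⟩ : X ∣ x - C c * b := X_dvd_iff.2 (by
      simp only [constantCoeff_apply] at hc
      simp [hc, mul_comm])
    exact ⟨C c, k, by linear_combination -hk⟩

theorem mem_pair_C {A : Type*} [CommRing A] (P x : A[X]) (c : A) :
    x ∈ Ideal.span ({P, C c} : Set A[X]) ↔
      mapRingHom (Ideal.Quotient.mk (Ideal.span {c})) x ∈
        Ideal.span {P.map (Ideal.Quotient.mk (Ideal.span {c}))} := by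
  have hc : Ideal.Quotient.mk (Ideal.span {c}) c = 0 :=
    Ideal.Quotient.eq_zero_iff_mem.2 (Ideal.mem_span_singleton_self c)
  rw [Ideal.mem_span_pair, Ideal.mem_span_singleton]
  constructor
  · rintro ⟨s, t, rfl⟩
    exact ⟨s.map (Ideal.Quotient.mk _), by simp [hc, mul_comm]⟩
  · rintro ⟨k, hk⟩
    obtain ⟨k, rfl⟩ := map_surjective _ Ideal.Quotient.mk_surjective k
    obtain ⟨t, ht⟩ : C c ∣ x - P * k := (C_dvd_iff_dvd_coeff _ _).2 fun i => by
      rw [← Ideal.mem_span_singleton, ← Ideal.Quotient.eq_zero_iff_mem, ← coeff_map,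
        Polynomial.map_sub, Polynomial.map_mul, ← hk]
      simp
    exact ⟨k, t, by linear_combination -ht⟩

theorem finite_monic {B : Type*} [CommRing B] [Finite B] {P : B[X]} (hP : P.Monic) :
    Finite (B[X] ⧸ Ideal.span {P}) := by
  have : Module.Finite B (AdjoinRoot P) := hP.finite_adjoinRoot
  exact Module.finite_of_finite (M := AdjoinRoot P) B

/-- a non-zero constant is a combination of `g` and `Q` -/
def Cop {O : Type*} [CommRing O] (g Q : O[X]) : Prop := ∃ c ≠ 0, ∃ a b : O[X], a * g + b * Q = C c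

theorem cop_iff {O : Type*} [CommRing O] [IsDomain O] (g Q : O[X]) :
    Cop g Q ↔ IsCoprime (g.map (algebraMap O (FractionRing O)))
      (Q.map (algebraMap O (FractionRing O))) := by
  have hinj := IsFractionRing.injective O (FractionRing O)
  constructor
  · rintro ⟨c, hc, a, b, h⟩
    have h1 := congrArg (Polynomial.map (algebraMap O (FractionRing O))) h
    have h2 : algebraMap O (FractionRing O) c ≠ 0 := (map_ne_zero_iff _ hinj).2 hc
    simp only [Polynomial.map_add, Polynomial.map_mul, map_C] at h1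
    refine ⟨C (algebraMap O _ c)⁻¹ * a.map (algebraMap O _),
      C (algebraMap O _ c)⁻¹ * b.map (algebraMap O _), ?_⟩
    rw [mul_assoc, mul_assoc, ← mul_add, h1, ← C_mul, inv_mul_cancel₀ h2, C_1]
  · rintro ⟨a, b, h⟩
    obtain ⟨c, hc, ha⟩ := IsLocalization.integerNormalization_spec (nonZeroDivisors O) a
    obtain ⟨d, hd, hb⟩ := IsLocalization.integerNormalization_spec (nonZeroDivisors O) b
    refine ⟨c * d, mul_ne_zero (nonZeroDivisors.ne_zero hc) (nonZeroDivisors.ne_zero hd),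
      C d * IsLocalization.integerNormalization (nonZeroDivisors O) a,
      C c * IsLocalization.integerNormalization (nonZeroDivisors O) b,
      map_injective _ hinj ?_⟩
    simp only [Polynomial.map_add, Polynomial.map_mul, map_C, ha, hb, map_mul]
    rw [← IsScalarTower.algebraMap_smul (FractionRing O) c a,
      ← IsScalarTower.algebraMap_smul (FractionRing O) d b, smul_eq_C_mul, smul_eq_C_mul]
    linear_combination C (algebraMap O (FractionRing O) c) * C (algebraMap O (FractionRing O) d) * h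

theorem finite_bad {K : Type*} [Field K] {G g Q : K[X]} (hG : G ≠ 0) (h : IsCoprime g Q) :
    {r : K | ¬ IsCoprime G (Q + C r * g)}.Finite := by
  classical
  have h1 : ∀ r : K, ¬ IsCoprime G (Q + C r * g) →
      ∃ p ∈ UniqueFactorizationMonoid.normalizedFactors G, p ∣ Q + C r * g := fun r hr => by
    by_contra hne
    push Not at hne
    refine hr (isCoprime_of_irreducible_dvd (fun h => hG h.1) fun z hz hzG hzQ => ?_)
    obtain ⟨p, hp, hzp⟩ := UniqueFactorizationMonoid.exists_mem_normalizedFactors_of_dvd hG hz hzG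
    exact hne p hp (hzp.symm.dvd.trans hzQ)
  choose! p hp using h1
  refine Set.Finite.of_finite_image (f := p)
    ((UniqueFactorizationMonoid.normalizedFactors G).finite_toSet.subset ?_) ?_
  · rintro _ ⟨r, hr, rfl⟩
    exact (hp r hr).1
  · intro r hr r' hr' hrr
    by_contra hne
    have h2 := (hp r hr).2
    have h3 := (hp r' hr').2
    rw [← hrr] at h3
    have h4 : p r ∣ g := by
      have := (dvd_sub h2 h3).mul_left (C (r - r')⁻¹)
      rwa [show C (r - r')⁻¹ * (Q + C r * g - (Q + C r' * g)) = C ((r - r')⁻¹ * (r - r')) * g by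
        simp only [map_mul, map_sub]; ring, inv_mul_cancel₀ (sub_ne_zero.2 hne), C_1, one_mul] at this
    have h5 : p r ∣ Q := (dvd_add_left (h4.mul_left _)).1 h2
    exact (UniqueFactorizationMonoid.irreducible_of_normalized_factor _ (hp r hr).1).not_isUnit
      (h.isUnit_of_dvd' h4 h5)

namespace Bs

variable {O A : Type*} [CommRing O] [CommRing A] [Algebra O A] (B : Bs O A)

/-- the substitution `t = X + τ` -/
def mp : O[X] →+* A[X] := (taylorAlgHom B.τ).toRingHom.comp (mapRingHom (algebraMap O A))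

/-- evaluation at `τ` -/
def ev : O[X] →+* A := constantCoeff.comp B.mp

theorem mp_apply (p : O[X]) : B.mp p = taylor B.τ (p.map (algebraMap O A)) := rfl

theorem mp_C (c : O) : B.mp (C c) = C (algebraMap O A c) := by
  rw [mp_apply, map_C, taylor_C]

theorem mp_X : B.mp X = X + C B.τ := by rw [mp_apply, map_X, taylor_X]

theorem ev_apply (p : O[X]) : B.ev p = constantCoeff (B.mp p) := rfl

theorem ev_C (c : O) : B.ev (C c) = algebraMap O A c := by simp [ev_apply, mp_C]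

theorem ev_X : B.ev X = B.τ := by simp [ev_apply, mp_X]

theorem mp_monic {Q : O[X]} (h : Q.Monic) : (B.mp Q).Monic := by
  rw [Monic, mp_apply, leadingCoeff_taylor]
  exact h.map _

theorem natDegree_mp (Q : O[X]) : (B.mp Q).natDegree = Q.natDegree := by
  rw [mp_apply, natDegree_taylor, natDegree_map_eq_of_injective B.inj]

theorem ev_scale (n : ℕ) (p : O[X]) (h : p.natDegree ≤ n) :
    ∃ o : O, (-algebraMap O A B.T) ^ n * B.ev p = algebraMap O A (p.coeff n + B.T * o) := by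
  induction n generalizing p with
  | zero =>
    refine ⟨0, ?_⟩
    rw [eq_C_of_natDegree_le_zero h]
    simp [ev_C]
  | succ n ih =>
    obtain ⟨o, ho⟩ := ih p.divX (by rw [natDegree_divX_eq_natDegree_tsub_one]; omega)
    refine ⟨o - (-B.T) ^ n * p.coeff 0, ?_⟩
    rw [coeff_divX] at ho
    conv_lhs => rw [← divX_mul_X_add p]
    simp only [map_add, map_mul, ev_C, ev_X, map_sub, map_pow, map_neg] at ho ⊢
    linear_combination ho - (-algebraMap O A B.T) ^ n * B.ev p.divX * B.hτ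

theorem ev_monic {Q : O[X]} (h : Q.Monic) : ∃ (k : ℕ) (o : O),
    algebraMap O A B.T ^ k * ((-1) ^ Q.natDegree * B.ev Q) = algebraMap O A (1 + B.T * o) := by
  obtain ⟨o, ho⟩ := B.ev_scale _ Q le_rfl
  refine ⟨Q.natDegree, o, ?_⟩
  rw [h.coeff_natDegree, neg_pow] at ho
  rw [← ho]; ring

theorem ev_ne {Q : O[X]} (h : Q.Monic) : B.ev Q ≠ 0 := fun h0 => by
  obtain ⟨k, o, ho⟩ := B.ev_monic h
  rw [h0, mul_zero, mul_zero, eq_comm, map_eq_zero_iff _ B.inj] at ho
  exact B.hT (IsUnit.of_mul_eq_one (-o) (by linear_combination -ho))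

include B in
theorem sur {y : A} (hy : y ≠ 0) (a : A) : ∃ o : O, y ∣ a - algebraMap O A o := by
  have := B.fin y hy
  obtain ⟨k, o, ho⟩ := B.den a
  set t := algebraMap O A B.T ^ k with ht
  have hu : IsUnit t := (IsUnit.of_mul_eq_one (-B.τ) (by linear_combination -B.hτ)).pow k
  obtain ⟨n, hn, hi⟩ := exists_idem (Ideal.Quotient.mk (Ideal.span {y}) t)
  rw [← map_pow, ← map_mul, Ideal.Quotient.eq, Ideal.mem_span_singleton,
    show t ^ n * t ^ n - t ^ n = t ^ n * (t ^ n - 1) by ring, (hu.pow n).dvd_mul_left] at hi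
  refine ⟨(B.T ^ k) ^ (n - 1) * o, ?_⟩
  rw [map_mul, map_pow, map_pow, ← ht, ← ho, ← mul_assoc, ← pow_succ, Nat.sub_add_cancel hn,
    show a - t ^ n * a = (t ^ n - 1) * (-a) by ring]
  exact hi.mul_right _

/-- admissible pairs -/
def Adm (g Q : O[X]) : Prop := IsCoprime (B.ev g) (B.ev Q) ∧ Cop g Q

/-- the defect -/
def Φ (g Q : O[X]) : ZMod 6 := zz (C B.ζ) (B.mp g) (B.mp Q) X - zz (C B.ζ) X (B.mp Q) (B.mp g)

variable {B}

theorem Adm.symm {g Q : O[X]} (h : B.Adm g Q) : B.Adm Q g := by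
  obtain ⟨h1, c, hc, a, b, h⟩ := h
  exact ⟨h1.symm, c, hc, b, a, by linear_combination h⟩

theorem Adm.left {g g' Q : O[X]} (h : B.Adm (g * g') Q) : B.Adm g Q := by
  obtain ⟨h1, c, hc, a, b, h⟩ := h
  rw [map_mul] at h1
  exact ⟨h1.of_mul_left_left, c, hc, a * g', b, by linear_combination h⟩

theorem Adm.right {g g' Q : O[X]} (h : B.Adm (g * g') Q) : B.Adm g' Q :=
  Adm.left (g' := g) (by rwa [mul_comm])

theorem Adm.add {g Q : O[X]} (h : B.Adm g Q) (r : O[X]) : B.Adm (g + r * Q) Q := by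
  obtain ⟨h1, c, hc, a, b, h⟩ := h
  refine ⟨?_, c, hc, a, b - a * r, by linear_combination h⟩
  rw [map_add, map_mul]
  exact h1.add_mul_right_left _

theorem un_of_coprime {a b : A[X]} (h : IsCoprime (constantCoeff a) (constantCoeff b)) :
    Un a b X := by
  obtain ⟨u, v, h⟩ := h
  obtain ⟨k, hk⟩ : X ∣ C u * a + C v * b - 1 := X_dvd_iff.2 (by
    simp only [constantCoeff_apply] at h
    simp [h])
  exact ⟨C u, C v, -k, by linear_combination hk⟩

theorem Adm.un {g Q : O[X]} (h : B.Adm g Q) : Un (B.mp g) (B.mp Q) X := un_of_coprime h.1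

theorem Adm.un' {g Q : O[X]} (h : B.Adm g Q) : Un X (B.mp Q) (B.mp g) := h.un.swap₂.swap₁.swap₂

theorem zz_X (B : Bs O A) {g Q : O[X]} (hQ : Q.Monic) (h : IsCoprime (B.ev g) (B.ev Q)) :
    zz (C B.ζ) (B.mp g) (B.mp Q) X = zs B.ζ (B.ev g) (B.ev Q) := by
  have : Finite (A ⧸ Ideal.span {constantCoeff (B.mp Q)}) := B.fin _ (B.ev_ne hQ)
  have h1 := zm_hom constantCoeff (mem_pair_X (B.mp Q)) (fun c => ⟨C c, by simp⟩)
    (map_zeta C B.hζ) (map_six C B.h6) (un_of_coprime h).canc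
  rw [constantCoeff_apply (C B.ζ), coeff_C_zero] at h1
  exact h1

theorem Φ_add (g Q r : O[X]) : B.Φ (g + r * Q) Q = B.Φ g Q := by
  rw [Φ, Φ, map_add, map_mul, zz_congr, zz_add]

variable [IsDomain A]

theorem Adm.finite {g Q : O[X]} (h : B.Adm g Q) (hQ : Q.Monic) :
    Finite (A[X] ⧸ Ideal.span ({B.mp Q, B.mp g} : Set A[X])) := by
  obtain ⟨-, c, hc, a, b, h⟩ := h
  have := B.fin _ ((map_ne_zero_iff _ B.inj).2 hc)
  have := finite_monic ((B.mp_monic hQ).map (Ideal.Quotient.mk (Ideal.span {algebraMap O A c})))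
  refine finite_quot (mapRingHom (Ideal.Quotient.mk (Ideal.span {algebraMap O A c})))
    (J := Ideal.span {(B.mp Q).map (Ideal.Quotient.mk (Ideal.span {algebraMap O A c}))})
    fun x hx => ?_
  obtain ⟨s, t, rfl⟩ := Ideal.mem_span_pair.1 ((mem_pair_C (B.mp Q) x _).2 hx)
  rw [← B.mp_C, ← h, map_add, map_mul, map_mul]
  exact Ideal.mem_span_pair.2 ⟨s + t * B.mp b, t * B.mp a, by ring⟩

theorem Φ_mul {g g' Q : O[X]} (hQ : Q.Monic) (h : B.Adm (g * g') Q) :
    B.Φ (g * g') Q = B.Φ g Q + B.Φ g' Q := by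
  have h1 := h.finite hQ
  have h2 := h.un'
  have h3 := B.fin _ (B.ev_ne hQ)
  rw [map_mul] at h1 h2
  have h4 : ∀ x, B.mp Q ∣ B.mp g * x → B.mp Q ∣ x := fun x hx => by
    obtain ⟨-, c, hc, a, b, h⟩ := h.left
    refine monic_dvd (B.mp_monic hQ) ((map_ne_zero_iff _ B.inj).2 hc) ?_
    rw [← B.mp_C, ← h, map_add, map_mul, map_mul, add_mul, mul_assoc]
    exact dvd_add (hx.mul_left _) (((dvd_refl _).mul_left _).mul_right _)
  rw [Φ, Φ, Φ, B.zz_X hQ h.1, B.zz_X hQ h.left.1, B.zz_X hQ h.right.1, map_mul, map_mul,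
    zs_mul_left B.hζ B.h6 h.left.1 h.right.1,
    zz_mul_right (map_zeta C B.hζ) (map_six C B.h6) h4 h2]
  ring

omit [IsDomain A] in
theorem assoc_neg (n : ℕ) (y : A) : Associated y ((-1) ^ n * y) :=
  (associated_unit_mul_left y _ (isUnit_one.neg.pow n)).symm

theorem zs_ev {x : A} {Q : O[X]} (hQ : Q.Monic) (hx : x ≠ 0) (h : IsCoprime x (B.ev Q)) :
    zs B.ζ x (B.ev Q) = zs B.ζ ((-1) ^ Q.natDegree * B.ev Q) x := by
  rw [zs_assoc _ _ (assoc_neg Q.natDegree _)]
  exact B.law _ _ hx ((isCoprime_mul_unit_left_right (isUnit_one.neg.pow _) _ _).2 h) (B.ev_monic hQ)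

theorem Φ_shift {g Q : O[X]} (r : O[X]) (hQ : Q.Monic) (hQ' : (Q + r * g).Monic)
    (hd : (Q + r * g).natDegree = Q.natDegree) (h : B.Adm g Q) : B.Φ g (Q + r * g) = B.Φ g Q := by
  have h' := (h.symm.add r).symm
  rw [Φ, Φ, B.zz_X hQ h.1, B.zz_X hQ' h'.1, zz_comm _ X, zz_comm _ X (B.mp Q)]
  congr 1
  · by_cases h0 : B.ev g = 0
    · simp [h0]
    · rw [zs_ev hQ h0 h.1, zs_ev hQ' h0 h'.1, hd]
      refine zs_congr _ ⟨(-1) ^ Q.natDegree * B.ev r, ?_⟩
      simp only [map_add, map_mul]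
      ring
  · rw [map_add, map_mul, zz_add]

theorem Φ_swap {m Q : O[X]} (hQ : Q.Monic) (hm : m.Monic) (h : B.Adm m Q) : B.Φ m Q = B.Φ Q m := by
  have := B.fin _ (B.ev_ne hm)
  have hu : IsUnit ((-1 : A) ^ Q.natDegree) := isUnit_one.neg.pow _
  have hc : IsCoprime ((-1 : A) ^ Q.natDegree) (B.ev m) := by
    simpa using (isCoprime_mul_unit_left_left hu 1 (B.ev m)).2 isCoprime_one_left
  rw [Φ, Φ, B.zz_X hQ h.1, B.zz_X hm h.symm.1, zz_comm _ X, zs_ev hQ (B.ev_ne hm) h.1,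
    zs_mul_left B.hζ B.h6 hc h.symm.1, zs_ev hm hu.ne_zero hc, zs_unit _ _ hu, zero_add]

variable [IsDomain O] [IsPrincipalIdealRing O]

theorem Φ_prime {s : O} {Q : O[X]} (hQ : Q.Monic) (h : B.Adm (C s) Q) (hs : IsUnit s ∨ Prime s) :
    B.Φ (C s) Q = 0 := by
  have hs0 : algebraMap O A s ≠ 0 :=
    (map_ne_zero_iff _ B.inj).2 (hs.elim IsUnit.ne_zero Prime.ne_zero)
  have h1 := h.1
  have h2 := h.un'
  rw [Φ, B.zz_X hQ h1]
  rw [B.ev_C] at h1 ⊢
  rw [B.mp_C] at h2 ⊢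
  rw [zs_ev hQ hs0 h1, sub_eq_zero]
  set π := algebraMap O A s with hπ
  by_cases hu : IsUnit π
  · have : Subsingleton (A[X] ⧸ Ideal.span ({B.mp Q, C π} : Set A[X])) :=
      Ideal.Quotient.subsingleton_iff.2 (Ideal.eq_top_of_isUnit_mem _
        (Ideal.subset_span (by simp)) (hu.map C))
    rw [zs_unit _ _ hu, zz, zm_subsingleton]
  have hp : Prime s := hs.resolve_left fun h => hu (h.map _)
  have hmax : (Ideal.span {π}).IsMaximal := by
    rw [Ideal.isMaximal_iff]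
    refine ⟨fun h => hu (isUnit_of_dvd_one (Ideal.mem_span_singleton.1 h)), fun J x hJ hx hxJ => ?_⟩
    obtain ⟨o, ho⟩ := B.sur hs0 x
    have h3 : ¬ s ∣ o := fun hd => hx (Ideal.mem_span_singleton.2 (by
      simpa using dvd_add ho (map_dvd (algebraMap O A) hd)))
    obtain ⟨u, v, huv⟩ := (hp.coprime_iff_not_dvd.2 h3).map (algebraMap O A)
    have h4 : algebraMap O A o ∈ J := by
      simpa using J.sub_mem hxJ (hJ (Ideal.mem_span_singleton.2 ho))
    rw [← huv]
    exact J.add_mem (J.mul_mem_left _ (hJ (Ideal.mem_span_singleton_self _))) (J.mul_mem_left _ h4)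
  have hfin := B.fin π hs0
  let _ := Ideal.Quotient.field (Ideal.span {π})
  have hm := (B.mp_monic hQ).map (Ideal.Quotient.mk (Ideal.span {π}))
  have := finite_monic hm
  have hζ' := map_zeta (Ideal.Quotient.mk (Ideal.span {π})) B.hζ
  have h6' := map_six (Ideal.Quotient.mk (Ideal.span {π})) B.h6
  have e1 := zm_hom _ (mem_pair_C (B.mp Q) · π) (fun c => by
    obtain ⟨c, rfl⟩ := map_surjective _ Ideal.Quotient.mk_surjective c
    exact ⟨c, by simp⟩) (map_zeta C B.hζ) (map_six C B.h6) h2.canc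
  have h0 : ((B.mp Q).map (Ideal.Quotient.mk (Ideal.span {π}))).coeff 0 ≠ 0 := by
    rw [coeff_map, Ne, Ideal.Quotient.eq_zero_iff_mem, Ideal.mem_span_singleton]
    exact fun hd => hu (h1.isUnit_of_dvd' dvd_rfl hd)
  have e2 := zs_field hζ' h6' _ hm h0
  rw [coe_mapRingHom, map_C, map_X] at e1
  rw [zz, e1, ← zs, e2, (B.mp_monic hQ).natDegree_map, B.natDegree_mp, coeff_map]
  refine zm_equiv B.hζ B.h6 hζ' h6' (AddEquiv.refl _) (fun q => ?_) (fun q => ?_)
    (smul_inj_of_coprime ((isCoprime_mul_unit_left_left (isUnit_one.neg.pow _) _ _).2 h1.symm))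
  · rfl
  · simp only [AddEquiv.refl_apply, Algebra.smul_def, map_mul, map_pow, map_neg, map_one]
    rfl

theorem Φ_C {s : O} {Q : O[X]} (hQ : Q.Monic) (hs : s ≠ 0) (h : B.Adm (C s) Q) :
    B.Φ (C s) Q = 0 := by
  induction s using UniqueFactorizationMonoid.induction_on_prime with
  | h₁ => exact absurd rfl hs
  | h₂ u hu => exact Φ_prime hQ h (Or.inl hu)
  | h₃ a p ha hp ih =>
    rw [C_mul] at h ⊢
    rw [Φ_mul hQ h, Φ_prime hQ h.left (Or.inr hp), ih ha h.right, add_zero]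

variable [CharZero O]

theorem exists_shift {G g Q : O[X]} (hG : G ≠ 0) (h : B.Adm g Q) (h0 : B.ev G ≠ 0 ∨ B.ev g = 0) :
    ∃ r : O, B.Adm G (Q + C r * g) := by
  obtain ⟨r₀, μ, hμ, hr⟩ : ∃ r₀ μ : O, μ ≠ 0 ∧
      ∀ n : ℕ, IsCoprime (B.ev G) (B.ev (Q + C (r₀ + n * μ) * g)) := by
    rcases h0 with h0 | h0
    · have := B.fin _ h0
      obtain ⟨e, -, he⟩ := exists_coprime (y := B.ev G) h.1.symm
      obtain ⟨r₀, c, hc⟩ := B.sur h0 e
      obtain ⟨k, μ, hμ⟩ := B.den (B.ev G)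
      have hT : IsUnit (algebraMap O A B.T) :=
        IsUnit.of_mul_eq_one (-B.τ) (by linear_combination -B.hτ)
      refine ⟨r₀, μ, fun h1 => ?_, fun n => ?_⟩
      · rw [h1, map_zero] at hμ
        exact h0 ((hT.pow k).mul_right_eq_zero.1 hμ)
      · have := (he 1 one_pos).add_mul_left_right ((n * algebraMap O A B.T ^ k - c) * B.ev g)
        convert this using 1
        simp only [map_add, map_mul, ev_C, map_natCast, ← hμ]
        linear_combination (-B.ev g) * hc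
    · refine ⟨0, 1, one_ne_zero, fun n => ?_⟩
      have h1 := h.1
      rw [h0, isCoprime_zero_left] at h1
      rw [map_add, map_mul, h0, mul_zero, add_zero]
      simpa using (isCoprime_mul_unit_left_right h1 (B.ev G) 1).2 isCoprime_one_right
  have hinj := IsFractionRing.injective O (FractionRing O)
  have hfin := finite_bad ((Polynomial.map_ne_zero_iff hinj).2 hG) ((cop_iff _ _).1 h.2)
  obtain ⟨_, ⟨n, rfl⟩, hn⟩ := (Set.infinite_range_of_injective
    (f := fun n : ℕ => algebraMap O (FractionRing O) (r₀ + n * μ)) fun n n' hn => by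
      simpa [hμ] using hinj hn).exists_notMem_finite hfin
  refine ⟨r₀ + n * μ, hr n, (cop_iff _ _).2 ?_⟩
  simpa only [Set.mem_ofPred_eq, not_not, Polynomial.map_add, Polynomial.map_mul, map_C] using hn

theorem Φ_step {d : ℕ} (ih : ∀ m Q : O[X], m.Monic → m.natDegree < d → B.Adm Q m → B.Φ Q m = 0)
    (n : ℕ) {g Q : O[X]} (hQ : Q.Monic) (hd : Q.natDegree = d) (hg : g.natDegree < d)
    (h : B.Adm g Q) (hn : B.nm g.leadingCoeff = n) : B.Φ g Q = 0 := by
  induction n using Nat.strong_induction_on generalizing g Q with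
  | _ n ihn =>
  have hg0 : g ≠ 0 := by
    rintro rfl
    obtain ⟨-, c, hc, a, b, h⟩ := h
    have := natDegree_le_of_dvd (p := Q) (q := C c) ⟨b, by linear_combination -h⟩ (C_ne_zero.2 hc)
    rw [natDegree_C] at this
    omega
  set u := g.leadingCoeff with hu
  have hu0 : u ≠ 0 := leadingCoeff_ne_zero.2 hg0
  by_cases hdv : C u ∣ g
  · obtain ⟨m, hm⟩ := hdv
    have h1 : m.Monic := by
      have := congrArg leadingCoeff hm
      rw [leadingCoeff_mul, leadingCoeff_C, ← hu] at this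
      exact (mul_left_cancel₀ hu0 (this.symm.trans (mul_one u).symm))
    have h2 : m.natDegree < d := by rwa [hm, natDegree_C_mul hu0] at hg
    rw [hm] at h ⊢
    rw [Φ_mul hQ h, Φ_C hQ hu0 h.left, Φ_swap hQ h1 h.right, ih m Q h1 h2 h.right.symm, add_zero]
  set ψ := Ideal.Quotient.mk (Ideal.span {u}) with hψ
  have hψ0 : ∀ x, ψ x = 0 ↔ u ∣ x := fun x => by
    rw [hψ, Ideal.Quotient.eq_zero_iff_mem, Ideal.mem_span_singleton]
  have hb : g.map ψ ≠ 0 := fun h0 => hdv ((C_dvd_iff_dvd_coeff _ _).2 fun i => by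
    rw [← hψ0, ← coeff_map, h0, coeff_zero])
  have hnt : Nontrivial (O ⧸ Ideal.span {u}) := Nontrivial.of_polynomial_ne hb
  have he : (g.map ψ).natDegree < g.natDegree := by
    refine lt_of_le_of_ne natDegree_map_le fun he => hb (leadingCoeff_eq_zero.1 ?_)
    rw [leadingCoeff, he, coeff_map, hψ0]
    exact dvd_rfl
  obtain ⟨i, hi⟩ : ∃ i, g.natDegree + i + 1 = d := ⟨d - 1 - g.natDegree, by omega⟩
  obtain ⟨j, hj⟩ : ∃ j, (g.map ψ).natDegree + j + 1 = d := ⟨d - 1 - (g.map ψ).natDegree, by omega⟩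
  have hQ1 : Q ≠ 1 := by rintro rfl; simp at hd; omega
  set w := (g * X ^ j %ₘ Q).coeff (d - 1) with hw
  have hw0 : ¬ u ∣ w := by
    rw [← hψ0, hw, ← coeff_map, map_modByMonic _ hQ, Polynomial.map_mul, Polynomial.map_pow, map_X,
      (modByMonic_eq_self_iff (hQ.map ψ)).2 (degree_lt_degree (by
        rw [natDegree_mul_X_pow _ hb, hQ.natDegree_map]; omega)),
      show d - 1 = (g.map ψ).natDegree + j by omega, coeff_mul_X_pow]
    exact leadingCoeff_ne_zero.2 hb
  let G : O → O[X] := fun s => g * X ^ j %ₘ Q + C s * (g * X ^ i)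
  obtain ⟨s, hs, hs0⟩ : ∃ s, B.nm (w + s * u) < B.nm u ∧ (B.ev (G s) ≠ 0 ∨ B.ev g = 0) := by
    obtain ⟨s, s', hss, h1, h2⟩ := B.euc u w hu0 hw0
    by_contra hne
    push Not at hne
    have h3 := (hne s h1).1
    have h4 := (hne s' h2).1
    have hτ : B.τ ≠ 0 := fun h => by simpa [h] using B.hτ
    simp only [G, map_add, map_mul, ev_C, map_pow, ev_X] at h3 h4
    have h5 : algebraMap O A (s - s') * (B.ev g * B.τ ^ i) = 0 := by
      rw [map_sub]; linear_combination h3 - h4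
    exact mul_ne_zero ((map_ne_zero_iff _ B.inj).2 (sub_ne_zero.2 hss))
      (mul_ne_zero (hne s h1).2 (pow_ne_zero _ hτ)) h5
  have hc : (G s).coeff (d - 1) = w + s * u := by
    simp only [G, coeff_add, coeff_C_mul]
    rw [show d - 1 = g.natDegree + i by omega, coeff_mul_X_pow, show g.natDegree + i = d - 1 by omega]
    rfl
  have hc0 : w + s * u ≠ 0 := fun h0 => hw0 ⟨-s, by linear_combination h0⟩
  have hGd : (G s).natDegree = d - 1 := by
    refine natDegree_eq_of_le_of_coeff_ne_zero ?_ (hc ▸ hc0)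
    refine (natDegree_add_le _ _).trans (max_le ?_ ((natDegree_C_mul_le _ _).trans ?_))
    · have := natDegree_modByMonic_lt (g * X ^ j) hQ hQ1
      omega
    · rw [natDegree_mul_X_pow _ hg0]; omega
  have hG0 : G s ≠ 0 := fun h0 => hc0 (by rw [← hc, h0, coeff_zero])
  obtain ⟨r, hr⟩ := exists_shift hG0 h hs0
  have hlt : (C r * g).degree < Q.degree :=
    degree_lt_degree (lt_of_le_of_lt (natDegree_C_mul_le _ _) (by omega))
  have hQ' : (Q + C r * g).Monic := hQ.add_of_left hlt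
  have hd' : (Q + C r * g).natDegree = Q.natDegree := natDegree_add_eq_left_of_degree_lt hlt
  have h1 := ihn _ (hn ▸ hs) hQ' (hd'.trans hd) (by omega) hr (by rw [leadingCoeff, hGd, hc])
  set k := g * X ^ j /ₘ Q with hk
  have hlt' : (C s * X ^ i + C r * k).natDegree < j := by
    refine lt_of_le_of_lt (natDegree_add_le _ _) (max_lt (lt_of_le_of_lt (natDegree_C_mul_le _ _) ?_)
      (lt_of_le_of_lt (natDegree_C_mul_le _ _) ?_))
    · rw [natDegree_X_pow]; omega
    · rw [hk, natDegree_divByMonic _ hQ, natDegree_mul_X_pow _ hg0]; omega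
  have hm : (X ^ j + (C s * X ^ i + C r * k)).Monic :=
    monic_X_pow_add (lt_of_le_of_lt degree_le_natDegree (by exact_mod_cast hlt'))
  have hmd : (X ^ j + (C s * X ^ i + C r * k)).natDegree < d := by
    rw [natDegree_add_eq_left_of_natDegree_lt (by rwa [natDegree_X_pow]), natDegree_X_pow]
    omega
  have hid : G s + k * (Q + C r * g) = g * (X ^ j + (C s * X ^ i + C r * k)) := by
    have := modByMonic_add_div (g * X ^ j) Q
    simp only [G]
    linear_combination this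
  have h2 := hr.add k
  rw [← Φ_add _ _ k] at h1
  rw [hid] at h1 h2
  rw [Φ_mul hQ' h2, Φ_swap hQ' hm h2.right, ih _ _ hm hmd h2.right.symm, add_zero,
    Φ_shift _ hQ hQ' hd' h] at h1
  exact h1

/-- the reciprocity law for polynomials -/
theorem Φ_eq_zero {g Q : O[X]} (hQ : Q.Monic) (h : B.Adm g Q) : B.Φ g Q = 0 := by
  induction hd : Q.natDegree using Nat.strong_induction_on generalizing g Q with
  | _ d ih =>
  by_cases hQ1 : Q = 1
  · rw [hQ1, Φ, map_one, zz_one, zz_one, sub_zero]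
  have h1 : g %ₘ Q = g + (-(g /ₘ Q)) * Q := by linear_combination modByMonic_add_div g Q
  rw [← Φ_add g Q (-(g /ₘ Q)), ← h1]
  exact Φ_step (fun m Q' hm hlt h' => ih _ hlt hm h' rfl) _ hQ hd
    (hd ▸ natDegree_modByMonic_lt g hQ hQ1) (h1 ▸ h.add _) rfl

end Bs

end Crest.Agent.T27.Mn
end
end

-- ▼ part T27/Mn3_85
section

/-!
# Row 27, sextic reciprocity by a Euclidean algorithm on polynomials, part 3

The data `Bs` for `ℤ[ω]` and `ℤ[ω][1/M]`, from the reciprocity laws in `ℤ[ω]`.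
-/

set_option autoImplicit false

noncomputable section

namespace Crest.Agent.T27.Mn

open Rc

section den
variable {O A : Type*} [CommRing O] [CommRing A] (φ : O →+* A) {T : O} (hT : IsUnit (φ T))
  (den : ∀ a : A, ∃ (k : ℕ) (o : O), φ T ^ k * a = φ o)
include hT den

theorem sur_of_den {y : A} {μ : O} (h : y ∣ φ μ) [Finite (O ⧸ Ideal.span {μ})] (a : A) :
    ∃ o, y ∣ a - φ o := by
  obtain ⟨n, hn, hi⟩ := exists_idem (Ideal.Quotient.mk (Ideal.span {μ}) T)
  rw [← map_pow, ← map_mul, Ideal.Quotient.eq, Ideal.mem_span_singleton] at hi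
  have h1 := h.trans (map_dvd φ hi)
  rw [map_sub, map_mul, map_pow, show φ T ^ n * φ T ^ n - φ T ^ n = φ T ^ n * (φ T ^ n - 1) by ring,
    (hT.pow n).dvd_mul_left] at h1
  obtain ⟨k, o, ho⟩ := den a
  obtain ⟨n, rfl⟩ := Nat.exists_eq_add_of_lt hn
  refine ⟨(T ^ n) ^ k * o, ?_⟩
  rw [map_mul, map_pow, map_pow, ← ho, show a - (φ T ^ n) ^ k * (φ T ^ k * a) =
    ((φ T ^ (0 + n + 1)) ^ k - 1 ^ k) * (-a) by ring]
  exact (h1.trans (sub_dvd_pow_sub_pow _ _ k)).mul_right _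

theorem finite_of_den {y : A} {μ : O} (h : y ∣ φ μ) [Finite (O ⧸ Ideal.span {μ})] :
    Finite (A ⧸ Ideal.span {y}) := by
  refine Finite.of_surjective (Ideal.quotientMap (I := Ideal.span {μ}) (Ideal.span {y}) φ
    fun x hx => Ideal.mem_span_singleton.2 (h.trans (map_dvd φ (Ideal.mem_span_singleton.1 hx))))
    fun c => ?_
  obtain ⟨c, rfl⟩ := Ideal.Quotient.mk_surjective c
  obtain ⟨o, ho⟩ := sur_of_den φ hT den h c
  exact ⟨Ideal.Quotient.mk _ o, by
    rw [Ideal.quotientMap_mk, eq_comm, Ideal.Quotient.eq, Ideal.mem_span_singleton]; exact ho⟩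

omit hT in
theorem coprime_of_den (hφ : Function.Injective φ) {x y : O} (hy : IsCoprime y T)
    (h : IsCoprime (φ x) (φ y)) : IsCoprime x y := by
  obtain ⟨u, v, h⟩ := h
  obtain ⟨k, u', hu⟩ := den u
  obtain ⟨l, v', hv⟩ := den v
  have h1 : T ^ l * u' * x + T ^ k * v' * y = T ^ (k + l) := hφ (by
    simp only [map_add, map_mul, map_pow, ← hu, ← hv]
    linear_combination φ T ^ (k + l) * h)
  obtain ⟨a, b, hab⟩ := hy.pow_right (n := k + l)
  exact ⟨b * (T ^ l * u'), a + b * (T ^ k * v'), by linear_combination hab + b * h1⟩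

omit hT in
theorem dvd_of_den (hφ : Function.Injective φ) {x y : O} (hy : IsCoprime y T)
    (h : φ y ∣ φ x) : y ∣ x := by
  obtain ⟨c, hc⟩ := h
  obtain ⟨k, o, ho⟩ := den c
  refine (hy.pow_right (n := k)).dvd_of_dvd_mul_left ⟨o, hφ ?_⟩
  simp only [map_mul, map_pow, hc, ← ho]
  ring

end den

theorem zs_pow {S : Type*} [CommRing S] {ζ : S} (hζ : ζ ^ 2 - ζ + 1 = 0) (h6 : IsUnit (6 : S))
    {a b : S} [Finite (S ⧸ Ideal.span {b})] (h : IsCoprime a b) (n : ℕ) :
    zs ζ (a ^ n) b = n * zs ζ a b := by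
  induction n with
  | zero => simp [zs_one_left]
  | succ n ih => rw [pow_succ, zs_mul_left hζ h6 h.pow_left h, ih]; push_cast; ring

theorem zs_six {S : Type*} [CommRing S] {ζ : S} (hζ : ζ ^ 2 - ζ + 1 = 0) (h6 : IsUnit (6 : S))
    {a b c : S} [Finite (S ⧸ Ideal.span {b})] (h : IsCoprime a b) (hc : IsCoprime c b) :
    zs ζ (c ^ 6 * a) b = zs ζ a b := by
  rw [zs_mul_left hζ h6 hc.pow_left h, zs_pow hζ h6 hc, show ((6 : ℕ) : ZMod 6) = 0 from rfl,
    zero_mul, zero_add]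

theorem coprime_unit {S : Type*} [CommRing S] {c : S} (hc : IsUnit c) (b : S) : IsCoprime c b := by
  simpa using (isCoprime_mul_unit_left_left hc 1 b).2 isCoprime_one_left

open R17

theorem six_ineq {a b c d : ℤ} (h : 0 < a ^ 2 - a * b + b ^ 2)
    (h' : a ^ 2 - a * b + b ^ 2 < c ^ 2 - c * d + d ^ 2)
    (a1 : 2 * a * c - a * d - b * c + 2 * b * d ≤ a ^ 2 - a * b + b ^ 2)
    (a2 : -(a ^ 2 - a * b + b ^ 2) ≤ 2 * a * c - a * d - b * c + 2 * b * d)
    (a3 : -a * c - a * d + 2 * b * c - b * d ≤ a ^ 2 - a * b + b ^ 2)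
    (a4 : -(a ^ 2 - a * b + b ^ 2) ≤ -a * c - a * d + 2 * b * c - b * d)
    (a5 : a * c - 2 * a * d + b * c + b * d ≤ a ^ 2 - a * b + b ^ 2)
    (a6 : -(a ^ 2 - a * b + b ^ 2) ≤ a * c - 2 * a * d + b * c + b * d) : False := by
  have b1 := sq_le_sq' a2 a1
  have b2 := sq_le_sq' a4 a3
  have b3 := sq_le_sq' a6 a5
  have h1 : (2 * a * c - a * d - b * c + 2 * b * d) ^ 2 + (-a * c - a * d + 2 * b * c - b * d) ^ 2 +
      (a * c - 2 * a * d + b * c + b * d) ^ 2 =
      6 * ((a ^ 2 - a * b + b ^ 2) * (c ^ 2 - c * d + d ^ 2)) := by ring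
  generalize a ^ 2 - a * b + b ^ 2 = R at *
  generalize c ^ 2 - c * d + d ^ 2 = U at *
  have h2 : R * R < R * U := mul_lt_mul_of_pos_left h' h
  have h3 : 0 < R * R := mul_pos h h
  linarith

theorem two_choices (u w : O) (hu : u ≠ 0) (hw : ¬ u ∣ w) :
    ∃ s s', s ≠ s' ∧ nm (w + s * u) < nm u ∧ nm (w + s' * u) < nm u := by
  have h1 := nm_sub_mul_quo_lt w hu
  set r := w - u * quo w u with hr
  have h2 : nm r ≠ 0 := fun h => hw ⟨quo w u, sub_eq_zero.1 (nm_eq_zero.1 h)⟩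
  obtain ⟨e, he, h3⟩ : ∃ e : O, e ≠ 0 ∧ nm (r - e * u) < nm u := by
    by_contra hne
    push Not at hne
    have a1 := hne ⟨1, 0⟩ (by decide)
    have a2 := hne ⟨-1, 0⟩ (by decide)
    have a3 := hne ⟨0, 1⟩ (by decide)
    have a4 := hne ⟨0, -1⟩ (by decide)
    have a5 := hne ⟨1, 1⟩ (by decide)
    have a6 := hne ⟨-1, -1⟩ (by decide)
    have h4 : (0 : ℤ) < nm r := by omega
    have key : ∀ x y : ℤ, nm u ≤ nm (r - ⟨x, y⟩ * u) → u.re ^ 2 - u.re * u.im + u.im ^ 2 ≤
        (r.re - (x * u.re - y * u.im)) ^ 2 -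
          (r.re - (x * u.re - y * u.im)) * (r.im - (x * u.im + y * u.re - y * u.im)) +
          (r.im - (x * u.im + y * u.re - y * u.im)) ^ 2 := fun x y h => by
      have h' : (nm u : ℤ) ≤ nm (r - ⟨x, y⟩ * u) := by exact_mod_cast h
      rw [nm_cast, nm_cast] at h'
      simp only [QuadraticAlgebra.re_sub, QuadraticAlgebra.im_sub, QuadraticAlgebra.re_mul,
        QuadraticAlgebra.im_mul] at h'
      convert h' using 1
      ring
    have h5 : (nm r : ℤ) < nm u := by exact_mod_cast h1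
    rw [nm_cast] at h4
    rw [nm_cast, nm_cast] at h5
    exact six_ineq h4 h5 (by linarith [key _ _ a1]) (by linarith [key _ _ a2])
      (by linarith [key _ _ a3]) (by linarith [key _ _ a4]) (by linarith [key _ _ a5])
      (by linarith [key _ _ a6])
  refine ⟨-quo w u, -quo w u - e, fun h => he (by linear_combination h), ?_, ?_⟩
  · rwa [show w + -quo w u * u = r by rw [hr]; ring]
  · rwa [show w + (-quo w u - e) * u = r - e * u by rw [hr]; ring]

theorem hz0 : (1 + om) ^ 2 - (1 + om) + 1 = 0 := by linear_combination om_sq_add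

theorem sym_of_dvd {p a : O} (hp : Prime p) (h : PO p) (ha : ¬ p ∣ a) {i : ℕ}
    (hi : p ∣ a ^ ((nm p - 1) / 6) - (1 + om) ^ i) : sym p a = ι (1 + om) ^ i := by
  have h6 := (nm_prime_mod_six hp h.1 (RecipB.ne_neg_two h)).1
  have h2 : (1 + om) ^ 2 = om := by linear_combination om_sq_add
  have h3 : (1 + om) ^ 3 = -1 := by linear_combination (om + 2) * om_sq_add
  have e2 : sym p a ^ 2 = (ι (1 + om) ^ i) ^ 2 := by
    rw [sym_sq h.1, cub_prime hp h.1, ← pow_mul, mul_comm, pow_mul, ← map_pow, h2, ι_om,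
      cub1_eq_pow_iff hp h.1, show (nm p - 1) / 3 = (nm p - 1) / 6 * 2 by omega, pow_mul, ← h2,
      ← pow_mul (1 + om), mul_comm 2 i, pow_mul]
    exact hi.trans (sub_dvd_pow_sub_pow _ _ 2)
  have e3 : sym p a ^ 3 = (ι (1 + om) ^ i) ^ 3 := by
    have h4 := hi.trans (sub_dvd_pow_sub_pow _ _ 3)
    rw [← pow_mul, ← pow_mul, mul_comm i, pow_mul (1 + om), h3,
      show (nm p - 1) / 6 * 3 = (nm p - 1) / 2 by omega] at h4
    rw [sym_pow_three h.1, RecipB.quad_prime hp h.1, ← pow_mul, mul_comm, pow_mul, ← map_pow, h3,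
      map_neg, map_one, quad1, if_neg ha]
    rcases neg_one_pow_eq_or ℤ i with h5 | h5
    · have h7 := (neg_one_pow_eq_one_iff_even (by norm_num)).1 h5
      rw [h7.neg_one_pow] at h4 ⊢
      rw [if_pos h4]
    · have h7 := (neg_one_pow_eq_neg_one_iff_odd (by norm_num)).1 h5
      rw [h7.neg_one_pow] at h4 ⊢
      rw [if_neg fun h8 => hp.not_isUnit (h.2.isUnit_of_dvd' dvd_rfl (by
        have := dvd_sub h4 h8
        rwa [show a ^ ((nm p - 1) / 2) - -1 - (a ^ ((nm p - 1) / 2) - 1) = 2 by ring] at this))]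
  have h0 : ι (1 + om) ^ i ≠ 0 :=
    pow_ne_zero _ ((map_ne_zero_iff _ ι_injective).2 (by decide))
  refine mul_right_cancel₀ (pow_ne_zero 2 h0) ?_
  rw [← pow_succ', ← e3, ← e2, ← pow_succ']

section base
variable {A : Type*} [CommRing A] [IsDomain A] (φ : O →+* A) {T : O} (hT : IsUnit (φ T))
  (den : ∀ a : A, ∃ (k : ℕ) (o : O), φ T ^ k * a = φ o) (hφ : Function.Injective φ)
  (h72 : (72 : O) ∣ T)

omit [IsDomain A] in
include hT h72 in
theorem six_unit : IsUnit (6 : A) := by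
  have := isUnit_of_dvd_unit (map_dvd φ ((show (6 : O) ∣ 72 from ⟨12, by norm_num⟩).trans h72)) hT
  rwa [map_ofNat] at this

omit [IsDomain A] in
include hT den in
theorem fin_base (y : A) (hy : y ≠ 0) : Finite (A ⧸ Ideal.span {y}) := by
  obtain ⟨k, μ, h⟩ := den y
  have : Fact (μ ≠ 0) := ⟨fun h0 => by
    rw [h0, map_zero] at h
    exact hy ((hT.pow k).mul_right_eq_zero.1 h)⟩
  exact finite_of_den φ hT den (μ := μ) ⟨φ T ^ k, by rw [← h, mul_comm]⟩

include hT den hφ h72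

theorem link {n a : O} (hn : PO n) (hc : IsCoprime n T) (ha : IsCoprime a n) :
    sym n a = ι (1 + om) ^ (zs (φ (1 + om)) (φ a) (φ n)).val := by
  have hζ := map_zeta φ hz0
  have h6 := six_unit φ hT h72
  revert hc ha
  refine RecipB.PO_induction (P := fun n => IsCoprime n T → IsCoprime a n →
    sym n a = ι (1 + om) ^ (zs (φ (1 + om)) (φ a) (φ n)).val) ?_ ?_ hn
  · intro _ _
    rw [map_one, zs_unit _ _ isUnit_one]
    simp
  intro p n hp hp' hn ih hc ha
  have h0 : φ p ≠ 0 := (map_ne_zero_iff _ hφ).2 hp.ne_zero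
  have := fin_base φ hT den _ (mul_ne_zero h0 ((map_ne_zero_iff _ hφ).2 hn.1.ne_zero))
  rw [sym_mul_left hp.ne_zero hn.1.ne_zero, map_mul,
    zs_mul_right hζ h6 h0 (by simpa using ha.map φ), pow_val_add (map_zeta ι hz0),
    ih hc.of_mul_left_right ha.of_mul_right_right]
  congr 1
  have hc' := hc.of_mul_left_left
  have hpa : ¬ p ∣ a := hp.coprime_iff_not_dvd.1 ha.of_mul_right_left.symm
  refine sym_of_dvd hp hp' hpa (dvd_of_den φ den hφ hc' ?_)
  have := fin_base φ hT den _ h0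
  have : Fact (p ≠ 0) := ⟨hp.ne_zero⟩
  have hb : Function.Bijective (Ideal.quotientMap (I := Ideal.span {p}) (Ideal.span {φ p}) φ
      fun x hx => Ideal.mem_span_singleton.2 (map_dvd φ (Ideal.mem_span_singleton.1 hx))) := by
    refine ⟨Ideal.quotientMap_injective' fun x hx => Ideal.mem_span_singleton.2
      (dvd_of_den φ den hφ hc' (Ideal.mem_span_singleton.1 hx)), fun c => ?_⟩
    obtain ⟨c, rfl⟩ := Ideal.Quotient.mk_surjective c
    obtain ⟨o, ho⟩ := sur_of_den φ hT den (dvd_refl (φ p)) c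
    exact ⟨Ideal.Quotient.mk _ o, by
      rw [Ideal.quotientMap_mk, eq_comm, Ideal.Quotient.eq, Ideal.mem_span_singleton]; exact ho⟩
  have : (Ideal.span {p}).IsPrime := (Ideal.span_singleton_prime hp.ne_zero).2 hp
  have : IsDomain (A ⧸ Ideal.span {φ p}) := MulEquiv.isDomain _ (RingEquiv.ofBijective _ hb).symm.toMulEquiv
  have hpr : Prime (φ p) :=
    (Ideal.span_singleton_prime h0).1 ((Ideal.Quotient.isDomain_iff_prime _).1 this)
  have h1 := zs_prime hζ h6 hpr (a := φ a) fun h => hpa (dvd_of_den φ den hφ hc' h)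
  rwa [← Nat.card_congr (Equiv.ofBijective _ hb), card_quot hp.ne_zero, ← map_pow, ← map_pow,
    ← map_sub] at h1

theorem law_int {x y : O} (hx : x ≠ 0) (hy : T ∣ y - 1) (h : IsCoprime x y) :
    zs (φ (1 + om)) (φ x) (φ y) = zs (φ (1 + om)) (φ y) (φ x) := by
  have hζ := map_zeta φ hz0
  have h6 := six_unit φ hT h72
  have hc : IsCoprime y T := by
    obtain ⟨c, hc⟩ := hy
    exact ⟨1, -c, by linear_combination hc⟩
  have hy' : PO y := ⟨((show (3 : O) ∣ 72 from ⟨24, by norm_num⟩).trans h72).trans hy,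
    hc.of_isCoprime_of_dvd_right ((show (2 : O) ∣ 72 from ⟨36, by norm_num⟩).trans h72)⟩
  have h1 : PO 1 := ⟨primary_one, isCoprime_one_left⟩
  have hy0 : φ y ≠ 0 := (map_ne_zero_iff _ hφ).2 hy'.1.ne_zero
  have := fin_base φ hT den _ hy0
  have hinj : ∀ i j : ZMod 6, ι (1 + om) ^ i.val = ι (1 + om) ^ j.val → i = j := fun i j hij =>
    val_inj (map_zeta ι hz0) (by simp) (p := 0) not_isUnit_zero (by rw [hij, sub_self])
  have key : ∀ c : O, c ≠ 0 → c ∣ T → IsCoprime c y →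
      zs (φ (1 + om)) (φ c) (φ y) = zs (φ (1 + om)) (φ y) (φ c) := fun c hc0 hcT hcy => by
    rw [zs_unit _ _ (isUnit_of_dvd_unit (map_dvd φ hcT) hT)]
    refine hinj _ _ ?_
    rw [← link φ hT den hφ h72 hy' hc hcy, RecipB.sym_per h72 hy' h1 hy hc0
      fun p hp => ((mem_pf hc0).1 hp).2.2.trans hcT]
    simp
  revert h
  refine RecipB.gen_induction (P := fun x => IsCoprime x y →
    zs (φ (1 + om)) (φ x) (φ y) = zs (φ (1 + om)) (φ y) (φ x)) ?_ ?_ ?_ ?_ ?_ ?_ hx
  · intro a b ha hb iha ihb h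
    have ha' : φ a ≠ 0 := (map_ne_zero_iff _ hφ).2 ha
    have := fin_base φ hT den _ (mul_ne_zero ha' ((map_ne_zero_iff _ hφ).2 hb))
    rw [map_mul, zs_mul_left hζ h6 (h.of_mul_left_left.map φ) (h.of_mul_left_right.map φ),
      zs_mul_right hζ h6 ha' (by simpa using h.symm.map φ), iha h.of_mul_left_left,
      ihb h.of_mul_left_right]
  · exact key _ one_ne_zero (one_dvd _)
  · exact key _ (by simp) isUnit_one.neg.dvd
  · exact key _ (by decide) (isUnit_iff_nm.2 (by decide)).dvd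
  · exact key _ prime_lam.ne_zero
      ((show lam ∣ 72 from ⟨-24 * lam, by linear_combination 24 * lam_sq⟩).trans h72)
  · intro p hp hp' h
    by_cases hd : p ∣ T
    · exact key p hp.ne_zero hd h
    have h2 : PO p := (RecipB.po_or hp hp').resolve_left fun h3 => hd (by
      rw [h3]; exact (show (-2 : O) ∣ 72 from ⟨-36, by norm_num⟩).trans h72)
    refine hinj _ _ ?_
    rw [← link φ hT den hφ h72 hy' hc h,
      ← link φ hT den hφ h72 h2 (hp.coprime_iff_not_dvd.2 hd) h.symm, sym_recip hy' h2,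
      Rs_congr (m' := 1) (n' := p) (((show (4 : O) ∣ 72 from ⟨18, by norm_num⟩).trans h72).trans hy)
        (by simp), Rs_one_left h2.2, one_mul]

end base

/-- the data for `ℤ[ω][1/M]` -/
theorem exists_bs (M : ℕ) (h6 : 6 ∣ M) (hM : M ≠ 0) (A : Type*) [CommRing A] [Algebra O A]
    [IsLocalization.Away (M : O) A] : IsDomain A ∧
    ∃ B : Bs O A, B.ζ = algebraMap O A (1 + om) ∧ B.T = (M : O) ^ 6 := by
  have hM' : (M : O) ≠ 0 := Nat.cast_ne_zero.2 hM
  have hle := powers_le_nonZeroDivisors_of_noZeroDivisors hM'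
  have hdom : IsDomain A := IsLocalization.isDomain_of_le_nonZeroDivisors A hle
  have hφ : Function.Injective (algebraMap O A) := IsLocalization.injective A hle
  have hu : IsUnit (algebraMap O A M) := IsLocalization.Away.algebraMap_isUnit _
  have hT : IsUnit (algebraMap O A ((M : O) ^ 6)) := by rw [map_pow]; exact hu.pow 6
  have den : ∀ a : A, ∃ (k : ℕ) (o : O),
      algebraMap O A ((M : O) ^ 6) ^ k * a = algebraMap O A o := fun a => by
    obtain ⟨k, o, h⟩ := IsLocalization.Away.surj (M : O) a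
    refine ⟨k, (M : O) ^ (5 * k) * o, ?_⟩
    rw [map_mul, ← h, map_pow, map_pow]
    ring
  have h72 : (72 : O) ∣ (M : O) ^ 6 := by
    obtain ⟨m, rfl⟩ := h6
    exact ⟨648 * m ^ 6, by push_cast; ring⟩
  have hζ := map_zeta (algebraMap O A) hz0
  have h6' := six_unit _ hT h72
  have hfin := fin_base _ hT den
  obtain ⟨t, ht⟩ := hT.exists_right_inv
  refine ⟨hdom, ⟨algebraMap O A (1 + om), (M : O) ^ 6, -t, nm, hζ, h6', by rw [mul_neg, ht],
    fun h => prime_lam.not_isUnit (isUnit_of_dvd_unit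
      ((show lam ∣ 72 from ⟨-24 * lam, by linear_combination 24 * lam_sq⟩).trans h72) h),
    hφ, hfin, den, two_choices, ?_⟩, rfl, rfl⟩
  rintro x y hx h ⟨k, o, ho⟩
  obtain ⟨l, x₁, hx₁⟩ := den x
  have hx0 : x₁ ≠ 0 := fun h0 => by
    rw [h0, map_zero] at hx₁
    exact hx ((hT.pow l).mul_right_eq_zero.1 hx₁)
  have hc : IsCoprime x₁ (1 + (M : O) ^ 6 * o) := by
    refine coprime_of_den _ den hφ ⟨1, -o, by ring⟩ ?_
    rw [← ho, ← hx₁, isCoprime_mul_unit_left_left (hT.pow l), isCoprime_mul_unit_left_right (hT.pow k)]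
    exact h
  have h1 := law_int _ hT den hφ h72 hx0 ⟨o, by ring⟩ hc
  have hy : y ≠ 0 := by
    rintro rfl
    rw [mul_zero, eq_comm, map_eq_zero_iff _ hφ] at ho
    rw [ho, isCoprime_zero_right] at hc
    exact prime_lam.not_isUnit (isUnit_of_dvd_unit
      ((show lam ∣ 72 from ⟨-24 * lam, by linear_combination 24 * lam_sq⟩).trans h72)
      (IsUnit.of_mul_eq_one (-o) (by linear_combination -ho)))
  have := hfin x hx
  have := hfin y hy
  have hp : ∀ j : ℕ, algebraMap O A ((M : O) ^ 6) ^ j = (algebraMap O A M ^ j) ^ 6 := fun j => by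
    rw [map_pow]; ring
  rw [← ho, ← hx₁, ← zs_assoc _ _ (associated_unit_mul_left y _ (hT.pow k)).symm,
    ← zs_assoc _ _ (associated_unit_mul_left x _ (hT.pow l)).symm, hp, hp,
    zs_six hζ h6' h (coprime_unit (hu.pow _) _), zs_six hζ h6' h.symm (coprime_unit (hu.pow _) _)] at h1
  exact h1

end Crest.Agent.T27.Mn
end
end

-- ▼ part T27/Mn4_85
section

/-!
# Row 27, sextic reciprocity by a Euclidean algorithm on polynomials, part 4

The reciprocity law for a *good* element `z = 1 + T η` of a finite extension `S` of `A`: every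
element of `S` is congruent to an element of `A` modulo `z`.
-/

set_option autoImplicit false

noncomputable section

namespace Crest.Agent.T27.Mn

open Rc Polynomial

theorem exists_comb {O S : Type*} [CommRing O] [CommRing S] [IsDomain S] [Algebra O S] [Nontrivial O]
    {x : S} (hx : IsIntegral O x) (h0 : x ≠ 0) : ∃ c ≠ 0, ∃ q : O[X], aeval x (C c + X * q) = 0 := by
  obtain ⟨q, hq, h⟩ := hx.isAlgebraic.exists_nonzero_coeff_and_aeval_eq_zero
    (mem_nonZeroDivisors_of_ne_zero h0)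
  exact ⟨q.coeff 0, hq, q.divX, by rwa [add_comm, X_mul_divX_add]⟩

theorem good {O A S : Type*} [CommRing O] [IsDomain O] [IsPrincipalIdealRing O] [CharZero O]
    [CommRing A] [IsDomain A] [Algebra O A] [CommRing S] [IsDomain S] [Algebra O S] [Algebra A S]
    [IsScalarTower O A S] [Module.Finite A S] (B : Bs O A) {m : O} (hm : B.T = m ^ 6)
    (hinj : Function.Injective (algebraMap O S))
    (hfin : ∀ b : S, b ≠ 0 → Finite (S ⧸ Ideal.span {b})) {η z : S} (hη : IsIntegral O η)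
    (hz : z = 1 + algebraMap O S B.T * η) (hu : ¬ IsUnit z)
    (hs : ∀ s, ∃ a : A, z ∣ s - algebraMap A S a) {x : S} (hx : x ≠ 0) (hc : IsCoprime x z) :
    zs (algebraMap A S B.ζ) x z = zs (algebraMap A S B.ζ) z x := by
  have : Module.IsTorsionFree O S := Module.isTorsionFree_iff_algebraMap_injective.2 hinj
  set ζ := algebraMap A S B.ζ with hζdef
  have hζ := map_zeta (algebraMap A S) B.hζ
  have h6 := map_six (algebraMap A S) B.h6
  have htw : ∀ o, algebraMap A S (algebraMap O A o) = algebraMap O S o := fun o =>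
    (IsScalarTower.algebraMap_apply O A S o).symm
  set t := algebraMap O S B.T with ht
  have hτ : t * algebraMap A S B.τ = -1 := by
    simpa [htw] using congrArg (algebraMap A S) B.hτ
  have htu : IsUnit t := IsUnit.of_mul_eq_one (-algebraMap A S B.τ) (by linear_combination -hτ)
  set w := η - algebraMap A S B.τ with hw
  have hzw : z = t * w := by rw [hz, hw]; linear_combination hτ
  let ψ : A[X] →+* S := (aeval w : A[X] →ₐ[A] S).toRingHom
  have hψC : ∀ a, ψ (C a) = algebraMap A S a := fun a => aeval_C w a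
  have hψX : ψ X = w := aeval_X w
  have hψ : ∀ p, ψ (B.mp p) = aeval η p := fun p => by
    have : ψ.comp B.mp = (aeval η : O[X] →ₐ[O] S).toRingHom := by
      refine ringHom_ext (fun a => ?_) ?_
      · simp [B.mp_C, hψC, htw]
      · simp [B.mp_X, hψC, hψX, hw]
    exact DFunLike.congr_fun this p
  have h8 : ∀ h : A[X], ∃ (k : ℕ) (p : O[X]), B.mp (C B.T) ^ k * h = B.mp p := fun h => by
    induction h using Polynomial.induction_on with
    | C a =>
      obtain ⟨k, o, h⟩ := B.den a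
      exact ⟨k, C o, by rw [B.mp_C, B.mp_C, ← h, C_mul, C_pow]⟩
    | add p q hp hq =>
      obtain ⟨k, p', hp⟩ := hp
      obtain ⟨l, q', hq⟩ := hq
      exact ⟨k + l, C B.T ^ l * p' + C B.T ^ k * q', by
        rw [map_add, map_mul, map_mul, map_pow, map_pow, ← hp, ← hq]; ring⟩
    | monomial n a h =>
      obtain ⟨k, p, h⟩ := h
      refine ⟨k + 1, p * (C B.T * X + 1), ?_⟩
      have h1 := congrArg C B.hτ
      rw [C_mul, C_neg, C_1] at h1
      rw [map_mul, ← h, map_add, map_mul, map_one, B.mp_X, B.mp_C]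
      linear_combination (-C (algebraMap O A B.T) ^ k * (C a * X ^ n)) * h1
  set Q := minpoly O η with hQdef
  have hQ : Q.Monic := minpoly.monic hη
  have hTu : IsUnit (B.mp (C B.T)) := by
    rw [B.mp_C]
    exact (IsUnit.of_mul_eq_one (-B.τ) (by linear_combination -B.hτ)).map C
  have hker : ∀ y, ψ y = 0 ↔ B.mp Q ∣ y := fun y => by
    constructor
    · intro h
      obtain ⟨k, p, hp⟩ := h8 y
      have h1 : aeval η p = 0 := by rw [← hψ, ← hp, map_mul, h, mul_zero]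
      have h2 := map_dvd B.mp (minpoly.isIntegrallyClosed_dvd hη h1)
      rwa [← hp, (hTu.pow k).dvd_mul_left] at h2
    · rintro ⟨k, rfl⟩
      rw [map_mul, hψ, minpoly.aeval, zero_mul]
  have hs' : ∀ s, ∃ a : A, w ∣ s - algebraMap A S a := fun s =>
    (hs s).imp fun a h => (Dvd.intro_left t hzw.symm).trans h
  obtain ⟨e, he⟩ : ∃ e : A[X], ∀ s, ∃ y, ψ (1 + X * e) * s = ψ y := by
    let _ : Algebra A[X] S := ψ.toAlgebra
    have : IsScalarTower A A[X] S := IsScalarTower.of_algebraMap_eq fun a => (hψC a).symm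
    have : Module.Finite A[X] S := Module.Finite.of_restrictScalars_finite A A[X] S
    obtain ⟨r, hr, h⟩ := Submodule.exists_sub_one_mem_and_smul_le_of_fg_of_le_sup
      (I := Ideal.span {(X : A[X])}) (N := LinearMap.range (Algebra.linearMap A[X] S))
      (Module.Finite.fg_top (R := A[X]) (M := S)) le_rfl fun s _ => by
        obtain ⟨a, c, h⟩ := hs' s
        rw [show s = ψ (C a) + (X : A[X]) • c by
          rw [hψC, show (X : A[X]) • c = ψ X * c from rfl, hψX]; linear_combination h]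
        exact Submodule.add_mem_sup ⟨C a, rfl⟩
          (Submodule.smul_mem_smul (Ideal.mem_span_singleton_self _) trivial)
    obtain ⟨e, he⟩ := Ideal.mem_span_singleton.1 hr
    refine ⟨e, fun s => ?_⟩
    obtain ⟨y, hy⟩ := h (Submodule.smul_mem_pointwise_smul s r ⊤ trivial)
    exact ⟨y, by rw [show 1 + X * e = r by linear_combination -he]; exact hy.symm⟩
  have hδ : IsCoprime (ψ (1 + X * e)) z := by
    rw [hzw, isCoprime_mul_unit_left_right htu, map_add, map_one, map_mul, hψX]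
    exact ⟨1, -ψ e, by ring⟩
  have hδ0 : ψ (1 + X * e) ≠ 0 := fun h => hu (isCoprime_zero_left.1 (h ▸ hδ))
  have hz0 : z ≠ 0 := by
    rintro rfl
    obtain ⟨c, hc, q, h⟩ : ∃ c ≠ 0, ∃ q : O[X], aeval η (C c + X * q) = 0 :=
      exists_comb hη (by rintro rfl; simp at hz)
    have h1 := B.ev_ne hQ
    have h2 : w = 0 := (htu.mul_right_eq_zero).1 hzw.symm
    have h3 : ψ (C (B.ev Q)) = 0 := by
      have h4 := (hker _).2 dvd_rfl
      rw [← X_mul_divX_add (B.mp Q), map_add, map_mul, hψX, h2, zero_mul, zero_add] at h4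
      exact h4
    have h5 := natDegree_le_of_dvd ((hker _).1 h3) (C_ne_zero.2 h1)
    rw [natDegree_C, B.natDegree_mp] at h5
    exact absurd (minpoly.natDegree_pos hη) (by rw [← hQdef]; omega)
  have hw0 : w ≠ 0 := fun h => hz0 (by rw [hzw, h, mul_zero])
  have := hfin z hz0
  have := hfin w hw0
  have claim1 : ∀ g : O[X], aeval η g ≠ 0 → IsCoprime (aeval η g) z →
      zs ζ (aeval η g) z = zs ζ z (aeval η g) := fun g hg hgz => by
    have hgw : IsCoprime (aeval η g) w := by rwa [hzw, isCoprime_mul_unit_left_right htu] at hgz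
    have hadm : B.Adm g Q := by
      constructor
      · obtain ⟨u, v, huv⟩ := hgw
        obtain ⟨a, c, ha⟩ := hs' u
        obtain ⟨y, hy⟩ := he (v + c * aeval η g)
        obtain ⟨k, hk⟩ := (hker ((1 + X * e) * (1 - C a * B.mp g) - X * y)).1 (by
          rw [map_sub, map_mul, map_mul, ← hy, map_sub, map_mul ψ (C a), hψC, hψ, hψX, map_one]
          linear_combination (-ψ (1 + X * e)) * huv + ψ (1 + X * e) * aeval η g * ha)
        have h1 := congrArg constantCoeff hk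
        simp only [map_sub, map_mul, map_add, map_one, constantCoeff_apply X, coeff_X_zero,
          constantCoeff_apply (C a), coeff_C_zero, ← B.ev_apply] at h1
        exact ⟨a, constantCoeff k, by linear_combination -h1⟩
      · obtain ⟨c, hc, q, h⟩ := exists_comb
          (IsIntegral.of_mem_of_fg _ hη.fg_adjoin_singleton _ (aeval_mem_adjoin_singleton O η)) hg
        obtain ⟨k, hk⟩ := minpoly.isIntegrallyClosed_dvd hη (p := C c + g * q.comp g) (by
          simpa [aeval_comp] using h)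
        exact ⟨c, hc, -q.comp g, k, by linear_combination -hk⟩
    have h1 := Bs.Φ_eq_zero hQ hadm
    have h2 := zm_hom ψ (I := Ideal.span {B.mp Q, X}) (J := Ideal.span {w}) (fun y => by
      rw [Ideal.mem_span_pair, Ideal.mem_span_singleton]
      constructor
      · rintro ⟨s, s', rfl⟩
        exact ⟨ψ s', by rw [map_add, map_mul, map_mul, (hker _).2 dvd_rfl, hψX]; ring⟩
      · rintro ⟨s, hy⟩
        obtain ⟨y', hy'⟩ := he s
        obtain ⟨k, hk⟩ := (hker ((1 + X * e) * y - X * y')).1 (by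
          rw [map_sub, map_mul, map_mul, ← hy', hy, hψX]; ring)
        exact ⟨k, y' - e * y, by linear_combination -hk⟩)
      (fun s => by
        obtain ⟨a, ha⟩ := hs' s
        exact ⟨C a, by rwa [hψC, Ideal.mem_span_singleton]⟩)
      (map_zeta C B.hζ) (map_six C B.h6) hadm.un.canc
    have := hfin _ (mul_ne_zero (hψ g ▸ hg : ψ (B.mp g) ≠ 0) hδ0)
    have h3 := zz_lattice ψ (map_zeta C B.hζ) (map_six C B.h6) hker he (hψ g ▸ hg) hadm.un'
    rw [Bs.Φ, h3, zz, h2, ← zs, hψC, hψ, hψX, sub_eq_zero] at h1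
    have := hfin _ hg
    have h4 : t = algebraMap O S m ^ 6 := by rw [ht, hm, map_pow]
    have h5 : IsUnit (algebraMap O S m) := (isUnit_pow_iff (by norm_num)).1 (h4 ▸ htu)
    rw [hzw, ← zs_assoc _ _ (associated_unit_mul_left w _ htu).symm, h4,
      zs_six hζ h6 hgw.symm (coprime_unit h5 _)]
    exact h1
  have hmul : ∀ a b : S, a * b ≠ 0 → IsCoprime (a * b) z → zs ζ a z = zs ζ z a →
      zs ζ (a * b) z = zs ζ z (a * b) → zs ζ b z = zs ζ z b := fun a b h0 h ha hab => by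
    have := hfin _ h0
    rw [zs_mul_left hζ h6 h.of_mul_left_left h.of_mul_left_right,
      zs_mul_right hζ h6 (left_ne_zero_of_mul h0) h.symm, ha] at hab
    exact add_left_cancel hab
  have claim2 : ∀ y : A[X], ψ y ≠ 0 → IsCoprime (ψ y) z → zs ζ (ψ y) z = zs ζ z (ψ y) :=
    fun y hy hyz => by
      obtain ⟨k, p, hp⟩ := h8 y
      have h1 : aeval η (C B.T ^ k) * ψ y = aeval η p := by
        rw [← hψ, ← hψ, ← hp, map_mul, map_pow]
      have h2 : IsUnit (aeval η (C B.T ^ k)) := by simpa using htu.pow k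
      have h3 : aeval η (C B.T ^ k) * ψ y ≠ 0 := mul_ne_zero h2.ne_zero hy
      have h4 := (coprime_unit h2 z).mul_left hyz
      refine hmul _ _ h3 h4 (claim1 _ h2.ne_zero (coprime_unit h2 z)) ?_
      rw [h1] at h3 h4 ⊢
      exact claim1 p h3 h4
  obtain ⟨y, hy⟩ := he x
  have h3 : ψ (1 + X * e) * x ≠ 0 := mul_ne_zero hδ0 hx
  have h4 := hδ.mul_left hc
  refine hmul _ _ h3 h4 (claim2 _ hδ0 hδ) ?_
  rw [hy] at h3 h4 ⊢
  exact claim2 y h3 h4

end Crest.Agent.T27.Mn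
end
end

-- ▼ part T27/RecAd_55
section

/-!
# Row 27: from reciprocity for deep elements to the bicharacter of `RecStmt` (helper55)
-/

set_option autoImplicit false
set_option linter.unusedSectionVars false

noncomputable section

open NumberField

namespace Crest.Agent.T27.Rc

/-- Reciprocity for coprime pairs one member of which is `≡ 1 (mod M ^ k)`. -/
def RecCop (k : ℕ) : Prop :=
  ∀ (F : Type) [Field F] [NumberField F] (M : ℕ), 6 ∣ M → M ≠ 0 →
    ∀ (S : Type) [CommRing S] [Algebra S F], Function.Injective (algebraMap S F) →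
      (∀ x : F, x ∈ (algebraMap S F).range ↔ ∃ j : ℕ, IsIntegral ℤ ((M : F) ^ j * x)) →
      ∀ ζ : S, ζ ^ 2 - ζ + 1 = 0 → ∀ (x y : S) (t : F), x ≠ 0 → IsIntegral ℤ t →
        algebraMap S F y = 1 + (M : F) ^ k * t → IsCoprime x y → zs ζ x y = zs ζ y x

theorem RecCop.mono {k k' : ℕ} (h : RecCop k) (hk : k ≤ k') : RecCop k' := by
  intro F _ _ M h6 h0 S _ _ hi hr ζ hζ x y t hx ht hy hc
  obtain ⟨d, rfl⟩ := Nat.exists_eq_add_of_le hk
  exact h F M h6 h0 S hi hr ζ hζ x y ((M : F) ^ d * t) hx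
    (((isIntegral_natCast M).pow d).mul ht) (by rw [hy, pow_add, mul_assoc]) hc

namespace Ad

variable {F : Type} [Field F] [NumberField F] {M : ℕ}

theorem one_add_ne (h1 : 1 < M) {j : ℕ} (hj : j ≠ 0) {l : F} (hl : l ∈ LS F M) :
    1 + (M : F) ^ j * l ≠ 0 := by
  obtain ⟨i, rfl⟩ := Nat.exists_eq_succ_of_ne_zero hj
  obtain ⟨d, hd, a, ha⟩ := exists_eq_of_mem_LS hl
  obtain ⟨u, v, huv⟩ := bezout_cast hd (𝓞 F)
  intro h0
  have he : (d : 𝓞 F) + M * (M ^ i * a) = 0 := by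
    refine RingOfIntegers.ext ?_
    change (d : F) + (M : F) * ((M : F) ^ i * (a : F)) = 0
    rw [← ha]
    rw [pow_succ] at h0
    linear_combination (d : F) * h0
  have hc : IsUnit (M : 𝓞 F) :=
    IsUnit.of_mul_eq_one (v - u * (M ^ i * a)) (by linear_combination huv - u * he)
  have h2 := hc.map (Algebra.norm ℤ)
  rw [show (M : 𝓞 F) = algebraMap ℤ (𝓞 F) M by simp, Algebra.norm_algebraMap,
    isUnit_pow_iff (Module.finrank_pos (R := ℤ) (M := 𝓞 F)).ne', Int.isUnit_iff] at h2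
  omega

/-- Newton's method. -/
theorem newton (h6 : 6 ∣ M) (h1 : 1 < M) {t : F} (ht : t ∈ LS F M) (i : ℕ) :
    ∃ s : F, s ≠ 0 ∧ ∃ l ∈ LS F M, (1 + (M : F) ^ 3 * t) * s ^ 6 = 1 + (M : F) ^ (i + 3) * l := by
  induction i with
  | zero => exact ⟨1, one_ne_zero, t, ht, by simp⟩
  | succ i ih =>
    obtain ⟨s, hs, l, hl, h⟩ := ih
    obtain ⟨m, hm⟩ := h6
    have hM : (M : F) = 6 * m := by rw [hm]; push_cast; ring
    set e : F := (M : F) ^ (i + 2) * m * l with he
    have heL : e ∈ LS F M := mul_mem (mul_mem (pow_mem (natCast_mem _ M) _) (natCast_mem _ m)) hl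
    have hq : (-21 + 70 * e - 105 * e ^ 2 + 84 * e ^ 3 - 35 * e ^ 4 + 6 * e ^ 5) ∈ LS F M := by
      have h0 : ∀ n : ℕ, ∀ k : ℕ, (n : F) * e ^ k ∈ LS F M := fun n k =>
        mul_mem (natCast_mem _ n) (pow_mem heL k)
      have := add_mem (sub_mem (add_mem (sub_mem (add_mem (neg_mem (h0 21 0)) (h0 70 1))
        (h0 105 2)) (h0 84 3)) (h0 35 4)) (h0 6 5)
      simpa using this
    have hl' : (M : F) ^ i * m ^ 2 * l ^ 2 *
        (-21 + 70 * e - 105 * e ^ 2 + 84 * e ^ 3 - 35 * e ^ 4 + 6 * e ^ 5) ∈ LS F M :=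
      mul_mem (mul_mem (mul_mem (pow_mem (natCast_mem _ M) _) (pow_mem (natCast_mem _ m) _))
        (pow_mem hl _)) hq
    have h2 : (M : F) ^ (i + 3) * l = 6 * e := by
      rw [he, pow_succ, hM]
      ring
    have h3 : e ^ 2 = (M : F) ^ (i + 1 + 3) * ((M : F) ^ i * m ^ 2 * l ^ 2) := by
      rw [he]
      ring
    have key : (1 + (M : F) ^ 3 * t) * (s * (1 - e)) ^ 6 = 1 + (M : F) ^ (i + 1 + 3) *
        ((M : F) ^ i * m ^ 2 * l ^ 2 *
          (-21 + 70 * e - 105 * e ^ 2 + 84 * e ^ 3 - 35 * e ^ 4 + 6 * e ^ 5)) := by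
      rw [mul_pow, ← mul_assoc, h, h2, ← mul_assoc ((M : F) ^ (i + 1 + 3)), ← h3]
      ring
    refine ⟨s * (1 - e), fun h0 => ?_, _, hl', key⟩
    rw [h0] at key
    exact one_add_ne h1 (j := i + 1 + 3) (by omega) hl' (by rw [← key]; simp)

variable {S : Type} [CommRing S] [Algebra S F]

/-- `a` represents the class of `x` modulo `1 + M ^ k Λ`. -/
def Rp (F : Type) [Field F] (M k : ℕ) {S : Type} [CommRing S] [Algebra S F] (x : F) (a : S) :
    Prop := ∃ l ∈ LS F M, algebraMap S F a = x * (1 + (M : F) ^ k * l)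

theorem Rp.self (k : ℕ) (a : S) : Rp F M k (algebraMap S F a) a := ⟨0, zero_mem _, by simp⟩

theorem Rp.mul {k : ℕ} {x y : F} {a b : S} (h : Rp F M k x a) (h' : Rp F M k y b) :
    Rp F M k (x * y) (a * b) := by
  obtain ⟨l, hl, h⟩ := h
  obtain ⟨l', hl', h'⟩ := h'
  refine ⟨l + l' + (M : F) ^ k * l * l', add_mem (add_mem hl hl')
    (mul_mem (mul_mem (pow_mem (natCast_mem _ M) _) hl) hl'), ?_⟩
  rw [map_mul, h, h']
  ring

theorem Rp.ne_zero (h1 : 1 < M) {k : ℕ} (hk : k ≠ 0) {x : F} (hx : x ≠ 0) {a : S}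
    (h : Rp F M k x a) : a ≠ 0 := by
  obtain ⟨l, hl, h⟩ := h
  rintro rfl
  exact mul_ne_zero hx (one_add_ne h1 hk hl) (h.symm.trans (map_zero _))

/-- The moving lemma. -/
theorem exists_rp (h0 : M ≠ 0) (hi : Function.Injective (algebraMap S F))
    (hr : ∀ x : F, x ∈ (algebraMap S F).range ↔ ∃ j : ℕ, IsIntegral ℤ ((M : F) ^ j * x)) (k : ℕ)
    {x : F} (hx : x ≠ 0) {m : S} (hm : m ≠ 0) : ∃ a : S, Rp F M k x a ∧ IsCoprime a m := by
  have hm' : algebraMap S F m ≠ 0 := fun h => hm (hi (h.trans (map_zero _).symm))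
  have hM : (M : F) ^ k ≠ 0 := pow_ne_zero _ (by exact_mod_cast h0)
  obtain ⟨z, ⟨r, hrR, h1⟩, l, hl, h2⟩ := exists_approx h0 hm' (mul_ne_zero hx hM) 1 x
  obtain ⟨r, rfl⟩ := (hr r).2 (mem_RS.1 hrR)
  refine ⟨1 + m * r, ⟨l, hl, ?_⟩, 1, -r, by ring⟩
  rw [map_add, map_one, map_mul, ← h1, h2]
  ring

end Ad

open Ad in
theorem recStmt_of_cop_55 (k : ℕ) (h : RecCop k) : RecStmt := by
  intro F _ _ M h6 h0 S _ _ hi hr ζ hζ
  have h1 : 1 < M := by have := Nat.le_of_dvd (Nat.pos_of_ne_zero h0) h6; omega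
  have : IsDomain S := hi.isDomain _
  have hM : (M : F) ≠ 0 := by exact_mod_cast h0
  have hne : ∀ {a : S}, a ≠ 0 → algebraMap S F a ≠ 0 := fun ha h =>
    ha (hi (h.trans (map_zero _).symm))
  have hu : IsUnit (6 : S) := by
    obtain ⟨m, hm⟩ := h6
    obtain ⟨w, hw⟩ := (hr (M : F)⁻¹).2 ⟨1, by simpa [hM] using isIntegral_one⟩
    refine IsUnit.of_mul_eq_one (m * w) (hi ?_)
    rw [map_mul, map_mul, hw, map_one, map_ofNat, map_natCast, ← mul_assoc,
      show (6 : F) * m = M by rw [hm]; push_cast; ring, mul_inv_cancel₀ hM]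
  have hfin : ∀ b : S, b ≠ 0 → Finite (S ⧸ Ideal.span {b}) := by
    intro b hb
    let e : S ≃+* RS F M := RingEquiv.ofBijective
      ((algebraMap S F).codRestrict (RS F M) fun x => mem_RS.2 ((hr _).1 ⟨x, rfl⟩))
      ⟨fun _ _ e => hi (congrArg Subtype.val e), fun x => by
        obtain ⟨a, ha⟩ := (hr x).2 (mem_RS.1 x.2)
        exact ⟨a, Subtype.ext ha⟩⟩
    have : Finite (RS F M ⧸ Ideal.span {e b}) :=
      finite_quot_LocS (zero_notMem_powers h0) (by simpa using hb)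
    exact Finite.of_equiv _
      (Ideal.quotientEquiv (Ideal.span {b}) (Ideal.span {e b}) e
        (by simp [Ideal.map_span])).toEquiv.symm
  refine ⟨hu, hfin, ?_⟩
  have hk : k + 3 ≠ 0 := by omega
  have hc := h.mono (Nat.le_add_right k 3) F M h6 h0 S hi hr ζ hζ
  set K := k + 3 with hK
  let c : S → S → ZMod 6 := fun a b => zs ζ a b - zs ζ b a
  have anti : ∀ a b, c b a = -c a b := fun a b => by simp only [c]; ring
  have add : ∀ a a' b, a ≠ 0 → a' ≠ 0 → b ≠ 0 → IsCoprime a b → IsCoprime a' b →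
      c (a * a') b = c a b + c a' b := fun a a' b ha ha' hb h h' => by
    have := hfin b hb
    have := hfin _ (mul_ne_zero ha ha')
    simp only [c]
    rw [zs_mul_left hζ hu h h', zs_mul_right hζ hu ha (h.symm.mul_right h'.symm)]
    ring
  have deep : ∀ a b, Rp F M K 1 a → b ≠ 0 → IsCoprime a b → c a b = 0 := by
    rintro a b ⟨l, hl, ha⟩ hb hab
    rw [one_mul] at ha
    have hlR : l ∈ RS F M := by
      have h2 : l = (algebraMap S F a - 1) * ((M : F)⁻¹) ^ K := by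
        rw [ha, inv_pow]
        field_simp
        ring
      rw [h2]
      exact mul_mem (sub_mem (mem_RS.2 ((hr _).1 ⟨a, rfl⟩)) (one_mem _))
        (pow_mem (mem_RS.2 ⟨1, by simpa [hM] using isIntegral_one⟩) _)
    simp only [c]
    rw [hc b a l hb (isIntegral_of_mem_RS_LS hlR hl) ha hab.symm, sub_self]
  have inv : ∀ (x : F) a a' b, x ≠ 0 → Rp F M K x a → Rp F M K x a' → b ≠ 0 → IsCoprime a b →
      IsCoprime a' b → c a b = c a' b := by
    intro x a a' b hx ha ha' hb hab hab'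
    obtain ⟨w, hw, hwb⟩ := exists_rp h0 hi hr K (inv_ne_zero hx) hb
    have hw0 := hw.ne_zero h1 hk (inv_ne_zero hx)
    have e1 := deep _ b (by simpa [hx] using ha.mul hw) hb (hab.mul_left hwb)
    have e2 := deep _ b (by simpa [hx] using ha'.mul hw) hb (hab'.mul_left hwb)
    rw [add _ _ _ (ha.ne_zero h1 hk hx) hw0 hb hab hwb] at e1
    rw [add _ _ _ (ha'.ne_zero h1 hk hx) hw0 hb hab' hwb] at e2
    linear_combination e1 - e2
  choose! r hr1 hr2 using fun (x : F) (m : S) (hx : x ≠ 0) (hm : m ≠ 0) =>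
    exists_rp h0 hi hr K hx hm
  have spec : ∀ (x y : F) a b, x ≠ 0 → y ≠ 0 → Rp F M K x a → Rp F M K y b → IsCoprime a b →
      c (r x (r y 1)) (r y 1) = c a b := by
    intro x y a b hx hy ha hb hab
    have hy1 := hr1 y 1 hy one_ne_zero
    have hy0 := hy1.ne_zero h1 hk hy
    have hb0 := hb.ne_zero h1 hk hy
    have hm := mul_ne_zero hb0 hy0
    have h2 := hr1 x _ hx hm
    have h3 := hr2 x _ hx hm
    rw [inv x _ _ _ hx (hr1 x _ hx hy0) h2 hy0 (hr2 x _ hx hy0) h3.of_mul_right_right,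
      inv x _ _ _ hx ha h2 hb0 hab h3.of_mul_right_left, anti, anti b,
      inv y _ _ _ hy hy1 hb (h2.ne_zero h1 hk hx) h3.of_mul_right_right.symm
        h3.of_mul_right_left.symm]
  have hmul : ∀ x x' y : F, x ≠ 0 → x' ≠ 0 → y ≠ 0 → c (r (x * x') (r y 1)) (r y 1) =
      c (r x (r y 1)) (r y 1) + c (r x' (r y 1)) (r y 1) := by
    intro x x' y hx hx' hy
    have hy1 := hr1 y 1 hy one_ne_zero
    have hy0 := hy1.ne_zero h1 hk hy
    rw [spec _ y _ _ (mul_ne_zero hx hx') hy ((hr1 x _ hx hy0).mul (hr1 x' _ hx' hy0)) hy1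
      ((hr2 x _ hx hy0).mul_left (hr2 x' _ hx' hy0))]
    exact add _ _ _ ((hr1 x _ hx hy0).ne_zero h1 hk hx) ((hr1 x' _ hx' hy0).ne_zero h1 hk hx') hy0
      (hr2 x _ hx hy0) (hr2 x' _ hx' hy0)
  refine ⟨fun x y => c (r x (r y 1)) (r y 1), hmul, fun x y hx hy => ?_, fun t y ht hy => ?_,
    fun a b ha hb hab => spec _ _ a b (hne ha) (hne hb) (Rp.self _ a) (Rp.self _ b) hab⟩
  · have hy1 := hr1 y 1 hy one_ne_zero
    have hy0 := hy1.ne_zero h1 hk hy
    beta_reduce
    rw [spec y x _ _ hy hx hy1 (hr1 x _ hx hy0) (hr2 x _ hx hy0).symm, anti]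
  · have htL : t ∈ LS F M := mem_LocS_of_isIntegral ht
    obtain ⟨s, hs, l, hl, e⟩ := newton h6 h1 htL k
    have hy1 := hr1 y 1 hy one_ne_zero
    have hy0 := hy1.ne_zero h1 hk hy
    have hx := one_add_ne h1 (j := 3) (by norm_num) htL
    have hp := one_add_ne h1 hk hl
    have e1 : c (r (1 + (M : F) ^ K * l) (r y 1)) (r y 1) = 0 := by
      refine deep _ _ ?_ hy0 (hr2 _ _ hp hy0)
      obtain ⟨l', hl', e'⟩ := hr1 _ _ hp hy0
      refine ⟨l + l' + (M : F) ^ K * l * l', add_mem (add_mem hl hl')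
        (mul_mem (mul_mem (pow_mem (natCast_mem _ M) _) hl) hl'), ?_⟩
      rw [e']
      ring
    have e2 : ∀ n : ℕ, c (r (s ^ (n + 1)) (r y 1)) (r y 1) =
        ((n + 1 : ℕ) : ZMod 6) * c (r s (r y 1)) (r y 1) := by
      intro n
      induction n with
      | zero => simp
      | succ n ih =>
        rw [pow_succ, hmul _ _ _ (pow_ne_zero _ hs) hs hy, ih]
        push_cast
        ring
    rw [← e, hmul _ _ _ hx (pow_ne_zero _ hs) hy, e2 5] at e1
    simpa [show (6 : ZMod 6) = 0 from rfl] using e1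

end Crest.Agent.T27.Rc
end
end

-- ▼ part T27/Mn5_85
section

/-!
# Row 27, sextic reciprocity by a Euclidean algorithm on polynomials, part 5

Construction of a good element `z = x + (1 - x) y (u v)⁶` and the reciprocity law.
-/

set_option autoImplicit false

noncomputable section

namespace Crest.Agent.T27.Mn

open Rc Polynomial NumberField Filter

section field
variable {F : Type} [Field F] [NumberField F]

/-- primitive elements -/
def Prim (α : F) : Prop := Function.Injective fun φ : F →ₐ[ℚ] ℂ => φ α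

theorem prim_iff (α : F) : IntermediateField.adjoin ℚ {α} = ⊤ ↔ Prim α :=
  Field.primitive_element_iff_algHom_eq_of_eval' ℚ ℂ (fun _ => IsAlgClosed.splits _) α

theorem Prim.mul {α : F} (h : Prim α) {c : ℤ} (hc : c ≠ 0) : Prim (c * α) := fun φ ψ hφ => h (by
  simp only [map_mul, map_intCast] at hφ
  exact mul_left_cancel₀ (Int.cast_ne_zero.2 hc) hφ)

theorem exists_prim_int (F : Type) [Field F] [NumberField F] : ∃ γ : 𝓞 F, Prim (γ : F) := by
  obtain ⟨α, hα⟩ := Field.exists_primitive_element ℚ F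
  have h1 : IsAlgebraic ℤ α :=
    (IsFractionRing.isAlgebraic_iff ℤ ℚ F).2 (Algebra.IsAlgebraic.isAlgebraic α)
  obtain ⟨c, hc, h⟩ := h1.exists_integral_multiple
  rw [zsmul_eq_mul] at h
  exact ⟨⟨_, h⟩, ((prim_iff α).1 hα).mul hc⟩

theorem exists_prim {a γ : F} (ha : a ≠ 0) (hγ : Prim γ) : ∃ n : ℕ, Prim (a * (1 + n * γ) ^ 6) := by
  have h1 : ∀ φ ψ : F →ₐ[ℚ] ℂ, φ ≠ ψ → ∀ᶠ n : ℕ in cofinite,
      φ (a * (1 + n * γ) ^ 6) ≠ ψ (a * (1 + n * γ) ^ 6) := fun φ ψ hne => by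
    let p : ℂ[X] := C (φ a) * (1 + X * C (φ γ)) ^ 6 - C (ψ a) * (1 + X * C (ψ γ)) ^ 6
    have hp : p ≠ 0 := fun h => by
      have e0 := congrArg (eval 0) h
      have e1 := congrArg (fun q => eval 0 (derivative q)) h
      simp [p, derivative_pow] at e0 e1
      rw [sub_eq_zero] at e0 e1
      rw [← e0] at e1
      have h2 : φ a ≠ 0 := (map_ne_zero φ).2 ha
      exact hne (hγ (by simpa [h2] using e1))
    rw [eventually_cofinite]
    refine ((finite_setOfPred_isRoot hp).preimage (f := fun n : ℕ => (n : ℂ))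
      Nat.cast_injective.injOn).subset fun n hn => ?_
    simp only [ne_eq, not_not, Set.mem_ofPred_eq, map_mul, map_pow, map_add, map_one,
      map_natCast] at hn
    simp only [p, Set.mem_preimage, Set.mem_ofPred_eq, IsRoot.def, eval_sub, eval_mul, eval_C,
      eval_pow, eval_add, eval_one, eval_X, hn, sub_self]
  have h2 : ∀ᶠ n : ℕ in cofinite, ∀ q : (F →ₐ[ℚ] ℂ) × (F →ₐ[ℚ] ℂ), q.1 ≠ q.2 →
      q.1 (a * (1 + n * γ) ^ 6) ≠ q.2 (a * (1 + n * γ) ^ 6) :=
    eventually_all.2 fun q => by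
      by_cases h : q.1 = q.2
      · simp [h]
      · exact (h1 _ _ h).mono fun n hn _ => hn
  obtain ⟨n, hn⟩ := h2.exists
  exact ⟨n, fun φ ψ h => by_contra fun hne => hn (φ, ψ) hne h⟩

theorem exists_den {θ : F} (h : Prim θ) :
    ∃ Δ : ℤ, Δ ≠ 0 ∧ ∀ o : 𝓞 F, ∃ p : ℤ[X], (Δ : F) * o = aeval θ p := by
  have h1 : ∀ f : F, ∃ d : ℤ, d ≠ 0 ∧ ∃ p : ℤ[X], (d : F) * f = aeval θ p := fun f => by
    have h2 : f ∈ Algebra.adjoin ℚ {θ} := by
      rw [← IntermediateField.adjoin_simple_toSubalgebra_of_isAlgebraic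
        (IsAlgebraic.of_finite ℚ θ), (prim_iff θ).2 h]
      trivial
    rw [Algebra.adjoin_singleton_eq_range_aeval] at h2
    obtain ⟨q, rfl⟩ := h2
    obtain ⟨d, hd, hq⟩ := IsLocalization.integerNormalization_spec (nonZeroDivisors ℤ) q
    refine ⟨d, nonZeroDivisors.ne_zero hd, IsLocalization.integerNormalization (nonZeroDivisors ℤ) q, ?_⟩
    rw [← aeval_map_algebraMap ℚ, hq, map_zsmul, zsmul_eq_mul]
    rfl
  choose d hd p hp using h1
  classical
  obtain ⟨G, hG⟩ := Module.Finite.fg_top (R := ℤ) (M := 𝓞 F)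
  refine ⟨∏ g ∈ G, d g, Finset.prod_ne_zero_iff.2 fun g _ => hd g, fun o => ?_⟩
  have ho : o ∈ Submodule.span ℤ (G : Set (𝓞 F)) := hG ▸ trivial
  induction ho using Submodule.span_induction with
  | mem g hg =>
    refine ⟨C (∏ g' ∈ G.erase g, d g') * p g, ?_⟩
    rw [← Finset.prod_erase_mul _ _ hg, map_mul, ← hp, aeval_C, Int.cast_mul, mul_assoc]
    rfl
  | zero => exact ⟨0, by simp⟩
  | add a b _ _ ha hb =>
    obtain ⟨p, hp⟩ := ha
    obtain ⟨q, hq⟩ := hb
    exact ⟨p + q, by rw [map_add, ← hp, ← hq]; push_cast; ring⟩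
  | smul c a _ ha =>
    obtain ⟨p, hp⟩ := ha
    exact ⟨C c * p, by rw [map_mul, ← hp, aeval_C, zsmul_eq_mul]; simp; ring⟩

theorem exists_nonunit (x : 𝓞 F) {ρ : 𝓞 F} (hρ : ρ ≠ 0) (v : ℤ) {D : ℤ} (hD : D ≠ 0) :
    ∃ n : ℕ, ¬ IsUnit (x + ρ * ((v + n * D : ℤ) : 𝓞 F) ^ 6) := by
  have h1 : ∀ φ : F →+* ℂ, ∀ᶠ n : ℕ in atTop,
      1 < ‖φ ((x + ρ * ((v + n * D : ℤ) : 𝓞 F) ^ 6 : 𝓞 F) : F)‖ := fun φ => by
    have h2 : 0 < ‖φ (ρ : F)‖ := norm_pos_iff.2 ((map_ne_zero φ).2 (by exact_mod_cast hρ))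
    obtain ⟨N, hN⟩ := exists_nat_gt ((1 + ‖φ (x : F)‖) / ‖φ (ρ : F)‖ + |(v : ℝ)| + 1)
    filter_upwards [eventually_ge_atTop N] with n hn
    have h3 : (1 : ℝ) ≤ |(D : ℝ)| := by exact_mod_cast Int.one_le_abs hD
    have h4 : (N : ℝ) ≤ n := by exact_mod_cast hn
    have h5 : (n : ℝ) - |(v : ℝ)| ≤ |((v + n * D : ℤ) : ℝ)| := by
      have := abs_sub_abs_le_abs_sub ((n : ℝ) * D) (-v)
      rw [abs_mul, abs_neg, Nat.abs_cast, sub_neg_eq_add, add_comm] at this
      push_cast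
      nlinarith [Nat.cast_nonneg (α := ℝ) n]
    set t := |((v + n * D : ℤ) : ℝ)| with ht
    have h0 : 0 ≤ (1 + ‖φ (x : F)‖) / ‖φ (ρ : F)‖ := by positivity
    have h6 : t ≤ t ^ 6 := le_self_pow₀ (by linarith) (by norm_num)
    have h7 : 1 + ‖φ (x : F)‖ < ‖φ (ρ : F)‖ * t ^ 6 := by
      rw [← div_lt_iff₀' h2]; linarith
    have h8 : φ ((x + ρ * ((v + n * D : ℤ) : 𝓞 F) ^ 6 : 𝓞 F) : F) =
        φ (ρ : F) * ((v + n * D : ℤ) : ℂ) ^ 6 - -φ (x : F) := by
      simp; ring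
    have h9 := norm_sub_norm_le (φ (ρ : F) * ((v + n * D : ℤ) : ℂ) ^ 6) (-φ (x : F))
    rw [norm_neg, norm_mul, norm_pow, Complex.norm_intCast, ← h8] at h9
    linarith
  obtain ⟨n, hn⟩ := (eventually_all.2 h1).exists
  refine ⟨n, fun hu => ?_⟩
  obtain ⟨w, hw⟩ := hu.exists_right_inv
  obtain ⟨φ, hφ⟩ := exists_conjugate_one_le_norm (α := w) (right_ne_zero_of_mul_eq_one hw)
  have h2 := congrArg (fun a : 𝓞 F => ‖φ (a : F)‖) hw
  simp only [map_mul, norm_mul, map_one, norm_one] at h2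
  nlinarith [hn φ]

end field

theorem hom_eval {S F : Type*} [CommRing S] [Field F] [Algebra S F] {x ρ z : S} {θ : F} {a : ℤ}
    (h1 : algebraMap S F ρ = algebraMap S F x * θ) (h2 : z ∣ ρ - x * a) (p : ℤ[X]) :
    ∃ (k : ℕ) (s : S) (c : ℤ), algebraMap S F s = algebraMap S F x ^ k * aeval θ p ∧
      z ∣ s - x ^ k * c := by
  induction p using Polynomial.induction_on' with
  | add p q hp hq =>
    obtain ⟨k, s, c, h, hc⟩ := hp
    obtain ⟨l, s', c', h', hc'⟩ := hq
    refine ⟨k + l, x ^ l * s + x ^ k * s', c + c', ?_, ?_⟩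
    · rw [map_add, map_mul, map_mul, map_pow, map_pow, h, h', map_add]; ring
    · convert dvd_add (hc.mul_left (x ^ l)) (hc'.mul_left (x ^ k)) using 1
      push_cast; ring
  | monomial n c =>
    refine ⟨n, c * ρ ^ n, c * a ^ n, ?_, ?_⟩
    · rw [map_mul, map_pow, h1, aeval_monomial]; simp; ring
    · convert (h2.trans (sub_dvd_pow_sub_pow _ _ n)).mul_left (c : S) using 1
      push_cast; ring

theorem inv_int {S : Type*} [CommRing S] {z : S} [Finite (S ⧸ Ideal.span {z})] {c : ℤ}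
    (h : IsCoprime (c : S) z) : ∃ c' : ℤ, z ∣ (c : S) * c' - 1 := by
  obtain ⟨n, hn, hi⟩ := exists_idem (Ideal.Quotient.mk (Ideal.span {z}) c)
  rw [← map_pow, ← map_mul, Ideal.Quotient.eq, Ideal.mem_span_singleton,
    show (c : S) ^ n * c ^ n - c ^ n = c ^ n * (c ^ n - 1) by ring] at hi
  refine ⟨c ^ (n - 1), ?_⟩
  rw [Int.cast_pow, ← pow_succ', Nat.sub_add_cancel hn]
  exact h.symm.pow_right.dvd_of_dvd_mul_left hi

theorem coprime_of_max {S : Type*} [CommRing S] {a b : S}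
    (h : ∀ m : Ideal S, m.IsPrime → a ∈ m → b ∈ m → False) : IsCoprime a b := by
  rw [← Ideal.isCoprime_span_singleton_iff, Ideal.isCoprime_iff_sup_eq]
  by_contra hne
  obtain ⟨m, hm, hle⟩ := Ideal.exists_le_maximal _ hne
  exact h m hm.isPrime (hle (Ideal.mem_sup_left (Ideal.mem_span_singleton_self _)))
    (hle (Ideal.mem_sup_right (Ideal.mem_span_singleton_self _)))

theorem not_mem_both {S : Type*} [CommRing S] {a b : S} (h : IsCoprime a b) {m : Ideal S}
    (hm : m.IsPrime) (ha : a ∈ m) (hb : b ∈ m) : False := by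
  obtain ⟨u, v, huv⟩ := h
  exact hm.ne_top ((Ideal.eq_top_iff_one _).2
    (huv ▸ m.add_mem (m.mul_mem_left _ ha) (m.mul_mem_left _ hb)))

/-- the homomorphism `ℤ[ω] → S` -/
def homO {S : Type*} [CommRing S] {ζ : S} (hζ : ζ ^ 2 - ζ + 1 = 0) : R17.O →+* S where
  toFun z := (z.re : S) + (z.im : S) * (ζ - 1)
  map_one' := by simp [QuadraticAlgebra.re_one, QuadraticAlgebra.im_one]
  map_mul' z w := by
    simp only [QuadraticAlgebra.re_mul, QuadraticAlgebra.im_mul]
    push_cast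
    linear_combination (-(z.im : S) * w.im) * hζ
  map_zero' := by simp
  map_add' z w := by
    simp only [QuadraticAlgebra.re_add, QuadraticAlgebra.im_add]; push_cast; ring

theorem homO_inj {S : Type*} [CommRing S] [CharZero S] {ζ : S} (hζ : ζ ^ 2 - ζ + 1 = 0) :
    Function.Injective (homO hζ) := (injective_iff_map_eq_zero _).2 fun z hz => by
  have h := congrArg (homO hζ) (R17.mul_cj z)
  rw [map_mul, hz, zero_mul, map_natCast, eq_comm, Nat.cast_eq_zero] at h
  exact R17.nm_eq_zero.1 h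

section main
variable {F : Type} [Field F] [NumberField F] {M : ℕ} {S : Type} [CommRing S] [IsDomain S]
  [Algebra S F] (j : 𝓞 F →+* S)

theorem exists_good (hM : M ≠ 0) (hMu : ¬ IsUnit ((M : 𝓞 F) ^ 6))
    (hi : Function.Injective (algebraMap S F))
    (hj : ∀ o, algebraMap S F (j o) = o) (hT : IsUnit (j ((M : 𝓞 F) ^ 6)))
    (den : ∀ s, ∃ (k : ℕ) (o : 𝓞 F), j ((M : 𝓞 F) ^ 6) ^ k * s = j o)
    (hfin : ∀ b : S, b ≠ 0 → Finite (S ⧸ Ideal.span {b})) {x ρ : 𝓞 F} (hx : x ≠ 0) (hρ : ρ ≠ 0)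
    (hc : IsCoprime (j x) (j ρ)) (h1 : (M : 𝓞 F) ^ 6 ∣ x + ρ - 1) :
    ∃ s : 𝓞 F, s ≠ 0 ∧ IsCoprime (j s) (j x) ∧ (M : 𝓞 F) ^ 6 ∣ x + ρ * s ^ 6 - 1 ∧
      ¬ IsUnit (j (x + ρ * s ^ 6)) ∧ ∀ o, ∃ c : ℤ, j (x + ρ * s ^ 6) ∣ j o - c := by
  have hji : Function.Injective j := fun a b h => RingOfIntegers.ext (by rw [← hj, ← hj, h])
  have hT1 : ∀ a : 𝓞 F, (M : 𝓞 F) ^ 6 ∣ a - 1 → IsCoprime a ((M : 𝓞 F) ^ 6) :=
    fun a ⟨c, hc⟩ => ⟨1, -c, by linear_combination hc⟩
  obtain ⟨N, hN, hxN⟩ := (Algebra.IsIntegral.isIntegral (R := ℤ) x).isAlgebraic.exists_nonzero_dvd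
    (mem_nonZeroDivisors_of_ne_zero hx)
  rw [eq_intCast] at hxN
  have hN' : (N : 𝓞 F) ≠ 0 := Int.cast_ne_zero.2 hN
  have hxN' : j x ∣ (N : S) := by simpa using map_dvd j hxN
  have hNS : (N : S) ≠ 0 := by simpa using (map_ne_zero_iff _ hji).2 hN'
  have := hfin _ hNS
  have := Ideal.finiteQuotientOfFreeOfNeBot (Ideal.span {(N : 𝓞 F)}) (by simpa using hN)
  obtain ⟨e, he, he'⟩ := exists_coprime (y := (N : S)) hc
  obtain ⟨t, ht⟩ := hT.exists_right_inv
  obtain ⟨o, ho⟩ := sur_of_den j hT den (y := (N : S)) (μ := (N : 𝓞 F)) (by simp) (t * (e - 1))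
  set D : ℤ := M ^ 6 * N with hD
  have hD0 : D ≠ 0 := mul_ne_zero (pow_ne_zero _ (Nat.cast_ne_zero.2 hM)) hN
  have hne : ∀ a : 𝓞 F, (M : 𝓞 F) ^ 6 ∣ a - 1 → a ≠ 0 := fun a h1 h => by
    rw [h, zero_sub, dvd_neg] at h1
    exact hMu (isUnit_of_dvd_one h1)
  have hTD : (M : 𝓞 F) ^ 6 ∣ (D : 𝓞 F) := ⟨N, by simp [hD]⟩
  have hND : (N : S) ∣ (D : S) := Int.cast_dvd_cast _ _ (Dvd.intro_left _ rfl)
  obtain ⟨γ, hγ⟩ := exists_prim_int F
  have hxF : (x : F) ≠ 0 := by exact_mod_cast hx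
  have hu0 : (1 + (M : 𝓞 F) ^ 6 * o) ≠ 0 := hne _ ⟨o, by ring⟩
  obtain ⟨n, hn⟩ := exists_prim (a := (ρ : F) * ((1 + (M : 𝓞 F) ^ 6 * o : 𝓞 F) : F) ^ 6 / x)
    (div_ne_zero (mul_ne_zero (by exact_mod_cast hρ) (pow_ne_zero _ (by exact_mod_cast hu0))) hxF)
    (hγ.mul hD0)
  obtain ⟨Δ, hΔ, hΔ'⟩ := exists_den hn
  set u : 𝓞 F := (1 + (M : 𝓞 F) ^ 6 * o) * (1 + n * (D * γ)) with hu
  have hu1 : (M : 𝓞 F) ^ 6 ∣ u - 1 := by
    rw [show u - 1 = (M : 𝓞 F) ^ 6 * o + D * ((1 + (M : 𝓞 F) ^ 6 * o) * n * γ) by rw [hu]; ring]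
    exact dvd_add (dvd_mul_right _ _) (hTD.mul_right _)
  have hu2 : (N : S) ∣ j u - e := by
    rw [show j u - e = -j ((M : 𝓞 F) ^ 6) * (t * (e - 1) - j o) +
        D * j ((1 + (M : 𝓞 F) ^ 6 * o) * n * γ) by
      simp only [hu, map_mul, map_add, map_one, map_intCast, map_natCast]
      linear_combination (e - 1) * ht]
    exact dvd_add (ho.mul_left _) (hND.mul_right _)
  have := Ideal.finiteQuotientOfFreeOfNeBot (Ideal.span {Δ}) (by simpa using hΔ)
  obtain ⟨k, hk, hid⟩ := exists_idem (Ideal.Quotient.mk (Ideal.span {Δ}) D)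
  rw [← map_pow, ← map_mul, Ideal.Quotient.eq, Ideal.mem_span_singleton] at hid
  obtain ⟨n', hn'⟩ := exists_nonunit x (mul_ne_zero hρ (pow_ne_zero 6 (hne u hu1))) (1 - D ^ k)
    (mul_ne_zero hD0 hΔ)
  set v : ℤ := 1 - D ^ k + n' * (D * Δ) with hv
  have hv1 : D ∣ v - 1 := by
    rw [show v - 1 = D * (n' * Δ) - D ^ k by rw [hv]; ring]
    exact dvd_sub (dvd_mul_right _ _) (dvd_pow_self D hk.ne')
  have hv2 : (N : S) ∣ (v : S) - 1 := hND.trans (by exact_mod_cast Int.cast_dvd_cast (α := S) _ _ hv1)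
  have hs1 : (M : 𝓞 F) ^ 6 ∣ u * v - 1 := by
    rw [show u * v - 1 = u * ((v - 1 : ℤ) : 𝓞 F) + (u - 1) by push_cast; ring]
    exact dvd_add ((hTD.trans (Int.cast_dvd_cast _ _ hv1)).mul_left _) hu1
  have hs2 : (N : S) ∣ j (u * v) - e := by
    rw [show j (u * v) - e = j u * ((v : S) - 1) + (j u - e) by simp; ring]
    exact dvd_add (hv2.mul_left _) hu2
  have hs3 : IsCoprime (j (u * v)) (j x) := by
    obtain ⟨c, hc⟩ := hxN'.trans hs2
    rw [show j (u * v) = e + j x * c by linear_combination hc]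
    exact he.add_mul_left_left c
  have hz1 : (M : 𝓞 F) ^ 6 ∣ x + ρ * (u * v) ^ 6 - 1 := by
    rw [show x + ρ * (u * v) ^ 6 - 1 = (x + ρ - 1) + ρ * ((u * v) ^ 6 - 1 ^ 6) by ring]
    exact dvd_add h1 ((hs1.trans (sub_dvd_pow_sub_pow _ _ 6)).mul_left _)
  refine ⟨u * v, hne _ hs1, hs3, hz1, fun h => hn' ?_, fun o' => ?_⟩
  · rw [mul_assoc, ← mul_pow]
    exact isUnit_of_dvd_one (dvd_of_den j den hji (hT1 _ hz1) (by simpa using h.dvd))
  set z := j (x + ρ * (u * v) ^ 6) with hz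
  have hz2 : z = j x + j ρ * j (u * v) ^ 6 := by simp only [hz, map_add, map_mul, map_pow]
  have := hfin z ((map_ne_zero_iff _ hji).2 (hne _ hz1))
  have hΔz : IsCoprime (Δ : S) z := coprime_of_max fun m hm h2 h3 => by
    have hNm : (N : S) ∉ m := fun h4 => by
      refine not_mem_both (he' 6 (by norm_num)) hm h4 ?_
      obtain ⟨c, hc⟩ := hs2.trans (sub_dvd_pow_sub_pow _ _ 6)
      rw [show j x + j ρ * e ^ 6 = z - N * (j ρ * c) by rw [hz2]; linear_combination (-j ρ) * hc]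
      exact m.sub_mem h3 (m.mul_mem_right _ h4)
    have hDm : (D : S) ∉ m := fun h4 => by
      rw [show (D : S) = j ((M : 𝓞 F) ^ 6) * N by simp [hD]] at h4
      exact hNm ((hm.mem_or_mem h4).resolve_left fun h => hm.ne_top (m.eq_top_of_isUnit_mem h hT))
    obtain ⟨c, hc⟩ := hid
    have h5 : (D : S) ^ k * (D ^ k - 1) ∈ m := by
      rw [show (D : S) ^ k * (D ^ k - 1) = Δ * c by
        have := congrArg (Int.cast : ℤ → S) hc
        push_cast at this
        linear_combination this]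
      exact m.mul_mem_right _ h2
    have h6 := (hm.mem_or_mem h5).resolve_left fun h => hDm (hm.mem_of_pow_mem _ h)
    have h7 : (v : S) ∈ m := by
      rw [show (v : S) = Δ * (n' * D) - (D ^ k - 1) by rw [hv]; push_cast; ring]
      exact m.sub_mem (m.mul_mem_right _ h2) h6
    obtain ⟨c', hc'⟩ := hxN'
    refine hNm (hc' ▸ m.mul_mem_right _ ?_)
    rw [show j x = z - v * (j ρ * j u ^ 6 * v ^ 5) by rw [hz2]; simp; ring]
    exact m.sub_mem h3 (m.mul_mem_right _ h7)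
  have hxz : IsCoprime (j x) z := by
    rw [hz2, add_comm, ← mul_one (j x)]
    simpa using (hc.mul_right hs3.symm.pow_right).add_mul_left_right 1
  have hvz : IsCoprime (v : S) z := by
    have h2 : IsCoprime (v : S) (j x) := by
      rw [map_mul, map_intCast] at hs3
      exact hs3.of_mul_left_right
    rw [show z = j x + v * (j ρ * j u ^ 6 * v ^ 5) by rw [hz2]; simp; ring]
    exact h2.add_mul_left_right _
  obtain ⟨v', hv'⟩ := inv_int hvz
  obtain ⟨Δ', hΔ''⟩ := inv_int hΔz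
  obtain ⟨p, hp⟩ := hΔ' o'
  obtain ⟨l, s', c, hs', hc'⟩ := hom_eval (x := j x) (ρ := j (ρ * u ^ 6)) (z := z) (a := -v' ^ 6)
    (θ := (ρ : F) * ((1 + (M : 𝓞 F) ^ 6 * o : 𝓞 F) : F) ^ 6 / x * (1 + n * ((D : F) * γ)) ^ 6)
    (by
      rw [hj, hj, hu]
      simp only [RingOfIntegers.coe_eq_algebraMap, map_mul, map_pow, map_add, map_one, map_natCast,
        map_intCast] at hxF ⊢
      field_simp)
    (by
      rw [show j (ρ * u ^ 6) - j x * ((-v' ^ 6 : ℤ) : S) =
        z * v' ^ 6 - j ρ * j u ^ 6 * (((v : S) * v') ^ 6 - 1 ^ 6) by rw [hz2]; simp; ring]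
      exact dvd_sub (dvd_mul_right _ _) ((hv'.trans (sub_dvd_pow_sub_pow _ _ 6)).mul_left _)) p
  have h2 : s' = j x ^ l * (Δ * j o') := hi (by
    rw [hs', ← hp, map_mul, map_mul, map_pow, map_intCast, hj, hj])
  rw [h2, ← mul_sub] at hc'
  have h3 := hxz.symm.pow_right.dvd_of_dvd_mul_left hc'
  refine ⟨c * Δ', ?_⟩
  rw [show j o' - ((c * Δ' : ℤ) : S) = Δ' * (Δ * j o' - c) - j o' * ((Δ : S) * Δ' - 1) by
    push_cast; ring]
  exact dvd_sub (h3.mul_left _) (hΔ''.mul_left _)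

end main

theorem recCop_85 : RecCop 6 := by
  intro F _ _ M h6 hM S _ _ hi hr ζ hζ x y t hx ht hy hc
  have : IsDomain S := hi.isDomain _
  have : CharZero S := (algebraMap S F).charZero
  have hMF : (M : F) ≠ 0 := Nat.cast_ne_zero.2 hM
  have h0 : ∀ o : 𝓞 F, ∃ s, algebraMap S F s = o := fun o => (hr o).2 ⟨0, by rw [pow_zero, one_mul]; exact o.2⟩
  choose j₀ hj₀ using h0
  let j : 𝓞 F →+* S :=
    { toFun := j₀
      map_one' := hi (by simp [hj₀])
      map_mul' := fun a b => hi (by simp [hj₀])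
      map_zero' := hi (by simp [hj₀])
      map_add' := fun a b => hi (by simp [hj₀]) }
  have hj : ∀ o, algebraMap S F (j o) = o := hj₀
  have hji : Function.Injective j := fun a b h => RingOfIntegers.ext (by rw [← hj, ← hj, h])
  have hMS : IsUnit (M : S) := by
    obtain ⟨w, hw⟩ := (hr (M : F)⁻¹).2 ⟨1, by simpa [hMF] using isIntegral_one⟩
    exact IsUnit.of_mul_eq_one w (hi (by simp [hw, hMF]))
  have hT : IsUnit (j ((M : 𝓞 F) ^ 6)) := by simpa using hMS.pow 6
  have den : ∀ s, ∃ (k : ℕ) (o : 𝓞 F), j ((M : 𝓞 F) ^ 6) ^ k * s = j o := fun s => by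
    obtain ⟨k, hk⟩ := (hr _).1 ⟨s, rfl⟩
    refine ⟨k, (M : 𝓞 F) ^ (5 * k) * ⟨_, hk⟩, hi ?_⟩
    rw [hj, map_mul, map_pow, hj]
    push_cast
    show _ = _ * ((M : F) ^ k * algebraMap S F s)
    ring
  have hfin : ∀ b : S, b ≠ 0 → Finite (S ⧸ Ideal.span {b}) := fun b hb => by
    obtain ⟨k, μ, h⟩ := den b
    have := Ideal.finiteQuotientOfFreeOfNeBot (Ideal.span {μ}) (by
      rw [Ne, Ideal.span_singleton_eq_bot]
      rintro rfl
      rw [map_zero] at h
      exact hb ((hT.pow k).mul_right_eq_zero.1 h))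
    exact finite_of_den j hT den (μ := μ) ⟨j (M ^ 6) ^ k, by rw [← h, mul_comm]⟩
  have hMu : ¬ IsUnit ((M : 𝓞 F) ^ 6) := fun h => by
    have h1 := (isUnit_pow_iff (by norm_num)).1 h
    have h2 : IsUnit (algebraMap ℤ (𝓞 F) M) := by simpa using h1
    have h3 := Int.isUnit_iff.1 (isUnit_of_map_unit _ _ h2)
    omega
  have h6S : IsUnit (6 : S) := by
    obtain ⟨m, rfl⟩ := h6
    push_cast at hMS
    exact isUnit_of_mul_isUnit_left hMS
  let A := Localization.Away (M : R17.O)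
  obtain ⟨hdom, B, hBζ, hBT⟩ := exists_bs M h6 hM A
  let _ : Algebra R17.O S := (homO hζ).toAlgebra
  have hMO : IsUnit (homO hζ M) := by simpa using hMS
  let _ : Algebra A S := (IsLocalization.Away.lift (M : R17.O) hMO).toAlgebra
  have : IsScalarTower R17.O A S := IsScalarTower.of_algebraMap_eq fun o =>
    (IsLocalization.Away.lift_eq (M : R17.O) hMO o).symm
  have hζ' : algebraMap A S B.ζ = ζ := by
    rw [hBζ, ← IsScalarTower.algebraMap_apply]
    show homO hζ _ = ζ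
    simp [homO, R17.om, QuadraticAlgebra.re_one, QuadraticAlgebra.im_one]
  have hτ : j ((M : 𝓞 F) ^ 6) * algebraMap A S (-B.τ) = 1 := by
    have := congrArg (algebraMap A S) B.hτ
    rw [map_mul, ← IsScalarTower.algebraMap_apply, hBT] at this
    rw [map_neg (algebraMap A S)]
    simp only [map_pow, map_natCast, map_neg, map_one] at this ⊢
    linear_combination -this
  have den' : ∀ s, ∃ (a : A) (o : 𝓞 F), s = algebraMap A S a * j o := fun s => by
    obtain ⟨k, o, h⟩ := den s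
    exact ⟨(-B.τ) ^ k, o, by
      rw [← h, map_pow, ← mul_assoc, ← mul_pow, mul_comm _ (j _), hτ, one_pow, one_mul]⟩
  have : Module.Finite A S := by
    classical
    obtain ⟨G, hG⟩ := Module.Finite.fg_top (R := ℤ) (M := 𝓞 F)
    refine ⟨⟨G.image j, Submodule.eq_top_iff'.2 fun s => ?_⟩⟩
    obtain ⟨a, o, rfl⟩ := den' s
    rw [← Algebra.smul_def]
    refine Submodule.smul_mem _ _ ?_
    have ho : o ∈ Submodule.span ℤ (G : Set (𝓞 F)) := hG ▸ trivial
    induction ho using Submodule.span_induction with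
    | mem g hg => exact Submodule.subset_span (by simpa using ⟨g, hg, rfl⟩)
    | zero => simp
    | add a b _ _ ha hb => rw [map_add]; exact Submodule.add_mem _ ha hb
    | smul c a _ ha => rw [map_zsmul]; exact zsmul_mem ha c
  let y₀ : 𝓞 F := 1 + (M : 𝓞 F) ^ 6 * ⟨t, ht⟩
  obtain rfl : y = j y₀ := hi (by rw [hy, hj]; simp [y₀])
  have hy0 : j y₀ ≠ 0 := (map_ne_zero_iff _ hji).2 fun h =>
    hMu (IsUnit.of_mul_eq_one (-⟨t, ht⟩) (by simp only [y₀] at h; linear_combination -h))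
  have := hfin _ hy0
  have := hfin _ hx
  obtain ⟨k, x₀, hx₀⟩ := den x
  have hx1 : j x₀ ≠ 0 := hx₀ ▸ mul_ne_zero (hT.pow k).ne_zero hx
  have hc1 : IsCoprime (j x₀) (j y₀) := by
    rwa [← hx₀, isCoprime_mul_unit_left_left (hT.pow k)]
  suffices h : zs ζ (j x₀) (j y₀) = zs ζ (j y₀) (j x₀) by
    rwa [← hx₀, ← zs_assoc _ _ (associated_unit_mul_left x _ (hT.pow k)).symm,
      show j ((M : 𝓞 F) ^ 6) ^ k = ((M : S) ^ k) ^ 6 by simp; ring,
      zs_six hζ h6S hc (coprime_unit (hMS.pow k) _)] at h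
  by_cases h1 : x₀ = 1
  · rw [h1, map_one, zs_one_left, zs_unit _ _ isUnit_one]
  have hb0 : j (1 - x₀) ≠ 0 := (map_ne_zero_iff _ hji).2 (sub_ne_zero.2 (Ne.symm h1))
  have hc2 : IsCoprime (j x₀) (j (1 - x₀)) := ⟨1, 1, by simp⟩
  obtain ⟨s, hs0, hs, ⟨η, hη⟩, hu, hsur⟩ := exists_good j hM hMu hi hj hT den hfin (x := x₀)
    (ρ := (1 - x₀) * y₀) ((map_ne_zero_iff _ hji).1 hx1)
    ((map_ne_zero_iff _ hji).1 (by rw [map_mul]; exact mul_ne_zero hb0 hy0))
    (by rw [map_mul]; exact hc2.mul_right hc1) ⟨(1 - x₀) * ⟨t, ht⟩, by simp only [y₀]; ring⟩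
  set b := j s ^ 6 * (j (1 - x₀) * j y₀) with hb
  set z := j (x₀ + (1 - x₀) * y₀ * s ^ 6) with hz
  have hz1 : z = j x₀ + b := by simp only [hz, hb, map_add, map_mul, map_pow]; ring
  have hs1 : j s ≠ 0 := (map_ne_zero_iff _ hji).2 hs0
  have hb1 : b ≠ 0 := mul_ne_zero (pow_ne_zero _ hs1) (mul_ne_zero hb0 hy0)
  have hc3 : IsCoprime (j x₀) b := hs.symm.pow_right.mul_right (hc2.mul_right hc1)
  have hg : ∀ a : S, a ≠ 0 → IsCoprime a z → zs ζ a z = zs ζ z a := fun a ha hac => by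
    rw [← hζ']
    refine good B hBT (homO_inj hζ) hfin (η := j η) ?_ ?_ hu (fun s => ?_) ha hac
    · exact (map_isIntegral_int j (Algebra.IsIntegral.isIntegral η)).tower_top
    · rw [hz, show x₀ + (1 - x₀) * y₀ * s ^ 6 = 1 + (M : 𝓞 F) ^ 6 * η by linear_combination hη, hBT]
      simp
    · obtain ⟨a, o, rfl⟩ := den' s
      obtain ⟨c, hc⟩ := hsur o
      exact ⟨a * c, by rw [map_mul, map_intCast, ← mul_sub]; exact hc.mul_left _⟩
  have hxz : IsCoprime (j x₀) z := by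
    rw [hz1, add_comm]; simpa using hc3.add_mul_left_right 1
  have hbz : IsCoprime b z := by
    rw [hz1]; simpa using hc3.symm.add_mul_left_right 1
  have hz0 : z ≠ 0 := fun h => by
    rw [hz, map_eq_zero_iff _ hji] at h
    exact hMu (IsUnit.of_mul_eq_one (-η) (by linear_combination hη - h))
  have := hfin _ hz0
  have := hfin _ hx1
  have := hfin _ hb1
  have := hfin _ (mul_ne_zero hb0 hy0)
  have := hfin _ (pow_ne_zero 6 hs1)
  have e1 : zs ζ b (j x₀) = zs ζ (j x₀) b := by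
    rw [zs_congr ζ (a' := z) ⟨-1, by rw [hz1]; ring⟩, ← hg _ hx1 hxz,
      zs_congr ζ (a := j x₀) (a' := -1 * b) ⟨1, by rw [hz1]; ring⟩,
      zs_mul_left hζ h6S (coprime_unit isUnit_one.neg _) hbz,
      hg _ (by simp) (coprime_unit isUnit_one.neg _), zs_unit _ _ isUnit_one.neg, zero_add,
      hg _ hb1 hbz]
    exact zs_congr ζ ⟨1, by rw [hz1]; ring⟩
  have e2 : ∀ n : ℕ, zs ζ (j x₀) (j s ^ n) = n * zs ζ (j x₀) (j s) := fun n => by
    induction n with
    | zero => simp [zs_unit]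
    | succ n ih =>
      have := hfin _ (pow_ne_zero (n + 1) hs1)
      rw [pow_succ] at this ⊢
      rw [zs_mul_right hζ h6S (pow_ne_zero _ hs1) (hs.symm.pow_right.mul_right hs.symm), ih]
      push_cast; ring
  rw [hb, zs_six hζ h6S (hc2.mul_right hc1).symm hs, zs_mul_left hζ h6S hc2.symm hc1.symm,
    zs_mul_right hζ h6S (pow_ne_zero _ hs1) hc3, e2, zs_mul_right hζ h6S hb0 (hc2.mul_right hc1),
    zs_congr ζ (a := j (1 - x₀)) (a' := 1) ⟨-1, by simp⟩,
    zs_congr ζ (a := j x₀) (a' := 1) (b := j (1 - x₀)) ⟨-1, by simp⟩, zs_one_left, zs_one_left,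
    show ((6 : ℕ) : ZMod 6) = 0 from rfl] at e1
  simpa using e1.symm

/-- **Sextic reciprocity** over a number field. -/
theorem rec_85 : RecStmt := recStmt_of_cop_55 6 recCop_85

end Crest.Agent.T27.Mn
end
end

-- ▼ part T27/Big_65
section

/-! Row 27: many shifted primes have a very large prime factor (`BigK`). -/

set_option autoImplicit false

namespace Crest.Agent.T27

open Finset Filter

namespace Big65

theorem mem_pr {A B : ℝ} {p : ℕ} (h : p ∈ R5.pr A B) (hB : 0 ≤ B) :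
    p.Prime ∧ A < p ∧ (p : ℝ) ≤ B := by
  classical
  simp only [R5.pr, mem_filter, mem_Icc] at h
  exact ⟨h.2.1, h.2.2, (Nat.le_floor_iff hB).1 h.1.2⟩

theorem few {m n : ℕ} (hm : 10 ≤ m) (hn : 1 ≤ n) (hn' : n ≤ 9 * m ^ 2) {T : Finset ℕ}
    (hT : ∀ p ∈ T, p.Prime ∧ p ∣ n ∧ (m : ℝ) ^ (1 / 2 : ℝ) ≤ p) : T.card ≤ 5 := by
  by_contra hc
  have hm1 : (1 : ℝ) ≤ m := by exact_mod_cast (by omega : 1 ≤ m)
  have h1 : ∏ p ∈ T, p ∣ n :=
    Finset.prod_primes_dvd n (fun p hp => (hT p hp).1.prime) fun p hp => (hT p hp).2.1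
  have h2 : ((m : ℝ) ^ (1 / 2 : ℝ)) ^ T.card ≤ ∏ p ∈ T, (p : ℝ) := by
    rw [← prod_const]
    exact prod_le_prod (fun _ _ => by positivity) fun p hp => (hT p hp).2.2
  have h3 : (∏ p ∈ T, (p : ℝ)) ≤ 9 * (m : ℝ) ^ 2 := by
    have := (Nat.cast_le (α := ℝ)).2 ((Nat.le_of_dvd hn h1).trans hn')
    push_cast at this
    exact this
  have h4 : ((m : ℝ) ^ (1 / 2 : ℝ)) ^ 6 ≤ ((m : ℝ) ^ (1 / 2 : ℝ)) ^ T.card :=
    pow_le_pow_right₀ (Real.one_le_rpow hm1 (by norm_num)) (by omega)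
  have h5 : ((m : ℝ) ^ (1 / 2 : ℝ)) ^ 6 = (m : ℝ) ^ 3 := by
    rw [← Real.rpow_natCast, ← Real.rpow_mul (by linarith), ← Real.rpow_natCast]
    norm_num
  have h6 : (10 : ℝ) ≤ m := by exact_mod_cast hm
  nlinarith [pow_pos (by linarith : (0 : ℝ) < m) 2]

theorem split (f : ℕ → ℝ) (P : ℕ → Prop) [DecidablePred P] {a b : ℕ} (h : a ≤ b) :
    ∑ p ∈ (Ioc a b).filter P, f p =
      ∑ p ∈ (Ioc 0 b).filter P, f p - ∑ p ∈ (Ioc 0 a).filter P, f p := by
  simp only [sum_filter]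
  rw [← sum_Ioc_consecutive _ (Nat.zero_le a) h]
  ring

theorem ev_log (K : ℝ) : ∀ᶠ m : ℕ in atTop, K ≤ Real.log m :=
  (Real.tendsto_log_atTop.comp tendsto_natCast_atTop_atTop).eventually_ge_atTop K

theorem mul_top {k : ℕ} (hk : 0 < k) : Tendsto (fun m : ℕ => k * m) atTop atTop :=
  tendsto_atTop_mono (fun m => Nat.le_mul_of_pos_left m hk) tendsto_id

theorem low (hθ : ThetaAP) {M r : ℕ} (hM : 1 ≤ M) (hr : r.Coprime M) : ∀ᶠ m : ℕ in atTop,
    1 / (4 * (M.totient : ℝ)) * (m / Real.log m) ≤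
      ((Ioc (2 * m) (3 * m)).filter (fun p => p.Prime ∧ p ≡ r [MOD M])).card := by
  have hφ : (0 : ℝ) < M.totient := by exact_mod_cast Nat.totient_pos.2 hM
  have h := hθ M r (1 / (10 * M.totient)) hM hr (by positivity)
  filter_upwards [(mul_top (k := 2) (by norm_num)).eventually h,
    (mul_top (k := 3) (by norm_num)).eventually h, eventually_ge_atTop 3] with m h2 h3 hm
  have hm' : (3 : ℝ) ≤ m := by exact_mod_cast hm
  have hl : 0 < Real.log m := Real.log_pos (by linarith)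
  have h4 := split (fun p => Real.log p) (fun p => p.Prime ∧ p ≡ r [MOD M])
    (by omega : 2 * m ≤ 3 * m)
  have h5 : ∑ p ∈ (Ioc (2 * m) (3 * m)).filter (fun p => p.Prime ∧ p ≡ r [MOD M]), Real.log p ≤
      ((Ioc (2 * m) (3 * m)).filter (fun p => p.Prime ∧ p ≡ r [MOD M])).card * (2 * Real.log m) := by
    rw [← nsmul_eq_mul]
    refine sum_le_card_nsmul _ _ _ fun p hp => ?_
    have h6 := mem_Ioc.1 (mem_filter.1 hp).1
    have h7 : (p : ℝ) ≤ 3 * m := by exact_mod_cast h6.2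
    have h8 : (0 : ℝ) < p := by exact_mod_cast (by omega : 0 < p)
    calc Real.log p ≤ Real.log ((m : ℝ) ^ 2) := Real.log_le_log h8 (by nlinarith)
      _ = _ := by rw [Real.log_pow]; norm_num
  have h6 := (abs_le.1 h2).2
  have h7 := (abs_le.1 h3).1
  push_cast at h6 h7
  have e1 : (1 : ℝ) / (10 * M.totient) * (2 * m) = 1 / 5 * (m / M.totient) := by field_simp; ring
  have e2 : (1 : ℝ) / (10 * M.totient) * (3 * m) = 3 / 10 * (m / M.totient) := by field_simp
  have e3 : (2 * m : ℝ) / M.totient = 2 * (m / M.totient) := by ring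
  have e4 : (3 * m : ℝ) / M.totient = 3 * (m / M.totient) := by ring
  have e5 : 1 / (4 * (M.totient : ℝ)) * (m / Real.log m) =
      1 / 2 * (m / M.totient) / (2 * Real.log m) := by field_simp; ring
  rw [e5, div_le_iff₀ (by positivity)]
  rw [e1, e3] at h6
  rw [e2, e4] at h7
  linarith

end Big65

open Big65 in
theorem big_65 (hA : R27.MainAP) (hθ : ThetaAP) : BigK := by
  classical
  intro κ hκ hκ2
  obtain ⟨C, hC, hMer, -⟩ := R5.mertens
  obtain ⟨l, hl⟩ : ∃ l : ℝ, l = Real.log (1 - κ / 2) - Real.log (1 - κ) := ⟨_, rfl⟩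
  have hl0 : 0 < l := by
    rw [hl, sub_pos]
    exact Real.log_lt_log (by linarith) (by linarith)
  refine ⟨l / 80, by positivity, fun M r hM hr => ?_⟩
  have hφ : (0 : ℝ) < M.totient := by exact_mod_cast Nat.totient_pos.2 hM
  have h := hA M r (κ / 2) (2 * l + 5) (l / (80 * M.totient)) hM (by positivity) (by linarith)
    (by positivity)
  filter_upwards [(mul_top (k := 2) (by norm_num)).eventually h,
    (mul_top (k := 3) (by norm_num)).eventually h, low hθ hM hr, eventually_ge_atTop 10,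
    ev_log 8, ev_log (4 * C / l)] with m h2 h3 hlow hm hl8 hlC
  have hm' : (10 : ℝ) ≤ m := by exact_mod_cast hm
  have hm1 : (1 : ℝ) ≤ m := by linarith
  have hlog : 0 < Real.log m := by linarith
  obtain ⟨R, hR⟩ : ∃ R, R = R5.pr ((m : ℝ) ^ (1 - κ)) ((m : ℝ) ^ (1 - κ / 2)) := ⟨_, rfl⟩
  have hRm : ∀ p ∈ R, p.Prime ∧ (m : ℝ) ^ (1 - κ) < p ∧ (p : ℝ) ≤ (m : ℝ) ^ (1 - κ / 2) :=
    fun p hp => mem_pr (hR ▸ hp) (by positivity)
  have hhalf : (m : ℝ) ^ (1 / 2 : ℝ) ≤ (m : ℝ) ^ (1 - κ) :=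
    Real.rpow_le_rpow_of_exponent_le hm1 (by linarith)
  have hL : |∑ p ∈ R, 1 / (p : ℝ) - l| ≤ l / 2 := by
    have h2A : (2 : ℝ) ≤ (m : ℝ) ^ (1 - κ) := by
      refine le_trans ?_ hhalf
      rw [← Real.sqrt_eq_rpow]
      exact Real.le_sqrt_of_sq_le (by linarith)
    have h4 := hMer _ _ h2A (Real.rpow_le_rpow_of_exponent_le hm1 (by linarith : 1 - κ ≤ 1 - κ / 2))
    rw [Real.log_rpow (by linarith), Real.log_rpow (by linarith),
      Real.log_mul (by linarith) hlog.ne', Real.log_mul (by linarith) hlog.ne', ← hR] at h4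
    have e : Real.log (1 - κ / 2) + Real.log (Real.log m) -
      (Real.log (1 - κ) + Real.log (Real.log m)) = l := by rw [hl]; ring
    rw [e] at h4
    refine h4.trans ?_
    rw [div_le_iff₀ hl0] at hlC
    rw [div_le_iff₀ (mul_pos (by linarith) hlog)]
    nlinarith [mul_pos hl0 hlog]
  have hfew : ∀ n : ℕ, 1 ≤ n → n ≤ 9 * m ^ 2 → (R.filter (fun d => d ∣ n)).card ≤ 5 :=
    fun n h1 h2 => few hm h1 h2 fun p hp =>
      ⟨(hRm p (mem_filter.1 hp).1).1, (mem_filter.1 hp).2,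
        hhalf.trans (hRm p (mem_filter.1 hp).1).2.1.le⟩
  have hT : ∀ X : ℕ, m ≤ X → X ≤ 3 * m → R5.TypeI X (κ / 2) (2 * l + 5) R (fun _ => 1) ∧
      ∀ d ∈ R, ∀ p : ℕ, p.Prime → p ∣ d → (X : ℝ) ^ (κ / 2) < p := fun X hX1 hX2 => by
    have hX1' : (m : ℝ) ≤ X := by exact_mod_cast hX1
    have hX2' : (X : ℝ) ≤ (m : ℝ) ^ 2 := by
      have : (X : ℝ) ≤ 3 * m := by exact_mod_cast hX2
      nlinarith
    have heq : ∀ d ∈ R, ∀ p : ℕ, p.Prime → p ∣ d → (m : ℝ) ^ (1 - κ) < p := fun d hd p hp hpd => by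
      rw [(Nat.prime_dvd_prime_iff_eq hp (hRm d hd).1).1 hpd]
      exact (hRm d hd).2.1
    refine ⟨⟨fun _ => by simp, fun d hd => (hRm d hd).1.one_le, fun d hd => (hRm d hd).2.2.trans
      (Real.rpow_le_rpow (by linarith) hX1' (by linarith)), fun d hd p hp hpd => ?_,
      by linarith [(abs_le.1 hL).2], fun n h1 h2 => ?_⟩, fun d hd p hp hpd => ?_⟩
    · refine lt_of_le_of_lt (le_trans ?_ hhalf) (heq d hd p hp hpd)
      rw [Real.rpow_def_of_pos (by linarith)]
      refine Real.exp_le_exp.2 (Real.sqrt_le_iff.2 ⟨by positivity, ?_⟩)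
      have : Real.log X ≤ 2 * Real.log m := by
        refine (Real.log_le_log (by linarith) hX2').trans_eq ?_
        rw [Real.log_pow]; norm_num
      nlinarith
    · have : ((R.filter (fun d => d ∣ n)).card : ℝ) ≤ 5 := by
        exact_mod_cast hfew n h1 (h2.trans (by nlinarith))
      linarith
    · refine lt_of_le_of_lt ?_ (heq d hd p hp hpd)
      calc (X : ℝ) ^ (κ / 2) ≤ ((m : ℝ) ^ (2 : ℝ)) ^ (κ / 2) :=
            Real.rpow_le_rpow (by linarith) (by rwa [Real.rpow_two]) (by linarith)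
        _ = (m : ℝ) ^ (2 * (κ / 2)) := (Real.rpow_mul (by linarith) _ _).symm
        _ ≤ _ := Real.rpow_le_rpow_of_exponent_le hm1 (by linarith)
  have g2 := h2 R _ (hT _ (by omega) (by omega)).1 (hT _ (by omega) (by omega)).2
  have g3 := h3 R _ (hT _ (by omega) le_rfl).1 (hT _ (by omega) le_rfl).2
  have eI : ∀ X : ℕ, Icc 1 X = Ioc 0 X := fun X => rfl
  rw [eI] at g2 g3
  have h4 := split (fun p => R5.gI R (fun _ => 1) (p - 1)) (fun p => p.Prime ∧ p ≡ r [MOD M])
    (by omega : 2 * m ≤ 3 * m)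
  obtain ⟨P, hP⟩ : ∃ P, P = (Ioc (2 * m) (3 * m)).filter (fun p => p.Prime ∧ p ≡ r [MOD M]) :=
    ⟨_, rfl⟩
  rw [← hP] at h4 hlow
  have h5 : ∑ p ∈ P, R5.gI R (fun _ => 1) (p - 1) ≤
      5 * (bigK κ M r m).card - l / 2 * P.card := by
    have e : (bigK κ M r m) = P.filter (fun p => p ∈ bigK κ M r m) := by
      ext p
      simp only [mem_filter, iff_and_self]
      intro hp
      simp only [bigK, mem_filter] at hp
      rw [hP, mem_filter]
      exact ⟨hp.1, hp.2.1, hp.2.2.1⟩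
    calc _ ≤ ∑ p ∈ P, (5 * (if p ∈ bigK κ M r m then 1 else 0) - l / 2) := by
          refine sum_le_sum fun p hp => ?_
          simp only [R5.gI, one_mul, sum_sub_distrib, sum_boole]
          have h6 := (abs_le.1 hL).1
          rw [hP, mem_filter, mem_Ioc] at hp
          split_ifs with hb
          · have : ((R.filter (fun d => d ∣ p - 1)).card : ℝ) ≤ 5 := by
              exact_mod_cast hfew (p - 1) (by omega) (by nlinarith [hp.1.2, Nat.sub_le p 1])
            linarith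
          · have : R.filter (fun d => d ∣ p - 1) = ∅ := filter_eq_empty_iff.2 fun Q hQ hQp => hb (by
              simp only [bigK, mem_filter, mem_Ioc]
              exact ⟨hp.1, hp.2.1, hp.2.2, Q, (hRm Q hQ).1, (hRm Q hQ).2.1, hQp⟩)
            rw [this, card_empty]
            push_cast
            linarith
      _ = _ := by
          rw [sum_sub_distrib, ← mul_sum, sum_boole, ← e, sum_const, nsmul_eq_mul]
          ring
  have h6 : ∀ k : ℕ, 1 ≤ k → l / (80 * M.totient) * ((k * m : ℕ) : ℝ) / Real.log ((k * m : ℕ) : ℝ) ≤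
      k * (l / 80 / M.totient * (m / Real.log m)) := fun k hk => by
    have hk' : (1 : ℝ) ≤ k := by exact_mod_cast hk
    have : Real.log m ≤ Real.log ((k * m : ℕ) : ℝ) := Real.log_le_log (by linarith) (by
      push_cast
      nlinarith)
    calc _ ≤ l / (80 * M.totient) * ((k * m : ℕ) : ℝ) / Real.log m := by gcongr
      _ = _ := by
        push_cast
        field_simp
  have g2' := (abs_le.1 (g2.trans (h6 2 (by norm_num)))).2
  have g3' := (abs_le.1 (g3.trans (h6 3 (by norm_num)))).1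
  have e : l / 2 * (1 / (4 * (M.totient : ℝ)) * (m / Real.log m)) =
      10 * (l / 80 / M.totient * (m / Real.log m)) := by
    field_simp
    ring
  have h7 := mul_le_mul_of_nonneg_left hlow (by positivity : 0 ≤ l / 2)
  push_cast at g2' g3'
  linarith

end Crest.Agent.T27
end

-- ▼ part T27/Cls_65
section

/-! Row 27: a residue class in which `a` is a quadratic non-residue (`ClsStmt`). -/

set_option autoImplicit false

namespace Crest.Agent.T27

namespace Cls65

theorem jac_pred {c r : ℕ} (hc : 0 < c) (h : 4 * c ∣ r + 1) : jacobiSym (c : ℤ) r = 1 := by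
  have hr : Odd r := by
    obtain ⟨t, ht⟩ := h
    have : r + 1 = 2 * (2 * c * t) := by rw [ht]; ring
    exact Nat.odd_iff.2 (by omega)
  have h1 : r % (4 * c) = 4 * c - 1 := by
    obtain ⟨t, ht⟩ := h
    obtain ⟨t, rfl⟩ : ∃ s, t = s + 1 := ⟨t - 1, by
      rcases Nat.eq_zero_or_pos t with h0 | h0
      · subst h0; omega
      · omega⟩
    have : r = 4 * c - 1 + 4 * c * t := by
      have : 4 * c * (t + 1) = 4 * c * t + 4 * c := by ring
      omega
    rw [this, Nat.add_mul_mod_self_left, Nat.mod_eq_of_lt (by omega)]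
  rw [jacobiSym.mod_right' c hr, h1]
  have ho : Odd (4 * c - 1) := Nat.odd_iff.2 (by omega)
  have h2 : jacobiSym (4 * (c : ℤ)) (4 * c - 1) = jacobiSym 1 (4 * c - 1) := by
    apply jacobiSym.mod_left'
    have e : ((4 * c - 1 : ℕ) : ℤ) = 4 * c - 1 := by
      rw [Nat.cast_sub (by omega)]; push_cast; ring
    rw [e]
    exact (Int.modEq_iff_dvd.2 ⟨-1, by ring⟩ : (4 * (c : ℤ)) ≡ 1 [ZMOD (4 * c - 1)])
  rwa [jacobiSym.mul_left, jacobiSym.at_four ho, one_mul, jacobiSym.one_left] at h2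

/-- the class `t` modulo a power `u` of `l`, the class `-1` modulo the rest of `n` -/
theorem glue {n l u : ℕ} (t : ℕ) (hn : n ≠ 0) (hl : l.Prime) (k : ℕ) (hu : u = l ^ k) :
    ∃ r : ℕ, r ≡ t [MOD u] ∧ ∀ c : ℕ, c ∣ n → ¬ l ∣ c → c ∣ r + 1 := by
  have hv : 0 < ordCompl[l] n := Nat.ordCompl_pos l hn
  have hco : u.Coprime (ordCompl[l] n) := by
    rw [hu]
    exact (Nat.coprime_ordCompl hl hn).pow_left k
  obtain ⟨r, h1, h2⟩ := Nat.chineseRemainder hco t (ordCompl[l] n - 1)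
  refine ⟨r, h1, fun c hc hlc => (Nat.dvd_ordCompl_of_dvd_not_dvd hc hlc).trans ?_⟩
  have h3 := h2.add_right 1
  rw [Nat.sub_add_cancel hv] at h3
  exact (Nat.modEq_zero_iff_dvd.1 (h3.trans (Nat.modEq_zero_iff_dvd.2 dvd_rfl)))

theorem not_dvd_of_succ {p r : ℕ} (hp : p.Prime) (h : p ∣ r + 1) : ¬ p ∣ r := fun h1 =>
  hp.one_lt.ne' (Nat.dvd_one.1 ((Nat.dvd_add_right h1).1 h))

theorem not_one_of_succ {p r : ℕ} (hp : p.Prime) (h2 : p ≠ 2) (h : p ∣ r + 1) :
    ¬ r ≡ 1 [MOD p] := fun h1 => by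
  have h3 := (h1.add_right 1).symm.trans (Nat.modEq_zero_iff_dvd.2 h)
  exact h2 ((Nat.prime_dvd_prime_iff_eq hp Nat.prime_two).1 (Nat.modEq_zero_iff_dvd.1 h3))

/-- the conclusion for a positive number -/
def Good (n r : ℕ) : Prop :=
  r.Coprime (4 * n) ∧ ∀ l : ℕ, l.Prime → l ≠ 2 → l ∣ n → ¬ r ≡ 1 [MOD l]

theorem good_of {n l r : ℕ} (hl : l.Prime) (h : ∀ c : ℕ, c ∣ 4 * n → ¬ l ∣ c → c ∣ r + 1)
    (h0 : ¬ l ∣ r) (h1 : l ≠ 2 → ¬ r ≡ 1 [MOD l]) : Good n r := by
  have key : ∀ p : ℕ, p.Prime → p ≠ l → p ∣ 4 * n → p ∣ r + 1 := fun p hp hpl hpn =>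
    h p hpn fun h2 => hpl ((Nat.prime_dvd_prime_iff_eq hl hp).1 h2).symm
  refine ⟨Nat.coprime_of_dvd fun p hp hpr hpn => ?_, fun p hp hp2 hpn => ?_⟩
  · by_cases e : p = l
    · exact h0 (e ▸ hpr)
    · exact not_dvd_of_succ hp (key p hp e hpn) hpr
  · by_cases e : p = l
    · subst e
      exact h1 hp2
    · exact not_one_of_succ hp hp2 (key p hp e (hpn.mul_left 4))

theorem nonres {l : ℕ} (hl : l.Prime) (h2 : l ≠ 2) (h3 : l ≠ 3) :
    ∃ t : ℕ, jacobiSym (-(t : ℤ)) l = -1 ∧ ¬ t ≡ 1 [MOD l] := by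
  have := Fact.mk hl
  obtain ⟨x, hx⟩ := FiniteField.exists_nonsquare (F := ZMod l) (by rwa [ZMod.ringChar_zmod_n])
  have hodd : Odd l := hl.odd_of_ne_two h2
  have h4 : ∀ y : ZMod l, ¬ IsSquare y → jacobiSym (-(((-y).val : ℕ) : ℤ)) l = -1 := fun y hy => by
    rw [ZMod.nonsquare_iff_jacobiSym_eq_neg_one]
    simpa using hy
  have h5 : ∀ y : ZMod l, (-y).val ≡ 1 [MOD l] → y = -1 := fun y hy => by
    have := (ZMod.natCast_eq_natCast_iff _ _ _).2 hy
    simp only [ZMod.natCast_val, ZMod.cast_id', id_eq, Nat.cast_one] at this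
    rw [← this, neg_neg]
  by_cases e : x = -1
  · have h2' : (2 : ZMod l) ≠ 0 := fun h => by
      have : ((2 : ℕ) : ZMod l) = 0 := by exact_mod_cast h
      rw [ZMod.natCast_eq_zero_iff] at this
      exact h2 ((Nat.prime_dvd_prime_iff_eq hl Nat.prime_two).1 this)
    have hx4 : ¬ IsSquare (4 * x) := fun ⟨y, hy⟩ => hx ⟨y / 2, by
      field_simp
      linear_combination hy⟩
    refine ⟨(-(4 * x)).val, h4 _ hx4, fun h => ?_⟩
    have h6 := h5 _ h
    rw [e] at h6
    have : ((3 : ℕ) : ZMod l) = 0 := by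
      push_cast
      linear_combination -h6
    rw [ZMod.natCast_eq_zero_iff] at this
    exact h3 ((Nat.prime_dvd_prime_iff_eq hl Nat.prime_three).1 this)
  · exact ⟨(-x).val, h4 _ hx, fun h => e (h5 _ h)⟩

theorem sqfree_case {n s : ℕ} (hn : n ≠ 0) (hs : Squarefree s) (hs1 : s ≠ 1) (hsn : s ∣ n) :
    ∃ r : ℕ, Good n r ∧ jacobiSym (s : ℤ) r = -1 := by
  have hn4 : 4 * n ≠ 0 := by omega
  by_cases h3 : s = 3
  · subst h3
    obtain ⟨r, h1, h2⟩ := glue (n := 4 * n) (u := 4) 1 hn4 Nat.prime_two 2 (by norm_num)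
    have hr : r % 4 = 1 := h1
    refine ⟨r, good_of Nat.prime_two h2 (by omega) (fun h => absurd rfl h), ?_⟩
    rw [jacobiSym.quadratic_reciprocity_one_mod_four' (by decide) hr]
    have h4 : 3 ∣ r + 1 := h2 3 (hsn.mul_left 4) (by norm_num)
    rw [jacobiSym.mod_left' (a₂ := 2) (by push_cast; omega)]
    norm_num
  · obtain ⟨l, hl, hls, hl3⟩ : ∃ l : ℕ, l.Prime ∧ l ∣ s ∧ l ≠ 3 := by
      by_contra hcon
      push Not at hcon
      have h4 := Nat.eq_prime_pow_of_unique_prime_dvd hs.ne_zero (p := 3) fun {d} hd hds =>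
        hcon d hd hds
      rcases hk : s.primeFactorsList.length with _ | _ | k
      · rw [hk] at h4; exact hs1 h4
      · rw [hk] at h4; exact h3 h4
      · rw [hk] at h4
        have := hs 3 (by rw [h4]; exact ⟨3 ^ k, by ring⟩)
        norm_num at this
    obtain ⟨c, rfl⟩ := hls
    have hlc : ¬ l ∣ c := fun h => by
      have := hs l (Nat.mul_dvd_mul_left l h)
      rw [Nat.isUnit_iff] at this
      exact hl.one_lt.ne' this
    have hc0 : 0 < c := Nat.pos_of_ne_zero fun h => hlc (h ▸ dvd_zero l)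
    have hcn : c ∣ n := (Dvd.intro_left l rfl).trans hsn
    by_cases h2 : l = 2
    · subst h2
      obtain ⟨r, h1, h2⟩ := glue (n := 4 * n) (u := 8) 3 hn4 Nat.prime_two 3 (by norm_num)
      have hr : r % 8 = 3 := h1
      refine ⟨r, good_of Nat.prime_two h2 (by omega) (fun h => absurd rfl h), ?_⟩
      have h4 : 4 * c ∣ r + 1 := by
        refine Nat.Coprime.mul_dvd_of_dvd_of_dvd ?_ (by omega) (h2 c (hcn.mul_left 4) hlc)
        exact ((Nat.Prime.coprime_iff_not_dvd Nat.prime_two).2 hlc).pow_left 2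
      push_cast
      rw [jacobiSym.mul_left, jac_pred hc0 h4, jacobiSym.at_two (Nat.odd_iff.2 (by omega)),
        ZMod.χ₈_nat_eq_if_mod_eight]
      simp [hr, show r % 2 = 1 by omega]
    · obtain ⟨t, ht1, ht2⟩ := nonres hl h2 hl3
      obtain ⟨r, h1, h5⟩ := glue (n := 4 * n) (u := l) t hn4 hl 1 (by norm_num)
      have hl4 : ¬ l ∣ 4 := fun h =>
        h2 ((Nat.prime_dvd_prime_iff_eq hl Nat.prime_two).1 (hl.dvd_of_dvd_pow (n := 2) h))
      have h4 : 4 * c ∣ r + 1 := h5 _ (Nat.mul_dvd_mul_left 4 hcn) fun h =>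
        ((Nat.Prime.dvd_mul hl).1 h).elim hl4 hlc
      have hr : r % 4 = 3 := by
        have := (Dvd.intro c rfl).trans h4
        omega
      have h6 : jacobiSym (-(r : ℤ)) l = -1 := by
        rw [← ht1]
        apply jacobiSym.mod_left'
        exact (Int.natCast_modEq_iff.2 h1).neg
      have hodd : Odd l := hl.odd_of_ne_two h2
      refine ⟨r, good_of hl h5 (fun h => ?_) (fun _ h => ht2 (h1.symm.trans h)), ?_⟩
      · have : jacobiSym (-(r : ℤ)) l = jacobiSym 0 l := by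
          apply jacobiSym.mod_left'
          rw [Int.zero_emod]
          exact Int.emod_eq_zero_of_dvd ((Int.natCast_dvd_natCast.2 h).neg_right)
        rw [this, jacobiSym.zero_left hl.one_lt] at h6
        norm_num at h6
      · push_cast
        rw [jacobiSym.mul_left, jac_pred hc0 h4, mul_one]
        rw [jacobiSym.neg _ hodd] at h6
        rcases Nat.odd_mod_four_iff.1 (Nat.odd_iff.1 hodd) with e | e
        · rw [jacobiSym.quadratic_reciprocity_one_mod_four e (Nat.odd_iff.2 (by omega))]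
          rwa [ZMod.χ₄_nat_one_mod_four e, one_mul] at h6
        · rw [jacobiSym.quadratic_reciprocity_three_mod_four e hr]
          rwa [ZMod.χ₄_nat_three_mod_four e, neg_one_mul] at h6

end Cls65

open Cls65 in
theorem cls_65 : R27.ClsStmt := by
  intro a _ hsq
  have ha0 : a ≠ 0 := fun h => hsq (h ▸ IsSquare.zero)
  have hn : a.natAbs ≠ 0 := Int.natAbs_ne_zero.2 ha0
  rcases Int.natAbs_eq a with ha | ha
  · obtain ⟨s, b, hsb, hs⟩ := Nat.sq_mul_squarefree a.natAbs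
    have hs1 : s ≠ 1 := fun h => hsq ⟨b, by
      rw [ha, ← hsb, h]
      push_cast
      ring⟩
    obtain ⟨r, ⟨h1, h2⟩, h3⟩ := sqfree_case hn hs hs1 (Dvd.intro_left _ hsb)
    refine ⟨r, h1, ?_, h2⟩
    rw [ha, ← hsb]
    push_cast
    rw [jacobiSym.mul_left, h3, jacobiSym.sq_one', one_mul]
    rw [Int.gcd_natCast_natCast]
    refine Nat.Coprime.symm (h1.coprime_dvd_right ?_)
    rw [← hsb]
    exact Dvd.intro (4 * b * s) (by ring)
  · have h4 : 4 * a.natAbs ∣ 4 * a.natAbs - 1 + 1 := by rw [Nat.sub_add_cancel (by omega)]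
    have hg := good_of (n := a.natAbs) (l := 2) (r := 4 * a.natAbs - 1) Nat.prime_two
      (fun c hc _ => hc.trans h4) (by omega) (fun h => absurd rfl h)
    refine ⟨4 * a.natAbs - 1, hg.1, ?_, hg.2⟩
    nth_rw 1 [ha]
    rw [jacobiSym.neg _ (Nat.odd_iff.2 (by omega)), jac_pred (by omega) h4,
      ZMod.χ₄_nat_three_mod_four (by omega), mul_one]

end Crest.Agent.T27
end

-- ▼ part T27/Crt_65
section

/-! Row 27: many classes in which `p - 1` has no small odd prime factor (`CrtStmt`). -/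

set_option autoImplicit false

namespace Crest.Agent.T27

open Finset

namespace Crt65

/-- the statement with the invariant needed for the induction -/
def Inv (M₀ r₀ k M : ℕ) (S : Finset ℕ) : Prop :=
  1 ≤ M ∧ M₀ ∣ M ∧ (∀ q : ℕ, q.Prime → q ≠ 2 → q ≤ 2 * k + 1 → q ∣ M) ∧
    (∀ r ∈ S, r < M ∧ r.Coprime M ∧ r ≡ r₀ [MOD M₀] ∧
      ∀ q : ℕ, q.Prime → q ≠ 2 → q ≤ 2 * k + 1 → ¬ q ∣ M₀ → ¬ r ≡ 1 [MOD q]) ∧
    M.totient ^ 2 ≤ (4 * k + 1) * (S.card * M₀.totient) ^ 2 ∧
    ∀ q : ℕ, q.Prime → q ∣ M → q ∣ M₀ ∨ q ≤ 2 * k + 1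

theorem small {q k : ℕ} (hq : q.Prime) (h2 : q ≠ 2) (h : q ≤ 2 * (k + 1) + 1) :
    q ≤ 2 * k + 1 ∨ q = 2 * k + 3 := by
  have := Nat.odd_iff.1 (hq.odd_of_ne_two h2)
  omega

theorem step {M₀ r₀ k M : ℕ} {S : Finset ℕ} (h : Inv M₀ r₀ k M S) :
    ∃ (M' : ℕ) (S' : Finset ℕ), Inv M₀ r₀ (k + 1) M' S' := by
  obtain ⟨h1, h2, h3, h4, h5, h6⟩ := h
  by_cases hq : (2 * k + 3).Prime ∧ ¬ (2 * k + 3) ∣ M₀
  · obtain ⟨hq, hqM⟩ := hq
    have hco : M.Coprime (2 * k + 3) := ((Nat.Prime.coprime_iff_not_dvd hq).2 fun h =>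
      (h6 _ hq h).elim hqM (by omega)).symm
    let f : ℕ × ℕ → ℕ := fun x => Nat.chineseRemainder hco x.1 x.2
    have f1 : ∀ x, f x ≡ x.1 [MOD M] := fun x => (Nat.chineseRemainder hco x.1 x.2).2.1
    have f2 : ∀ x, f x ≡ x.2 [MOD 2 * k + 3] := fun x => (Nat.chineseRemainder hco x.1 x.2).2.2
    have f3 : ∀ x, f x < M * (2 * k + 3) := fun x =>
      Nat.chineseRemainder_lt_mul hco x.1 x.2 (by omega) (by omega)
    have hcard : ((S ×ˢ Ico 2 (2 * k + 3)).image f).card = S.card * (2 * k + 1) := by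
      rw [card_image_of_injOn, card_product, Nat.card_Ico]
      · rfl
      · intro x hx y hy hxy
        have hx' := mem_product.1 (mem_coe.1 hx)
        have hy' := mem_product.1 (mem_coe.1 hy)
        refine Prod.ext ?_ ?_
        · exact Nat.ModEq.eq_of_lt_of_lt ((f1 x).symm.trans (hxy ▸ f1 y)) (h4 _ hx'.1).1
            (h4 _ hy'.1).1
        · exact Nat.ModEq.eq_of_lt_of_lt ((f2 x).symm.trans (hxy ▸ f2 y)) (mem_Ico.1 hx'.2).2
            (mem_Ico.1 hy'.2).2
    refine ⟨M * (2 * k + 3), (S ×ˢ Ico 2 (2 * k + 3)).image f, Nat.mul_pos h1 (by omega),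
      h2.mul_right _, fun q a b c => ?_, fun r hr => ?_, ?_, fun q a b => ?_⟩
    · rcases small a b c with e | e
      · exact (h3 q a b e).mul_right _
      · exact e ▸ Dvd.intro_left _ rfl
    · obtain ⟨x, hx, rfl⟩ := mem_image.1 hr
      obtain ⟨hx1, hx2⟩ := mem_product.1 hx
      obtain ⟨g1, g2, g3, g4⟩ := h4 _ hx1
      obtain ⟨g5, g6⟩ := mem_Ico.1 hx2
      refine ⟨f3 x, Nat.Coprime.mul_right ?_ ?_, ((f1 x).of_dvd h2).trans g3,
        fun q a b c d => ?_⟩
      · rw [Nat.Coprime, (f1 x).gcd_eq]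
        exact g2
      · rw [Nat.Coprime, (f2 x).gcd_eq]
        exact ((Nat.Prime.coprime_iff_not_dvd hq).2 fun h =>
          absurd (Nat.le_of_dvd (by omega) h) (by omega)).symm
      · rcases small a b c with e | e
        · exact fun h => g4 q a b e d (((f1 x).of_dvd (h3 q a b e)).symm.trans h)
        · subst e
          intro h
          have := Nat.ModEq.eq_of_lt_of_lt ((f2 x).symm.trans h) g6 (by omega)
          omega
    · rw [hcard, Nat.totient_mul hco, Nat.totient_prime hq,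
        show 2 * k + 3 - 1 = 2 * k + 2 by omega]
      calc (M.totient * (2 * k + 2)) ^ 2 = M.totient ^ 2 * (2 * k + 2) ^ 2 := by ring
        _ ≤ (4 * k + 1) * (S.card * M₀.totient) ^ 2 * (2 * k + 2) ^ 2 := by gcongr
        _ = ((4 * k + 1) * (2 * k + 2) ^ 2) * (S.card * M₀.totient) ^ 2 := by ring
        _ ≤ ((4 * (k + 1) + 1) * (2 * k + 1) ^ 2) * (S.card * M₀.totient) ^ 2 :=
          Nat.mul_le_mul_right _ (by nlinarith)
        _ = _ := by ring
    · rcases (Nat.Prime.dvd_mul a).1 b with e | e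
      · exact (h6 q a e).imp_right fun h => by omega
      · exact Or.inr (by have := Nat.le_of_dvd (by omega) e; omega)
  · refine ⟨M, S, h1, h2, fun q a b c => ?_, fun r hr => ?_, h5.trans ?_, fun q a b => ?_⟩
    · rcases small a b c with e | e
      · exact h3 q a b e
      · subst e
        exact (not_not.1 fun h => hq ⟨a, h⟩ : _ ∣ M₀).trans h2
    · obtain ⟨g1, g2, g3, g4⟩ := h4 r hr
      refine ⟨g1, g2, g3, fun q a b c d => ?_⟩
      rcases small a b c with e | e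
      · exact g4 q a b e d
      · subst e
        exact absurd ⟨a, d⟩ hq
    · gcongr
      omega
    · exact (h6 q a b).imp_right fun h => by omega

theorem all (M₀ r₀ : ℕ) (hM : 1 ≤ M₀) (hr : r₀.Coprime M₀) (k : ℕ) :
    ∃ (M : ℕ) (S : Finset ℕ), Inv M₀ r₀ k M S := by
  induction k with
  | zero =>
    refine ⟨M₀, {r₀ % M₀}, hM, dvd_rfl, fun q a _ c => ?_, fun r h => ?_, by simp,
      fun q _ b => Or.inl b⟩
    · have := a.two_le
      omega
    · rw [mem_singleton.1 h]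
      refine ⟨Nat.mod_lt _ hM, ?_, Nat.mod_modEq _ _, fun q a _ c => ?_⟩
      · rw [Nat.Coprime, (Nat.mod_modEq r₀ M₀).gcd_eq]
        exact hr
      · have := a.two_le
        omega
  | succ k ih =>
    obtain ⟨M, S, h⟩ := ih
    exact step h

end Crt65

theorem crt_65 : R27.CrtStmt := by
  intro M₀ r₀ k hM hr
  obtain ⟨M, S, h1, h2, h3, h4, h5, -⟩ := Crt65.all M₀ r₀ hM hr k
  exact ⟨M, S, h1, h2, h3, h4, h5⟩

end Crest.Agent.T27
end

-- ▼ part T27/Asm_65
section

/-! Row 27: the final assembly `BigK → ChebG → OrdStmt → ArtinStmt`. -/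

set_option autoImplicit false

namespace Crest.Agent.T27

open Finset Filter

namespace Asm65

theorem ev_small {y D β : ℝ} (hy : 0 < y) (hD : 0 < D) (hβ : 0 < β) :
    ∀ᶠ m : ℕ in atTop, D * (m : ℝ) ^ (1 - y) ≤ β * (m / Real.log m) := by
  have h := (isLittleO_log_rpow_atTop hy).def (c := β / D) (by positivity)
  filter_upwards [tendsto_natCast_atTop_atTop.eventually h, eventually_ge_atTop 2] with m h1 hm
  have hm' : (2 : ℝ) ≤ m := by exact_mod_cast hm
  have hl : 0 < Real.log m := Real.log_pos (by linarith)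
  rw [Real.norm_of_nonneg hl.le, Real.norm_of_nonneg (by positivity), div_mul_eq_mul_div,
    le_div_iff₀ hD] at h1
  have e : (m : ℝ) = (m : ℝ) ^ (1 - y) * (m : ℝ) ^ y := by
    rw [← Real.rpow_add (by linarith), sub_add_cancel, Real.rpow_one]
  rw [← mul_div_assoc, le_div_iff₀ hl]
  nth_rw 3 [e]
  nlinarith [Real.rpow_pos_of_pos (by linarith : (0 : ℝ) < m) (1 - y)]

/-- a prime of a good class which is not a primitive root prime -/
theorem bad_prime {a : ℤ} {p r₀ : ℕ} (hp : p.Prime) (hr : r₀.Coprime (4 * a.natAbs))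
    (hj : jacobiSym a r₀ = -1) (hpr : p ≡ r₀ [MOD 4 * a.natAbs]) :
    ¬ (p : ℤ) ∣ a ∧ (orderOf (a : ZMod p) ≠ p - 1 →
      ∃ q : ℕ, q.Prime ∧ q ≠ 2 ∧ q ∣ p - 1 ∧ (a : ZMod p) ^ ((p - 1) / q) = 1) := by
  have := Fact.mk hp
  have hr2 : Odd r₀ := (Nat.coprime_two_right).1 (hr.coprime_dvd_right ⟨2 * a.natAbs, by ring⟩)
  have hp2 : Odd p := by
    have h1 : p % 2 = r₀ % 2 := hpr.of_dvd ⟨2 * a.natAbs, by ring⟩
    rw [Nat.odd_iff] at hr2 ⊢
    omega
  have hJ : jacobiSym a p = -1 := by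
    rw [jacobiSym.mod_right a hp2, hpr, ← jacobiSym.mod_right a hr2, hj]
  have hns := ZMod.nonsquare_of_jacobiSym_eq_neg_one hJ
  have ha0 : (a : ZMod p) ≠ 0 := fun h => hns (h ▸ IsSquare.zero)
  refine ⟨fun h => ha0 ((ZMod.intCast_zmod_eq_zero_iff_dvd a p).2 h), fun ho => ?_⟩
  by_contra hc
  push Not at hc
  refine ho (orderOf_eq_of_pow_and_pow_div_prime (by have := hp.two_le; omega)
    (ZMod.pow_card_sub_one_eq_one ha0) fun q hq hqp => ?_)
  by_cases h2 : q = 2
  · subst h2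
    intro h
    rw [show (p - 1) / 2 = p / 2 by have := Nat.odd_iff.1 hp2; omega] at h
    exact hns ((ZMod.euler_criterion p ha0).2 h)
  · exact hc q hq h2 hqp

open Classical in
/-- the primes in `(2m, 3m]` modulo which `a` is a primitive root -/
noncomputable def good (a : ℤ) (m : ℕ) : Finset ℕ :=
  (Ioc (2 * m) (3 * m)).filter fun p => p.Prime ∧ ¬ (p : ℤ) ∣ a ∧ orderOf (a : ZMod p) = p - 1

theorem main (hB : BigK) (hC : ChebG) (hO : R27.OrdStmt) {a : ℤ} (ha : a ≠ -1)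
    (hsq : ¬ IsSquare a) :
    ∃ β : ℝ, 0 < β ∧ ∀ᶠ m : ℕ in atTop, β * (m / Real.log m) ≤ (good a m).card := by
  classical
  have ha2 : 2 ≤ |a| := by
    by_contra h
    have h1 := abs_lt.1 (not_le.1 h)
    obtain rfl | rfl | rfl : a = -1 ∨ a = 0 ∨ a = 1 := by omega
    · exact ha rfl
    · exact hsq IsSquare.zero
    · exact hsq IsSquare.one
  have hn : 1 ≤ a.natAbs := by
    have := Int.natCast_natAbs a
    omega
  obtain ⟨d, C, A, q₀, hd, hC0, hC⟩ := hC a ha2
  obtain ⟨κ, hκ0, hκ1, hκ2⟩ : ∃ κ : ℝ, 0 < κ ∧ κ ≤ 1 / 4 ∧ κ * (A + 1) ≤ d / 2 := by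
    refine ⟨min (1 / 4) (d / 2 / (A + 1)), by positivity, min_le_left _ _, ?_⟩
    rw [← le_div_iff₀ (by positivity)]
    exact min_le_right _ _
  obtain ⟨c, hc, hB⟩ := hB κ hκ0 (by linarith)
  obtain ⟨r₀, r1, r2, r3⟩ := cls_65 a ha hsq
  obtain ⟨k, hk1, hk2⟩ : ∃ k : ℕ, q₀ ≤ k ∧
      (((4 * a.natAbs).totient : ℝ) * (10 * C / c)) ^ 2 ≤ k :=
    ⟨max q₀ ⌈(((4 * a.natAbs).totient : ℝ) * (10 * C / c)) ^ 2⌉₊, le_max_left _ _,
      (Nat.le_ceil _).trans (by exact_mod_cast le_max_right _ _)⟩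
  obtain ⟨M, S, s1, s2, s3, s4, s5⟩ := crt_65 (4 * a.natAbs) r₀ k (by omega) r1
  have hφ : (0 : ℝ) < M.totient := by exact_mod_cast Nat.totient_pos.2 s1
  obtain ⟨β, hβ⟩ : ∃ β : ℝ, β = 2 * C / (2 * k + 1) := ⟨_, rfl⟩
  have hβ0 : 0 < β := by rw [hβ]; positivity
  have hS : 5 * β ≤ S.card * (c / M.totient) := by
    have h1 : (M.totient : ℝ) ^ 2 ≤ (4 * k + 1) * (S.card * (4 * a.natAbs).totient) ^ 2 := by
      exact_mod_cast s5
    have h2 : (M.totient * (10 * C / c)) ^ 2 ≤ (S.card * (2 * k + 1) : ℝ) ^ 2 := by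
      calc _ = (M.totient : ℝ) ^ 2 * (10 * C / c) ^ 2 := by ring
        _ ≤ (4 * k + 1) * (S.card * (4 * a.natAbs).totient) ^ 2 * (10 * C / c) ^ 2 := by gcongr
        _ = (4 * k + 1) * S.card ^ 2 * ((4 * a.natAbs).totient * (10 * C / c)) ^ 2 := by ring
        _ ≤ (4 * k + 1) * S.card ^ 2 * k := by gcongr
        _ = S.card ^ 2 * ((4 * k + 1) * k) := by ring
        _ ≤ S.card ^ 2 * (2 * k + 1) ^ 2 := by
          gcongr
          nlinarith [Nat.cast_nonneg (α := ℝ) k]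
        _ = _ := by ring
    have h5 : (M.totient * (10 * C / c)) ≤ (S.card * (2 * k + 1) : ℝ) :=
      (pow_le_pow_iff_left₀ (by positivity) (by positivity) two_ne_zero).1 h2
    rw [hβ, ← mul_div_assoc, ← mul_div_assoc, div_le_div_iff₀ (by positivity) hφ]
    rw [← mul_div_assoc, div_le_iff₀ hc] at h5
    linarith
  refine ⟨β, hβ0, ?_⟩
  filter_upwards [(eventually_all_finset S).2 fun r hr => hB M r s1 (s4 r hr).2.1,
    ev_small (y := 1 / 2) (D := 9 * a.natAbs) (by norm_num) (by positivity) hβ0,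
    ev_small (y := d / 2) (D := C * (2 * 3 ^ (A + 1))) (by positivity) (by positivity) hβ0,
    eventually_ge_atTop 2] with m e1 e2 e3 hm
  have hm' : (2 : ℝ) ≤ m := by exact_mod_cast hm
  have hm1 : (1 : ℝ) ≤ m := by linarith
  have hl : 0 < Real.log m := Real.log_pos (by linarith)
  obtain ⟨K, hK⟩ : ∃ K : ℕ, K = ⌊3 * (m : ℝ) ^ κ⌋₊ := ⟨_, rfl⟩
  have hK1 : (K : ℝ) ≤ 3 * (m : ℝ) ^ κ := hK ▸ Nat.floor_le (by positivity)
  obtain ⟨B₁, hB₁⟩ : ∃ B₁ : Finset ℕ, B₁ = (Ioc (2 * m) (3 * m)).filter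
    (fun p => p.Prime ∧ ∃ j : ℕ, 1 ≤ j ∧ j ≤ K ∧ (a : ZMod p) ^ j = 1) := ⟨_, rfl⟩
  obtain ⟨T, hT⟩ : ∃ T : Finset ℕ, T = (Ioo (2 * k + 1) (K + 1)).filter Nat.Prime := ⟨_, rfl⟩
  have hsub : S.biUnion (fun r => bigK κ M r m) ⊆
      good a m ∪ (B₁ ∪ T.biUnion (fun q => R27.spl a q (2 * m))) := by
    intro p hp
    obtain ⟨r, hr, hp⟩ := mem_biUnion.1 hp
    simp only [bigK, mem_filter, mem_Ioc] at hp
    obtain ⟨⟨p1, p2⟩, hp, p3, Q, hQ, q1, q2⟩ := hp
    obtain ⟨-, -, t3, t4⟩ := s4 r hr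
    have p4 : p ≡ r₀ [MOD 4 * a.natAbs] := (p3.of_dvd s2).trans t3
    obtain ⟨b1, b2⟩ := bad_prime hp r1 r2 p4
    by_cases ho : orderOf (a : ZMod p) = p - 1
    · exact mem_union_left _ (by
        simp only [good, mem_filter, mem_Ioc]
        exact ⟨⟨p1, p2⟩, hp, b1, ho⟩)
    obtain ⟨q, hq, hq2, hqp, hqa⟩ := b2 ho
    have hle : ∀ j : ℕ, j * Q ≤ p - 1 → j ≤ K := fun j hj => by
      rw [hK]
      refine Nat.le_floor ?_
      have h1 : (j : ℝ) * Q ≤ 3 * m := by exact_mod_cast hj.trans (by omega)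
      have h2 : (m : ℝ) = (m : ℝ) ^ κ * (m : ℝ) ^ (1 - κ) := by
        rw [← Real.rpow_add (by linarith), add_sub_cancel, Real.rpow_one]
      have h3 : 0 < (m : ℝ) ^ (1 - κ) := by positivity
      refine le_of_mul_le_mul_right ?_ h3
      nlinarith [Nat.cast_nonneg (α := ℝ) j]
    refine mem_union_right _ ?_
    by_cases e : q = Q
    · subst e
      refine mem_union_left _ ?_
      rw [hB₁, mem_filter, mem_Ioc]
      exact ⟨⟨p1, p2⟩, hp, (p - 1) / q, Nat.div_pos (Nat.le_of_dvd (by omega) hqp) hq.pos,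
        hle _ (Nat.div_mul_le_self _ _), hqa⟩
    · refine mem_union_right _ (mem_biUnion.2 ⟨q, ?_, ?_⟩)
      · rw [hT, mem_filter, mem_Ioo]
        refine ⟨⟨?_, Nat.lt_succ_of_le (hle q (Nat.le_of_dvd (by omega)
          (((Nat.coprime_primes hq hQ).2 e).mul_dvd_of_dvd_of_dvd hqp q2)))⟩, hq⟩
        by_contra hlt
        have h1 : p ≡ 1 [MOD q] := ((Nat.modEq_iff_dvd' (by omega)).2 hqp).symm
        by_cases h2 : q ∣ 4 * a.natAbs
        · refine r3 q hq hq2 (((Nat.Prime.dvd_mul hq).1 h2).resolve_left fun h => hq2 ?_)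
            ((p4.of_dvd h2).symm.trans h1)
          exact (Nat.prime_dvd_prime_iff_eq hq Nat.prime_two).1 (hq.dvd_of_dvd_pow (n := 2) h)
        · exact t4 q hq hq2 (by omega) h2
            ((p3.of_dvd (s3 q hq hq2 (by omega))).symm.trans h1)
      · simp only [R27.spl, mem_filter, mem_Ioc]
        exact ⟨⟨p1, by omega⟩, hp, hqp, hqa⟩
  have c1 : 5 * β * (m / Real.log m) ≤ (S.biUnion (fun r => bigK κ M r m)).card := by
    rw [card_biUnion]
    · push_cast
      refine le_trans ?_ (card_nsmul_le_sum _ _ _ e1)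
      rw [nsmul_eq_mul, ← mul_assoc]
      gcongr
    · intro r hr r' hr' hne
      refine disjoint_left.2 fun p h1 h2 => hne ?_
      simp only [bigK, mem_filter] at h1 h2
      exact Nat.ModEq.eq_of_lt_of_lt (h1.2.2.1.symm.trans h2.2.2.1) (s4 r hr).1 (s4 r' hr').1
  have c2 : (B₁.card : ℝ) ≤ β * (m / Real.log m) := by
    have h1 := hO a K B₁ ha2 fun p hp => by
      rw [hB₁, mem_filter] at hp
      exact hp.2
    refine le_trans ?_ e2
    calc (B₁.card : ℝ) ≤ a.natAbs * (K : ℝ) ^ 2 := by exact_mod_cast h1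
      _ ≤ a.natAbs * (3 * (m : ℝ) ^ κ) ^ 2 := by gcongr
      _ = 9 * a.natAbs * (m : ℝ) ^ (κ * 2) := by
        rw [Real.rpow_mul (by linarith), Real.rpow_two]
        ring
      _ ≤ _ := by
        gcongr
        linarith
  have c3 : ((T.biUnion (fun q => R27.spl a q (2 * m))).card : ℝ) ≤ 3 * β * (m / Real.log m) := by
    have h1 : ∀ q ∈ T, ((R27.spl a q (2 * m)).card : ℝ) ≤
        2 * C * (m / Real.log m) * ((q : ℝ) ^ 2)⁻¹ + C * ((K : ℝ) ^ A * (2 * (m : ℝ) ^ (1 - d))) :=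
      fun q hq => by
        rw [hT, mem_filter, mem_Ioo] at hq
        refine (hC q (2 * m) hq.2 (by omega) (by omega)).trans ?_
        have g1 : (q : ℝ) ≤ K := by exact_mod_cast (by omega : q ≤ K)
        have g0 : (0 : ℝ) < q := by exact_mod_cast hq.2.pos
        have g2 : Real.log m ≤ Real.log ((2 * m : ℕ) : ℝ) :=
          Real.log_le_log (by linarith) (by push_cast; linarith)
        have g3 : ((2 * m : ℕ) : ℝ) ^ (1 - d) ≤ 2 * (m : ℝ) ^ (1 - d) := by
          push_cast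
          rw [Real.mul_rpow (by norm_num) (by linarith)]
          gcongr
          calc (2 : ℝ) ^ (1 - d) ≤ 2 ^ (1 : ℝ) :=
                Real.rpow_le_rpow_of_exponent_le (by norm_num) (by linarith)
            _ = 2 := Real.rpow_one 2
        calc _ ≤ C * (((2 * m : ℕ) : ℝ) / ((q : ℝ) ^ 2 * Real.log m) +
              (K : ℝ) ^ A * (2 * (m : ℝ) ^ (1 - d))) := by gcongr
          _ = _ := by
            push_cast
            field_simp
    have h2 : ∑ q ∈ T, ((q : ℝ) ^ 2)⁻¹ ≤ 2 / (2 * k + 1) := by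
      calc _ ≤ ∑ q ∈ Ioo (2 * k + 1) (K + 1), ((q : ℝ) ^ 2)⁻¹ := by
            rw [hT]
            exact sum_le_sum_of_subset_of_nonneg (filter_subset _ _) fun _ _ _ => by positivity
        _ ≤ 2 / (((2 * k + 1 : ℕ) : ℝ) + 1) := sum_Ioo_inv_sq_le _ _
        _ ≤ _ := by
            push_cast
            gcongr
            linarith
    have h3 : (T.card : ℝ) ≤ K := by
      have : T.card ≤ K := by
        rw [hT]
        refine (card_filter_le _ _).trans ?_
        rw [Nat.card_Ioo]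
        omega
      exact_mod_cast this
    have h4 : (K : ℝ) * (C * ((K : ℝ) ^ A * (2 * (m : ℝ) ^ (1 - d)))) ≤
        C * (2 * 3 ^ (A + 1)) * (m : ℝ) ^ (1 - d / 2) := by
      calc _ = C * 2 * (K : ℝ) ^ (A + 1) * (m : ℝ) ^ (1 - d) := by ring
        _ ≤ C * 2 * (3 * (m : ℝ) ^ κ) ^ (A + 1) * (m : ℝ) ^ (1 - d) := by gcongr
        _ = C * (2 * 3 ^ (A + 1)) * (m : ℝ) ^ (κ * (A + 1) + (1 - d)) := by
            rw [Real.rpow_add (by linarith), Real.rpow_mul (by linarith), mul_pow,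
              ← Nat.cast_add_one, Real.rpow_natCast]
            ring
        _ ≤ _ := by
            gcongr
            linarith
    calc _ ≤ ∑ q ∈ T, ((R27.spl a q (2 * m)).card : ℝ) := by exact_mod_cast card_biUnion_le
      _ ≤ _ := sum_le_sum h1
      _ = 2 * C * (m / Real.log m) * ∑ q ∈ T, ((q : ℝ) ^ 2)⁻¹ +
          T.card * (C * ((K : ℝ) ^ A * (2 * (m : ℝ) ^ (1 - d)))) := by
            rw [sum_add_distrib, ← mul_sum, sum_const, nsmul_eq_mul]
      _ ≤ 2 * C * (m / Real.log m) * (2 / (2 * k + 1)) +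
          K * (C * ((K : ℝ) ^ A * (2 * (m : ℝ) ^ (1 - d)))) := by gcongr
      _ ≤ 2 * β * (m / Real.log m) + β * (m / Real.log m) := by
            refine add_le_add (le_of_eq ?_) (h4.trans e3)
            rw [hβ]
            ring
      _ = _ := by ring
  have c4 : ((S.biUnion (fun r => bigK κ M r m)).card : ℝ) ≤ (good a m).card + (B₁.card +
      (T.biUnion (fun q => R27.spl a q (2 * m))).card) := by
    exact_mod_cast (card_le_card hsub).trans ((card_union_le _ _).trans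
      (Nat.add_le_add_left (card_union_le _ _) _))
  linarith

end Asm65

open Asm65 in
theorem asm_65 (hB : BigK) (hC : ChebG) (hO : R27.OrdStmt) : R27.ArtinStmt := by
  intro a ha hsq
  obtain ⟨β, hβ, h⟩ := main hB hC hO ha hsq
  obtain ⟨m₀, h⟩ := eventually_atTop.1 h
  refine ⟨β / 2, by positivity, 2 * m₀ + 6, by linarith [Nat.cast_nonneg (α := ℝ) m₀],
    fun x hx => ?_⟩
  have hm₀ := Nat.cast_nonneg (α := ℝ) m₀
  obtain ⟨m, hm⟩ : ∃ m : ℕ, m = ⌈x / 2⌉₊ := ⟨_, rfl⟩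
  have h1 : x / 2 ≤ m := hm ▸ Nat.le_ceil _
  have h2 : (m : ℝ) < x / 2 + 1 := hm ▸ Nat.ceil_lt_add_one (by linarith)
  have h3 := h m (by exact_mod_cast (by linarith : (m₀ : ℝ) ≤ m))
  have h4 : 0 < Real.log m := Real.log_pos (by linarith)
  have h5 : Real.log m ≤ Real.log x := Real.log_le_log (by linarith) (by linarith)
  have h6 : 1 ≤ Real.log x := by
    rw [Real.le_log_iff_exp_le (by linarith)]
    linarith [Real.exp_one_lt_d9]
  have h7 : β / 2 * x / Real.log x ^ 2 ≤ β * (m / Real.log m) := by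
    calc _ = β * (x / 2 / Real.log x ^ 2) := by ring
      _ ≤ _ := by
        gcongr
        nlinarith
  refine h7.trans (h3.trans ?_)
  rw [← Set.ncard_coe_finset, Nat.cast_le]
  refine Set.ncard_le_ncard (fun p hp => ?_) ((Set.finite_le_nat ⌈2 * x⌉₊).subset fun p hp => ?_)
  · simp only [good, coe_filter, mem_Ioc, Set.mem_ofPred_eq] at hp
    obtain ⟨⟨p1, p2⟩, p3, p4, p5⟩ := hp
    have g1 : (2 * m : ℝ) < p := by exact_mod_cast p1
    have g2 : (p : ℝ) ≤ 3 * m := by exact_mod_cast p2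
    exact ⟨p3, by linarith, by linarith, p4, p5⟩
  · have := hp.2.2.1.le.trans (Nat.le_ceil _)
    exact_mod_cast this

end Crest.Agent.T27
end

-- ▼ part T27/Ord_79
section

/-!
# Row 27: `OrdStmt` (few primes have a small order)
-/

set_option autoImplicit false

namespace Crest.Agent.T27

open Finset

theorem card_primeFactors_le_79 {n m : ℕ} (hn : n ≤ 2 ^ m) : n.primeFactors.card ≤ m := by
  rcases Nat.eq_zero_or_pos n with rfl | h0
  · simp
  have h1 : 2 ^ n.primeFactors.card ≤ ∏ p ∈ n.primeFactors, p := by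
    rw [← Finset.prod_const]
    exact Finset.prod_le_prod' fun p hp => (Nat.prime_of_mem_primeFactors hp).two_le
  have h2 : ∏ p ∈ n.primeFactors, p ≤ n := Nat.le_of_dvd h0 (Nat.prod_primeFactors_dvd n)
  exact (Nat.pow_le_pow_iff_right (by norm_num)).1 (h1.trans (h2.trans hn))

theorem ord_79 : R27.OrdStmt := by
  intro a K S ha hS
  have h3 : 2 ≤ a.natAbs := by
    rw [← Int.natCast_natAbs] at ha
    exact_mod_cast ha
  have hsub : S ⊆ (Icc 1 K).biUnion fun k => (a ^ k - 1).natAbs.primeFactors := by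
    intro p hp
    obtain ⟨hpp, k, hk1, hkK, hk⟩ := hS p hp
    refine mem_biUnion.2 ⟨k, mem_Icc.2 ⟨hk1, hkK⟩, Nat.mem_primeFactors.2 ⟨hpp, ?_, ?_⟩⟩
    · rw [← Int.natCast_dvd, ← ZMod.intCast_zmod_eq_zero_iff_dvd]
      push_cast
      rw [hk, sub_self]
    · rw [Ne, Int.natAbs_eq_zero, sub_eq_zero]
      intro h
      have h1 : a.natAbs ^ k = 1 := by rw [← Int.natAbs_pow, h]; rfl
      have h2 : 1 < a.natAbs ^ k := Nat.one_lt_pow (by omega) (by omega)
      omega
  refine (card_le_card hsub).trans (card_biUnion_le.trans ?_)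
  have h4 : ∀ k ∈ Icc 1 K, (a ^ k - 1).natAbs.primeFactors.card ≤ a.natAbs * K := by
    intro k hk
    obtain ⟨hk1, hkK⟩ := mem_Icc.1 hk
    refine (card_primeFactors_le_79 (m := a.natAbs * k) ?_).trans (Nat.mul_le_mul_left _ hkK)
    have e1 : (a ^ k - 1).natAbs ≤ a.natAbs ^ k + 1 := by
      have := Int.natAbs_sub_le (a ^ k) 1
      rwa [Int.natAbs_pow] at this
    have e2 : a.natAbs ^ k < (2 ^ a.natAbs) ^ k :=
      Nat.pow_lt_pow_left Nat.lt_two_pow_self (by omega)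
    rw [pow_mul]
    omega
  refine (sum_le_card_nsmul _ _ _ h4).trans (le_of_eq ?_)
  simp only [Nat.card_Icc, Nat.add_sub_cancel, smul_eq_mul]
  ring

end Crest.Agent.T27
end

-- ▼ part T27/Plug_65

/-! Row 27: `ChebG` implies the statement of `S0037`. -/

set_option autoImplicit false

namespace Crest.Agent.T27

open Finset Filter

theorem thetaAP_65 (h : R26.PsiStmt) : ThetaAP := by
  obtain ⟨δ, C, hδ, -, hC, h⟩ := R26.PrimeAP.theta_ap h
  intro M r ε hM hr hε
  have h1 : Tendsto (fun y : ℕ => C * Real.log (2 * M) * (y : ℝ) ^ (-δ)) atTop (nhds 0) := by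
    simpa using ((tendsto_rpow_neg_atTop hδ).comp tendsto_natCast_atTop_atTop).const_mul
      (C * Real.log (2 * M))
  filter_upwards [h1.eventually (eventually_le_nhds hε), eventually_ge_atTop 1] with N h2 hN
  have hN' : (0 : ℝ) < N := by exact_mod_cast hN
  have h3 := h M r N hM hr
  simp only [R26.PrimeAP.lp, ← sum_filter] at h3
  refine h3.trans ?_
  rw [sub_eq_add_neg, Real.rpow_add hN', Real.rpow_one]
  nlinarith

theorem zf_65 : R8.ZFStmt := fun _ _ χ s h₁ h₂ => Crest.Agent.S0022.result χ s h₁ h₂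

/-- the Chebotarev bound is the only input left -/
theorem artin_of_chebG_65 (hC : ChebG) : R27.ArtinStmt :=
  asm_65 (big_65 (R26.mainAPAll zf_65) (thetaAP_65 (R26.psi zf_65))) hC ord_79

end Crest.Agent.T27
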