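import Crest.Agent.T27.Fr_55

/-!
# Row 27 frame: arithmetic of `O` (port of `PVc/R17/Basic.lean`)
-/

set_option autoImplicit false
set_option linter.unusedSectionVars false
set_option linter.unusedVariables false

noncomputable section

namespace Crest.Agent.T27

open scoped ComplexConjugate

variable [Fr0]

/-! ## norms and units -/

theorem nm_eq_index (z : O) : nm z = (Ideal.span {z}).toAddSubgroup.index := rfl

theorem nm_eq_zero {z : O} : nm z = 0 ↔ z = 0 := by
  constructor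
  · intro h
    by_contra hz
    have := Fr0.fin_quot z hz
    exact (Nat.card_pos (α := O ⧸ Ideal.span {z})).ne' h
  · rintro rfl
    rw [nm_eq_index, Ideal.span_singleton_zero]
    show (⊥ : AddSubgroup O).index = 0
    rw [AddSubgroup.index_bot, Nat.card_eq_zero_of_infinite]

@[simp] theorem nm_zero : nm 0 = 0 := nm_eq_zero.2 rfl

theorem nm_mul (z w : O) : nm (z * w) = nm z * nm w := by
  rcases eq_or_ne z 0 with rfl | hz
  · simp
  have hle : (Ideal.span {z * w}).toAddSubgroup ≤ (Ideal.span {z}).toAddSubgroup :=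
    fun x hx => Ideal.mem_span_singleton.2 ((dvd_mul_right z w).trans (Ideal.mem_span_singleton.1 hx))
  rw [nm_eq_index, nm_eq_index, nm_eq_index, ← AddSubgroup.relIndex_mul_index hle, mul_comm]
  congr 1
  have hinj : Function.Injective (AddMonoidHom.mulLeft z) := fun a b h => mul_left_cancel₀ hz h
  have h1 : (Ideal.span {z}).toAddSubgroup = (⊤ : AddSubgroup O).map (AddMonoidHom.mulLeft z) := by
    ext x
    simp only [Submodule.mem_toAddSubgroup, Ideal.mem_span_singleton, AddSubgroup.mem_map,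
      AddSubgroup.mem_top, true_and, AddMonoidHom.coe_mulLeft]
    exact ⟨fun ⟨c, hc⟩ => ⟨c, hc.symm⟩, fun ⟨c, hc⟩ => ⟨c, hc.symm⟩⟩
  have h2 : (Ideal.span {z * w}).toAddSubgroup =
      (Ideal.span {w}).toAddSubgroup.map (AddMonoidHom.mulLeft z) := by
    ext x
    simp only [Submodule.mem_toAddSubgroup, Ideal.mem_span_singleton, AddSubgroup.mem_map,
      AddMonoidHom.coe_mulLeft]
    constructor
    · rintro ⟨c, rfl⟩
      exact ⟨w * c, dvd_mul_right _ _, by ring⟩
    · rintro ⟨y, ⟨c, rfl⟩, rfl⟩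
      exact ⟨c, by ring⟩
  rw [h1, h2, AddSubgroup.relIndex_map_map_of_injective _ _ hinj, AddSubgroup.relIndex_top_right]

theorem isUnit_iff_nm {z : O} : IsUnit z ↔ nm z = 1 := by
  rw [nm_eq_index, AddSubgroup.index_eq_one, ← Ideal.span_singleton_eq_top]
  exact ⟨fun h => by rw [h]; rfl, fun h => Submodule.toAddSubgroup_injective (by rw [h]; rfl)⟩

theorem BasicA.nm_of_isUnit {z : O} (h : IsUnit z) : nm z = 1 := isUnit_iff_nm.1 h

@[simp] theorem nm_one : nm 1 = 1 := isUnit_iff_nm.1 isUnit_one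
theorem nm_unit_mul {u : O} (hu : IsUnit u) (z : O) : nm (u * z) = nm z := by
  rw [nm_mul, isUnit_iff_nm.1 hu, one_mul]
@[simp] theorem nm_neg (z : O) : nm (-z) = nm z := by
  rw [← neg_one_mul, nm_unit_mul isUnit_one.neg]
theorem nm_pow (z : O) (k : ℕ) : nm (z ^ k) = nm z ^ k := by
  induction k with
  | zero => simp
  | succ k ih => rw [pow_succ, nm_mul, ih, pow_succ]
theorem nm_prod {α : Type*} (s : Finset α) (f : α → O) : nm (∏ i ∈ s, f i) = ∏ i ∈ s, nm (f i) := by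
  classical
  induction s using Finset.induction_on with
  | empty => simp
  | insert a s ha ih => rw [Finset.prod_insert ha, Finset.prod_insert ha, nm_mul, ih]
theorem nr_mul (z w : O) : nr (z * w) = nr z * nr w := by
  simp only [nr, nm_mul, Nat.cast_mul]
theorem nr_pow (z : O) (k : ℕ) : nr (z ^ k) = nr z ^ k := by
  simp only [nr, nm_pow, Nat.cast_pow]
theorem one_le_nr {z : O} (hz : z ≠ 0) : 1 ≤ nr z := by
  have : nm z ≠ 0 := fun h => hz (nm_eq_zero.1 h)
  exact_mod_cast Nat.pos_of_ne_zero this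
theorem nr_pos {z : O} (hz : z ≠ 0) : 0 < nr z := lt_of_lt_of_le one_pos (one_le_nr hz)
theorem nm_le_of_dvd {z w : O} (h : z ∣ w) (hw : w ≠ 0) : nm z ≤ nm w := by
  obtain ⟨c, rfl⟩ := h
  have : nm (z * c) ≠ 0 := fun h => hw (nm_eq_zero.1 h)
  exact Nat.le_of_dvd (Nat.pos_of_ne_zero this) ⟨nm c, nm_mul z c⟩
theorem nr_unit {u : O} (hu : IsUnit u) : nr u = 1 := by
  rw [nr, isUnit_iff_nm.1 hu, Nat.cast_one]
theorem nr_unit_mul {u : O} (hu : IsUnit u) (z : O) : nr (u * z) = nr z := by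
  rw [nr, nm_unit_mul hu]
theorem om_sq_add : om ^ 2 + om + 1 = 0 := Fr0.omF_sq_add
theorem om_cube : om ^ 3 = 1 := by linear_combination (om - 1) * om_sq_add
theorem isUnit_six : IsUnit (6 : O) := Fr0.unit_six
theorem isUnit_two : IsUnit (2 : O) :=
  isUnit_of_mul_isUnit_left (y := 3) (by rw [show (2 : O) * 3 = 6 by norm_num]; exact isUnit_six)
theorem isUnit_three : IsUnit (3 : O) :=
  isUnit_of_mul_isUnit_left (y := 2) (by rw [show (3 : O) * 2 = 6 by norm_num]; exact isUnit_six)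
theorem isUnit_om : IsUnit om :=
  IsUnit.of_mul_eq_one (om ^ 2) (by linear_combination om_cube)
theorem isCoprime_of_isUnit (n : O) {M : O} (h : IsUnit M) : IsCoprime n M := by
  obtain ⟨v, hv⟩ := h.exists_left_inv
  exact ⟨0, v, by rw [zero_mul, zero_add, hv]⟩
theorem Adm.isCoprime {M : O} (hM : Adm M) (n : O) : IsCoprime n M := isCoprime_of_isUnit n hM.unit

omit [Fr0] in
theorem omC_mul : omC * omC = -1 - omC := by
  have h : Real.sqrt 3 * Real.sqrt 3 = 3 := Real.mul_self_sqrt (by norm_num)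
  apply Complex.ext
  · simp [omC]; nlinarith
  · simp [omC]; ring

/-! ## exact division -/

theorem EuclideanDomain.mul_div_cancel' {a b : O} (hb : b ≠ 0) (hab : b ∣ a) : b * (a / b) = a := by
  have h : b ≠ 0 ∧ b ∣ a := ⟨hb, hab⟩
  have e : a / b = h.2.choose := dif_pos h
  rw [e]
  exact h.2.choose_spec.symm

instance : MulDivCancelClass O where
  mul_div_cancel a b hb := mul_left_cancel₀ hb (by
    rw [EuclideanDomain.mul_div_cancel' hb (dvd_mul_left b a), mul_comm])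


/-! ## primary elements, classes, rows -/

theorem Primary.mul {m n : O} (hm : Primary m) (hn : Primary n) : Primary (m * n) :=
  Fr0.prim_mul m n hm hn
theorem primary_one : Primary 1 := Fr0.prim_one
theorem Primary.pow {m : O} (hm : Primary m) (k : ℕ) : Primary (m ^ k) := by
  induction k with
  | zero => simpa using primary_one
  | succ k ih => rw [pow_succ]; exact ih.mul hm
theorem Primary.prod {α : Type*} {s : Finset α} {f : α → O} (h : ∀ i ∈ s, Primary (f i)) :
    Primary (∏ i ∈ s, f i) :=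
  Finset.prod_induction f Primary (fun _ _ => Primary.mul) primary_one h
theorem Primary.ne_zero {n : O} (hn : Primary n) : n ≠ 0 := Fr0.prim_ne n hn
theorem Primary.eq_of_associated {m n : O} (hm : Primary m) (hn : Primary n)
    (h : Associated m n) : m = n := Fr0.prim_assoc m n hm hn h
theorem exists_unit_primary {n : O} (hn : n ≠ 0) : ∃ u : O, IsUnit u ∧ Primary (u * n) :=
  Fr0.prim_ex n hn
theorem Primary.eq_one_of_isUnit {n : O} (hn : Primary n) (h : IsUnit n) : n = 1 :=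
  hn.eq_of_associated primary_one (associated_one_iff_isUnit.2 h)
theorem BasicA.eq_one_of_isUnit {n : O} (hn : Primary n) (h : IsUnit n) : n = 1 :=
  hn.eq_one_of_isUnit h
theorem Primary.of_mul {m n : O} (hm : Primary m) (hmn : Primary (m * n)) : Primary n := by
  obtain ⟨u, hu, h⟩ := exists_unit_primary (right_ne_zero_of_mul hmn.ne_zero)
  have h1 := (hm.mul h).eq_of_associated hmn
    ((associated_unit_mul_left n u hu).mul_left m)
  rwa [mul_left_cancel₀ hm.ne_zero h1] at h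
/-- Every non-zero element is a unit times a primary element. -/
theorem exists_eq_unit_mul_primary {n : O} (hn : n ≠ 0) :
    ∃ u m : O, IsUnit u ∧ Primary m ∧ n = u * m := by
  obtain ⟨v, hv, h⟩ := exists_unit_primary hn
  obtain ⟨w, hw⟩ := hv.exists_left_inv
  exact ⟨w, v * n, IsUnit.of_mul_eq_one v hw, h, by rw [← mul_assoc, hw, one_mul]⟩
theorem unit_mul_primary_inj {u v m n : O} (hu : IsUnit u) (hv : IsUnit v) (hm : Primary m)
    (hn : Primary n) (h : u * m = v * n) : u = v ∧ m = n := by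
  have h1 : m = n := hm.eq_of_associated hn
    ((associated_unit_mul_right m u hu).trans (h ▸ associated_unit_mul_left n v hv))
  subst h1
  exact ⟨mul_right_cancel₀ hm.ne_zero h, rfl⟩

theorem cls_ne_zero {n : O} (hn : n ≠ 0) : cls n ≠ 0 := Fr0.clsF_ne n hn
theorem cls_eq_zero {n : O} : cls n = 0 ↔ n = 0 :=
  ⟨fun h => by_contra fun hn => cls_ne_zero hn h, fun h => by rw [h, map_zero]⟩
theorem cls_surjective : Function.Surjective cls := Fr0.clsF_surj
theorem ne_zero_of_cls_eq {m n : O} (h : cls m = cls n) (hn : n ≠ 0) : m ≠ 0 :=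
  fun hm => cls_ne_zero hn (by rw [← h, hm, map_zero])
theorem cls_unit_primary {m n v : O} (hm : Primary m) (hn : Primary n) (hv : IsUnit v)
    (h : cls (v * m) = cls n) : cls v = 1 := Fr0.clsF_prim m n v hm hn hv h
instance : Fintype Cl := Fintype.ofFinite _
instance : Finite (WithZero Cl) := inferInstanceAs (Finite (Option Cl))
instance : Fintype (WithZero Cl) := Fintype.ofFinite _
instance : DecidableEq (WithZero Cl) := Classical.decEq _

theorem one_mem_U0 : (1 : O) ∈ U0 := Fr0.one_mem_U0F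
theorem isUnit_of_mem_U0 {u : O} (h : u ∈ U0) : IsUnit u := Fr0.unit_U0F u h
theorem exists_U0 {v : O} (hv : IsUnit v) : ∃ u ∈ U0, cls u = cls v := Fr0.ex_U0F v hv
theorem eq_of_mem_U0 {u u' : O} (h : u ∈ U0) (h' : u' ∈ U0) (e : cls u = cls u') : u = u' :=
  Fr0.inj_U0F u h u' h' e
theorem one_le_card_U0 : 1 ≤ U0.card := Finset.card_pos.2 ⟨1, one_mem_U0⟩

theorem rep_zero : Rep 0 := Or.inl rfl
theorem Primary.rep {n : O} (hn : Primary n) : Rep n :=
  Or.inr ⟨1, one_mem_U0, n, hn, (one_mul n).symm⟩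
theorem rep_mul_of_mem {u n : O} (hu : u ∈ U0) (hn : Primary n) : Rep (u * n) :=
  Or.inr ⟨u, hu, n, hn, rfl⟩
theorem Rep.exists {k : O} (h : Rep k) (hk : k ≠ 0) : ∃ u ∈ U0, ∃ n, Primary n ∧ k = u * n :=
  h.resolve_left hk
/-- Uniqueness of the row in its orbit. -/
theorem Rep.unique {v k : O} (hv : IsUnit v) (h1 : cls v = 1) (hk : Rep k) (hvk : Rep (v * k)) :
    v * k = k := by
  rcases eq_or_ne k 0 with rfl | h0
  · rw [mul_zero]
  obtain ⟨u, hu, n, hn, rfl⟩ := hk.exists h0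
  obtain ⟨u', hu', n', hn', e⟩ := hvk.exists (mul_ne_zero hv.ne_zero h0)
  obtain ⟨e1, -⟩ := unit_mul_primary_inj (hv.mul (isUnit_of_mem_U0 hu)) (isUnit_of_mem_U0 hu') hn hn'
    (by rw [← e]; ring)
  have : u' = u := eq_of_mem_U0 hu' hu (by rw [← e1, map_mul, h1, one_mul])
  rw [← mul_assoc, e1, this]

theorem mem_pball {X : ℕ} {z : O} : z ∈ pball X ↔ Primary z ∧ nm z ≤ X := by
  rw [pball, Set.Finite.mem_toFinset]
  rfl
theorem card_pball_le (X : ℕ) : (pball X).card ≤ Fr0.kp * X := by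
  have := Fr0.card_prim X
  rwa [Set.ncard_eq_toFinset_card _ (Fr0.fin_prim X)] at this
theorem mem_ball {X : ℕ} {z : O} : z ∈ ball X ↔ Rep z ∧ nm z ≤ X := by
  rw [ball, Finset.mem_insert, Finset.mem_image₂]
  constructor
  · rintro (rfl | ⟨u, hu, n, hn, rfl⟩)
    · exact ⟨rep_zero, by simp⟩
    · rw [mem_pball] at hn
      exact ⟨rep_mul_of_mem hu hn.1, by rw [nm_unit_mul (isUnit_of_mem_U0 hu)]; exact hn.2⟩
  · rintro ⟨rfl | ⟨u, hu, n, hn, rfl⟩, h⟩
    · exact Or.inl rfl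
    · rw [nm_unit_mul (isUnit_of_mem_U0 hu)] at h
      exact Or.inr ⟨u, hu, n, mem_pball.2 ⟨hn, h⟩, rfl⟩
theorem Primary.mem_ball {X : ℕ} {z : O} (h : Primary z) : z ∈ ball X ↔ nm z ≤ X := by
  rw [Crest.Agent.T27.mem_ball]
  exact ⟨fun h' => h'.2, fun h' => ⟨h.rep, h'⟩⟩
theorem zero_mem_ball (X : ℕ) : (0 : O) ∈ ball X := mem_ball.2 ⟨rep_zero, by simp⟩
theorem pball_subset_ball (X : ℕ) : pball X ⊆ ball X :=
  fun _ h => mem_ball.2 ⟨(mem_pball.1 h).1.rep, (mem_pball.1 h).2⟩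
theorem card_ball_le (X : ℕ) : (ball X).card ≤ (kk + 7) * X + 1 := by
  have h1 := Finset.card_insert_le (0 : O) (Finset.image₂ (· * ·) U0 (pball X))
  have h2 := Finset.card_image₂_le (· * · : O → O → O) U0 (pball X)
  have h3 := Nat.mul_le_mul_left U0.card (card_pball_le X)
  rw [ball, add_mul, kk, mul_assoc]
  omega
theorem c7_pos : (0 : ℝ) < c7 := by positivity
theorem mem_rows {A : ℝ} (hA : 0 ≤ A) {a : O} : a ∈ rows A ↔ a ≠ 0 ∧ Rep a ∧ nr a ≤ A := by
  rw [rows, Finset.mem_erase, mem_ball, Nat.le_floor_iff hA]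

/-- The residue ring of a prime is a field. -/
theorem isField_quot {p : O} (hp : Prime p) : IsField (O ⧸ Ideal.span {p}) := by
  have : (Ideal.span {p}).IsMaximal :=
    PrincipalIdealRing.isMaximal_of_irreducible hp.irreducible
  exact (Ideal.Quotient.maximal_ideal_iff_isField_quotient _).1 this

/-- A prime has norm `≡ 1 (mod 6)`. -/
theorem nm_prime_mod_six' {p : O} (hp : Prime p) : nm p % 6 = 1 ∧ 7 ≤ nm p := by
  classical
  have hfin := Fr0.fin_quot p hp.ne_zero
  let _ : Field (O ⧸ Ideal.span {p}) := (isField_quot hp).toField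
  let _ : Fintype (O ⧸ Ideal.span {p}) := Fintype.ofFinite _
  set π := Ideal.Quotient.mk (Ideal.span {p})
  have hne : ∀ u : O, IsUnit u → π u ≠ 0 := fun u hu => (hu.map π).ne_zero
  have hw : π om ^ 2 + π om + 1 = 0 := by
    have := congrArg π om_sq_add
    simpa using this
  have h3 : (3 : O ⧸ Ideal.span {p}) ≠ 0 := by
    have := hne 3 isUnit_three
    rwa [map_ofNat] at this
  have h2 : (2 : O ⧸ Ideal.span {p}) ≠ 0 := by
    have := hne 2 isUnit_two
    rwa [map_ofNat] at this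
  have hord : orderOf (-π om) = 6 := by
    rw [orderOf_eq_iff (by norm_num)]
    refine ⟨by linear_combination (π om ^ 4 - π om ^ 3 + π om - 1) * hw, fun m hm hm0 h => ?_⟩
    interval_cases m
    · exact hne om isUnit_om (mul_left_cancel₀ (hne om isUnit_om)
        (by linear_combination hw + h))
    · exact h3 (by linear_combination hw + (1 - π om) * hw + (π om - 1) * h)
    · exact h2 (by linear_combination (1 - π om) * hw - h)
    · exact h3 (by linear_combination (π om ^ 3 + π om ^ 2 - 2 * π om + 1) * hw - (π om + 2) * h)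
    · exact hne om isUnit_om
        (by linear_combination (1 - π om ^ 2 + π om ^ 3) * hw + h)
  have hd : 6 ∣ Fintype.card (O ⧸ Ideal.span {p}) - 1 := by
    rw [← hord]
    exact orderOf_dvd_of_pow_eq_one
      (FiniteField.pow_card_sub_one_eq_one _ (neg_ne_zero.2 (hne om isUnit_om)))
  have h1 : 1 < Fintype.card (O ⧸ Ideal.span {p}) := Fintype.one_lt_card
  rw [nm, Nat.card_eq_fintype_card]
  omega
set_option linter.unusedVariables false in
theorem nm_prime_mod {p : O} (hp : Prime p) (h : Primary p) : nm p % 3 = 1 := by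
  have := (nm_prime_mod_six' hp).1
  omega
set_option linter.unusedVariables false in
theorem nm_prime_mod_six {p : O} (hp : Prime p) (h : Primary p) : nm p % 6 = 1 ∧ 7 ≤ nm p :=
  nm_prime_mod_six' hp

/-! ## factorisation -/

theorem mem_pf {n p : O} (hn : n ≠ 0) : p ∈ pf n ↔ Prime p ∧ Primary p ∧ p ∣ n := by
  classical
  rw [pf, Finset.mem_filter, mem_ball]
  exact ⟨fun h => h.2, fun h => ⟨⟨h.2.1.rep, nm_le_of_dvd h.2.2 hn⟩, h⟩⟩
theorem BasicB.of_mem_pf {n p : O} (h : p ∈ pf n) : Prime p ∧ Primary p ∧ p ∣ n := by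
  classical
  rw [pf, Finset.mem_filter] at h
  exact h.2
theorem BasicB.pf_sub {n p : O} (h : p ∈ pf n) : Prime p ∧ Primary p :=
  ⟨(BasicB.of_mem_pf h).1, (BasicB.of_mem_pf h).2.1⟩
theorem BasicB.pf_unit {u : O} (hu : IsUnit u) : pf u = ∅ :=
  Finset.eq_empty_of_forall_notMem fun _ h =>
    (BasicB.of_mem_pf h).1.not_isUnit (isUnit_of_dvd_unit (BasicB.of_mem_pf h).2.2 hu)
@[simp] theorem pf_one : pf 1 = ∅ := BasicB.pf_unit isUnit_one
@[simp] theorem pf_zero : pf 0 = ∅ := by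
  classical
  refine Finset.eq_empty_of_forall_notMem fun p h => ?_
  rw [pf, Finset.mem_filter, mem_ball, nm_zero, Nat.le_zero, nm_eq_zero] at h
  exact h.2.1.ne_zero h.1.2
theorem pf_mul {m n : O} (hm : m ≠ 0) (hn : n ≠ 0) : pf (m * n) = pf m ∪ pf n := by
  ext p
  rw [Finset.mem_union, mem_pf (mul_ne_zero hm hn), mem_pf hm, mem_pf hn, ← and_or_left,
    ← and_or_left]
  exact and_congr_right fun hp => and_congr_right fun _ => hp.dvd_mul
theorem pf_pow {n : O} {k : ℕ} (hk : k ≠ 0) : pf (n ^ k) = pf n := by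
  rcases eq_or_ne n 0 with rfl | hn
  · rw [zero_pow hk]
  ext p
  rw [mem_pf (pow_ne_zero k hn), mem_pf hn]
  exact and_congr_right fun hp => and_congr_right fun _ => hp.dvd_pow_iff_dvd hk
theorem BasicB.eq_of_dvd {p q : O} (hp : Prime p) (hq : Prime q) (hp' : Primary p)
    (hq' : Primary q) (h : p ∣ q) : p = q :=
  hp'.eq_of_associated hq' (hp.associated_of_dvd hq h)
theorem pf_prime {p : O} (hp : Prime p) (h : Primary p) : pf p = {p} := by
  ext q
  rw [mem_pf hp.ne_zero, Finset.mem_singleton]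
  exact ⟨fun hq => BasicB.eq_of_dvd hq.1 hp hq.2.1 h hq.2.2, fun hq => by rw [hq]; exact ⟨hp, h, dvd_rfl⟩⟩
theorem pf_unit_mul {u n : O} (hu : IsUnit u) : pf (u * n) = pf n := by
  rcases eq_or_ne n 0 with rfl | hn
  · rw [mul_zero]
  rw [pf_mul hu.ne_zero hn, BasicB.pf_unit hu, Finset.empty_union]
theorem disjoint_pf {m n : O} (h : IsCoprime m n) : Disjoint (pf m) (pf n) :=
  Finset.disjoint_left.2 fun _ h1 h2 => (BasicB.of_mem_pf h1).1.not_isUnit
    (h.isUnit_of_dvd' (BasicB.of_mem_pf h1).2.2 (BasicB.of_mem_pf h2).2.2)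
theorem isCoprime_of_disjoint_pf {m n : O} (hm : Primary m) (hn : n ≠ 0)
    (h : Disjoint (pf m) (pf n)) : IsCoprime m n := by
  refine isCoprime_of_prime_dvd (fun h0 => hn h0.2) fun p hp h1 h2 => ?_
  obtain ⟨u, hu, hup⟩ := exists_unit_primary hp.ne_zero
  have hp' : Prime (u * p) := (associated_unit_mul_right p u hu).prime hp
  exact Finset.disjoint_left.1 h
    ((mem_pf hm.ne_zero).2 ⟨hp', hup, (hu.mul_left_dvd).2 h1⟩)
    ((mem_pf hn).2 ⟨hp', hup, (hu.mul_left_dvd).2 h2⟩)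
theorem pow_dvd_iff_le_vp {p n : O} (hp : Prime p) (hn : n ≠ 0) {k : ℕ} :
    p ^ k ∣ n ↔ k ≤ vp p n :=
  (FiniteMultiplicity.of_prime_left hp hn).pow_dvd_iff_le_multiplicity
set_option linter.unusedVariables false in
theorem vp_eq_zero_iff {p n : O} (hp : Prime p) (hn : n ≠ 0) : vp p n = 0 ↔ ¬ p ∣ n :=
  multiplicity_eq_zero
theorem vp_mul {p m n : O} (hp : Prime p) (hm : m ≠ 0) (hn : n ≠ 0) :
    vp p (m * n) = vp p m + vp p n :=
  multiplicity_mul hp (FiniteMultiplicity.of_prime_left hp (mul_ne_zero hm hn))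
theorem BasicB.vp_unit {p u : O} (hp : Prime p) (hu : IsUnit u) : vp p u = 0 :=
  (vp_eq_zero_iff hp hu.ne_zero).2 fun h => hp.not_isUnit (isUnit_of_dvd_unit h hu)
theorem vp_pow {p n : O} (hp : Prime p) (hn : n ≠ 0) (k : ℕ) : vp p (n ^ k) = k * vp p n := by
  induction k with
  | zero => rw [pow_zero, BasicB.vp_unit hp isUnit_one, zero_mul]
  | succ k ih => rw [pow_succ, vp_mul hp (pow_ne_zero k hn) hn, ih, add_one_mul]
set_option linter.unusedVariables false in
theorem vp_self {p : O} (hp : Prime p) : vp p p = 1 := multiplicity_self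
theorem vp_of_ne {p q : O} (hp : Prime p) (hq : Prime q) (hp' : Primary p) (hq' : Primary q)
    (h : p ≠ q) : vp p q = 0 :=
  (vp_eq_zero_iff hp hq.ne_zero).2 fun hd => h (BasicB.eq_of_dvd hp hq hp' hq' hd)
theorem BasicB.primary_prod_pow {s : Finset O} (hs : ∀ q ∈ s, Prime q ∧ Primary q) (e : O → ℕ) :
    Primary (∏ q ∈ s, q ^ e q) := Primary.prod fun q hq => (hs q hq).2.pow _
theorem vp_prod_pow {s : Finset O} (hs : ∀ q ∈ s, Prime q ∧ Primary q) (e : O → ℕ) {p : O}
    (hp : Prime p) (hp' : Primary p) :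
    vp p (∏ q ∈ s, q ^ e q) = if p ∈ s then e p else 0 := by
  induction s using Finset.induction_on with
  | empty => rw [Finset.prod_empty, BasicB.vp_unit hp isUnit_one, if_neg (Finset.notMem_empty p)]
  | insert q s hq ih =>
    have hs' : ∀ r ∈ s, Prime r ∧ Primary r := fun r hr => hs r (Finset.mem_insert_of_mem hr)
    obtain ⟨h1, h2⟩ := hs q (Finset.mem_insert_self q s)
    rw [Finset.prod_insert hq, vp_mul hp (pow_ne_zero _ h1.ne_zero)
      (BasicB.primary_prod_pow hs' e).ne_zero, vp_pow hp h1.ne_zero, ih hs']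
    by_cases h : p = q
    · subst h
      rw [vp_self hp, if_neg hq, if_pos (Finset.mem_insert_self p s), mul_one, add_zero]
    · rw [vp_of_ne hp h1 hp' h2 h, mul_zero, zero_add]
      simp only [Finset.mem_insert, h, false_or]
theorem BasicB.mem_pf_iff {n p : O} (hn : n ≠ 0) (hp : Prime p) (hp' : Primary p) :
    p ∈ pf n ↔ vp p n ≠ 0 := by
  rw [mem_pf hn, Ne, vp_eq_zero_iff hp hn, not_not]
  exact ⟨fun h => h.2.2, fun h => ⟨hp, hp', h⟩⟩
theorem BasicB.vp_ne_zero {n p : O} (h : p ∈ pf n) : vp p n ≠ 0 :=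
  fun h0 => multiplicity_eq_zero.1 h0 (BasicB.of_mem_pf h).2.2
/-- Induction over primary elements. -/
theorem Primary.induction {P : O → Prop} (h1 : P 1)
    (hmul : ∀ p n, Prime p → Primary p → Primary n → P n → P (p * n)) {n : O} (hn : Primary n) :
    P n := by
  have key : ∀ a : O, ∀ u : O, IsUnit u → Primary (u * a) → P (u * a) := by
    intro a
    induction a using UniqueFactorizationMonoid.induction_on_prime with
    | h₁ => exact fun u _ h => absurd (mul_zero u) h.ne_zero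
    | h₂ x hx => exact fun u hu h => (h.eq_one_of_isUnit (hu.mul hx)).symm ▸ h1
    | h₃ a p _ hp ih =>
      intro u hu h
      obtain ⟨v, hv, hvp⟩ := exists_unit_primary hp.ne_zero
      obtain ⟨w, hw⟩ := hv.exists_right_inv
      have e : u * (p * a) = v * p * (u * w * a) := by linear_combination (-(u * p * a)) * hw
      rw [e] at h ⊢
      exact hmul _ _ ((associated_unit_mul_right p v hv).prime hp) hvp (hvp.of_mul h)
        (ih _ (hu.mul (IsUnit.of_mul_eq_one_right v hw)) (hvp.of_mul h))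
  have := key n 1 isUnit_one (by rwa [one_mul])
  rwa [one_mul] at this
theorem BasicB.prod_superset {n : O} (hn : n ≠ 0) {s : Finset O}
    (hs : ∀ q ∈ s, Prime q ∧ Primary q) (h : pf n ⊆ s) :
    ∏ p ∈ s, p ^ vp p n = ∏ p ∈ pf n, p ^ vp p n := by
  refine (Finset.prod_subset h fun p hp hp' => ?_).symm
  rw [BasicB.mem_pf_iff hn (hs p hp).1 (hs p hp).2, not_not] at hp'
  rw [hp', pow_zero]
theorem BasicB.prod_mul {m n : O} (hm : m ≠ 0) (hn : n ≠ 0) :
    ∏ p ∈ pf (m * n), p ^ vp p (m * n) =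
      (∏ p ∈ pf m, p ^ vp p m) * ∏ p ∈ pf n, p ^ vp p n := by
  have hs : ∀ q ∈ pf (m * n), Prime q ∧ Primary q := fun q => BasicB.pf_sub
  rw [← BasicB.prod_superset hm hs (pf_mul hm hn ▸ Finset.subset_union_left),
    ← BasicB.prod_superset hn hs (pf_mul hm hn ▸ Finset.subset_union_right),
    ← Finset.prod_mul_distrib]
  exact Finset.prod_congr rfl fun p hp => by rw [vp_mul (hs p hp).1 hm hn, pow_add]
theorem Primary.eq_prod {n : O} (hn : Primary n) : n = ∏ p ∈ pf n, p ^ vp p n := by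
  refine Primary.induction (P := fun n => n = ∏ p ∈ pf n, p ^ vp p n) (by simp)
    (fun p n hp hp' hn ih => ?_) hn
  rw [BasicB.prod_mul hp.ne_zero hn.ne_zero, ← ih, pf_prime hp hp', Finset.prod_singleton,
    vp_self hp, pow_one]
theorem exists_eq_unit_prod {n : O} (hn : n ≠ 0) :
    ∃ u : O, IsUnit u ∧ n = u * ∏ p ∈ pf n, p ^ vp p n := by
  obtain ⟨u, m, hu, hm, rfl⟩ := exists_eq_unit_mul_primary hn
  refine ⟨u, hu, ?_⟩
  rw [BasicB.prod_mul hu.ne_zero hm.ne_zero, BasicB.pf_unit hu, Finset.prod_empty, one_mul,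
    ← hm.eq_prod]
theorem BasicB.prod_dvd {n : O} (hn : n ≠ 0) : ∏ p ∈ pf n, p ^ vp p n ∣ n := by
  obtain ⟨u, -, h⟩ := exists_eq_unit_prod hn
  exact Dvd.intro_left _ h.symm
theorem isUnit_iff_pf {n : O} (hn : n ≠ 0) : IsUnit n ↔ pf n = ∅ := by
  refine ⟨BasicB.pf_unit, fun h => ?_⟩
  obtain ⟨u, hu, e⟩ := exists_eq_unit_prod hn
  rwa [e, h, Finset.prod_empty, mul_one]
theorem Primary.ext_vp {m n : O} (hm : Primary m) (hn : Primary n)
    (h : ∀ p, Prime p → Primary p → vp p m = vp p n) : m = n := by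
  have e : pf m = pf n := by
    ext p
    by_cases hp : Prime p ∧ Primary p
    · rw [BasicB.mem_pf_iff hm.ne_zero hp.1 hp.2, BasicB.mem_pf_iff hn.ne_zero hp.1 hp.2,
        h p hp.1 hp.2]
    · exact iff_of_false (fun h => hp (BasicB.pf_sub h)) fun h => hp (BasicB.pf_sub h)
  rw [hm.eq_prod, hn.eq_prod.trans rfl, ← hm.eq_prod]
  conv_lhs => rw [hm.eq_prod, e]
  exact Finset.prod_congr rfl fun p hp => by
    rw [h p (BasicB.pf_sub hp).1 (BasicB.pf_sub hp).2]
theorem BasicB.vp_le_of_dvd {p m n : O} (hp : Prime p) (hn : n ≠ 0) (h : m ∣ n) :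
    vp p m ≤ vp p n :=
  (pow_dvd_iff_le_vp hp hn).1 ((pow_multiplicity_dvd p m).trans h)
theorem Primary.dvd_iff_vp {m n : O} (hm : Primary m) (hn : n ≠ 0) :
    m ∣ n ↔ ∀ p ∈ pf m, vp p m ≤ vp p n := by
  refine ⟨fun h p hp => BasicB.vp_le_of_dvd (BasicB.pf_sub hp).1 hn h, fun h => ?_⟩
  have hsub : pf m ⊆ pf n := fun p hp => by
    rw [BasicB.mem_pf_iff hn (BasicB.pf_sub hp).1 (BasicB.pf_sub hp).2]
    have h1 := BasicB.vp_ne_zero hp
    have h2 := h p hp
    omega
  calc m = ∏ p ∈ pf m, p ^ vp p m := hm.eq_prod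
    _ ∣ ∏ p ∈ pf m, p ^ vp p n := Finset.prod_dvd_prod_of_dvd _ _ fun p hp => pow_dvd_pow p (h p hp)
    _ ∣ ∏ p ∈ pf n, p ^ vp p n := Finset.prod_dvd_prod_of_subset _ _ _ hsub
    _ ∣ n := BasicB.prod_dvd hn
theorem squarefree_prod_primes {s : Finset O} (hs : ∀ q ∈ s, Prime q ∧ Primary q) :
    Squarefree (∏ q ∈ s, q) ∧ Primary (∏ q ∈ s, q) ∧ pf (∏ q ∈ s, q) = s := by
  have h1 : Primary (∏ q ∈ s, q) := Primary.prod fun q hq => (hs q hq).2
  refine ⟨Finset.squarefree_prod_of_pairwise_isCoprime (fun p hp q hq hpq => ?_)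
    fun q hq => (hs q hq).1.squarefree, h1, ?_⟩
  · exact (hs p hp).1.irreducible.isRelPrime_iff_not_dvd.2 fun h =>
      hpq (BasicB.eq_of_dvd (hs p hp).1 (hs q hq).1 (hs p hp).2 (hs q hq).2 h)
  · ext p
    rw [mem_pf h1.ne_zero]
    refine ⟨fun h => ?_, fun h => ⟨(hs p h).1, (hs p h).2, Finset.dvd_prod_of_mem _ h⟩⟩
    obtain ⟨q, hq, hpq⟩ := (h.1.dvd_finsetProd_iff _).1 h.2.2
    rwa [BasicB.eq_of_dvd h.1 (hs q hq).1 h.2.1 (hs q hq).2 hpq]
theorem BasicB.vp_le_one {n p : O} (h : Squarefree n) (hp : Prime p) : vp p n ≤ 1 := by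
  by_contra h1
  have h2 := (pow_dvd_iff_le_vp hp h.ne_zero (k := 2)).2 (by omega)
  exact hp.not_isUnit (h p (by rwa [← sq]))
theorem BasicB.eq_rad {n : O} (hn : Primary n) (h : ∀ p ∈ pf n, vp p n = 1) : rad n = n := by
  conv_rhs => rw [hn.eq_prod]
  exact Finset.prod_congr rfl fun p hp => by rw [h p hp, pow_one]
theorem squarefree_rad (n : O) : Squarefree (rad n) :=
  (squarefree_prod_primes fun _ => BasicB.pf_sub).1
theorem Primary.squarefree_iff {n : O} (hn : Primary n) :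
    Squarefree n ↔ ∀ p ∈ pf n, vp p n = 1 := by
  refine ⟨fun h p hp => ?_, fun h => BasicB.eq_rad hn h ▸ squarefree_rad n⟩
  have h1 := BasicB.vp_le_one h (BasicB.pf_sub hp).1
  have h2 := BasicB.vp_ne_zero hp
  omega
theorem Primary.eq_rad {n : O} (hn : Primary n) (h : Squarefree n) : rad n = n :=
  BasicB.eq_rad hn (hn.squarefree_iff.1 h)
theorem primary_rad (n : O) : Primary (rad n) :=
  (squarefree_prod_primes fun _ => BasicB.pf_sub).2.1
theorem pf_rad (n : O) : pf (rad n) = pf n :=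
  (squarefree_prod_primes fun _ => BasicB.pf_sub).2.2
theorem BasicB.prod_dvd_of_subset {n : O} (hn : n ≠ 0) {s : Finset O} (h : s ⊆ pf n) :
    ∏ q ∈ s, q ∣ n :=
  (Finset.prod_dvd_prod_of_subset _ _ _ h).trans
    ((Finset.prod_dvd_prod_of_dvd _ _ fun _ hp => dvd_pow_self _ (BasicB.vp_ne_zero hp)).trans
      (BasicB.prod_dvd hn))
theorem rad_dvd (n : O) : rad n ∣ n := by
  rcases eq_or_ne n 0 with rfl | hn
  · exact dvd_zero _
  · exact BasicB.prod_dvd_of_subset hn subset_rfl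

/-- Theta indices: `μ = m d³`. -/
theorem sq1_cu {m d : O} (hm : Primary m) (hm' : Squarefree m) (hd : Primary d) :
    sq1 (m * d ^ 3) = m ∧ cu (m * d ^ 3) = d ∧ ∀ p ∈ pf (m * d ^ 3), vp p (m * d ^ 3) % 3 ≠ 2 := by
  have hv : ∀ p, Prime p → vp p (m * d ^ 3) = vp p m + 3 * vp p d ∧ vp p m ≤ 1 := fun p hp =>
    ⟨by rw [vp_mul hp hm.ne_zero (pow_ne_zero 3 hd.ne_zero), vp_pow hp hd.ne_zero],
      BasicB.vp_le_one hm' hp⟩
  have hpf : pf (m * d ^ 3) = pf m ∪ pf d := by
    rw [pf_mul hm.ne_zero (pow_ne_zero 3 hd.ne_zero), pf_pow (by norm_num)]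
  refine ⟨?_, ?_, fun p hp => ?_⟩
  · conv_rhs => rw [← hm.eq_rad hm']
    refine Finset.prod_congr ?_ fun _ _ => rfl
    ext p
    rw [Finset.mem_filter]
    constructor
    · rintro ⟨h1, h2⟩
      obtain ⟨h3, h4⟩ := BasicB.pf_sub h1
      rw [BasicB.mem_pf_iff hm.ne_zero h3 h4]
      have := hv p h3
      omega
    · intro h1
      have h2 := hv p (BasicB.pf_sub h1).1
      have h3 := BasicB.vp_ne_zero h1
      exact ⟨hpf ▸ Finset.mem_union_left _ h1, by omega⟩
  · conv_rhs => rw [hd.eq_prod, ← BasicB.prod_superset (s := pf (m * d ^ 3)) hd.ne_zero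
      (fun _ => BasicB.pf_sub) (hpf ▸ Finset.subset_union_right)]
    refine Finset.prod_congr rfl fun p hp => ?_
    have := hv p (BasicB.pf_sub hp).1
    congr 1
    omega
  · have := hv p (BasicB.pf_sub hp).1
    omega
theorem BasicB.eq_mod_mul_div {n : O} (hn : Primary n) (k : ℕ) :
    n = (∏ p ∈ pf n, p ^ (vp p n % k)) * (∏ p ∈ pf n, p ^ (vp p n / k)) ^ k := by
  rw [← Finset.prod_pow, ← Finset.prod_mul_distrib]
  refine hn.eq_prod.trans (Finset.prod_congr rfl fun p _ => ?_)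
  rw [← pow_mul, ← pow_add, Nat.mod_add_div']
theorem eq_sq1_mul_cu {n : O} (hn : Primary n) (h : ∀ p ∈ pf n, vp p n % 3 ≠ 2) :
    n = sq1 n * cu n ^ 3 ∧ Primary (sq1 n) ∧ Squarefree (sq1 n) ∧ Primary (cu n) := by
  have h1 := squarefree_prod_primes (s := (pf n).filter fun p => vp p n % 3 = 1)
    fun q hq => BasicB.pf_sub (Finset.mem_filter.1 hq).1
  refine ⟨(BasicB.eq_mod_mul_div hn 3).trans ?_, h1.2.1, h1.1,
    BasicB.primary_prod_pow (fun _ => BasicB.pf_sub) _⟩
  congr 1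
  rw [sq1, Finset.prod_filter]
  refine Finset.prod_congr rfl fun p hp => ?_
  have := h p hp
  split_ifs with h2
  · rw [h2, pow_one]
  · rw [show vp p n % 3 = 0 by omega, pow_zero]


/-! ## primary divisors, gcd and the Möbius function -/

open Classical in
/-- The primary divisors of `n ≠ 0`. -/
def pdiv (n : O) : Finset O := (ball (nm n)).filter (fun d => Primary d ∧ d ∣ n)

theorem mem_pdiv {n d : O} (hn : n ≠ 0) : d ∈ pdiv n ↔ Primary d ∧ d ∣ n := by
  classical
  rw [pdiv, Finset.mem_filter, mem_ball]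
  exact ⟨fun h => h.2, fun h => ⟨⟨h.1.rep, nm_le_of_dvd h.2 hn⟩, h⟩⟩

/-- The primary gcd. -/
def pgcd (m n : O) : O := ∏ p ∈ pf m ∩ pf n, p ^ min (vp p m) (vp p n)

theorem primary_pgcd (m n : O) : Primary (pgcd m n) :=
  BasicB.primary_prod_pow (fun _ h => BasicB.pf_sub (Finset.mem_inter.1 h).1) _
theorem BasicB.vp_pgcd {m n p : O} (hm : m ≠ 0) (hn : n ≠ 0) (hp : Prime p) (hp' : Primary p) :
    vp p (pgcd m n) = min (vp p m) (vp p n) := by
  rw [pgcd, vp_prod_pow (fun _ h => BasicB.pf_sub (Finset.mem_inter.1 h).1) _ hp hp']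
  split_ifs with h
  · rfl
  · rw [Finset.mem_inter, BasicB.mem_pf_iff hm hp hp', BasicB.mem_pf_iff hn hp hp'] at h
    omega
theorem dvd_pgcd_iff {m n d : O} (hm : m ≠ 0) (hn : n ≠ 0) (hd : Primary d) :
    d ∣ pgcd m n ↔ d ∣ m ∧ d ∣ n := by
  rw [hd.dvd_iff_vp (primary_pgcd m n).ne_zero, hd.dvd_iff_vp hm, hd.dvd_iff_vp hn,
    ← forall₂_and]
  exact forall₂_congr fun p hp => by
    rw [BasicB.vp_pgcd hm hn (BasicB.pf_sub hp).1 (BasicB.pf_sub hp).2, le_min_iff]

theorem BasicB.mu_of_squarefree {n : O} (h : Squarefree n) : mu n = (-1) ^ (pf n).card := if_pos h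
theorem BasicB.mu_of_not {n : O} (h : ¬ Squarefree n) : mu n = 0 := if_neg h
@[simp] theorem mu_one : mu 1 = 1 := by
  rw [BasicB.mu_of_squarefree squarefree_one, pf_one, Finset.card_empty, pow_zero]
theorem mu_prime {p : O} (hp : Prime p) (h : Primary p) : mu p = -1 := by
  rw [BasicB.mu_of_squarefree hp.squarefree, pf_prime hp h, Finset.card_singleton, pow_one]
theorem mu_mul {m n : O} (hm : Primary m) (hn : Primary n) (h : IsCoprime m n) :
    mu (m * n) = mu m * mu n := by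
  by_cases h1 : Squarefree m
  · by_cases h2 : Squarefree n
    · rw [BasicB.mu_of_squarefree h1, BasicB.mu_of_squarefree h2,
        BasicB.mu_of_squarefree (squarefree_mul_iff.2 ⟨h.isRelPrime, h1, h2⟩),
        pf_mul hm.ne_zero hn.ne_zero, Finset.card_union_of_disjoint (disjoint_pf h), pow_add]
    · rw [BasicB.mu_of_not h2, BasicB.mu_of_not fun h3 => h2 h3.of_mul_right, mul_zero]
  · rw [BasicB.mu_of_not h1, BasicB.mu_of_not fun h3 => h1 h3.of_mul_left, zero_mul]
theorem norm_mu_le (n : O) : ‖mu n‖ ≤ 1 := by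
  by_cases h : Squarefree n
  · simp [BasicB.mu_of_squarefree h]
  · simp [BasicB.mu_of_not h]
open Classical in
theorem sum_mu_pdiv {n : O} (hn : n ≠ 0) :
    ∑ d ∈ pdiv n, mu d = if pf n = ∅ then 1 else 0 := by
  have h1 : ∑ d ∈ pdiv n, mu d = ∑ s ∈ (pf n).powerset, (-1 : ℂ) ^ s.card := by
    rw [← Finset.sum_filter_of_ne (p := Squarefree)
      fun d _ h => by_contra fun h' => h (BasicB.mu_of_not h')]
    refine Finset.sum_nbij' pf (fun s => ∏ q ∈ s, q) (fun d hd => ?_) (fun s hs => ?_)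
      (fun d hd => ?_) (fun s hs => ?_) fun d hd => ?_
    · obtain ⟨h2, -⟩ := Finset.mem_filter.1 hd
      refine Finset.mem_powerset.2 fun p hp => ?_
      obtain ⟨h3, h4, h5⟩ := BasicB.of_mem_pf hp
      exact (mem_pf hn).2 ⟨h3, h4, h5.trans ((mem_pdiv hn).1 h2).2⟩
    · have hs' := Finset.mem_powerset.1 hs
      have h2 := squarefree_prod_primes (s := s) fun q hq => BasicB.pf_sub (hs' hq)
      exact Finset.mem_filter.2
        ⟨(mem_pdiv hn).2 ⟨h2.2.1, BasicB.prod_dvd_of_subset hn hs'⟩, h2.1⟩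
    · obtain ⟨h2, h3⟩ := Finset.mem_filter.1 hd
      exact ((mem_pdiv hn).1 h2).1.eq_rad h3
    · exact (squarefree_prod_primes fun q hq => BasicB.pf_sub (Finset.mem_powerset.1 hs hq)).2.2
    · exact BasicB.mu_of_squarefree (Finset.mem_filter.1 hd).2
  have h2 := congrArg (Int.cast : ℤ → ℂ) (Finset.sum_powerset_neg_one_pow_card (x := pf n))
  push_cast at h2
  rw [h1, h2]

/-! ## residue systems -/

theorem mk_eq_mk_iff {n x y : O} :
    Ideal.Quotient.mk (Ideal.span {n}) x = Ideal.Quotient.mk (Ideal.span {n}) y ↔ n ∣ x - y := by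
  rw [Ideal.Quotient.eq, Ideal.mem_span_singleton]

theorem mod_def (x n : O) : x % n = Quotient.out (Ideal.Quotient.mk (Ideal.span {n}) x) := rfl

set_option linter.unusedVariables false in
theorem mod_congr {n : O} (hn : n ≠ 0) {x y : O} (h : n ∣ x - y) : x % n = y % n := by
  rw [mod_def, mod_def, mk_eq_mk_iff.2 h]

theorem dvd_sub_mod' (x n : O) : n ∣ x - x % n :=
  mk_eq_mk_iff.1 (Ideal.Quotient.mk_out _).symm

theorem mem_res {n : O} (hn : n ≠ 0) {x : O} : x ∈ res n ↔ x % n = x := by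
  classical
  rw [res, dif_pos hn, Finset.mem_image, mod_def]
  constructor
  · rintro ⟨q, -, rfl⟩
    rw [Ideal.Quotient.mk_out]
  · intro h
    exact ⟨_, by simp, h⟩

theorem exists_unique_res_aux {n : O} (hn : n ≠ 0) (x : O) : ∃! r, r ∈ res n ∧ n ∣ x - r := by
  refine ⟨x % n, ⟨(mem_res hn).2 (mod_congr hn ?_), dvd_sub_mod' x n⟩, fun r hr => ?_⟩
  · rw [← dvd_neg, neg_sub]
    exact dvd_sub_mod' x n
  · rw [mod_congr hn hr.2, (mem_res hn).1 hr.1]

theorem bijOn_res {n : O} {S : Finset O} (hS : ∀ x, ∃! r, r ∈ S ∧ n ∣ x - r) :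
    Set.BijOn (Ideal.Quotient.mk (Ideal.span {n})) (S : Set O) Set.univ := by
  refine ⟨fun _ _ => Set.mem_univ _, fun x hx y hy h => ?_, fun q _ => ?_⟩
  · exact (hS x).unique ⟨hx, by simp⟩ ⟨hy, mk_eq_mk_iff.1 h⟩
  · obtain ⟨x, rfl⟩ := Ideal.Quotient.mk_surjective q
    obtain ⟨r, ⟨hr, hr'⟩, -⟩ := hS x
    exact ⟨r, hr, (mk_eq_mk_iff.2 hr').symm⟩

theorem card_quot_aux (n : O) : Nat.card (O ⧸ Ideal.span {n}) = nm n := rfl

theorem card_res {n : O} (hn : n ≠ 0) : (res n).card = nm n := by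
  rw [← card_quot_aux, ← Nat.card_univ, ← Nat.card_congr (bijOn_res (exists_unique_res_aux hn)).equiv]
  simp
theorem exists_unique_res {n : O} (hn : n ≠ 0) (x : O) : ∃! r, r ∈ res n ∧ n ∣ x - r :=
  exists_unique_res_aux hn x

theorem sum_eq_of_systems {n : O} (f : O → ℂ) (hf : ∀ x y, n ∣ x - y → f x = f y)
    {S T : Finset O} (hS : ∀ x, ∃! r, r ∈ S ∧ n ∣ x - r) (hT : ∀ x, ∃! r, r ∈ T ∧ n ∣ x - r) :
    ∑ x ∈ S, f x = ∑ x ∈ T, f x := by
  refine Finset.sum_bij' (fun x _ => (hT x).choose) (fun x _ => (hS x).choose)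
    (fun x _ => (hT x).choose_spec.1.1) (fun x _ => (hS x).choose_spec.1.1)
    (fun x hx => ?_) (fun x hx => ?_) (fun x _ => hf _ _ (hT x).choose_spec.1.2)
  · refine ((hS _).choose_spec.2 x ⟨hx, ?_⟩).symm
    rw [← dvd_neg, neg_sub]
    exact (hT x).choose_spec.1.2
  · refine ((hT _).choose_spec.2 x ⟨hx, ?_⟩).symm
    rw [← dvd_neg, neg_sub]
    exact (hS x).choose_spec.1.2

/-- Any complete residue system computes the sum of a periodic function. -/
theorem sum_res_eq {n : O} (hn : n ≠ 0) (f : O → ℂ) (hf : ∀ x y, n ∣ x - y → f x = f y)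
    (S : Finset O) (hS : ∀ x, ∃! r, r ∈ S ∧ n ∣ x - r) : ∑ x ∈ res n, f x = ∑ x ∈ S, f x :=
  sum_eq_of_systems f hf (exists_unique_res hn) hS

/-- Parametrised complete residue systems. -/
theorem sum_res_param {n : O} (hn : n ≠ 0) (f : O → ℂ) (hf : ∀ x y, n ∣ x - y → f x = f y)
    {α : Type*} (s : Finset α) (g : α → O) (hg : ∀ x, ∃! a, a ∈ s ∧ n ∣ x - g a) :
    ∑ x ∈ res n, f x = ∑ a ∈ s, f (g a) := by
  classical
  have hinj : ∀ a ∈ s, ∀ b ∈ s, g a = g b → a = b := fun a ha b hb h =>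
    (hg (g a)).unique ⟨ha, by simp⟩ ⟨hb, by rw [h]; simp⟩
  rw [← Finset.sum_image (f := f) (g := g) hinj]
  refine sum_res_eq hn f hf _ fun x => ?_
  obtain ⟨a, ⟨ha, ha'⟩, hu⟩ := hg x
  refine ⟨g a, ⟨Finset.mem_image_of_mem _ ha, ha'⟩, ?_⟩
  rintro r ⟨hr, hr'⟩
  obtain ⟨b, hb, rfl⟩ := Finset.mem_image.1 hr
  rw [hu b ⟨hb, hr'⟩]

theorem sum_res_affine {n : O} (hn : n ≠ 0) (f : O → ℂ) (hf : ∀ x y, n ∣ x - y → f x = f y)
    {a : O} (ha : IsCoprime a n) (b : O) : ∑ x ∈ res n, f (a * x + b) = ∑ x ∈ res n, f x := by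
  refine (sum_res_param hn f hf (res n) (fun x => a * x + b) fun x => ?_).symm
  obtain ⟨u, v, huv⟩ := id ha
  obtain ⟨r, ⟨hr, k, hk⟩, hu⟩ := exists_unique_res hn (u * (x - b))
  refine ⟨r, ⟨hr, a * k + v * (x - b), ?_⟩, ?_⟩
  · linear_combination a * hk - (x - b) * huv
  · rintro r' ⟨hr', k', hk'⟩
    refine hu r' ⟨hr', u * k' - v * r', ?_⟩
    linear_combination u * hk' + r' * huv
/-- Chinese remainder theorem, additive form. -/
theorem sum_res_crt {m n : O} (hm : m ≠ 0) (hn : n ≠ 0) (h : IsCoprime m n) (f : O → ℂ)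
    (hf : ∀ x y, m * n ∣ x - y → f x = f y) :
    ∑ x ∈ res (m * n), f x = ∑ x ∈ res m, ∑ y ∈ res n, f (n * x + m * y) := by
  rw [← Finset.sum_product']
  refine sum_res_param (mul_ne_zero hm hn) f hf (res m ×ˢ res n)
    (fun z => n * z.1 + m * z.2) fun x => ?_
  obtain ⟨u, v, huv⟩ := id h
  obtain ⟨r, ⟨hr, k, hk⟩, hu⟩ := exists_unique_res hm (v * x)
  obtain ⟨s, ⟨hs, l, hl⟩, hu'⟩ := exists_unique_res hn (u * x)
  refine ⟨(r, s), ⟨Finset.mem_product.2 ⟨hr, hs⟩, k + l, ?_⟩, ?_⟩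
  · linear_combination n * hk + m * hl - x * huv
  · rintro ⟨r', s'⟩ ⟨hrs, k', hk'⟩
    obtain ⟨hr', hs'⟩ := Finset.mem_product.1 hrs
    simp only at hr' hs' hk'
    have e1 := hu r' ⟨hr', v * n * k' + v * s' - u * r', by linear_combination v * hk' + r' * huv⟩
    have e2 := hu' s' ⟨hs', u * m * k' + u * r' - v * s', by linear_combination u * hk' + s' * huv⟩
    rw [e1, e2]
/-- Lifting a sum to a multiple of the modulus. -/
theorem sum_res_mul {m n : O} (hm : m ≠ 0) (hn : n ≠ 0) (f : O → ℂ)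
    (hf : ∀ x y, m * n ∣ x - y → f x = f y) :
    ∑ x ∈ res (m * n), f x = ∑ x ∈ res m, ∑ y ∈ res n, f (x + m * y) := by
  rw [← Finset.sum_product']
  refine sum_res_param (mul_ne_zero hm hn) f hf (res m ×ˢ res n)
    (fun z => z.1 + m * z.2) fun x => ?_
  obtain ⟨r, ⟨hr, k, hk⟩, hu⟩ := exists_unique_res hm x
  obtain ⟨s, ⟨hs, l, hl⟩, hu'⟩ := exists_unique_res hn k
  refine ⟨(r, s), ⟨Finset.mem_product.2 ⟨hr, hs⟩, l, ?_⟩, ?_⟩
  · linear_combination hk + m * hl
  · rintro ⟨r', s'⟩ ⟨hrs, k', hk'⟩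
    obtain ⟨hr', hs'⟩ := Finset.mem_product.1 hrs
    simp only at hr' hs' hk'
    have e1 := hu r' ⟨hr', n * k' + s', by linear_combination hk'⟩
    subst e1
    have e2 := hu' s' ⟨hs', k', mul_left_cancel₀ hm (by linear_combination hk' - hk)⟩
    rw [e2]
theorem sum_res_assoc {m n : O} (hm : m ≠ 0) (h : Associated m n) (f : O → ℂ)
    (hf : ∀ x y, m ∣ x - y → f x = f y) : ∑ x ∈ res m, f x = ∑ x ∈ res n, f x := by
  have hn : n ≠ 0 := h.ne_zero_iff.1 hm
  refine sum_res_eq hm f hf _ fun x => ?_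
  simp only [h.dvd_iff_dvd_left]
  exact exists_unique_res hn x
instance finite_quot (n : O) [h : Fact (n ≠ 0)] : Finite (O ⧸ Ideal.span {n}) := by
  apply Nat.finite_of_card_ne_zero
  rw [card_quot_aux]
  exact fun h' => h.out (nm_eq_zero.1 h')
theorem card_quot {n : O} (hn : n ≠ 0) : Nat.card (O ⧸ Ideal.span {n}) = nm n := card_quot_aux n
theorem sum_res_eq_quot {n : O} (hn : n ≠ 0) [Fintype (O ⧸ Ideal.span {n})]
    (f : O ⧸ Ideal.span {n} → ℂ) :
    ∑ x ∈ res n, f (Ideal.Quotient.mk _ x) = ∑ y, f y := by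
  have hb := bijOn_res (exists_unique_res hn)
  refine Finset.sum_nbij (Ideal.Quotient.mk _) (fun _ _ => Finset.mem_univ _) hb.injOn ?_
    fun _ _ => rfl
  simpa using hb.surjOn

/-! ## the additive character -/

theorem eq_add (x y n : O) : eq (x + y) n = eq x n * eq y n := Fr0.eqF_add x y n
theorem norm_eq (x n : O) : ‖eq x n‖ = 1 := Fr0.eqF_norm x n
theorem eq_mul_self (x n : O) : eq (n * x) n = 1 := Fr0.eqF_self x n
theorem eq_zero_left (n : O) : eq 0 n = 1 := by
  have := eq_mul_self 0 n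
  rwa [mul_zero] at this
theorem eq_congr {x y n : O} (h : n ∣ x - y) : eq x n = eq y n := by
  obtain ⟨k, hk⟩ := h
  have hx : x = y + n * k := by rw [← hk]; ring
  rw [hx, eq_add, eq_mul_self, mul_one]
theorem eq_mul_mul {g : O} (hg : g ≠ 0) (x n : O) : eq (g * x) (g * n) = eq x n :=
  Fr0.eqF_mul g x n hg
theorem eq_neg (x n : O) : eq (-x) n = conj (eq x n) := by
  have h1 : eq (-x) n * eq x n = 1 := by rw [← eq_add, neg_add_cancel, eq_zero_left]
  have h2 : conj (eq x n) * eq x n = 1 := by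
    rw [Complex.conj_mul', norm_eq]
    simp
  exact mul_right_cancel₀ (right_ne_zero_of_mul_eq_one h1) (h1.trans h2.symm)
theorem eq_crt {m n : O} (hm : m ≠ 0) (hn : n ≠ 0) (x y : O) :
    eq (n * x + m * y) (m * n) = eq x m * eq y n := by
  rw [eq_add, eq_mul_mul hm, mul_comm m n, eq_mul_mul hn]
theorem dvd_of_eq_eq_one {n k : O} (hn : n ≠ 0) (h : ∀ x, eq (k * x) n = 1) : n ∣ k :=
  Fr0.eqF_nondeg k n hn h
open Classical in
/-- Orthogonality of additive characters. -/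
theorem sum_res_eq_char {n : O} (hn : n ≠ 0) (k : O) :
    ∑ x ∈ res n, eq (k * x) n = if n ∣ k then (nm n : ℂ) else 0 := by
  split_ifs with h
  · rw [Finset.sum_congr rfl (g := fun _ => (1 : ℂ))]
    · simp [card_res hn]
    · intro x _
      rw [← eq_zero_left n]
      exact eq_congr (by simpa using h.mul_right x)
  · obtain ⟨y, hy⟩ : ∃ y, eq (k * y) n ≠ 1 := by
      by_contra hc
      push Not at hc
      exact h (dvd_of_eq_eq_one hn hc)
    have h1 := sum_res_affine hn (fun x => eq (k * x) n)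
      (fun x y hxy => eq_congr (by rw [← mul_sub]; exact hxy.mul_left k)) isCoprime_one_left y
    simp only [one_mul, mul_add, eq_add, ← Finset.sum_mul] at h1
    exact eq_zero_of_mul_eq_self_right hy h1

/-! ## class characters -/

theorem isUnit_mk_iff {M n : O} :
    IsUnit (Ideal.Quotient.mk (Ideal.span {M}) n) ↔ IsCoprime n M := by
  constructor
  · intro h
    obtain ⟨q, hq⟩ := h.exists_left_inv
    obtain ⟨u, rfl⟩ := Ideal.Quotient.mk_surjective q
    rw [← map_mul, ← map_one (Ideal.Quotient.mk (Ideal.span {M})), mk_eq_mk_iff] at hq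
    obtain ⟨k, hk⟩ := hq
    exact ⟨u, -k, by linear_combination hk⟩
  · rintro ⟨u, v, h⟩
    refine IsUnit.of_mul_eq_one_right (Ideal.Quotient.mk _ u) ?_
    rw [← map_mul, ← map_one (Ideal.Quotient.mk (Ideal.span {M})), mk_eq_mk_iff]
    exact ⟨-v, by linear_combination h⟩



end Crest.Agent.T27
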