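import Mathlib
import Crest.Agent.T27.HeckeA_87

/-!
# Row 27, Hecke integral, part B (helper87): theta inversion on fractional ideals

For a number field `K`, positive weights `t w` at the infinite places and a point `z` of
`K ⊗ ℝ` (a function on the complex embeddings commuting with conjugation):

`∑_{x ∈ I} gz t (z + x) = cov(I)⁻¹ (∏_φ t φ)^(-1/2) ∑_{y ∈ I^∨} gs t⁻¹ y * e(⟨z, y⟩)`.
-/

set_option autoImplicit false
set_option linter.unusedSectionVars false

noncomputable section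

open MeasureTheory Complex Set Filter Topology Matrix NumberField Module
open scoped Real ComplexConjugate nonZeroDivisors
open Crest.Agent.R272.Poi307 Crest.Agent.T27.HeckeA87

namespace Crest.Agent.T27.HeckeB87

variable {K : Type*} [Field K] [NumberField K]

theorem trace_eq (x : K) : ((Algebra.trace ℚ K x : ℚ) : ℂ) = ∑ φ : K →+* ℂ, φ x := by
  have h := trace_eq_sum_embeddings (K := ℚ) (L := K) (E := ℂ) (x := x)
  rw [eq_ratCast] at h
  rw [h]
  exact (Fintype.sum_equiv (RingHom.equivRatAlgHom K ℂ) _ _ fun φ => rfl).symm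

theorem sum_conj {M : Type*} [AddCommMonoid M] (f : (K →+* ℂ) → M) :
    ∑ φ, f (ComplexEmbedding.conjugate φ) = ∑ φ, f φ :=
  Equiv.sum_comp (ComplexEmbedding.involutive_conjugate K).toPerm f

theorem sum_emb (f : InfinitePlace K → ℝ) :
    ∑ φ : K →+* ℂ, f (InfinitePlace.mk φ) = ∑ w, w.mult * f w := by
  classical
  rw [← Finset.sum_fiberwise Finset.univ InfinitePlace.mk]
  refine Finset.sum_congr rfl fun w _ => ?_
  rw [Finset.sum_congr rfl (g := fun _ => f w) (fun φ hφ => by rw [(Finset.mem_filter.1 hφ).2]),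
    Finset.sum_const, InfinitePlace.card_filter_mk_eq, nsmul_eq_mul]

theorem prod_emb (f : InfinitePlace K → ℝ) :
    ∏ φ : K →+* ℂ, f (InfinitePlace.mk φ) = ∏ w, f w ^ w.mult := by
  classical
  rw [← Finset.prod_fiberwise Finset.univ InfinitePlace.mk]
  refine Finset.prod_congr rfl fun w _ => ?_
  rw [Finset.prod_congr rfl (g := fun _ => f w) (fun φ hφ => by rw [(Finset.mem_filter.1 hφ).2]),
    Finset.prod_const, InfinitePlace.card_filter_mk_eq]

/-- the Gaussian on `K ⊗ ℝ` -/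
def gz (t : InfinitePlace K → ℝ) (z : (K →+* ℂ) → ℂ) : ℝ :=
  Real.exp (-(π * ∑ φ, t (InfinitePlace.mk φ) * ‖z φ‖ ^ 2))

/-- the Gaussian on `K` -/
def gs (t : InfinitePlace K → ℝ) (x : K) : ℝ := gz t fun φ => φ x


theorem gs_pos (t : InfinitePlace K → ℝ) (x : K) : 0 < gs t x := Real.exp_pos _

theorem gs_zero (t : InfinitePlace K → ℝ) : gs t (0 : K) = 1 := by simp [gs, gz]

theorem gs_eq (t : InfinitePlace K → ℝ) (x : K) :
    gs t x = Real.exp (-(π * ∑ w : InfinitePlace K, w.mult * (t w * w x ^ 2))) := by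
  rw [← sum_emb fun w => t w * w x ^ 2]
  rfl

section basis

variable {κ : Type*} [Fintype κ] [DecidableEq κ]

/-- the Gram matrix -/
def gram (b : κ → K) (t : InfinitePlace K → ℝ) : Matrix κ κ ℝ :=
  Matrix.of fun i j => ∑ φ : K →+* ℂ, t (InfinitePlace.mk φ) * (φ (b i) * conj (φ (b j))).re

theorem gram_coe (b : κ → K) (t : InfinitePlace K → ℝ) (i j : κ) :
    (gram b t i j : ℂ) = ∑ φ : K →+* ℂ, t (InfinitePlace.mk φ) * (φ (b i) * conj (φ (b j))) := by
  set S : ℂ := ∑ φ : K →+* ℂ, t (InfinitePlace.mk φ) * (φ (b i) * conj (φ (b j))) with hS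
  have h1 : conj S = S := by
    rw [hS, map_sum, ← sum_conj]
    refine Finset.sum_congr rfl fun φ _ => ?_
    simp [ComplexEmbedding.conjugate_coe_eq]
  have h2 : gram b t i j = S.re := by
    rw [hS, Complex.re_sum]
    simp [gram]
  rw [h2]
  exact Complex.conj_eq_iff_re.1 h1

theorem gram_symm (b : κ → K) (t : InfinitePlace K → ℝ) (i j : κ) :
    gram b t j i = gram b t i j := by
  simp only [gram, Matrix.of_apply]
  refine Finset.sum_congr rfl fun φ _ => ?_
  congr 1
  simp [mul_comm]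

theorem quad_gram (b : κ → K) (t : InfinitePlace K → ℝ) (x : κ → ℝ) :
    x ⬝ᵥ gram b t *ᵥ x =
      ∑ φ : K →+* ℂ, t (InfinitePlace.mk φ) * ‖∑ i, (x i : ℂ) * φ (b i)‖ ^ 2 := by
  apply Complex.ofReal_injective
  simp only [dotProduct, mulVec, Complex.ofReal_sum, Complex.ofReal_mul, gram_coe,
    Complex.ofReal_pow, ← Complex.mul_conj', map_sum, map_mul, Complex.conj_ofReal,
    Finset.mul_sum, Finset.sum_mul]
  rw [Finset.sum_comm]
  conv_rhs => rw [Finset.sum_comm]
  refine Finset.sum_congr rfl fun j _ => ?_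
  rw [Finset.sum_comm]
  refine Finset.sum_congr rfl fun φ _ => Finset.sum_congr rfl fun i _ => ?_
  ring

/-- the matrix of the embeddings -/
def emb (e : κ ≃ (K →+* ℂ)) (b : κ → K) : Matrix κ κ ℂ := Matrix.of fun i j => e j (b i)

theorem emb_mul_transpose (e : κ ≃ (K →+* ℂ)) (b c : κ → K) (i j : κ) :
    (emb e b * (emb e c)ᵀ) i j = ((Algebra.trace ℚ K (b i * c j) : ℚ) : ℂ) := by
  rw [trace_eq, ← Equiv.sum_comp e]
  simp [emb, Matrix.mul_apply]

theorem emb_dual (e : κ ≃ (K →+* ℂ)) (b : Basis κ ℚ K) :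
    emb e b * (emb e b.traceDual)ᵀ = 1 := by
  ext i j
  rw [emb_mul_transpose, Basis.trace_mul_traceDual, Matrix.one_apply]
  split_ifs <;> simp

theorem gram_map (e : κ ≃ (K →+* ℂ)) (b : κ → K) (t : InfinitePlace K → ℝ) :
    (gram b t).map ((↑) : ℝ → ℂ) =
      emb e b * diagonal (fun j => (t (InfinitePlace.mk (e j)) : ℂ)) * (emb e b)ᴴ := by
  ext i j
  rw [Matrix.map_apply, gram_coe, ← Equiv.sum_comp e, Matrix.mul_apply]
  refine Finset.sum_congr rfl fun k _ => ?_
  simp only [mul_diagonal, emb, of_apply, conjTranspose_apply, RCLike.star_def]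
  ring

theorem gram_map' (e : κ ≃ (K →+* ℂ)) (b : κ → K) (t : InfinitePlace K → ℝ) :
    (gram b t).map ((↑) : ℝ → ℂ) =
      ((emb e b)ᴴ)ᵀ * diagonal (fun j => (t (InfinitePlace.mk (e j)) : ℂ)) * (emb e b)ᵀ := by
  ext i j
  rw [Matrix.map_apply, ← gram_symm, gram_coe, ← Equiv.sum_comp e, Matrix.mul_apply]
  refine Finset.sum_congr rfl fun k _ => ?_
  simp only [mul_diagonal, emb, of_apply, conjTranspose_apply, RCLike.star_def, transpose_apply]
  ring

theorem nonempty_equiv (b : Basis κ ℚ K) : Nonempty (κ ≃ (K →+* ℂ)) := by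
  refine ⟨Fintype.equivOfCardEq ?_⟩
  rw [NumberField.Embeddings.card K ℂ, Module.finrank_eq_card_basis b]

theorem gram_mul (b : Basis κ ℚ K) {t : InfinitePlace K → ℝ} (ht : ∀ w, 0 < t w) :
    gram b t * gram b.traceDual (fun w => (t w)⁻¹) = 1 := by
  obtain ⟨e⟩ := nonempty_equiv b
  have hinj : Function.Injective fun M : Matrix κ κ ℝ => M.map ((↑) : ℝ → ℂ) :=
    Matrix.map_injective Complex.ofReal_injective
  apply hinj
  have h1 : (gram b t * gram b.traceDual (fun w => (t w)⁻¹)).map ((↑) : ℝ → ℂ) =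
      (gram b t).map ((↑) : ℝ → ℂ) *
        (gram b.traceDual (fun w => (t w)⁻¹)).map ((↑) : ℝ → ℂ) :=
    Matrix.map_mul (f := Complex.ofRealHom)
  have h2 : (1 : Matrix κ κ ℝ).map ((↑) : ℝ → ℂ) = 1 :=
    Matrix.map_one _ Complex.ofReal_zero Complex.ofReal_one
  have h3 := emb_dual e b
  have h4 : (emb e b.traceDual)ᵀ * emb e b = 1 := mul_eq_one_comm.1 h3
  have h5 : (emb e b)ᴴ * ((emb e b.traceDual)ᴴ)ᵀ = 1 := by
    have h6 := congrArg Matrix.conjTranspose h4
    rw [conjTranspose_mul, conjTranspose_one] at h6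
    exact h6
  show (gram b t * gram b.traceDual (fun w => (t w)⁻¹)).map ((↑) : ℝ → ℂ) =
    (1 : Matrix κ κ ℝ).map ((↑) : ℝ → ℂ)
  rw [h1, h2, gram_map e, gram_map' e]
  have h7 : diagonal (fun j => (t (InfinitePlace.mk (e j)) : ℂ)) *
      diagonal (fun j => (((t (InfinitePlace.mk (e j)))⁻¹ : ℝ) : ℂ)) = 1 := by
    rw [diagonal_mul_diagonal, ← diagonal_one]
    congr 1
    ext j
    rw [← Complex.ofReal_mul, mul_inv_cancel₀ (ht _).ne', Complex.ofReal_one]
  calc _ = emb e b * (diagonal (fun j => (t (InfinitePlace.mk (e j)) : ℂ)) *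
        ((emb e b)ᴴ * ((emb e b.traceDual)ᴴ)ᵀ) *
        diagonal (fun j => (((t (InfinitePlace.mk (e j)))⁻¹ : ℝ) : ℂ))) *
          (emb e b.traceDual)ᵀ := by simp only [Matrix.mul_assoc]
    _ = 1 := by rw [h5, Matrix.mul_one, h7, Matrix.mul_one, h3]

theorem gram_inv (b : Basis κ ℚ K) {t : InfinitePlace K → ℝ} (ht : ∀ w, 0 < t w) :
    (gram b t)⁻¹ = gram b.traceDual (fun w => (t w)⁻¹) :=
  Matrix.inv_eq_right_inv (gram_mul b ht)

theorem gram_posDef (b : Basis κ ℚ K) {t : InfinitePlace K → ℝ} (ht : ∀ w, 0 < t w) :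
    (gram b t).PosDef := by
  have h1 : (gram b t).PosSemidef := by
    refine PosSemidef.of_dotProduct_mulVec_nonneg ?_ fun x => ?_
    · ext i j
      rw [conjTranspose_apply, star_trivial, gram_symm]
    · rw [star_trivial, quad_gram]
      exact Finset.sum_nonneg fun φ _ => mul_nonneg (ht _).le (sq_nonneg _)
  exact h1.posDef_iff_isUnit.2 (IsUnit.of_mul_eq_one _ (gram_mul b ht))

theorem gram_det (b : Basis κ ℚ K) (t : InfinitePlace K → ℝ) :
    (gram b t).det = |((Algebra.discr ℚ b : ℚ) : ℝ)| * ∏ w, t w ^ w.mult := by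
  obtain ⟨e⟩ := nonempty_equiv b
  apply Complex.ofReal_injective
  have h1 : ((gram b t).det : ℂ) = ((gram b t).map ((↑) : ℝ → ℂ)).det :=
    RingHom.map_det Complex.ofRealHom (gram b t)
  have h2 : (emb e b).det ^ 2 = ((Algebra.discr ℚ b : ℚ) : ℂ) := by
    have h3 : emb e b * (emb e b)ᵀ = (Algebra.traceMatrix ℚ b).map (algebraMap ℚ ℂ) := by
      ext i j
      rw [emb_mul_transpose, Matrix.map_apply, Algebra.traceMatrix_apply, Algebra.traceForm_apply,
        eq_ratCast]
    have h4 := congrArg Matrix.det h3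
    rw [det_mul, det_transpose, ← RingHom.mapMatrix_apply, ← RingHom.map_det, eq_ratCast,
      ← Algebra.discr_def] at h4
    rw [sq, h4]
  have h5 : (emb e b).det * conj (emb e b).det = (|((Algebra.discr ℚ b : ℚ) : ℝ)| : ℝ) := by
    rw [Complex.mul_conj', ← Complex.ofReal_pow, ← norm_pow, h2, ← Complex.ofReal_ratCast,
      Complex.norm_real, Real.norm_eq_abs]
  rw [h1, gram_map e, det_mul, det_mul, det_conjTranspose, det_diagonal, Complex.ofReal_mul, ← h5,
    ← prod_emb, ← Equiv.prod_comp e, Complex.ofReal_prod, RCLike.star_def]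
  ring

/-- the lattice point with coordinates `m` -/
def pt (b : κ → K) (m : κ → ℤ) : K := ∑ i, m i • b i

theorem emb_pt (b : κ → K) (m : κ → ℤ) (φ : K →+* ℂ) :
    φ (pt b m) = ∑ i, ((ic m i : ℝ) : ℂ) * φ (b i) := by
  simp [pt, map_sum]

theorem gq_gram_ic (b : κ → K) (t : InfinitePlace K → ℝ) (m : κ → ℤ) :
    gq (gram b t) (ic m) = gs t (pt b m) := by
  simp only [gq, quad_gram, gs, gz, emb_pt]

theorem theta_basis (b : Basis κ ℚ K) {t : InfinitePlace K → ℝ} (ht : ∀ w, 0 < t w)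
    {z : (K →+* ℂ) → ℂ} (hz : ∀ φ, z (ComplexEmbedding.conjugate φ) = conj (z φ)) :
    Summable (fun m : κ → ℤ => gz t fun φ => z φ + φ (pt b m)) ∧
    HasSum (fun k : κ → ℤ =>
      (((Real.sqrt (|((Algebra.discr ℚ b : ℚ) : ℝ)| * ∏ w, t w ^ w.mult))⁻¹ *
        gs (fun w => (t w)⁻¹) (pt b.traceDual k) : ℝ) : ℂ) *
        cexp (2 * π * I * ∑ φ, z φ * φ (pt b.traceDual k)))
      (∑' m : κ → ℤ, ((gz t fun φ => z φ + φ (pt b m) : ℝ) : ℂ)) := by
  obtain ⟨e⟩ := nonempty_equiv b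
  set ξ : κ → ℝ := fun i => (∑ φ, z φ * φ (b.traceDual i)).re with hξ
  have h1 : ∀ i, (ξ i : ℂ) = ∑ φ, z φ * φ (b.traceDual i) := by
    intro i
    refine Complex.conj_eq_iff_re.1 ?_
    rw [map_sum, ← sum_conj]
    refine Finset.sum_congr rfl fun φ _ => ?_
    simp [hz, ComplexEmbedding.conjugate_coe_eq]
  have h2 : ∀ φ, ∑ i, (ξ i : ℂ) * φ (b i) = z φ := by
    intro φ
    obtain ⟨j, rfl⟩ := e.surjective φ
    have h4 : (emb e b.traceDual)ᵀ * emb e b = 1 := mul_eq_one_comm.1 (emb_dual e b)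
    simp only [h1, Finset.sum_mul]
    rw [Finset.sum_comm, ← Equiv.sum_comp e]
    have h5 : ∀ k, ∑ i, z (e k) * e k (b.traceDual i) * e j (b i) =
        z (e k) * (1 : Matrix κ κ ℂ) k j := by
      intro k
      rw [← h4, Matrix.mul_apply, Finset.mul_sum]
      refine Finset.sum_congr rfl fun i _ => ?_
      simp [emb, mul_assoc]
    simp only [h5, Matrix.one_apply, mul_ite, mul_one, mul_zero, Finset.sum_ite_eq',
      Finset.mem_univ, if_true]
  have h3 : ∀ m : κ → ℤ, gq (gram b t) (ξ + ic m) = gz t fun φ => z φ + φ (pt b m) := by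
    intro m
    simp only [gq, quad_gram, gz, emb_pt, ← h2, Pi.add_apply, Complex.ofReal_add, add_mul,
      Finset.sum_add_distrib]
  have h6 : ∀ k : κ → ℤ, ch k ξ = cexp (2 * π * I * ∑ φ, z φ * φ (pt b.traceDual k)) := by
    intro k
    unfold ch dot
    congr 2
    simp only [Complex.ofReal_sum, Complex.ofReal_mul, h1, emb_pt, Finset.mul_sum, ic_apply]
    rw [Finset.sum_comm]
    refine Finset.sum_congr rfl fun φ _ => Finset.sum_congr rfl fun i _ => ?_
    ring
  refine ⟨?_, ?_⟩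
  · simpa only [h3] using summable_gq (gram_posDef b ht) ξ
  · have h7 := gauss_poisson (gram_posDef b ht) ξ
    simpa only [h3, h6, gram_det, gram_inv b ht, gq_gram_ic] using h7

/-- integer coordinates on a lattice -/
def ptEquiv (b : Basis κ ℚ K) {S : Set K}
    (hS : ∀ x, x ∈ Submodule.span ℤ (Set.range b) ↔ x ∈ S) : (κ → ℤ) ≃ S :=
  Equiv.ofBijective
    (fun m => ⟨pt b m, (hS _).1 (Submodule.sum_mem _ fun i _ =>
      Submodule.smul_mem _ _ (Submodule.subset_span ⟨i, rfl⟩))⟩)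
    ⟨fun m n h => by
      have h1 : pt b m = pt b n := congrArg Subtype.val h
      funext i
      have h2 := congrArg (fun x => b.repr x i) h1
      simp only [pt, ← Int.cast_smul_eq_zsmul ℚ, Basis.repr_sum_self] at h2
      exact_mod_cast h2,
    fun x => by
      obtain ⟨c, hc⟩ := (Submodule.mem_span_range_iff_exists_fun ℤ).1 ((hS x.1).2 x.2)
      exact ⟨c, Subtype.ext hc⟩⟩


end basis

section ideal

/-- nonzero fractional ideals -/
abbrev FI (K : Type*) [Field K] [NumberField K] := (FractionalIdeal (𝓞 K)⁰ K)ˣ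

/-- the elements of a fractional ideal -/
def el (J : FI K) : Set K := {x | x ∈ (J : FractionalIdeal (𝓞 K)⁰ K)}

/-- the trace dual -/
def dl (J : FI K) : FI K :=
  Units.mk0 (FractionalIdeal.dual ℤ ℚ (J : FractionalIdeal (𝓞 K)⁰ K))
    (FractionalIdeal.dual_ne_zero ℤ ℚ J.ne_zero)

/-- the real norm of a fractional ideal -/
def nm (J : FI K) : ℝ := ((FractionalIdeal.absNorm (J : FractionalIdeal (𝓞 K)⁰ K) : ℚ) : ℝ)

/-- the covolume -/
def cov (J : FI K) : ℝ := nm J * Real.sqrt |(discr K : ℝ)|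

theorem nm_pos (J : FI K) : 0 < nm J := by
  unfold nm
  have h1 := FractionalIdeal.absNorm_nonneg (J : FractionalIdeal (𝓞 K)⁰ K)
  have h2 : FractionalIdeal.absNorm (J : FractionalIdeal (𝓞 K)⁰ K) ≠ 0 := by
    rw [Ne, FractionalIdeal.absNorm_eq_zero_iff]
    exact J.ne_zero
  exact_mod_cast lt_of_le_of_ne h1 h2.symm

theorem nm_mul (I J : FI K) : nm (I * J) = nm I * nm J := by
  simp [nm]

theorem abs_discr_pos : 0 < |(discr K : ℝ)| :=
  abs_pos.2 (Int.cast_ne_zero.2 (discr_ne_zero K))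

theorem cov_pos (J : FI K) : 0 < cov J :=
  mul_pos (nm_pos J) (Real.sqrt_pos.2 abs_discr_pos)

theorem dl_eq (J : FI K) : dl J = dl 1 * J⁻¹ := by
  ext1
  simp only [dl, Units.val_mk0, Units.val_mul, Units.val_one, Units.val_inv_eq_inv_val]
  exact FractionalIdeal.dual_eq_mul_inv ℤ ℚ _

theorem nm_dl_one : nm (dl (1 : FI K)) = |(discr K : ℝ)|⁻¹ := by
  have h1 := coeIdeal_differentIdeal ℤ ℚ K (𝓞 K)
  have h2 := congrArg FractionalIdeal.absNorm h1
  rw [FractionalIdeal.coeIdeal_absNorm, absNorm_differentIdeal K, map_inv₀] at h2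
  have h3 : nm (dl (1 : FI K)) =
      ((FractionalIdeal.absNorm (FractionalIdeal.dual ℤ ℚ (1 : FractionalIdeal (𝓞 K)⁰ K)) : ℚ) :
        ℝ) := rfl
  rw [h3, ← inv_inv (FractionalIdeal.absNorm _), ← h2]
  push_cast
  rw [Nat.cast_natAbs, Int.cast_abs]

theorem nm_dl (J : FI K) : nm (dl J) * nm J = |(discr K : ℝ)|⁻¹ := by
  rw [← nm_mul, dl_eq, inv_mul_cancel_right, nm_dl_one]

theorem abs_discr_basis (J : FI K) :
    |((Algebra.discr ℚ (basisOfFractionalIdeal K J) : ℚ) : ℝ)| = cov J ^ 2 := by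
  classical
  let e : (Free.ChooseBasisIndex ℤ (𝓞 K)) ≃ (Free.ChooseBasisIndex ℤ J) :=
    Fintype.equivOfCardEq (by
      rw [← Module.finrank_eq_card_basis (integralBasis K),
        ← Module.finrank_eq_card_basis (basisOfFractionalIdeal K J)])
  have h1 := det_basisOfFractionalIdeal_eq_absNorm K J e
  set c := (basisOfFractionalIdeal K J).reindex e.symm with hc
  have h2 : Algebra.discr ℚ c = Algebra.discr ℚ (basisOfFractionalIdeal K J) := by
    rw [hc, Basis.coe_reindex]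
    exact Algebra.discr_reindex ℚ (basisOfFractionalIdeal K J) e.symm
  have h3 : (c : _ → K) = integralBasis K ᵥ* ((integralBasis K).toMatrix c).map (algebraMap ℚ K) :=
    ((integralBasis K).toMatrix_map_vecMul c).symm
  have h4 : Algebra.discr ℚ c = ((integralBasis K).det c) ^ 2 * (discr K : ℚ) := by
    rw [coe_discr, Basis.det_apply, ← Algebra.discr_of_matrix_vecMul, ← h3]
  rw [← h2, h4, cov, mul_pow, Real.sq_sqrt (abs_nonneg _), nm, ← h1]
  push_cast
  rw [abs_mul, abs_pow]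

theorem mem_span_el (J : FI K) (x : K) :
    x ∈ Submodule.span ℤ (Set.range (basisOfFractionalIdeal K J)) ↔ x ∈ el J :=
  mem_span_basisOfFractionalIdeal K

theorem mem_span_el_dl (J : FI K) (x : K) :
    open Classical in
    x ∈ Submodule.span ℤ (Set.range (basisOfFractionalIdeal K J).traceDual) ↔ x ∈ el (dl J) := by
  classical
  have h1 := Submodule.traceDual_span_of_basis ℤ (K := ℚ) (L := K) (B := 𝓞 K)
    ((J : FractionalIdeal (𝓞 K)⁰ K) : Submodule (𝓞 K) K) (basisOfFractionalIdeal K J) (by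
      ext y
      rw [mem_span_el]
      rfl)
  rw [← h1, ← FractionalIdeal.coe_dual ℤ ℚ J.ne_zero]
  rfl

/-- **Theta inversion** on a fractional ideal, with an arbitrary real shift. -/
theorem theta_ideal (J : FI K) {t : InfinitePlace K → ℝ} (ht : ∀ w, 0 < t w)
    {z : (K →+* ℂ) → ℂ} (hz : ∀ φ, z (ComplexEmbedding.conjugate φ) = conj (z φ)) :
    Summable (fun x : el J => gz t fun φ => z φ + φ (x : K)) ∧
    HasSum (fun y : el (dl J) =>
      ((((cov J * Real.sqrt (∏ w, t w ^ w.mult))⁻¹ * gs (fun w => (t w)⁻¹) (y : K)) : ℝ) : ℂ) *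
        cexp (2 * π * I * ∑ φ, z φ * φ (y : K)))
      (∑' x : el J, ((gz t fun φ => z φ + φ (x : K) : ℝ) : ℂ)) := by
  classical
  obtain ⟨h1, h2⟩ := theta_basis (basisOfFractionalIdeal K J) ht hz
  refine ⟨(ptEquiv _ (mem_span_el J)).summable_iff.1 h1, ?_⟩
  rw [← (ptEquiv _ (mem_span_el J)).tsum_eq, ← (ptEquiv _ (mem_span_el_dl J)).hasSum_iff]
  rw [abs_discr_basis, Real.sqrt_mul (sq_nonneg _), Real.sqrt_sq (cov_pos J).le] at h2
  exact h2

theorem summable_gs (J : FI K) {t : InfinitePlace K → ℝ} (ht : ∀ w, 0 < t w) (z : K) :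
    Summable fun x : el J => gs t (z + x) := by
  have h := (theta_ideal J ht (z := fun φ => φ z) fun φ => rfl).1
  simpa only [gs, map_add] using h

/-- Theta inversion on a coset of a fractional ideal. -/
theorem theta_coset (J : FI K) {t : InfinitePlace K → ℝ} (ht : ∀ w, 0 < t w) (z : K) :
    HasSum (fun y : el (dl J) =>
      ((((cov J * Real.sqrt (∏ w, t w ^ w.mult))⁻¹ * gs (fun w => (t w)⁻¹) (y : K)) : ℝ) : ℂ) *
        cexp (2 * π * I * ((Algebra.trace ℚ K (z * y) : ℚ) : ℂ)))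
      (∑' x : el J, ((gs t (z + x) : ℝ) : ℂ)) := by
  have h := (theta_ideal J ht (z := fun φ => φ z) fun φ => rfl).2
  simpa only [gs, map_add, trace_eq, map_mul] using h

end ideal

end Crest.Agent.T27.HeckeB87
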