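import Crest.Agent.PVc.R17.Contour
import Crest.Agent.T27.KerDefs_63
import Crest.Agent.T27.Basic_55
import Crest.Agent.T27.Cnt_21

-- ▼ part T27/KerGA_63
section

/-!
# Row 27, generic half of `KerAx`, part A (helper63): Gaussian smoothing of a base kernel

`sm G x = ∫ G(x e^v) exp(-v² + v/2) dv`; its Mellin transform is `mm G s = G^(s) Wm(1/2 - s)`.
-/

set_option autoImplicit false

noncomputable section

namespace Crest.Agent.T27.K63

open MeasureTheory Filter Topology Complex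

/-- The hypotheses on the base kernel. -/
structure Base (G : ℝ → ℝ) : Prop where
  pos : ∀ x, 0 < x → 0 < G x
  anti : AntitoneOn G (Set.Ioi 0)
  le : ∀ A : ℝ, 0 < A → ∃ C : ℝ, 0 < C ∧ ∀ x : ℝ, 0 < x → G x ≤ C * x ^ (-A)

/-- The self-dual weight. -/
def wv (v : ℝ) : ℝ := Real.exp (-v ^ 2 + v / 2)

/-- The smoothed kernel. -/
def sm (G : ℝ → ℝ) (x : ℝ) : ℝ := ∫ v : ℝ, G (x * Real.exp v) * wv v

/-- The Mellin transform of the base kernel. -/
def MG (G : ℝ → ℝ) (s : ℂ) : ℂ := ∫ u : ℝ, (G (Real.exp u) : ℂ) * cexp (s * u)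

/-- The Mellin transform of the smoothed kernel. -/
def mm (G : ℝ → ℝ) (s : ℂ) : ℂ := MG G s * R17.Wm (1 / 2 - s)

theorem wv_pos (v : ℝ) : 0 < wv v := Real.exp_pos _

theorem wv_neg (v : ℝ) : Real.exp (-v) * wv v = wv (-v) := by
  unfold wv
  rw [← Real.exp_add]
  congr 1
  ring

theorem continuous_wv : Continuous wv := by unfold wv; fun_prop

theorem integrable_gauss (a : ℝ) : Integrable fun v : ℝ => Real.exp (a * v) * wv v := by
  have h := (integrable_cexp_quadratic' (b := -1) (by norm_num) ((a + 1 / 2 : ℝ) : ℂ) 0).norm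
  refine h.congr (Eventually.of_forall fun v => ?_)
  simp only [Complex.norm_exp, wv]
  rw [← Real.exp_add]
  congr 1
  simp [pow_two]
  ring

theorem integrable_wv : Integrable wv := by simpa using integrable_gauss 0

/-- The total mass of the weight. -/
def W0 : ℝ := ∫ v, wv v

theorem W0_pos : 0 < W0 :=
  integral_pos_of_integrable_nonneg_nonzero (x := 0) continuous_wv integrable_wv
    (fun v => (wv_pos v).le) (wv_pos 0).ne'

variable {G : ℝ → ℝ}

theorem Base.antitone (h : Base G) {x : ℝ} (hx : 0 < x) :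
    Antitone fun v : ℝ => G (x * Real.exp v) := fun _ _ hab =>
  h.anti (mul_pos hx (Real.exp_pos _)) (mul_pos hx (Real.exp_pos _))
    (mul_le_mul_of_nonneg_left (Real.exp_le_exp.2 hab) hx.le)

theorem Base.meas (h : Base G) {x : ℝ} (hx : 0 < x) :
    Measurable fun v : ℝ => G (x * Real.exp v) := (h.antitone hx).measurable

theorem Base.meas1 (h : Base G) : Measurable fun v : ℝ => G (Real.exp v) := by
  simpa using h.meas one_pos

theorem rpow_mul_exp {x : ℝ} (hx : 0 < x) (A v : ℝ) :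
    (x * Real.exp v) ^ (-A) = x ^ (-A) * Real.exp (-A * v) := by
  rw [Real.mul_rpow hx.le (Real.exp_pos _).le, ← Real.exp_mul, mul_comm v]

/-- The basic majorant, with the constant of the base kernel. -/
theorem Base.le_sm (h : Base G) {A : ℝ} (hA : 0 < A) : ∃ C : ℝ, 0 < C ∧ ∀ x : ℝ, 0 < x →
    ∀ v : ℝ, G (x * Real.exp v) * wv v ≤ C * x ^ (-A) * (Real.exp (-A * v) * wv v) := by
  obtain ⟨C, hC, hb⟩ := h.le A hA
  refine ⟨C, hC, fun x hx v => ?_⟩
  have := hb _ (mul_pos hx (Real.exp_pos v))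
  rw [rpow_mul_exp hx] at this
  calc G (x * Real.exp v) * wv v ≤ C * (x ^ (-A) * Real.exp (-A * v)) * wv v :=
        mul_le_mul_of_nonneg_right this (wv_pos v).le
    _ = _ := by ring

theorem Base.integrable (h : Base G) {x : ℝ} (hx : 0 < x) :
    Integrable fun v : ℝ => G (x * Real.exp v) * wv v := by
  obtain ⟨C, -, hb⟩ := h.le_sm one_pos
  refine ((integrable_gauss (-1)).const_mul (C * x ^ (-1 : ℝ))).mono'
    ((h.meas hx).mul continuous_wv.measurable).aestronglyMeasurable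
    (Eventually.of_forall fun v => ?_)
  rw [Real.norm_of_nonneg (mul_pos (h.pos _ (mul_pos hx (Real.exp_pos v))) (wv_pos v)).le]
  exact hb x hx v

theorem Base.sm_pos (h : Base G) {x : ℝ} (hx : 0 < x) : 0 < sm G x := by
  have hp : ∀ v : ℝ, 0 < G (x * Real.exp v) * wv v := fun v =>
    mul_pos (h.pos _ (mul_pos hx (Real.exp_pos v))) (wv_pos v)
  refine (integral_pos_iff_support_of_nonneg (fun v => (hp v).le) (h.integrable hx)).2 ?_
  have : Function.support (fun v : ℝ => G (x * Real.exp v) * wv v) = Set.univ :=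
    Set.eq_univ_of_forall fun v => (hp v).ne'
  rw [this]
  simp

theorem Base.sm_anti (h : Base G) : AntitoneOn (sm G) (Set.Ioi 0) := fun x hx y hy hxy => by
  refine integral_mono (h.integrable hy) (h.integrable hx) fun v => ?_
  exact mul_le_mul_of_nonneg_right (h.anti (mul_pos hx (Real.exp_pos _))
    (mul_pos hy (Real.exp_pos _)) (mul_le_mul_of_nonneg_right hxy (Real.exp_pos _).le))
    (wv_pos v).le

theorem Base.sm_le (h : Base G) {A : ℝ} (hA : 0 < A) : ∃ C : ℝ, 0 < C ∧ ∀ x : ℝ, 0 < x →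
    sm G x ≤ C * x ^ (-A) := by
  obtain ⟨C, hC, hb⟩ := h.le_sm hA
  have hI : 0 ≤ ∫ v : ℝ, Real.exp (-A * v) * wv v :=
    integral_nonneg fun v => (mul_pos (Real.exp_pos _) (wv_pos v)).le
  refine ⟨C * ((∫ v : ℝ, Real.exp (-A * v) * wv v) + 1), by positivity, fun x hx => ?_⟩
  have h1 : sm G x ≤ ∫ v : ℝ, C * x ^ (-A) * (Real.exp (-A * v) * wv v) :=
    integral_mono (h.integrable hx) ((integrable_gauss (-A)).const_mul _) (hb x hx)
  rw [integral_const_mul] at h1
  have h2 : 0 < C * x ^ (-A) := mul_pos hC (Real.rpow_pos_of_pos hx _)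
  nlinarith

/-! ### the Mellin transform -/

/-- A majorant which is uniform in a strip. -/
theorem Base.strip_le (h : Base G) {a b : ℝ} (ha : 0 < a) : ∃ K : ℝ, 0 < K ∧ ∀ σ : ℝ, a ≤ σ →
    σ ≤ b → ∀ u : ℝ, G (Real.exp u) * Real.exp (σ * u) ≤ K * (1 + u ^ 2)⁻¹ := by
  obtain ⟨C1, hC1, h1⟩ := h.le (a / 2) (by positivity)
  obtain ⟨C2, hC2, h2⟩ := h.le (|b| + a / 2) (by positivity)
  set δ := a / 2 with hδ
  have hδ0 : 0 < δ := by positivity
  refine ⟨(C1 + C2) * (1 + 2 / δ ^ 2), by positivity, fun σ s0 s1 u => ?_⟩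
  have e1 : G (Real.exp u) * Real.exp (σ * u) ≤ (C1 + C2) * Real.exp (-(δ * |u|)) := by
    rcases le_total u 0 with hu | hu
    · have := h1 _ (Real.exp_pos u)
      rw [← Real.exp_mul] at this
      calc G (Real.exp u) * Real.exp (σ * u) ≤ C1 * Real.exp (u * -δ) * Real.exp (σ * u) :=
            mul_le_mul_of_nonneg_right this (Real.exp_pos _).le
        _ = C1 * Real.exp (u * -δ + σ * u) := by rw [Real.exp_add, mul_assoc]
        _ ≤ (C1 + C2) * Real.exp (-(δ * |u|)) := by
            refine mul_le_mul (by linarith) (Real.exp_le_exp.2 ?_) (Real.exp_pos _).le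
              (by linarith)
            rw [abs_of_nonpos hu]
            nlinarith
    · have := h2 _ (Real.exp_pos u)
      rw [← Real.exp_mul] at this
      calc G (Real.exp u) * Real.exp (σ * u)
          ≤ C2 * Real.exp (u * -(|b| + δ)) * Real.exp (σ * u) :=
            mul_le_mul_of_nonneg_right this (Real.exp_pos _).le
        _ = C2 * Real.exp (u * -(|b| + δ) + σ * u) := by rw [Real.exp_add, mul_assoc]
        _ ≤ (C1 + C2) * Real.exp (-(δ * |u|)) := by
            refine mul_le_mul (by linarith) (Real.exp_le_exp.2 ?_) (Real.exp_pos _).le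
              (by linarith)
            rw [abs_of_nonneg hu]
            nlinarith [le_abs_self b]
  have e2 : Real.exp (-(δ * |u|)) ≤ (1 + 2 / δ ^ 2) * (1 + u ^ 2)⁻¹ := by
    have q := Real.quadratic_le_exp_of_nonneg (x := δ * |u|) (by positivity)
    have hp : 0 < 1 + u ^ 2 := by positivity
    rw [Real.exp_neg, ← div_eq_mul_inv, le_div_iff₀ hp, inv_mul_le_iff₀ (Real.exp_pos _)]
    have q2 : (δ * |u|) ^ 2 = δ ^ 2 * u ^ 2 := by rw [mul_pow, sq_abs]
    have q3 : 1 + δ ^ 2 * u ^ 2 / 2 ≤ Real.exp (δ * |u|) := by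
      have : 0 ≤ δ * |u| := by positivity
      linarith
    have q4 : (1 + δ ^ 2 * u ^ 2 / 2) * (1 + 2 / δ ^ 2) =
        1 + u ^ 2 + (δ ^ 2 * u ^ 2 / 2 + 2 / δ ^ 2) := by field_simp; ring
    have q5 : 0 ≤ δ ^ 2 * u ^ 2 / 2 + 2 / δ ^ 2 := by positivity
    calc 1 + u ^ 2 ≤ (1 + δ ^ 2 * u ^ 2 / 2) * (1 + 2 / δ ^ 2) := by linarith
      _ ≤ _ := mul_le_mul_of_nonneg_right q3 (by positivity)
  calc _ ≤ _ := e1
    _ ≤ (C1 + C2) * ((1 + 2 / δ ^ 2) * (1 + u ^ 2)⁻¹) :=
        mul_le_mul_of_nonneg_left e2 (by positivity)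
    _ = _ := by ring

theorem Base.norm_term (h : Base G) (s : ℂ) (u : ℝ) :
    ‖(G (Real.exp u) : ℂ) * cexp (s * u)‖ = G (Real.exp u) * Real.exp (s.re * u) := by
  rw [norm_mul, Complex.norm_real, Real.norm_of_nonneg (h.pos _ (Real.exp_pos u)).le,
    Complex.norm_exp]
  simp

theorem Base.integrable_real (h : Base G) {σ : ℝ} (hσ : 0 < σ) :
    Integrable fun u : ℝ => G (Real.exp u) * Real.exp (σ * u) := by
  obtain ⟨K, -, hK⟩ := h.strip_le (b := σ) hσ
  refine (integrable_inv_one_add_sq.const_mul K).mono'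
    (h.meas1.mul (by fun_prop)).aestronglyMeasurable (Eventually.of_forall fun u => ?_)
  rw [Real.norm_of_nonneg (mul_pos (h.pos _ (Real.exp_pos u)) (Real.exp_pos _)).le]
  exact hK σ le_rfl le_rfl u

theorem Base.norm_MG_le (h : Base G) {a b : ℝ} (ha : 0 < a) : ∃ K : ℝ, 0 < K ∧ ∀ s : ℂ,
    a ≤ s.re → s.re ≤ b → ‖MG G s‖ ≤ K := by
  obtain ⟨K, hK0, hK⟩ := h.strip_le (b := b) ha
  refine ⟨K * Real.pi, by positivity, fun s s0 s1 => ?_⟩
  have := norm_integral_le_of_norm_le (f := fun u : ℝ => (G (Real.exp u) : ℂ) * cexp (s * u))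
    (integrable_inv_one_add_sq.const_mul K)
    (Eventually.of_forall fun u => by rw [h.norm_term]; exact hK _ s0 s1 u)
  rwa [integral_const_mul, integral_univ_inv_one_add_sq] at this

theorem cpow_eq {x : ℝ} (hx : 0 < x) (w : ℂ) : (x : ℂ) ^ w = cexp (w * (Real.log x : ℝ)) := by
  rw [Complex.cpow_def_of_ne_zero (by exact_mod_cast hx.ne'), Complex.ofReal_log hx.le, mul_comm]

theorem MG_eq_mellin (G : ℝ → ℝ) (s : ℂ) : MG G s = mellin (fun x => (G x : ℂ)) s := by
  have h := integral_image_eq_integral_abs_deriv_smul (s := Set.univ) (f := Real.exp)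
    (f' := Real.exp) MeasurableSet.univ (fun x _ => (Real.hasDerivAt_exp x).hasDerivWithinAt)
    Real.exp_injective.injOn (fun t : ℝ => (t : ℂ) ^ (s - 1) • (G t : ℂ))
  rw [Set.image_univ, Real.range_exp, Measure.restrict_univ] at h
  rw [mellin, h, MG]
  refine integral_congr_ae (Eventually.of_forall fun u => ?_)
  simp only
  rw [abs_of_pos (Real.exp_pos u), Complex.real_smul, smul_eq_mul, cpow_eq (Real.exp_pos u),
    Real.log_exp, Complex.ofReal_exp, ← mul_assoc, ← Complex.exp_add, mul_comm]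
  congr 2
  ring

theorem Base.isBigO (h : Base G) {A : ℝ} (hA : 0 < A) {l : Filter ℝ} (hl : ∀ᶠ x in l, 0 < x) :
    (fun x => (G x : ℂ)) =O[l] (· ^ (-A)) := by
  obtain ⟨C, -, hb⟩ := h.le A hA
  refine Asymptotics.IsBigO.of_bound C (hl.mono fun x hx => ?_)
  rw [Complex.norm_real, Real.norm_of_nonneg (h.pos x hx).le,
    Real.norm_of_nonneg (Real.rpow_pos_of_pos hx _).le]
  exact hb x hx

theorem Base.differentiableAt_MG (h : Base G) {s : ℂ} (hs : 0 < s.re) :
    DifferentiableAt ℂ (MG G) s := by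
  have e : MG G = mellin (fun x => (G x : ℂ)) := funext (MG_eq_mellin G)
  rw [e]
  refine mellin_differentiableAt_of_isBigO_rpow (a := s.re + 1) (b := s.re / 2) ?_
    (h.isBigO (by linarith) (eventually_gt_atTop 0)) (by linarith)
    (h.isBigO (by linarith) self_mem_nhdsWithin) (by linarith)
  refine (locallyIntegrableOn_iff isOpen_Ioi.isLocallyClosed).2 fun k hk hc => ?_
  exact ((h.anti.mono hk).integrableOn_isCompact hc).ofReal

theorem Base.differentiableAt_mm (h : Base G) {s : ℂ} (hs : 0 < s.re) :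
    DifferentiableAt ℂ (mm G) s :=
  (h.differentiableAt_MG hs).mul ((R17.differentiable_Wm _).comp s (by fun_prop))

theorem Base.norm_mm_le (h : Base G) {a b : ℝ} (ha : 0 < a) : ∃ K : ℝ, 0 < K ∧ ∀ s : ℂ,
    a ≤ s.re → s.re ≤ b → ‖mm G s‖ ≤ K * Real.exp (-s.im ^ 2 / 4) := by
  obtain ⟨K, hK0, hK⟩ := h.norm_MG_le (b := b) ha
  refine ⟨K * (Real.sqrt Real.pi * Real.exp ((|b| + 1) ^ 2 / 4)), by positivity, fun s s0 s1 => ?_⟩
  rw [mm, norm_mul, R17.norm_Wm, mul_assoc K]
  refine mul_le_mul (hK s s0 s1) ?_ (by positivity) hK0.le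
  rw [mul_assoc, ← Real.exp_add]
  refine mul_le_mul_of_nonneg_left (Real.exp_le_exp.2 ?_) (Real.sqrt_nonneg _)
  have e1 : (1 / 2 - s).re = 1 / 2 - s.re := by simp
  have e2 : (1 / 2 - s).im = -s.im := by simp
  rw [e1, e2]
  have : (1 / 2 - s.re) ^ 2 ≤ (|b| + 1) ^ 2 := by
    have := le_abs_self b
    have := abs_nonneg b
    exact sq_le_sq' (by linarith) (by linarith)
  nlinarith

theorem Base.mel_cont (h : Base G) {σ : ℝ} (hσ : 0 < σ) :
    Continuous fun u : ℝ => mm G (σ + u * I) :=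
  continuous_iff_continuousAt.2 fun u =>
    ContinuousAt.comp (f := fun u : ℝ => (σ : ℂ) + u * I) (g := mm G)
      (h.differentiableAt_mm (by simpa using hσ)).continuousAt (by fun_prop)

theorem gauss_le (J : ℕ) : ∃ A : ℝ, 0 < A ∧ ∀ u : ℝ,
    Real.exp (-u ^ 2 / 4) * (1 + |u|) ^ J ≤ A * (1 + u ^ 2)⁻¹ := by
  obtain ⟨A, hA, hb⟩ := R17.Contour.gauss_pow (J + 2)
  refine ⟨A, hA, fun u => ?_⟩
  have hp : 0 < 1 + u ^ 2 := by positivity
  rw [← div_eq_mul_inv, le_div_iff₀ hp]
  refine le_trans ?_ (hb u)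
  rw [pow_add, ← mul_assoc]
  refine mul_le_mul_of_nonneg_left ?_ (by positivity)
  nlinarith [abs_nonneg u, sq_abs u]

theorem Base.mel_int (h : Base G) {σ : ℝ} (hσ : 0 < σ) (J : ℕ) :
    Integrable fun u : ℝ => ‖mm G (σ + u * I)‖ * (1 + |u|) ^ J := by
  obtain ⟨K, hK0, hK⟩ := h.norm_mm_le (b := σ) hσ
  obtain ⟨A, -, hA⟩ := gauss_le J
  refine (integrable_inv_one_add_sq.const_mul (K * A)).mono'
    ((h.mel_cont hσ).norm.mul (by fun_prop)).aestronglyMeasurable
    (Eventually.of_forall fun u => ?_)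
  rw [Real.norm_of_nonneg (by positivity)]
  have h1 := hK (σ + u * I) (by simp) (by simp)
  have e : ((σ : ℂ) + u * I).im = u := by simp
  rw [e] at h1
  calc ‖mm G (σ + u * I)‖ * (1 + |u|) ^ J ≤ K * Real.exp (-u ^ 2 / 4) * (1 + |u|) ^ J :=
        mul_le_mul_of_nonneg_right h1 (by positivity)
    _ = K * (Real.exp (-u ^ 2 / 4) * (1 + |u|) ^ J) := by ring
    _ ≤ K * (A * (1 + u ^ 2)⁻¹) := mul_le_mul_of_nonneg_left (hA u) hK0.le
    _ = _ := by ring

theorem wv_eq_integral (σ v : ℝ) : (wv v : ℂ) = (1 / (2 * Real.pi) : ℂ) *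
    ∫ t : ℝ, R17.Wm (1 / 2 - (σ + t * I)) * cexp ((σ + t * I) * v) := by
  have h := R17.Wc_eq_integral (Real.exp_pos v) (-σ) (1 / 2)
  have e1 : R17.Wc (Real.exp v) (1 / 2) = (wv v : ℂ) := by
    rw [R17.Wc, Real.log_exp, wv, Complex.ofReal_exp]
    congr 1
    push_cast
    ring
  rw [← e1, h, ← integral_neg_eq_self]
  congr 1
  refine integral_congr_ae (Eventually.of_forall fun t => ?_)
  simp only
  rw [cpow_eq (Real.exp_pos v), Real.log_exp]
  congr 2 <;> push_cast <;> ring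

theorem Base.mel_eq (h : Base G) {x σ : ℝ} (hx : 0 < x) (hσ : 0 < σ) :
    (sm G x : ℂ) = (1 / (2 * Real.pi) : ℂ) *
      ∫ t : ℝ, mm G (σ + t * I) * (x : ℂ) ^ (-(σ + t * I)) := by
  set L := Real.log x with hL
  have e0 : sm G x = ∫ u : ℝ, G (Real.exp u) * wv (u - L) := by
    rw [sm, ← integral_sub_right_eq_self _ L]
    refine integral_congr_ae (Eventually.of_forall fun u => ?_)
    simp only
    rw [Real.exp_sub, hL, Real.exp_log hx, mul_div_cancel₀ _ hx.ne']
  set Φ : ℝ → ℝ → ℂ := fun u t => (G (Real.exp u) : ℂ) *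
    (R17.Wm (1 / 2 - (σ + t * I)) * cexp ((σ + t * I) * ((u - L : ℝ) : ℂ))) with hΦ
  have hW : Continuous fun t : ℝ => R17.Wm (1 / 2 - (σ + t * I)) :=
    R17.differentiable_Wm.continuous.comp (by fun_prop)
  have hWi : Integrable fun t : ℝ => ‖R17.Wm (1 / 2 - (σ + t * I))‖ := by
    have := (R17.integrable_Wm_mul_pow (1 / 2 - σ) 0).comp_neg
    refine this.congr (Eventually.of_forall fun t => ?_)
    simp only [pow_zero, mul_one]
    congr 2
    push_cast
    ring
  have hint : Integrable (Function.uncurry Φ) (volume.prod volume) := by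
    have hm : AEStronglyMeasurable (Function.uncurry Φ) (volume.prod volume) := by
      refine Measurable.aestronglyMeasurable ?_
      refine (Complex.measurable_ofReal.comp (h.meas1.comp measurable_fst)).mul
        ((hW.measurable.comp measurable_snd).mul ?_)
      exact Continuous.measurable (by fun_prop)
    refine (((h.integrable_real hσ).const_mul (Real.exp (-(σ * L)))).mul_prod hWi).mono' hm
      (Eventually.of_forall fun p => le_of_eq ?_)
    simp only [hΦ, Function.uncurry]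
    rw [norm_mul, norm_mul, Complex.norm_real,
      Real.norm_of_nonneg (h.pos _ (Real.exp_pos _)).le, Complex.norm_exp]
    have : (((σ : ℂ) + p.2 * I) * ((p.1 - L : ℝ) : ℂ)).re = σ * p.1 + -(σ * L) := by
      simp
      ring
    rw [this, Real.exp_add]
    ring
  calc (sm G x : ℂ) = ∫ u : ℝ, (G (Real.exp u) : ℂ) * (wv (u - L) : ℂ) := by
        rw [e0, ← integral_complex_ofReal]
        simp
    _ = ∫ u : ℝ, (1 / (2 * Real.pi) : ℂ) * ∫ t : ℝ, Φ u t := by
        refine integral_congr_ae (Eventually.of_forall fun u => ?_)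
        simp only [hΦ]
        rw [wv_eq_integral σ, integral_const_mul]
        ring
    _ = (1 / (2 * Real.pi) : ℂ) * ∫ t : ℝ, ∫ u : ℝ, Φ u t := by
        rw [integral_const_mul, integral_integral_swap hint]
    _ = _ := by
        congr 1
        refine integral_congr_ae (Eventually.of_forall fun t => ?_)
        simp only [hΦ, mm, MG]
        rw [cpow_eq hx, ← hL, mul_assoc, ← integral_mul_const]
        refine integral_congr_ae (Eventually.of_forall fun u => ?_)
        simp only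
        have : ((σ : ℂ) + t * I) * ((u - L : ℝ) : ℂ) = (σ + t * I) * u + -(σ + t * I) * L := by
          push_cast
          ring
        rw [this, Complex.exp_add]
        ring

end Crest.Agent.T27.K63
end
end

-- ▼ part T27/KerGB_63
section

/-!
# Row 27, generic half of `KerAx`, part B (helper63): Poisson summation over the rows
-/

set_option autoImplicit false

noncomputable section

namespace Crest.Agent.T27.K63

open MeasureTheory Filter Topology

variable [Fr0]

open Classical in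
/-- `N n ^ (-2)` on the primary elements. -/
def z2 (n : O) : ℝ := if Primary n then nr n ^ (-2 : ℝ) else 0

theorem z2_nonneg (n : O) : 0 ≤ z2 n := by
  unfold z2
  split_ifs
  · positivity
  · exact le_rfl

theorem summable_z2 : Summable z2 := by
  classical
  have hs : Summable fun m : ℕ => (m : ℝ) ^ (-2 : ℝ) := Real.summable_nat_rpow.2 (by norm_num)
  refine summable_of_sum_le (c := Fr0.kp * ∑' m : ℕ, (m : ℝ) ^ (-2 : ℝ)) z2_nonneg fun S => ?_
  have h := C21.sum_pball_le (fun m => (m : ℝ) ^ (-2 : ℝ)) (fun m => by positivity)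
    (fun m hm => Real.rpow_le_rpow_of_nonpos (by exact_mod_cast hm) (by push_cast; linarith)
      (by norm_num)) (S.sup nm)
  calc ∑ n ∈ S, z2 n = ∑ n ∈ S.filter Primary, nr n ^ (-2 : ℝ) := by
        rw [Finset.sum_filter]; rfl
    _ ≤ ∑ n ∈ pball (S.sup nm), nr n ^ (-2 : ℝ) :=
        Finset.sum_le_sum_of_subset_of_nonneg (fun n hn => by
          rw [Finset.mem_filter] at hn
          exact mem_pball.2 ⟨hn.2, Finset.le_sup (f := nm) hn.1⟩) fun _ _ _ => by positivity
    _ ≤ _ := h.trans (mul_le_mul_of_nonneg_left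
        (hs.sum_le_tsum _ fun _ _ => by positivity) (Nat.cast_nonneg _))

open Classical in
/-- A term of a sum over the primary elements. -/
def tm (a : O → ℂ) (g : ℝ → ℝ) (c : ℝ) (n : O) : ℂ :=
  if Primary n then a n * (g (c * nr n) : ℂ) else 0

theorem norm_tm_le {a : O → ℂ} {g : ℝ → ℝ} {B C c : ℝ} (ha : ∀ n, ‖a n‖ ≤ B) (hc : 0 < c)
    (h0 : ∀ x, 0 < x → 0 ≤ g x) (hg : ∀ x, 0 < x → g x ≤ C * x ^ (-2 : ℝ)) (n : O) :
    ‖tm a g c n‖ ≤ B * C * c ^ (-2 : ℝ) * z2 n := by
  unfold tm z2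
  split_ifs with hn
  · have hp := mul_pos hc (nr_pos hn.ne_zero)
    rw [norm_mul, Complex.norm_real, Real.norm_of_nonneg (h0 _ hp)]
    have := hg _ hp
    rw [Real.mul_rpow hc.le (nr_pos hn.ne_zero).le] at this
    calc ‖a n‖ * g (c * nr n) ≤ B * (C * (c ^ (-2 : ℝ) * nr n ^ (-2 : ℝ))) :=
          mul_le_mul (ha n) this (h0 _ hp) ((norm_nonneg _).trans (ha n))
      _ = _ := by ring
  · simp

theorem summable_tm {a : O → ℂ} {g : ℝ → ℝ} {B C c : ℝ} (ha : ∀ n, ‖a n‖ ≤ B) (hc : 0 < c)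
    (h0 : ∀ x, 0 < x → 0 ≤ g x) (hg : ∀ x, 0 < x → g x ≤ C * x ^ (-2 : ℝ)) :
    Summable (tm a g c) :=
  (summable_z2.mul_left _).of_norm_bounded (norm_tm_le ha hc h0 hg)

variable {G : ℝ → ℝ}

theorem smooth (h : Base G) {a : O → ℂ} {B c : ℝ} (ha : ∀ n, ‖a n‖ ≤ B) (hc : 0 < c) :
    Integrable (fun v : ℝ => (∑' n, tm a G (c * Real.exp v) n) * (wv v : ℂ)) ∧
      ∫ v : ℝ, (∑' n, tm a G (c * Real.exp v) n) * (wv v : ℂ) = ∑' n, tm a (sm G) c n := by
  obtain ⟨C, hC, hg⟩ := h.le 2 two_pos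
  have h0 : ∀ x, 0 < x → 0 ≤ G x := fun x hx => (h.pos x hx).le
  have hb : ∀ n (v : ℝ), ‖tm a G (c * Real.exp v) n * (wv v : ℂ)‖ ≤
      B * C * c ^ (-2 : ℝ) * z2 n * (Real.exp (-2 * v) * wv v) := fun n v => by
    rw [norm_mul, Complex.norm_real, Real.norm_of_nonneg (wv_pos v).le]
    have := norm_tm_le ha (mul_pos hc (Real.exp_pos v)) h0 hg n
    rw [rpow_mul_exp hc] at this
    calc _ ≤ B * C * (c ^ (-2 : ℝ) * Real.exp (-2 * v)) * z2 n * wv v :=
          mul_le_mul_of_nonneg_right this (wv_pos v).le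
      _ = _ := by ring
  have hm : ∀ n, Measurable fun v : ℝ => tm a G (c * Real.exp v) n * (wv v : ℂ) := fun n => by
    refine Measurable.mul ?_ (Complex.measurable_ofReal.comp continuous_wv.measurable)
    unfold tm
    split_ifs with hn
    · have e : (fun v : ℝ => a n * (G (c * Real.exp v * nr n) : ℂ)) =
          fun v : ℝ => a n * (G (c * nr n * Real.exp v) : ℂ) := by
        funext v
        rw [mul_right_comm]
      rw [e]
      exact (Complex.measurable_ofReal.comp
        (h.meas (mul_pos hc (nr_pos hn.ne_zero)))).const_mul (a n)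
    · exact measurable_const
  have hi : ∀ n, Integrable fun v : ℝ => tm a G (c * Real.exp v) n * (wv v : ℂ) := fun n =>
    ((integrable_gauss (-2)).const_mul _).mono' (hm n).aestronglyMeasurable
      (Eventually.of_forall (hb n))
  have e1 : (fun v : ℝ => (∑' n, tm a G (c * Real.exp v) n) * (wv v : ℂ)) =
      fun v : ℝ => ∑' n, tm a G (c * Real.exp v) n * (wv v : ℂ) := by
    funext v
    rw [tsum_mul_right]
  rw [e1]
  constructor
  · refine ((integrable_gauss (-2)).const_mul (B * C * c ^ (-2 : ℝ) * ∑' n, z2 n)).mono'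
      (Measurable.tsum hm).aestronglyMeasurable (Eventually.of_forall fun v => ?_)
    have := tsum_of_norm_bounded
      (((summable_z2.mul_left (B * C * c ^ (-2 : ℝ))).mul_right
        (Real.exp (-2 * v) * wv v)).hasSum) (fun n => hb n v)
    refine this.trans (le_of_eq ?_)
    rw [tsum_mul_right, tsum_mul_left]
  · rw [← integral_tsum_of_summable_integral_norm hi]
    · refine tsum_congr fun n => ?_
      unfold tm
      split_ifs with hn
      · rw [sm, ← integral_complex_ofReal, ← integral_const_mul]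
        refine integral_congr_ae (Eventually.of_forall fun v => ?_)
        simp only
        rw [mul_right_comm c]
        push_cast
        ring
      · simp
    · refine ((summable_z2.mul_left (B * C * c ^ (-2 : ℝ))).mul_right
        (∫ v : ℝ, Real.exp (-2 * v) * wv v)).of_nonneg_of_le
        (fun n => integral_nonneg fun v => norm_nonneg _) fun n => ?_
      rw [← integral_const_mul]
      exact integral_mono (hi n).norm ((integrable_gauss (-2)).const_mul _) (hb n)

theorem bdd_per {q : O} (hq : q ≠ 0) {F : O → ℂ} (hF : ∀ x y, q ∣ x - y → F x = F y) (x : O) :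
    ‖F x‖ ≤ ∑ r ∈ res q, ‖F r‖ := by
  obtain ⟨r, ⟨hr, hx⟩, -⟩ := exists_unique_res hq x
  rw [hF x r hx]
  exact Finset.single_le_sum (f := fun r => ‖F r‖) (fun _ _ => norm_nonneg _) hr

theorem bdd_ft (q : O) (F : O → ℂ) (h : O) : ‖ft q F h‖ ≤ ∑ r ∈ res q, ‖F r‖ := by
  refine (norm_sum_le _ _).trans (Finset.sum_le_sum fun r _ => ?_)
  rw [norm_mul, norm_eq, mul_one]

theorem basePoi_iff (g : ℝ → ℝ) (V : ℝ) : BasePoi g V ↔
    ∀ (q : O) (F : O → ℂ) (X : ℝ), q ≠ 0 → (∀ x y, q ∣ x - y → F x = F y) →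
    (∀ u x, IsUnit u → F (u * x) = F x) → 0 < X →
    (V : ℂ) * F 0 + ∑' n, tm F g X⁻¹ n =
      (X / nr q : ℝ) * ((V : ℂ) * ft q F 0 + ∑' h, tm (ft q F) g (X / nr q) h) := by
  unfold BasePoi tm
  simp only [div_eq_inv_mul, mul_assoc]

theorem basePoi_sm (h : Base G) {V : ℝ} (hp : BasePoi G V) : BasePoi (sm G) (V * W0) := by
  rw [basePoi_iff] at hp ⊢
  intro q F X hq hF hu hX
  have hq' := nr_pos hq
  obtain ⟨i1, s1⟩ := smooth h (bdd_per hq hF) (inv_pos.2 hX)
  obtain ⟨i2, s2⟩ := smooth h (bdd_ft q F) (div_pos hX hq')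
  have iw : Integrable fun v : ℝ => (wv v : ℂ) := integrable_wv.ofReal
  have ew : ∫ v : ℝ, (wv v : ℂ) = (W0 : ℂ) := integral_complex_ofReal
  have key : ∀ v : ℝ, (V : ℂ) * F 0 * wv v + (∑' n, tm F G (X⁻¹ * Real.exp v) n) * (wv v : ℂ) =
      (X / nr q : ℝ) * ((V : ℂ) * ft q F 0 * wv (-v) +
        (∑' h, tm (ft q F) G (X / nr q * Real.exp (-v)) h) * (wv (-v) : ℂ)) := fun v => by
    have := hp q F (X * Real.exp (-v)) hq hF hu (mul_pos hX (Real.exp_pos _))
    have e1 : (X * Real.exp (-v))⁻¹ = X⁻¹ * Real.exp v := by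
      rw [mul_inv, Real.exp_neg, inv_inv]
    have e2 : X * Real.exp (-v) / nr q = X / nr q * Real.exp (-v) := by ring
    rw [e1, e2] at this
    rw [← add_mul, this, ← wv_neg]
    push_cast
    ring
  have l : ∫ v : ℝ, ((V : ℂ) * F 0 * wv v + (∑' n, tm F G (X⁻¹ * Real.exp v) n) * (wv v : ℂ)) =
      ((V * W0 : ℝ) : ℂ) * F 0 + ∑' n, tm F (sm G) X⁻¹ n := by
    rw [integral_add (iw.const_mul _) i1, s1, integral_const_mul, ew]
    push_cast
    ring
  have r : ∫ v : ℝ, ((V : ℂ) * ft q F 0 * wv v +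
      (∑' h, tm (ft q F) G (X / nr q * Real.exp v) h) * (wv v : ℂ)) =
      ((V * W0 : ℝ) : ℂ) * ft q F 0 + ∑' h, tm (ft q F) (sm G) (X / nr q) h := by
    rw [integral_add (iw.const_mul _) i2, s2, integral_const_mul, ew]
    push_cast
    ring
  rw [← l, ← r, ← integral_neg_eq_self (fun v : ℝ => (V : ℂ) * ft q F 0 * wv v +
      (∑' h, tm (ft q F) G (X / nr q * Real.exp v) h) * (wv v : ℂ)), ← integral_const_mul]
  exact integral_congr_ae (Eventually.of_forall key)

/-! ### from the primary elements to the rows -/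

theorem sum_U0_of_inj {φ : O → ℂ} (hφ : UInv φ) (T : O → O) (hT : ∀ u ∈ U0, IsUnit (T u))
    (hi : ∀ u ∈ U0, ∀ u' ∈ U0, cls (T u) = cls (T u') → u = u') (x : O) :
    ∑ u ∈ U0, φ (T u * x) = ∑ u ∈ U0, φ (u * x) := by
  classical
  choose r hr hc using fun u (hu : u ∈ U0) => exists_U0 (hT u hu)
  have hinj : ∀ a ha b hb, r a ha = r b hb → a = b := fun a ha b hb e =>
    hi a ha b hb (by rw [← hc a ha, ← hc b hb, e])
  refine Finset.sum_bij r hr hinj (fun b hb => (Finset.surj_on_of_inj_on_of_card_le r hr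
    (fun a b ha hb => hinj a ha b hb) le_rfl b hb).imp
    fun a h => h.imp fun ha e => e.symm) fun a ha => ?_
  obtain ⟨w, hw⟩ := (isUnit_of_mem_U0 (hr a ha)).exists_left_inv
  have e : T a * x = T a * w * (r a ha * x) := by linear_combination (-(T a * x)) * hw
  rw [e]
  refine hφ _ _ ((hT a ha).mul (IsUnit.of_mul_eq_one _ hw)) ?_
  rw [map_mul, ← hc a ha, ← map_mul, mul_comm, hw, map_one]

/-- The average over the transversal. -/
def av (φ : O → ℂ) (x : O) : ℂ := ∑ u ∈ U0, φ (u * x)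

theorem av_unit {φ : O → ℂ} (hφ : UInv φ) (v x : O) (hv : IsUnit v) : av φ (v * x) = av φ x := by
  have := sum_U0_of_inj hφ (fun u => u * v) (fun u hu => (isUnit_of_mem_U0 hu).mul hv)
    (fun u hu u' hu' e => eq_of_mem_U0 hu hu' (by
      simp only [map_mul] at e
      exact mul_right_cancel₀ (cls_ne_zero hv.ne_zero) e)) x
  simpa only [av, mul_assoc] using this

theorem ft_unit {q : O} (hq : q ≠ 0) {f : O → ℂ} (hf : ∀ x y, q ∣ x - y → f x = f y) {u : O}
    (hu : IsUnit u) (h : O) : ft q (fun x => f (u * x)) (u * h) = ft q f h := by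
  have := sum_res_affine hq (fun x => f x * eq (h * x) q)
    (fun x y hxy => by
      rw [hf x y hxy, eq_congr (x := h * x) (y := h * y) (by rw [← mul_sub]; exact hxy.mul_left h)])
    (a := u) (isCoprime_of_isUnit q hu).symm 0
  rw [ft, ft, ← this]
  refine Finset.sum_congr rfl fun x _ => ?_
  rw [add_zero, mul_left_comm, mul_assoc]

theorem uinv_ft {q : O} (hq : q ≠ 0) {f : O → ℂ} (hf : ∀ x y, q ∣ x - y → f x = f y)
    (hu : UInv f) : UInv (ft q f) := fun u h h1 h2 => by
  rw [← ft_unit hq hf h1 h]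
  congr 1
  funext x
  exact (hu u x h1 h2).symm

theorem ft_av {q : O} (hq : q ≠ 0) {f : O → ℂ} (hf : ∀ x y, q ∣ x - y → f x = f y)
    (hu : UInv f) (h : O) : ft q (av f) h = av (ft q f) h := by
  have e : ft q (av f) h = ∑ u ∈ U0, ft q f (Ring.inverse u * h) := by
    simp only [ft, av, Finset.sum_mul]
    rw [Finset.sum_comm]
    refine Finset.sum_congr rfl fun u hu0 => ?_
    have hu1 := isUnit_of_mem_U0 hu0
    have := ft_unit hq hf hu1 (Ring.inverse u * h)
    rw [← mul_assoc, Ring.mul_inverse_cancel u hu1, one_mul] at this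
    exact this
  rw [e]
  refine sum_U0_of_inj (uinv_ft hq hf hu) Ring.inverse
    (fun u hu0 => (isUnit_of_mem_U0 hu0).ringInverse) (fun u h1 u' h2 e => ?_) h
  have a1 := congrArg cls (Ring.mul_inverse_cancel u (isUnit_of_mem_U0 h1))
  have a2 := congrArg cls (Ring.mul_inverse_cancel u' (isUnit_of_mem_U0 h2))
  rw [map_mul] at a1 a2
  rw [e, ← a2] at a1
  exact eq_of_mem_U0 h1 h2 (mul_right_cancel₀
    (cls_ne_zero (isUnit_of_mem_U0 h2).ringInverse.ne_zero) a1)

theorem tsum_rows {φ : O → ℂ} {g : ℝ → ℝ} {B C c : ℝ} (ha : ∀ n, ‖φ n‖ ≤ B) (hc : 0 < c)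
    (h0 : ∀ x, 0 < x → 0 ≤ g x) (hg : ∀ x, 0 < x → g x ≤ C * x ^ (-2 : ℝ)) :
    ∑' k : O, φ k * (grp g k (c * nr k) : ℂ) = φ 0 * g 0 + ∑' n, tm (av φ) g c n := by
  classical
  set t : O → O → ℂ := fun u k =>
    if Primary (Ring.inverse u * k) then φ k * (g (c * nr k) : ℂ) else 0 with ht
  have h1 : ∀ u ∈ U0, HasSum (t u) (∑' n, tm (fun x => φ (u * x)) g c n) := fun u hu => by
    have hu1 := isUnit_of_mem_U0 hu
    refine (hu1.unit.mulLeft.hasSum_iff).1 ?_
    have := (summable_tm (a := fun x => φ (u * x)) (fun n => ha _) hc h0 hg).hasSum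
    convert this using 1
    funext n
    simp only [ht, tm, Function.comp, Units.mulLeft_apply, IsUnit.unit_spec]
    rw [← mul_assoc, Ring.inverse_mul_cancel u hu1, one_mul, nr_unit_mul hu1]
  have h2 := (hasSum_single (f := fun k : O => if k = 0 then φ 0 * (g 0 : ℂ) else 0) 0
    (fun k hk => if_neg hk)).add (hasSum_sum h1)
  have h3 : ∑' n, tm (av φ) g c n = ∑ u ∈ U0, ∑' n, tm (fun x => φ (u * x)) g c n := by
    rw [← Summable.tsum_finsetSum fun u _ =>
      summable_tm (a := fun x => φ (u * x)) (fun n => ha _) hc h0 hg]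
    refine tsum_congr fun n => ?_
    unfold tm av
    split_ifs
    · rw [Finset.sum_mul]
    · simp
  rw [h3, ← (if_pos rfl : (if (0 : O) = 0 then φ 0 * (g 0 : ℂ) else 0) = φ 0 * g 0), ← h2.tsum_eq]
  refine tsum_congr fun k => ?_
  rcases eq_or_ne k 0 with rfl | hk
  · have : ∀ u, t u 0 = 0 := fun u => if_neg fun h => h.ne_zero (mul_zero _)
    simp [this, grp, rep_zero, nr]
  · obtain ⟨v, n, hv, hn, rfl⟩ := exists_eq_unit_mul_primary hk
    have a1 : ∀ u ∈ U0, t u (v * n) =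
        if u = v then φ (v * n) * (g (c * nr (v * n)) : ℂ) else 0 := fun u hu => by
      have hu1 := isUnit_of_mem_U0 hu
      refine if_congr ⟨fun h => ?_, fun h => ?_⟩ rfl rfl
      · exact (unit_mul_primary_inj hu1 hv h hn (by
          rw [← mul_assoc, Ring.mul_inverse_cancel u hu1, one_mul])).1
      · rwa [← h, ← mul_assoc, Ring.inverse_mul_cancel u hu1, one_mul]
    have a2 : Rep (v * n) ↔ v ∈ U0 := ⟨fun h => by
      obtain ⟨u, hu, m, hm, e⟩ := h.exists hk
      rwa [(unit_mul_primary_inj hv (isUnit_of_mem_U0 hu) hn hm e).1], fun h => rep_mul_of_mem h hn⟩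
    rw [if_neg hk, zero_add, Finset.sum_congr rfl a1, Finset.sum_ite_eq', grp]
    by_cases hv0 : v ∈ U0
    · rw [if_pos hv0, if_pos (a2.2 hv0)]
    · rw [if_neg hv0, if_neg (mt a2.1 hv0)]
      simp

/-- Poisson summation over the rows from `BasePoi g V` with `V |U0| = g 0`. -/
theorem poisson_rows {g : ℝ → ℝ} {V C : ℝ} (hp : BasePoi g V) (hV : V * U0.card = g 0)
    (h0 : ∀ x, 0 < x → 0 ≤ g x) (hg : ∀ x, 0 < x → g x ≤ C * x ^ (-2 : ℝ))
    (q : O) (f : O → ℂ) (X : ℝ) (hq : q ≠ 0) (hf : ∀ x y, q ∣ x - y → f x = f y) (hu : UInv f)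
    (hX : 0 < X) : ∑' k : O, f k * (grp g k (nr k / X) : ℂ) =
      (X / nr q : ℝ) * ∑' h : O, ft q f h * (grp g h (X * nr h / nr q) : ℂ) := by
  have e1 : ∀ k : O, nr k / X = X⁻¹ * nr k := fun k => div_eq_inv_mul _ _
  have e2 : ∀ k : O, X * nr k / nr q = X / nr q * nr k := fun k => by ring
  simp only [e1, e2]
  rw [tsum_rows (bdd_per hq hf) (inv_pos.2 hX) h0 hg,
    tsum_rows (bdd_ft q f) (div_pos hX (nr_pos hq)) h0 hg]
  have := (basePoi_iff g V).1 hp q (av f) X hq
    (fun x y hxy => Finset.sum_congr rfl fun u _ =>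
      hf _ _ (by rw [← mul_sub]; exact hxy.mul_left u)) (fun u x h => av_unit hu u x h) hX
  have e3 : ft q (av f) = av (ft q f) := funext (ft_av hq hf hu)
  have e4 : ∀ φ : O → ℂ, (V : ℂ) * av φ 0 = φ 0 * g 0 := fun φ => by
    rw [← hV, av]
    simp only [mul_zero, Finset.sum_const, nsmul_eq_mul]
    push_cast
    ring
  rwa [e3, e4, e4] at this

end Crest.Agent.T27.K63
end
end

-- ▼ part T27/KerGC_63

/-!
# Row 27, generic half of `KerAx`, part C (helper63): the sum over squares, `kerAx_of_base_63`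
-/

set_option autoImplicit false

noncomputable section

namespace Crest.Agent.T27

namespace K63

open MeasureTheory Filter Topology Complex

variable [Fr0] {G : ℝ → ℝ}

open Classical in
/-- The sum over the squares. -/
def th2 (g : ℝ → ℝ) (y : ℝ) : ℝ := ∑' c : O, if Primary c then g (y * nr c ^ 2) else 0

open Classical in
theorem th2_eq_integral (h : Base G) {y : ℝ} (hy : 0 < y) :
    (th2 (sm G) y : ℂ) = (1 / (2 * Real.pi) : ℂ) * ∫ t : ℝ, mm G ((1 : ℝ) + t * I) *
      (y : ℂ) ^ (-((1 : ℝ) + t * I)) *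
        ∑' c : O, if Primary c then (nr c : ℂ) ^ (-(2 * ((1 : ℝ) + t * I))) else 0 := by
  set T : O → ℝ → ℂ := fun c t => mm G ((1 : ℝ) + t * I) * (y : ℂ) ^ (-((1 : ℝ) + t * I)) *
    if Primary c then (nr c : ℂ) ^ (-(2 * ((1 : ℝ) + t * I))) else 0 with hT
  have hn : ∀ c t, ‖T c t‖ = ‖mm G ((1 : ℝ) + t * I)‖ * (y⁻¹ * z2 c) := fun c t => by
    simp only [hT, z2]
    rw [norm_mul, norm_mul, R17.norm_cpow_line hy, mul_assoc]
    congr 2
    · simp [Real.rpow_neg_one]
    · split_ifs with hc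
      · rw [R17.norm_cpow_line (nr_pos hc.ne_zero)]
        simp
      · simp
  have hmi : Integrable fun t : ℝ => ‖mm G ((1 : ℝ) + t * I)‖ := by
    simpa using h.mel_int one_pos 0
  have hc : ∀ c, Continuous (T c) := fun c => by
    simp only [hT]
    refine ((h.mel_cont one_pos).mul ?_).mul ?_
    · simp only [cpow_eq hy]
      fun_prop
    · split_ifs with hc
      · simp only [cpow_eq (nr_pos hc.ne_zero)]
        fun_prop
      · exact continuous_const
  have hi : ∀ c, Integrable (T c) := fun c =>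
    (hmi.mul_const (y⁻¹ * z2 c)).mono' (hc c).aestronglyMeasurable
      (Eventually.of_forall fun t => (hn c t).le)
  have hs : Summable fun c => ∫ t, ‖T c t‖ := by
    simp only [hn, integral_mul_const]
    exact (summable_z2.mul_left _).mul_left _
  have e := integral_tsum_of_summable_integral_norm hi hs
  simp only [hT, tsum_mul_left] at e
  rw [← e, ← tsum_mul_left, th2, Complex.ofReal_tsum]
  refine tsum_congr fun c => ?_
  split_ifs with hc
  · have hp := nr_pos hc.ne_zero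
    rw [h.mel_eq (mul_pos hy (pow_pos hp 2)) one_pos]
    congr 1
    refine integral_congr_ae (Eventually.of_forall fun t => ?_)
    simp only
    rw [cpow_eq hy, cpow_eq hp, cpow_eq (mul_pos hy (pow_pos hp 2)),
      Real.log_mul hy.ne' (pow_pos hp 2).ne', Real.log_pow, mul_assoc, ← Complex.exp_add]
    congr 2
    push_cast
    ring
  · simp

theorem er_small (h : Base G) (hZ : ZGrow) : ∃ κ : ℝ, ∀ θ : ℝ, 0 < θ → θ < 1 / 2 →
    ∃ C : ℝ, 0 < C ∧ ∀ y : ℝ, 0 < y → |th2 (sm G) y - κ / Real.sqrt y| ≤ C * y ^ (-θ) := by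
  obtain ⟨f, hf, hfe, hfb⟩ := hZ
  refine ⟨(mm G (1 / 2) * f 1 / 2).re, fun θ h0 h1 => ?_⟩
  obtain ⟨K, hK0, hK⟩ := h.norm_mm_le (b := 1) h0
  obtain ⟨C, hC⟩ := hfb (2 * θ) (by linarith)
  have hC0 : 0 ≤ C := by
    have := (norm_nonneg _).trans (hC 1 (by simp; linarith) (by norm_num))
    exact nonneg_of_mul_nonneg_left this (Real.exp_pos _)
  -- the majorant on the strip
  have hb : ∀ w ∈ R17.strip θ 1, ‖mm G w * f (2 * w) / 2‖ ≤
      K * C * Real.exp (8 * C ^ 2) * (8 * (1 + w.im ^ 2)⁻¹) := fun w hw => by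
    have a1 := hK w hw.1 hw.2
    have a2 := hC (2 * w) (by simp; linarith [hw.1]) (by simp; linarith [hw.2])
    have a3 : |(2 * w).im| = 2 * |w.im| := by simp [abs_mul]
    rw [a3] at a2
    have a4 : Real.exp (-w.im ^ 2 / 4) * Real.exp (C * (2 * |w.im|)) ≤
        Real.exp (8 * C ^ 2) * Real.exp (-(w.im ^ 2 / 8)) := by
      rw [← Real.exp_add, ← Real.exp_add, Real.exp_le_exp, ← sq_abs w.im]
      nlinarith [sq_nonneg (|w.im| - 8 * C)]
    have a5 : Real.exp (-(w.im ^ 2 / 8)) ≤ 8 * (1 + w.im ^ 2)⁻¹ := by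
      have hp : 0 < 1 + w.im ^ 2 := by positivity
      rw [Real.exp_neg, ← div_eq_mul_inv, le_div_iff₀ hp, inv_mul_le_iff₀ (Real.exp_pos _)]
      nlinarith [Real.add_one_le_exp (w.im ^ 2 / 8)]
    rw [norm_div, norm_mul]
    calc ‖mm G w‖ * ‖f (2 * w)‖ / ‖(2 : ℂ)‖ ≤ ‖mm G w‖ * ‖f (2 * w)‖ :=
          div_le_self (by positivity) (by simp)
      _ ≤ K * Real.exp (-w.im ^ 2 / 4) * (C * Real.exp (C * (2 * |w.im|))) :=
          mul_le_mul a1 a2 (norm_nonneg _) (by positivity)
      _ = K * C * (Real.exp (-w.im ^ 2 / 4) * Real.exp (C * (2 * |w.im|))) := by ring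
      _ ≤ K * C * (Real.exp (8 * C ^ 2) * (8 * (1 + w.im ^ 2)⁻¹)) :=
          mul_le_mul_of_nonneg_left (a4.trans (mul_le_mul_of_nonneg_left a5 (by positivity)))
            (by positivity)
      _ = _ := by ring
  set M := K * C * Real.exp (8 * C ^ 2) * 8 with hM
  have hM0 : 0 ≤ M := by positivity
  have hδ : 0 < 1 / 2 - θ := by linarith
  refine ⟨M / (1 / 2 - θ) + 1, by positivity, fun y hy => ?_⟩
  set H : ℂ → ℂ := fun w => mm G w * f (2 * w) / 2 * (y : ℂ) ^ (-w) with hH
  have hHd : DifferentiableOn ℂ H (R17.strip θ 1) := fun w hw => by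
    have p1 : 0 < w.re := h0.trans_le hw.1
    have p2 : DifferentiableAt ℂ f (2 * w) :=
      hf.differentiableAt ((isOpen_lt continuous_const continuous_re).mem_nhds (by simpa using p1))
    have p3 : DifferentiableAt ℂ (fun w : ℂ => (y : ℂ) ^ (-w)) w := by
      simp only [cpow_eq hy]
      fun_prop
    exact ((((h.differentiableAt_mm p1).mul (p2.comp w (by fun_prop))).div_const 2).mul
      p3).differentiableWithinAt
  have hHb : ∀ w ∈ R17.strip θ 1, ‖H w‖ ≤ M * y ^ (-w.re) / (1 + w.im ^ 2) := fun w hw => by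
    simp only [hH]
    rw [norm_mul, R17.norm_cpow_line hy, Complex.neg_re]
    calc _ ≤ K * C * Real.exp (8 * C ^ 2) * (8 * (1 + w.im ^ 2)⁻¹) * y ^ (-w.re) :=
          mul_le_mul_of_nonneg_right (hb w hw) (by positivity)
      _ = _ := by rw [hM]; ring
  have hsh := R17.contour_shift_pole (G := H) (σ₀ := θ) (σ₁ := 1) (ρ := 1 / 2) (T := 0)
    (K := M * (y ^ (-θ) + y ^ (-1 : ℝ))) (by simpa using h1) (by norm_num) hHd fun w hw _ => by
      refine (hHb w hw).trans (div_le_div_of_nonneg_right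
        (mul_le_mul_of_nonneg_left ?_ hM0) (by positivity))
      have q1 := Real.rpow_pos_of_pos hy (-θ)
      have q2 := Real.rpow_pos_of_pos hy (-1)
      rcases le_total y 1 with hy1 | hy1
      · have := Real.rpow_le_rpow_of_exponent_ge hy hy1 (neg_le_neg hw.2)
        linarith
      · have := Real.rpow_le_rpow_of_exponent_le hy1 (neg_le_neg hw.1)
        linarith
  have e1 : (th2 (sm G) y : ℂ) = (1 / (2 * Real.pi) : ℂ) *
      ∫ t : ℝ, H ((1 : ℝ) + t * I) / ((1 : ℝ) + t * I - 1 / 2) := by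
    rw [th2_eq_integral h hy]
    congr 1
    refine integral_congr_ae (Eventually.of_forall fun t => ?_)
    simp only [hH]
    rw [hfe _ (by simp)]
    have : ((1 : ℝ) : ℂ) + t * I - 1 / 2 ≠ 0 := fun e => by
      have := congrArg Complex.re e
      norm_num at this
    rw [eq_div_iff this]
    ring
  have e2 : H (1 / 2) = mm G (1 / 2) * f 1 / 2 / (Real.sqrt y : ℂ) := by
    simp only [hH]
    rw [Real.sqrt_eq_rpow, Complex.ofReal_cpow hy.le, Complex.cpow_neg]
    norm_num
    rfl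
  have hpi : (2 * Real.pi : ℂ) ≠ 0 := by
    have := Real.pi_pos
    exact_mod_cast (by positivity : (2 * Real.pi : ℝ) ≠ 0)
  have e3 : (th2 (sm G) y : ℂ) - mm G (1 / 2) * f 1 / 2 / (Real.sqrt y : ℂ) =
      (1 / (2 * Real.pi) : ℂ) * ∫ t : ℝ, H (θ + t * I) / (θ + t * I - 1 / 2) := by
    rw [e1, hsh, e2, mul_add, ← mul_assoc, one_div_mul_cancel hpi, one_mul, add_sub_cancel_right]
  have e4 : ‖∫ t : ℝ, H (θ + t * I) / (θ + t * I - 1 / 2)‖ ≤
      M * y ^ (-θ) / (1 / 2 - θ) * Real.pi := by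
    have := norm_integral_le_of_norm_le (f := fun t : ℝ => H (θ + t * I) / (θ + t * I - 1 / 2))
      (integrable_inv_one_add_sq.const_mul (M * y ^ (-θ) / (1 / 2 - θ)))
      (Eventually.of_forall fun t => by
        have b1 := hHb _ (R17.Contour.line_mem le_rfl (by linarith) t)
        have b2 : 1 / 2 - θ ≤ ‖(θ : ℂ) + t * I - 1 / 2‖ := by
          have := Complex.abs_re_le_norm ((θ : ℂ) + t * I - 1 / 2)
          have e : ((θ : ℂ) + t * I - 1 / 2).re = θ - 1 / 2 := by simp
          rw [e, abs_of_neg (by linarith)] at this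
          linarith
        have r1 : ((θ : ℂ) + t * I).re = θ := by simp
        have r2 : ((θ : ℂ) + t * I).im = t := by simp
        rw [r1, r2] at b1
        rw [norm_div]
        calc _ ≤ M * y ^ (-θ) / (1 + t ^ 2) / (1 / 2 - θ) :=
              div_le_div₀ (by positivity) b1 hδ b2
          _ = _ := by ring)
    rwa [integral_const_mul, integral_univ_inv_one_add_sq] at this
  have e5 : th2 (sm G) y - (mm G (1 / 2) * f 1 / 2).re / Real.sqrt y =
      ((th2 (sm G) y : ℂ) - mm G (1 / 2) * f 1 / 2 / (Real.sqrt y : ℂ)).re := by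
    rw [Complex.sub_re, Complex.ofReal_re, Complex.div_ofReal_re]
  rw [e5]
  refine (Complex.abs_re_le_norm _).trans ?_
  rw [e3, norm_mul]
  have q1 := Real.rpow_pos_of_pos hy (-θ)
  have n1 : ‖(1 / (2 * Real.pi) : ℂ)‖ = 1 / (2 * Real.pi) := by
    simp [abs_of_pos Real.pi_pos]
  rw [n1]
  have := Real.pi_pos
  calc _ ≤ 1 / (2 * Real.pi) * (M * y ^ (-θ) / (1 / 2 - θ) * Real.pi) :=
        mul_le_mul_of_nonneg_left e4 (by positivity)
    _ = M / (1 / 2 - θ) / 2 * y ^ (-θ) := by field_simp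
    _ ≤ _ := by
        refine mul_le_mul_of_nonneg_right ?_ q1.le
        have : 0 ≤ M / (1 / 2 - θ) := by positivity
        linarith

theorem th2_large (h : Base G) : ∃ C : ℝ, 0 ≤ C ∧ ∀ y : ℝ, 0 < y → |th2 (sm G) y| ≤ C * y⁻¹ := by
  classical
  obtain ⟨C, hC, hb⟩ := h.sm_le one_pos
  refine ⟨C * ∑' n, z2 n, mul_nonneg hC.le (tsum_nonneg z2_nonneg), fun y hy => ?_⟩
  have := tsum_of_norm_bounded (f := fun c : O => if Primary c then sm G (y * nr c ^ 2) else 0)
    (summable_z2.mul_left (C * y⁻¹)).hasSum fun c => by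
      unfold z2
      split_ifs with hc
      · have hp := nr_pos hc.ne_zero
        rw [Real.norm_of_nonneg (h.sm_pos (by positivity)).le]
        refine (hb _ (by positivity)).trans (le_of_eq ?_)
        rw [Real.rpow_neg_one, Real.rpow_neg hp.le, Real.rpow_two]
        ring
      · simp
  rw [tsum_mul_left] at this
  refine this.trans (le_of_eq ?_)
  ring

theorem er_sm (h : Base G) (hZ : ZGrow) : ∃ κ : ℝ, ∀ θ : ℝ, 0 < θ → θ ≤ 1 / 2 →
    ∃ C : ℝ, 0 < C ∧ ∀ y : ℝ, 0 < y →
      |th2 (sm G) y - κ / Real.sqrt y| ≤ C * min (y ^ (-θ)) (Real.sqrt y)⁻¹ := by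
  obtain ⟨κ, hκ⟩ := er_small h hZ
  obtain ⟨C2, hC2, h2⟩ := th2_large h
  refine ⟨κ, fun θ h0 h1 => ?_⟩
  obtain ⟨C1, hC1, h1'⟩ := hκ (θ / 2) (by linarith) (by linarith)
  refine ⟨C1 + C2 + |κ|, by positivity, fun y hy => ?_⟩
  have es : (Real.sqrt y)⁻¹ = y ^ (-(1 / 2) : ℝ) := by
    rw [Real.sqrt_eq_rpow, Real.rpow_neg hy.le]
  have hs : 0 < (Real.sqrt y)⁻¹ := inv_pos.2 (Real.sqrt_pos.2 hy)
  rcases le_total y 1 with hy1 | hy1
  · refine (h1' y hy).trans (mul_le_mul (by linarith [abs_nonneg κ]) (le_min ?_ ?_)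
      (by positivity) (by positivity))
    · exact Real.rpow_le_rpow_of_exponent_ge hy hy1 (by linarith)
    · rw [es]
      exact Real.rpow_le_rpow_of_exponent_ge hy hy1 (by linarith)
  · rw [min_eq_right (by rw [es]; exact Real.rpow_le_rpow_of_exponent_le hy1 (by linarith))]
    have a1 : y⁻¹ ≤ (Real.sqrt y)⁻¹ := by
      rw [es, ← Real.rpow_neg_one]
      exact Real.rpow_le_rpow_of_exponent_le hy1 (by norm_num)
    have a2 : |κ / Real.sqrt y| = |κ| * (Real.sqrt y)⁻¹ := by
      rw [div_eq_mul_inv, abs_mul, abs_of_pos hs]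
    have a3 := h2 y hy
    have a4 := abs_sub (th2 (sm G) y) (κ / Real.sqrt y)
    nlinarith [mul_le_mul_of_nonneg_left a1 hC2]

end K63

open K63 in
/-- **The kernel of the frame** from a base kernel with Poisson summation over the ideals. -/
theorem kerAx_of_base_63 [Fr0] {G : ℝ → ℝ} {V : ℝ} (h : K63.Base G) (hV : 0 < V)
    (hp : BasePoi G V) (hZ : ZGrow) : ∃ (g : ℝ → ℝ) (m : ℂ → ℂ), KerAx g m := by
  classical
  have hU : (0 : ℝ) < U0.card := by exact_mod_cast one_le_card_U0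
  set c : ℝ := (V * W0 * U0.card)⁻¹ with hc
  have hW := W0_pos
  have hc0 : 0 < c := by positivity
  set g : ℝ → ℝ := fun x => if 0 < x then c * sm G x else 1 with hg
  have hgp : ∀ x, 0 < x → g x = c * sm G x := fun x hx => if_pos hx
  have hg0 : g 0 = 1 := if_neg (lt_irrefl _)
  have hpos : ∀ x, 0 < g x := fun x => by
    simp only [hg]
    split_ifs with hx
    · exact mul_pos hc0 (h.sm_pos hx)
    · exact one_pos
  have hle : ∀ A : ℝ, 0 < A → ∃ C : ℝ, 0 < C ∧ ∀ x : ℝ, 0 < x → g x ≤ C * x ^ (-A) := by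
    intro A hA
    obtain ⟨C, hC, hb⟩ := h.sm_le hA
    refine ⟨c * C, by positivity, fun x hx => ?_⟩
    rw [hgp x hx, mul_assoc]
    exact mul_le_mul_of_nonneg_left (hb x hx) hc0.le
  have htm : ∀ (a : O → ℂ) (X : ℝ), 0 < X → ∑' n, tm a g X n = c * ∑' n, tm a (sm G) X n := by
    intro a X hX
    rw [← tsum_mul_left]
    refine tsum_congr fun n => ?_
    unfold tm
    split_ifs with hn
    · rw [hgp _ (mul_pos hX (nr_pos hn.ne_zero))]
      push_cast
      ring
    · simp
  have hbp : BasePoi g (c * (V * W0)) := by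
    have := basePoi_sm h hp
    rw [basePoi_iff] at this ⊢
    intro q F X hq hF hu hX
    rw [htm _ _ (inv_pos.2 hX), htm _ _ (div_pos hX (nr_pos hq))]
    have := this q F X hq hF hu hX
    push_cast at this ⊢
    linear_combination (c : ℂ) * this
  refine ⟨g, fun s => c * mm G s, hpos, hg0, fun x hx y hy hxy => ?_, hle,
    fun σ hσ => continuous_const.mul (h.mel_cont hσ), fun σ hσ J => ?_, fun x σ hx hσ => ?_, ?_, ?_⟩
  · rw [hgp x hx, hgp y hy]
    exact mul_le_mul_of_nonneg_left (h.sm_anti hx hy hxy) hc0.le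
  · simp only [norm_mul, mul_assoc]
    exact (h.mel_int hσ J).const_mul _
  · rw [hgp x hx, Complex.ofReal_mul, h.mel_eq hx hσ, mul_left_comm, ← MeasureTheory.integral_const_mul]
    simp only [mul_assoc]
  · obtain ⟨κ, hκ⟩ := er_sm h hZ
    refine ⟨c * κ, fun θ h0 h1 => ?_⟩
    obtain ⟨C, hC, hb⟩ := hκ θ h0 h1
    refine ⟨c * C, by positivity, fun y hy => ?_⟩
    have e : (∑' n : O, if Primary n then g (y * nr n ^ 2) else 0) = c * th2 (sm G) y := by
      rw [th2, ← tsum_mul_left]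
      refine tsum_congr fun n => ?_
      split_ifs with hn
      · exact hgp _ (mul_pos hy (pow_pos (nr_pos hn.ne_zero) 2))
      · simp
    rw [e, mul_div_assoc, ← mul_sub, abs_mul, abs_of_pos hc0, mul_assoc]
    exact mul_le_mul_of_nonneg_left (hb y hy) hc0.le
  · obtain ⟨C, -, hb⟩ := hle 2 two_pos
    refine poisson_rows hbp ?_ (fun x _ => (hpos x).le) hb
    rw [hg0, hc]
    field_simp

end Crest.Agent.T27
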