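import Crest.Agent.T27.KerB_65
import Crest.Agent.T27.Sar2_77
import Crest.Agent.T27.HeckeC_87
import Crest.Agent.T27.Mdl_77
import Crest.Agent.T27.HeckeB_87
import Crest.Agent.T27.KerGC_63
import Crest.Agent.T27.ThAr_83
import Crest.Agent.T27.ThB_54

-- ▼ part T27/KerC_65
section

/-!
# Row 27, kernel (C): the self-dual radial kernel of the abstract data
-/

set_option autoImplicit false
set_option linter.unusedSectionVars false

noncomputable section

namespace Crest.Agent.T27.Ker65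

open MeasureTheory Complex Filter
open Crest.Agent.R17 (Wm Wc)

/-- the self-dual profile -/
def bb (t : ℝ) : ℝ := Real.exp (-t ^ 2 + t / 2)

theorem bb_pos (t : ℝ) : 0 < bb t := Real.exp_pos _

theorem continuous_bb : Continuous bb := by
  unfold bb
  fun_prop

theorem meas_bb : Measurable fun t => (bb t : ℂ) :=
  (continuous_ofReal.comp continuous_bb).measurable

theorem bb_le (σ t : ℝ) : ‖(bb t : ℂ)‖ ≤ Real.exp ((1 / 2 - σ) ^ 2 / 4) * Real.exp (σ * t) := by
  rw [norm_real, Real.norm_of_nonneg (bb_pos t).le, bb, ← Real.exp_add]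
  exact Real.exp_le_exp.2 (by nlinarith [sq_nonneg (t - (1 / 2 - σ) / 2)])

theorem integrable_bb : Integrable bb := by
  refine ((integrable_exp_neg_mul_sq (b := 1 / 2) (by norm_num)).const_mul
    (Real.exp (1 / 8))).mono' continuous_bb.aestronglyMeasurable (Eventually.of_forall fun t => ?_)
  rw [Real.norm_of_nonneg (bb_pos t).le, bb, ← Real.exp_add]
  exact Real.exp_le_exp.2 (by nlinarith [sq_nonneg (t - 1 / 2)])

theorem integral_bb_pos : 0 < ∫ t, bb t :=
  (integral_pos_iff_support_of_nonneg (fun t => (bb_pos t).le) integrable_bb).2 (by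
    rw [Function.support_eq_univ fun t => (bb_pos t).ne']
    simp)

theorem bb_dual (t : ℝ) : (bb (-t) : ℂ) * cexp t = bb t := by
  rw [← ofReal_exp, ← ofReal_mul, bb, bb, ← Real.exp_add]
  congr 2
  ring





namespace RD

variable {G : Type*} [AddCommGroup G] [MeasurableSpace G] [MeasurableAdd G] [MeasurableNeg G]
  {μ : Measure G} [μ.IsAddLeftInvariant] [μ.IsNegInvariant] [SFinite μ]
  {U : Type*} [CommGroup U] [Countable U] {K : Type*} [Countable K] (D : RD G μ U K)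

/-- the kernel in the logarithmic variable -/
def w (t : ℝ) : ℝ := ∫ g, bb (D.l g - t) * D.Φ g ∂μ

theorem I_bb (t : ℝ) : D.av (fun t => (bb t : ℂ)) t = D.w t := by
  simp only [av, w, ← ofReal_mul, integral_complex_ofReal]

theorem int_w (t : ℝ) : Integrable (fun g => bb (D.l g - t) * D.Φ g) μ := by
  have h := (D.integrable_I meas_bb one_pos (bb_le 1) t).1.norm
  simpa only [norm_mul, norm_real, Real.norm_of_nonneg (bb_pos _).le,
    Real.norm_of_nonneg (D.Φ_nonneg _)] using h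

theorem w_pos (t : ℝ) : 0 < D.w t :=
  (integral_pos_iff_support_of_nonneg (fun g => mul_nonneg (bb_pos _).le (D.Φ_nonneg g))
    (D.int_w t)).2 (by
      refine D.Φ_pos.trans_le (measure_mono fun g hg => ?_)
      exact mul_ne_zero (bb_pos _).ne' hg)

theorem w_anti : Antitone D.w := fun t t' h => by
  obtain ⟨g₀, h1, h2⟩ := D.flow (t' - t) (by linarith)
  have h3 := (D.int_w t').comp_add_right g₀
  rw [w, ← integral_add_right_eq_self _ g₀]
  have e : ∀ g, D.l (g + g₀) - t' = D.l g - t := fun g => by rw [map_add, h1]; ring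
  simp only [e] at h3 ⊢
  exact integral_mono h3 (D.int_w t) fun g => mul_le_mul_of_nonneg_left (h2 g) (bb_pos _).le

theorem w_le {σ : ℝ} (hσ : 0 < σ) : ∃ C : ℝ, 0 < C ∧ ∀ t, D.w t ≤ C * Real.exp (-(σ * t)) := by
  have h3 : 0 ≤ ∫ g, Real.exp (σ * D.l g) * D.Φ g ∂μ :=
    integral_nonneg fun g => mul_nonneg (Real.exp_pos _).le (D.Φ_nonneg g)
  refine ⟨Real.exp ((1 / 2 - σ) ^ 2 / 4) * (1 + ∫ g, Real.exp (σ * D.l g) * D.Φ g ∂μ),
    by positivity, fun t => ?_⟩
  have h := (D.integrable_I meas_bb hσ (bb_le σ) t).2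
  simp only [norm_mul, norm_real, Real.norm_of_nonneg (bb_pos _).le,
    Real.norm_of_nonneg (D.Φ_nonneg _)] at h
  refine h.trans ?_
  rw [mul_right_comm]
  gcongr
  linarith

/-- the Mellin transform of the profile -/
def M (s : ℂ) : ℂ := ∫ g, cexp (s * D.l g) * (D.Φ g : ℂ) ∂μ







/-- the zero term -/
def V : ℝ := D.c * ∫ t, bb t

theorem V_pos : 0 < D.V := mul_pos D.c_pos integral_bb_pos

/-- the normalised kernel -/
def gw (x : ℝ) : ℝ := if 0 < x then D.w (Real.log x) / D.V else 1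


theorem gw_of_pos {x : ℝ} (hx : 0 < x) : D.gw x = D.w (Real.log x) / D.V := if_pos hx

theorem gw_pos (x : ℝ) : 0 < D.gw x := by
  unfold gw
  split_ifs
  · exact div_pos (D.w_pos _) D.V_pos
  · exact one_pos


theorem gw_anti : AntitoneOn D.gw (Set.Ioi 0) := fun x hx y hy h => by
  rw [D.gw_of_pos hx, D.gw_of_pos hy]
  exact div_le_div_of_nonneg_right (D.w_anti (Real.log_le_log hx h)) D.V_pos.le

theorem gw_le (A : ℝ) (hA : 0 < A) :
    ∃ C : ℝ, 0 < C ∧ ∀ x : ℝ, 0 < x → D.gw x ≤ C * x ^ (-A) := by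
  obtain ⟨C, hC, h⟩ := D.w_le hA
  refine ⟨C / D.V, div_pos hC D.V_pos, fun x hx => ?_⟩
  rw [D.gw_of_pos hx, Real.rpow_def_of_pos hx, div_mul_eq_mul_div, mul_neg, mul_comm _ A]
  exact div_le_div_of_nonneg_right (h _) D.V_pos.le




/-- the norm of a row -/
def n (k : K) : ℝ := Real.exp (D.l (D.pt k))


theorem n_pos (k : K) : 0 < D.n k := Real.exp_pos _


/-- radial Poisson summation for the normalised kernel -/
theorem poisson_gw {B B' : ℝ} {f f' : K → ℂ} (hf : ∀ k, ‖f k‖ ≤ B)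
    (hf' : ∀ k, ‖f' k‖ ≤ B') {f₀ f₀' : ℂ} {g₁ : G} {Q : ℝ} (hQ : 0 < Q)
    (hg : D.l g₁ = -Real.log Q)
    (hθ : ∀ g, D.Θ f g + f₀ = cexp (D.l g₁ - D.l g) * (D.Θ f' (g₁ - g) + f₀')) {X : ℝ}
    (hX : 0 < X) :
    f₀ + ∑' k, f k * (D.gw (X⁻¹ * D.n k) : ℂ) =
      (X / Q : ℝ) * (f₀' + ∑' k, f' k * (D.gw (X / Q * D.n k) : ℂ)) := by
  have h := D.poisson meas_bb (bb_le 2) integrable_bb.ofReal bb_dual hf hf' hθ (-Real.log X)
  have hV : (D.V : ℂ) ≠ 0 := ofReal_ne_zero.2 D.V_pos.ne'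
  have e : ∀ {y : ℝ}, 0 < y → ∀ F : K → ℂ, ∑' k, F k * (D.gw (y * D.n k) : ℂ) =
      (∑' k, F k * D.av (fun t => (bb t : ℂ)) (Real.log y + D.l (D.pt k))) / D.V := fun hy F => by
    rw [← tsum_div_const]
    refine tsum_congr fun k => ?_
    rw [D.gw_of_pos (mul_pos hy (D.n_pos k)), Real.log_mul hy.ne' (D.n_pos k).ne', n, Real.log_exp,
      D.I_bb, ofReal_div, mul_div_assoc]
  have e2 : D.l g₁ - -Real.log X = Real.log (X / Q) := by
    rw [hg, Real.log_div hX.ne' hQ.ne']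
    ring
  rw [integral_complex_ofReal, ← ofReal_mul, ← V, ← ofReal_sub, e2, ← ofReal_exp,
    Real.exp_log (div_pos hX hQ)] at h
  rw [e (inv_pos.2 hX), e (div_pos hX hQ), Real.log_inv]
  field_simp
  linear_combination h

end RD

end Crest.Agent.T27.Ker65
end
end

-- ▼ part T27/KerE_65
section

/-!
# Row 27, kernel (E): the group `Fˣ / Λˣ` and the space `(places → ℝ) × Fˣ / Λˣ`
-/

set_option autoImplicit false
set_option linter.unusedSectionVars false

noncomputable section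

namespace Crest.Agent.T27.Ker65

open MeasureTheory NumberField

theorem summable_pi {ι : Type*} [Fintype ι] {a : ι → ℝ} (h0 : ∀ i, 0 ≤ a i) (h1 : ∀ i, a i < 1) :
    Summable fun n : ι → ℕ => ∏ i, a i ^ n i := by
  classical
  refine summable_of_sum_le (c := ∏ i, (1 - a i)⁻¹)
    (fun n => Finset.prod_nonneg fun i _ => pow_nonneg (h0 i) _) fun S => ?_
  calc ∑ n ∈ S, ∏ i, a i ^ n i
      ≤ ∑ n ∈ Fintype.piFinset (fun i => S.image (· i)), ∏ i, a i ^ n i :=
        Finset.sum_le_sum_of_subset_of_nonneg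
          (fun n hn => Fintype.mem_piFinset.2 fun i => Finset.mem_image_of_mem _ hn)
          fun n _ _ => Finset.prod_nonneg fun i _ => pow_nonneg (h0 i) _
    _ = ∏ i, ∑ k ∈ S.image (· i), a i ^ k := (Finset.prod_univ_sum _ _).symm
    _ ≤ _ := Finset.prod_le_prod (fun i _ => Finset.sum_nonneg fun k _ => pow_nonneg (h0 i) _)
        fun i _ => sum_le_hasSum _ (fun k _ => pow_nonneg (h0 i) _)
          (hasSum_geometric_of_lt_one (h0 i) (h1 i))

/-- the group of the fractional ideals of `Λ`, written additively -/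
def Gam (F : Type*) [Field F] (N : ℕ) := Additive (Fˣ ⧸ UL F N)

variable {F : Type*} [Field F] [NumberField F] {N : ℕ}

instance : AddCommGroup (Gam F N) := inferInstanceAs (AddCommGroup (Additive (Fˣ ⧸ UL F N)))
instance : MeasurableSpace (Gam F N) := ⊤
instance : DiscreteMeasurableSpace (Gam F N) := ⟨fun _ => trivial⟩

instance : Countable (Gam F N) :=
  haveI : Countable F := (Module.finBasis ℚ F).equivFun.injective.countable
  haveI : Countable Fˣ := Units.val_injective.countable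
  (QuotientGroup.mk_surjective (s := UL F N)).countable

/-- the class of a unit of the field -/
def mkU (N : ℕ) (x : Fˣ) : Gam F N := Additive.ofMul (QuotientGroup.mk x : Fˣ ⧸ UL F N)

open Classical in
/-- the class of an element -/
def mkF (N : ℕ) (x : F) : Gam F N := if h : x = 0 then 0 else mkU N (Units.mk0 x h)

theorem mkF_coe (x : Fˣ) : mkF N (x : F) = mkU N x := by
  rw [mkF, dif_neg x.ne_zero, Units.mk0_val]

theorem mkF_mul {x y : F} (hx : x ≠ 0) (hy : y ≠ 0) : mkF N (x * y) = mkF N x + mkF N y := by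
  lift x to Fˣ using hx.isUnit
  lift y to Fˣ using hy.isUnit
  rw [← Units.val_mul, mkF_coe, mkF_coe, mkF_coe]
  rfl

theorem mkF_one : mkF N (1 : F) = 0 := mkF_coe 1

theorem mkF_inv {x : F} (hx : x ≠ 0) : mkF N x⁻¹ = -mkF N x :=
  eq_neg_of_add_eq_zero_left (by rw [← mkF_mul (inv_ne_zero hx) hx, inv_mul_cancel₀ hx, mkF_one])

/-- a representative of a class -/
def rp (γ : Gam F N) : Fˣ := Quotient.out (Additive.toMul (α := Fˣ ⧸ UL F N) γ)

theorem mkF_rp (γ : Gam F N) : mkF N (rp γ : F) = γ := by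
  rw [mkF_coe, rp, mkU, QuotientGroup.out_eq']
  rfl

theorem rp_mkF {x : F} (hx : x ≠ 0) : ∃ u ∈ UL F N, (rp (mkF N x) : F) = x * u := by
  lift x to Fˣ using hx.isUnit
  obtain ⟨u, hu⟩ := QuotientGroup.mk_out_eq_mul (UL F N) x
  refine ⟨u, u.2, ?_⟩
  rw [mkF_coe, ← Units.val_mul, ← hu]
  rfl

theorem mkF_of_mem {u : Fˣ} (hu : u ∈ UL F N) : mkF N (u : F) = 0 := by
  rw [mkF_coe, mkU, (QuotientGroup.eq_one_iff u).2 hu]
  rfl

/-- the integral classes -/
def In (F : Type*) [Field F] (N : ℕ) : Set (Gam F N) := {γ | (rp γ : F) ∈ LS F N}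

theorem mkF_mem {x : F} (hx : x ≠ 0) : mkF N x ∈ In F N ↔ x ∈ LS F N := by
  obtain ⟨u, hu, e⟩ := rp_mkF (N := N) hx
  show (rp (mkF N x) : F) ∈ LS F N ↔ _
  rw [e]
  refine ⟨fun h => ?_, fun h => mul_mem h hu.1⟩
  simpa using mul_mem h hu.2

variable [hG : SGood F N]

/-- the logarithm of the `S`-adic absolute value -/
def la (γ : Gam F N) : ℝ := Real.log (absS N (rp γ : F))

theorem la_mkF {x : F} (hx : x ≠ 0) : la (mkF N x) = Real.log (absS N x) := by
  obtain ⟨u, hu, e⟩ := rp_mkF (N := N) hx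
  rw [la, e, absS_mul, absS_of_mem_UL hu, mul_one]

theorem la_add (a b : Gam F N) : la (a + b) = la a + la b := by
  rw [← mkF_rp a, ← mkF_rp b, ← mkF_mul (rp a).ne_zero (rp b).ne_zero,
    la_mkF (mul_ne_zero (rp a).ne_zero (rp b).ne_zero), la_mkF (rp a).ne_zero,
    la_mkF (rp b).ne_zero, absS_mul,
    Real.log_mul (absS_pos (rp a).ne_zero).ne' (absS_pos (rp b).ne_zero).ne']

theorem la_zero : la (0 : Gam F N) = 0 := by
  have := la_add (0 : Gam F N) 0
  rw [add_zero] at this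
  linarith

theorem absS_lt_one {p : LS F N} (hp : Prime p) : absS N (p : F) < 1 := by
  have h1 := absS_card p hp.ne_zero
  have := finite_quot_LS hp.ne_zero
  have : Nontrivial (LS F N ⧸ Ideal.span {p}) :=
    Ideal.Quotient.nontrivial_iff.2 fun h => hp.not_isUnit (Ideal.span_singleton_eq_top.1 h)
  have h2 : (1 : ℝ) < Nat.card (LS F N ⧸ Ideal.span {p}) := by exact_mod_cast Finite.one_lt_card
  have h3 := absS_pos (N := N) (x := (p : F)) (by simpa using hp.ne_zero)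
  nlinarith

theorem exists_primes : ∃ P : Finset (LS F N), (∀ p ∈ P, Prime p) ∧
    ∀ x : LS F N, x ≠ 0 → ∃ n : P → ℕ, Associated x (∏ p : P, (p : LS F N) ^ n p) := by
  classical
  have h1 := (finite_isMaximal_LS (F := F) (N := N)).image
    fun J => Submodule.IsPrincipal.generator J
  refine ⟨h1.toFinset.filter Prime, fun p hp => (Finset.mem_filter.1 hp).2, fun x => ?_⟩
  induction x using UniqueFactorizationMonoid.induction_on_prime with
  | h₁ => exact fun h => absurd rfl h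
  | h₂ x hx => exact fun _ => ⟨0, by simpa using hx⟩
  | h₃ a p ha hp ih =>
    intro _
    obtain ⟨n, hn⟩ := ih ha
    have h2 : (Ideal.span {p}).IsMaximal :=
      PrincipalIdealRing.isMaximal_of_irreducible hp.irreducible
    have h3 : Associated p (Submodule.IsPrincipal.generator (Ideal.span {p})) := by
      rw [← Ideal.span_singleton_eq_span_singleton, Ideal.span_singleton_generator]
    let π : (h1.toFinset.filter Prime : Finset _) :=
      ⟨_, Finset.mem_filter.2 ⟨h1.mem_toFinset.2 ⟨_, h2, rfl⟩, h3.prime hp⟩⟩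
    refine ⟨Pi.single π 1 + n, ?_⟩
    simp only [Pi.add_apply, pow_add, Finset.prod_mul_distrib]
    refine Associated.mul_mul ?_ hn
    rw [Finset.prod_eq_single π (fun b _ hb => by rw [Pi.single_eq_of_ne hb, pow_zero])
      (by simp), Pi.single_eq_same, pow_one]
    exact h3

theorem summable_In {σ : ℝ} (hσ : 0 < σ) :
    Summable ((In F N).indicator fun γ => Real.exp (σ * la γ)) := by
  obtain ⟨P, hP, h⟩ := exists_primes (F := F) (N := N)
  have h0 : ∀ p : P, ((p : LS F N) : F) ≠ 0 := fun p => by simpa using (hP p p.2).ne_zero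
  have h1 : ∀ γ : In F N, ∃ n : P → ℕ, mkF N (∏ p : P, ((p : LS F N) : F) ^ n p) = γ := fun γ => by
    obtain ⟨n, u, hu⟩ := h ⟨_, γ.2⟩ (by simp [Subtype.ext_iff])
    refine ⟨n, ?_⟩
    have h2 := congrArg (fun x : LS F N => (x : F)) hu
    simp only [MulMemClass.coe_mul, SubmonoidClass.coe_finsetProd, SubmonoidClass.coe_pow] at h2
    have h3 := mkF_of_mem (N := N) (unitsInEquiv (LS F N) u).2
    rw [← h2, mkF_mul (rp γ.1).ne_zero (by simp), mkF_rp]
    exact (congrArg (γ.1 + ·) h3).trans (add_zero _)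
  choose r hr using h1
  have h2 : Function.Injective r := fun a b e => Subtype.ext (by rw [← hr a, ← hr b, e])
  have h3 := summable_pi (a := fun p : P => absS N ((p : LS F N) : F) ^ σ)
    (fun p => Real.rpow_nonneg (absS_pos (h0 p)).le _)
    fun p => Real.rpow_lt_one (absS_pos (h0 p)).le (absS_lt_one (hP p p.2)) hσ
  refine summable_subtype_iff_indicator.1 ((h3.comp_injective h2).congr fun γ => ?_)
  have h4 : ∀ s : Finset P, absS N (∏ p ∈ s, ((p : LS F N) : F) ^ r γ p) =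
      ∏ p ∈ s, absS N ((p : LS F N) : F) ^ r γ p := fun s => by
    classical
    induction s using Finset.induction_on with
    | empty => simpa using absS_one
    | insert a s ha ih => rw [Finset.prod_insert ha, Finset.prod_insert ha, absS_mul, absS_pow, ih]
  have h5 : (∏ p : P, ((p : LS F N) : F) ^ r γ p) ≠ 0 :=
    Finset.prod_ne_zero_iff.2 fun p _ => pow_ne_zero _ (h0 p)
  simp only [Function.comp_apply]
  rw [← hr γ, la_mkF h5, mul_comm σ, ← Real.rpow_def_of_pos (absS_pos h5), h4,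
    ← Real.finsetProd_rpow _ _ fun p _ => pow_nonneg (absS_pos (h0 p)).le _]
  refine Finset.prod_congr rfl fun p _ => ?_
  rw [← Real.rpow_natCast, ← Real.rpow_natCast, ← Real.rpow_mul (absS_pos (h0 p)).le,
    ← Real.rpow_mul (absS_pos (h0 p)).le, mul_comm]

/-- the space -/
abbrev GG (F : Type*) [Field F] (N : ℕ) := HeckeC87.X F × Gam F N

/-- the invariant measure -/
def mu (F : Type*) [Field F] [NumberField F] (N : ℕ) : Measure (GG F N) :=
  (volume : Measure (HeckeC87.X F)).prod Measure.count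

instance : MeasurableAdd (GG F N) :=
  ⟨fun c => (measurable_const_add c.1).prodMap (measurable_const_add c.2),
    fun c => (measurable_add_const c.1).prodMap (measurable_add_const c.2)⟩
instance : MeasurableNeg (GG F N) := ⟨measurable_neg.prodMap measurable_neg⟩
instance : SFinite (mu F N) := by unfold mu; infer_instance
instance : (mu F N).IsAddLeftInvariant := by unfold mu; infer_instance
instance : (mu F N).IsNegInvariant :=
  ⟨((Measure.measurePreserving_neg _).prod (Measure.measurePreserving_neg _)).map_eq⟩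

end Crest.Agent.T27.Ker65
end
end

-- ▼ part T27/KerT_65
section

/-!
# Row 27, kernel (T): the `S`-adic theta identity (definition only; helper65)
-/

set_option autoImplicit false

noncomputable section

open NumberField

namespace Crest.Agent.T27

open Classical in
/-- Theta inversion on the lattices `R ∩ yΛ` for functions periodic modulo `q`. -/
def ThetaO [Fr0] (F : Type*) [Field F] [NumberField F] (N : ℕ) (j : O →+* F) : Prop :=
  ∃ δ : F, δ ≠ 0 ∧ absS N δ = |(discr F : ℝ)|⁻¹ ∧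
    ∀ (y : F) (t : InfinitePlace F → ℝ), y ≠ 0 → (∀ w, 0 < t w) →
      (Summable fun x : O => if j x / y ∈ LS F N then HeckeB87.gs t (j x) else 0) ∧
      ∀ (q : O) (f : O → ℂ), q ≠ 0 → (∀ x x', q ∣ x - x' → f x = f x') →
        ∑' x : O, (if j x / y ∈ LS F N then f x * (HeckeB87.gs t (j x) : ℂ) else 0) =
          ((absS N y / (nr q * Real.sqrt |(discr F : ℝ)| * Real.sqrt (∏ w, t w ^ w.mult)) : ℝ) : ℂ) *
            ∑' h : O, if j h / (j q / (δ * y)) ∈ LS F N then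
              ft q f h * (HeckeB87.gs (fun w => (t w * w (j q) ^ 2)⁻¹) (j h) : ℂ) else 0

end Crest.Agent.T27
end
end

-- ▼ part T27/KerF_65
section

/-!
# Row 27, kernel (F): the radial Poisson formula of the number-field model
-/

set_option autoImplicit false
set_option linter.unusedSectionVars false

noncomputable section

namespace Crest.Agent.T27

namespace Ker65

open MeasureTheory NumberField HeckeB87
open HeckeC87 (X tt ll lg LL)

variable {F : Type*} [Field F] [NumberField F] {N : ℕ} [hG : SGood F N]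

/-- the shift that makes the profile self-dual -/
def c0 (F : Type*) [Field F] [NumberField F] : X F :=
  fun _ => -Real.log |(discr F : ℝ)| / (2 * Module.finrank ℚ F)

theorem ll_c0 : ll (c0 F) = -Real.log |(discr F : ℝ)| / 2 := by
  have := HeckeC87.finrank_pos' (K := F)
  simp only [ll, c0]
  field_simp

/-- the logarithmic norm -/
def lG : GG F N →+ ℝ :=
  AddMonoidHom.mk' (fun g => ll g.1 + la g.2) fun a b => by
    rw [Prod.fst_add, Prod.snd_add, HeckeC87.ll_add, la_add]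
    ring

theorem lG_apply (g : GG F N) : lG g = ll g.1 + la g.2 := rfl

/-- the profile -/
def Ph (g : GG F N) : ℝ := HeckeB87.gs (tt (g.1 + c0 F)) (1 : F) * (In F N).indicator 1 g.2

/-- the point of an element -/
def pG (N : ℕ) (x : F) : GG F N := (lg x, mkF N x)

theorem pG_mul {x y : F} (hx : x ≠ 0) (hy : y ≠ 0) : pG N (x * y) = pG N x + pG N y :=
  Prod.ext (HeckeC87.lg_mul hx hy) (mkF_mul hx hy)

theorem lG_pG {x : F} (hx : x ≠ 0) :
    lG (pG N x) = Real.log (absS N x * |((Algebra.norm ℚ x : ℚ) : ℝ)|) := by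
  have h1 : |((Algebra.norm ℚ x : ℚ) : ℝ)| ≠ 0 := by simpa using hx
  rw [lG_apply, Real.log_mul (absS_pos hx).ne' h1, add_comm]
  simp only [pG]
  rw [la_mkF hx, HeckeC87.ll_lg hx, Rat.cast_abs]

theorem Ph_nonneg (g : GG F N) : 0 ≤ Ph g :=
  mul_nonneg (gs_pos _ _).le (Set.indicator_nonneg (fun _ _ => zero_le_one) _)

open Classical in
theorem Ph_add (g : GG F N) {x y : F} (hx : x ≠ 0) (hy : y ≠ 0) (e : mkF N y = -g.2) :
    Ph (g + pG N x) = if x / y ∈ LS F N then HeckeB87.gs (tt (g.1 + c0 F)) x else 0 := by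
  have h1 : (g + pG N x).2 = mkF N (x / y) := by
    rw [div_eq_mul_inv, mkF_mul hx (inv_ne_zero hy), mkF_inv hy, e, neg_neg, add_comm]
    rfl
  have h2 : (g + pG N x).1 + c0 F = g.1 + c0 F + lg x := add_right_comm _ _ _
  rw [Ph, h1, h2, ← HeckeC87.gs_mul _ hx, mul_one, Set.indicator_apply]
  simp only [mkF_mem (div_ne_zero hx hy), Pi.one_apply, mul_ite, mul_one, mul_zero]

theorem meas_lG : Measurable (lG : GG F N → ℝ) :=
  (HeckeC87.measurable_ll.comp measurable_fst).add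
    ((Measurable.of_discrete (f := la)).comp measurable_snd)

theorem meas_Ph : Measurable (Ph : GG F N → ℝ) :=
  (((HeckeC87.continuous_gs (1 : F)).measurable.comp (measurable_add_const _)).comp
    measurable_fst).mul ((Measurable.of_discrete (f := (In F N).indicator 1)).comp measurable_snd)

theorem zero_mem_In : (0 : Gam F N) ∈ In F N := by
  rw [← mkF_one, mkF_mem one_ne_zero]
  exact one_mem _

theorem Ph_pos : 0 < mu F N (Function.support Ph) := by
  refine lt_of_lt_of_le ?_ (measure_mono (s := Set.univ ×ˢ {0}) fun g hg => ?_)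
  · rw [mu, Measure.prod_prod, Measure.count_singleton, mul_one]
    exact isOpen_univ.measure_pos _ Set.univ_nonempty
  · rw [Function.mem_support, Ph, show g.2 = 0 from hg.2, Set.indicator_of_mem zero_mem_In]
    exact (mul_pos (gs_pos _ _) one_pos).ne'

theorem int_Ph {σ : ℝ} (hσ : 0 < σ) :
    Integrable (fun g : GG F N => Real.exp (σ * lG g) * Ph g) (mu F N) := by
  classical
  have h1 := (((HeckeC87.integrable_ker_one (K := F) (s := σ) hσ).norm).comp_add_right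
    (c0 F)).const_mul (Real.exp (-(σ * ll (c0 F))))
  have h2 : Integrable ((In F N).indicator fun γ => Real.exp (σ * la γ)) Measure.count :=
    integrable_count_iff.2 (summable_In hσ).norm
  refine (h1.mul_prod h2).congr (Filter.Eventually.of_forall fun g => ?_)
  simp only [HeckeC87.ker, norm_mul, Complex.norm_real, Real.norm_of_nonneg (gs_pos _ _).le,
    Complex.norm_exp, Complex.re_mul_ofReal, Complex.ofReal_re, HeckeC87.ll_add, lG_apply, Ph,
    mul_add, Real.exp_add, Real.exp_neg, Set.indicator_apply, Pi.one_apply]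
  split_ifs
  · field_simp
  · simp

theorem flow_Ph {L : ℝ} (hL : 0 ≤ L) : ∃ g₀ : GG F N, lG g₀ = L ∧ ∀ g, Ph (g + g₀) ≤ Ph g := by
  have hn := HeckeC87.finrank_pos' (K := F)
  refine ⟨(LL.symm fun w => w.mult * (L / Module.finrank ℚ F), 0), ?_, fun g => ?_⟩
  · rw [lG_apply, la_zero, add_zero, ← HeckeC87.sum_LL, LinearEquiv.apply_symm_apply,
      ← Finset.sum_mul, ← Nat.cast_sum, InfinitePlace.sum_mult_eq]
    field_simp
  · simp only [Ph, Prod.fst_add, Prod.snd_add, add_zero]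
    refine mul_le_mul_of_nonneg_right ?_ (Set.indicator_nonneg (fun _ _ => zero_le_one) _)
    rw [gs_eq, gs_eq, add_right_comm]
    refine Real.exp_le_exp.2 (neg_le_neg (mul_le_mul_of_nonneg_left
      (Finset.sum_le_sum fun w _ => ?_) Real.pi_pos.le))
    have hm := HeckeC87.mult_pos' w
    refine mul_le_mul_of_nonneg_left (mul_le_mul_of_nonneg_right (Real.exp_le_exp.2 ?_)
      (sq_nonneg _)) hm.le
    rw [map_add _ (g.1 + c0 F), LinearEquiv.apply_symm_apply, Pi.add_apply]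
    gcongr
    exact le_add_of_nonneg_right (by positivity)

section model

variable [Fr0] {J : ℕ} {j : O →+* F}

theorem tsum_split {f : O → ℂ} (hf : Summable f) :
    ∑' x, f x = (∑' z : {n : O // Primary n} × Oˣ, f (z.2 * z.1)) + f 0 := by
  classical
  have h1 : Function.Injective fun z : {n : O // Primary n} × Oˣ => (z.2 : O) * z.1 :=
    fun a b e => by
      obtain ⟨e1, e2⟩ := unit_mul_primary_inj a.2.isUnit b.2.isUnit a.1.2 b.1.2 e
      exact Prod.ext (Subtype.ext e2) (Units.ext e1)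
  rw [hf.tsum_eq_add_tsum_ite 0, add_comm, ← h1.tsum_eq]
  · congr 1
    exact tsum_congr fun z => if_neg (mul_ne_zero z.2.ne_zero z.1.2.ne_zero)
  · intro x hx
    obtain ⟨u, m, hu, hm, rfl⟩ := exists_eq_unit_mul_primary (n := x) fun h => by simp [h] at hx
    exact ⟨(⟨m, hm⟩, hu.unit), rfl⟩

open Classical in
theorem tsum_Ph (h : IsModel F N J j) {f : O → ℂ} {B : ℝ} (hf : ∀ x, ‖f x‖ ≤ B)
    (hu : ∀ u x, IsUnit u → f (u * x) = f x) (g : GG F N) {y : F} (hy : y ≠ 0)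
    (e : mkF N y = -g.2)
    (hs : Summable fun x : O => if j x / y ∈ LS F N then HeckeB87.gs (tt (g.1 + c0 F)) (j x) else 0) :
    (∑' z : {n : O // Primary n} × Oˣ, f z.1 * (Ph (g + pG N (j z.2) + pG N (j z.1)) : ℂ)) + f 0 =
      ∑' x : O, if j x / y ∈ LS F N then f x * (HeckeB87.gs (tt (g.1 + c0 F)) (j x) : ℂ) else 0 := by
  rw [tsum_split]
  · simp only [map_zero, zero_div, zero_mem, if_true, gs_zero, Complex.ofReal_one, mul_one]
    congr 1
    refine tsum_congr fun z => ?_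
    have h1 := h.ne_zero z.2.ne_zero
    have h2 := h.ne_zero z.1.2.ne_zero
    rw [add_assoc, ← pG_mul h1 h2, Ph_add g (mul_ne_zero h1 h2) hy e, hu _ _ z.2.isUnit, map_mul]
    split_ifs <;> simp
  · refine (hs.mul_left B).of_norm_bounded fun x => ?_
    split_ifs
    · rw [norm_mul, Complex.norm_real, Real.norm_of_nonneg (gs_pos _ _).le]
      exact mul_le_mul_of_nonneg_right (hf x) (gs_pos _ _).le
    · simp

theorem theta_gen (h : IsModel F N J j) (hT : ThetaO F N j) {q : O} (hq : q ≠ 0) :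
    ∃ g₁ : GG F N, lG g₁ = -Real.log (nr q) ∧ ∀ f : O → ℂ, (∀ x y, q ∣ x - y → f x = f y) →
      (∀ u x, IsUnit u → f (u * x) = f x) → ∀ g : GG F N,
      (∑' z : {n : O // Primary n} × Oˣ, f z.1 * (Ph (g + pG N (j z.2) + pG N (j z.1)) : ℂ)) + f 0 =
        Complex.exp (lG g₁ - lG g) * ((∑' z : {n : O // Primary n} × Oˣ,
          ft q f z.1 * (Ph (g₁ - g + pG N (j z.2) + pG N (j z.1)) : ℂ)) + ft q f 0) := by
  obtain ⟨δ, hδ, ha, hT⟩ := hT
  have hq' := h.ne_zero hq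
  have hD := abs_discr_pos (K := F)
  have hl : lG ((-(c0 F + c0 F), mkF N δ) - pG N (j q) : GG F N) = -Real.log (nr q) := by
    rw [map_sub, lG_pG hq', ← h.nr_eq, lG_apply, HeckeC87.ll_neg, HeckeC87.ll_add, ll_c0,
      la_mkF hδ, ha, Real.log_inv]
    ring
  refine ⟨_, hl, fun f hf hu g => ?_⟩
  have hy : (rp (-g.2) : F) ≠ 0 := Units.ne_zero _
  have hy' := div_ne_zero hq' (mul_ne_zero hδ hy)
  have e1 : tt ((((-(c0 F + c0 F), mkF N δ) - pG N (j q) : GG F N) - g).1 + c0 F) =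
      fun w => (tt (g.1 + c0 F) w * w (j q) ^ 2)⁻¹ := by
    rw [show (((-(c0 F + c0 F), mkF N δ) - pG N (j q) : GG F N) - g).1 + c0 F =
      -(g.1 + c0 F + lg (j q)) by simp only [Prod.fst_sub, pG]; abel, HeckeC87.tt_neg]
    funext w
    congr 1
    rw [tt, tt, map_add _ _ (lg (j q)), Pi.add_apply, HeckeC87.LL_lg, add_div, mul_add,
      Real.exp_add, mul_div_cancel_left₀ _ (HeckeC87.mult_pos' w).ne',
      show (2 : ℝ) * Real.log (w (j q)) = ((2 : ℕ) : ℝ) * Real.log (w (j q)) by norm_num,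
      Real.exp_nat_mul, Real.exp_log (InfinitePlace.pos_iff.2 hq')]
  have e2 : mkF N (j q / (δ * rp (-g.2))) =
      -(((-(c0 F + c0 F), mkF N δ) - pG N (j q) : GG F N) - g).2 := by
    rw [div_eq_mul_inv, mkF_mul hq' (inv_ne_zero (mul_ne_zero hδ hy)),
      mkF_inv (mul_ne_zero hδ hy), mkF_mul hδ hy, mkF_rp]
    simp only [Prod.snd_sub, pG]
    abel
  have hu' : ∀ u x, IsUnit u → ft q f (u * x) = ft q f x := fun u x h1 => by
    rw [← K63.ft_unit hq hf h1 x]
    simp only [hu u _ h1]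
  rw [tsum_Ph h (K63.bdd_per hq hf) hu g hy (mkF_rp _) (hT _ _ hy (HeckeC87.tt_pos _)).1,
    tsum_Ph h (K63.bdd_ft q f) hu' _ hy' e2 (hT _ _ hy' (HeckeC87.tt_pos _)).1,
    (hT _ _ hy (HeckeC87.tt_pos _)).2 q f hq hf, e1, hl]
  congr 1
  rw [← Complex.ofReal_sub, ← Complex.ofReal_exp, HeckeC87.sqrt_prod_tt, HeckeC87.ll_add, ll_c0,
    lG_apply, ← neg_neg g.2, ← mkF_rp (-g.2), ← mkF_inv hy, la_mkF (inv_ne_zero hy), absS_inv,
    Real.log_inv, mkF_inv hy, neg_neg, mkF_rp, Real.sqrt_eq_rpow, Real.rpow_def_of_pos hD,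
    mul_assoc, ← Real.exp_add, ← Real.exp_log (nr_pos hq), ← Real.exp_add,
    ← Real.exp_log (absS_pos (N := N) hy), ← Real.exp_sub, Real.log_exp, Real.log_exp]
  congr 2
  ring

/-- the radial data of the model -/
def rd (h : IsModel F N J j) (hT : ThetaO F N j) :
    RD (GG F N) (mu F N) Oˣ {n : O // Primary n} where
  l := lG
  Φ := Ph
  lam := fun u => pG N (j u)
  pt := fun k => pG N (j k)
  l_meas := meas_lG
  Φ_meas := meas_Ph
  Φ_nonneg := Ph_nonneg
  Φ_pos := Ph_pos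
  lam_mul := fun u v => by
    rw [Units.val_mul, map_mul, pG_mul (h.ne_zero u.ne_zero) (h.ne_zero v.ne_zero)]
  l_lam := fun u => by
    rw [lG_pG (h.ne_zero u.ne_zero), ← h.nr_eq, nr_unit u.isUnit, Real.log_one]
  l_pt := fun k => by
    rw [lG_pG (h.ne_zero k.2.ne_zero), ← h.nr_eq]
    exact Real.log_nonneg (one_le_nr k.2.ne_zero)
  sum_pt := by
    refine (K63.summable_z2.subtype {n | Primary n}).congr fun k => ?_
    rw [lG_pG (h.ne_zero (Primary.ne_zero k.2)), ← h.nr_eq, Function.comp_apply, K63.z2,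
      if_pos (show Primary k.1 from k.2), Real.rpow_def_of_pos (nr_pos (Primary.ne_zero k.2))]
    congr 1
    ring
  int := fun _ => int_Ph
  flow := fun _ => flow_Ph
  sumU := fun g => by
    obtain ⟨δ, -, -, hT⟩ := hT
    refine ((hT _ _ (rp (-g.2)).ne_zero (HeckeC87.tt_pos (g.1 + c0 F))).1.comp_injective
      Units.val_injective).congr fun u => ?_
    rw [Ph_add g (h.ne_zero u.ne_zero) (rp (-g.2)).ne_zero (mkF_rp _)]
    rfl
  posU := fun g => by
    obtain ⟨k, hk⟩ := exists_pow_mul_mem_LS hG.ne ((rp (-g.2) : F)⁻¹)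
    have h1 : IsUnit (N : O) :=
      h.isUnit_iff.2 (by rw [map_natCast]; exact ⟨SGood.cast_ne F N, inv_N_mem_RS⟩)
    refine ⟨h1.unit ^ k, ?_⟩
    rw [Ph_add g (h.ne_zero (Units.ne_zero _)) (rp (-g.2)).ne_zero (mkF_rp _), if_pos]
    · exact gs_pos _ _
    · simpa [div_eq_mul_inv] using hk
  theta := by
    obtain ⟨g₁, h1, h2⟩ := theta_gen h hT one_ne_zero
    refine ⟨g₁, by rw [h1, nr_unit isUnit_one, Real.log_one, neg_zero], fun g => ?_⟩
    have h3 := h2 (fun _ => 1) (fun _ _ _ => rfl) (fun _ _ _ => rfl) g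
    simp only [C21.ft_one, one_mul, h1, nr_unit isUnit_one, Real.log_one, neg_zero,
      Complex.ofReal_zero, zero_sub] at h3
    exact_mod_cast h3

end model

end Ker65

open Ker65 in
/-- **Radial Poisson summation** for the model, from the theta identity. -/
theorem basePoi_65 [Fr0] {F : Type*} [Field F] [NumberField F] {N J : ℕ} {j : O →+* F}
    (h : IsModel F N J j) (hT : ThetaO F N j) :
    ∃ (G : ℝ → ℝ) (V : ℝ), K63.Base G ∧ 0 < V ∧ BasePoi G V := by
  classical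
  have := h.good
  have : Countable Oˣ := Units.val_injective.countable
  let D := rd h hT
  refine ⟨D.gw, 1, ⟨fun x _ => D.gw_pos x, D.gw_anti, D.gw_le⟩, one_pos, ?_⟩
  rw [K63.basePoi_iff]
  intro q f X hq hf hu hX
  obtain ⟨g₁, h1, h2⟩ := theta_gen h hT hq
  have h3 := D.poisson_gw (f := fun k => f k) (f' := fun k => ft q f k)
    (fun k => K63.bdd_per hq hf k) (fun k => K63.bdd_ft q f k) (nr_pos hq) h1 (h2 f hf hu) hX
  have h4 : ∀ k, D.n k = nr k.1 := fun k => by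
    show Real.exp (lG (pG N (j k))) = _
    rw [lG_pG (h.ne_zero k.2.ne_zero), ← h.nr_eq, Real.exp_log (nr_pos k.2.ne_zero)]
  have h5 : ∀ (a : O → ℂ) (c : ℝ), ∑' n, K63.tm a D.gw c n =
      ∑' k : {n : O // Primary n}, a k * (D.gw (c * D.n k) : ℂ) := fun a c => by
    rw [← tsum_subtype_eq_of_support_subset (s := {n | Primary n}) fun n hn => by
      by_contra h6
      exact hn (if_neg h6)]
    exact tsum_congr fun k => by rw [h4, K63.tm, if_pos (show Primary k.1 from k.2)]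
  rw [h5, h5, Complex.ofReal_one, one_mul, one_mul]
  exact h3


end Crest.Agent.T27
end
end

-- ▼ part T27/ThO_87
section

/-!
# Row 27, kernel (T): the `S`-adic theta identity `ThetaO` for the model (helper87)
-/

set_option autoImplicit false
set_option linter.unusedSectionVars false

noncomputable section

open NumberField
open scoped nonZeroDivisors

namespace Crest.Agent.T27.ThO87

open HeckeB87 (FI el dl cov)

theorem hasSum_ite_iff {α β M : Type*} [AddCommMonoid M] [TopologicalSpace M] {e : α → β}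
    (he : Function.Injective e) {P : α → Prop} [DecidablePred P] {S : Set β}
    (hS : ∀ b, b ∈ S ↔ ∃ a, P a ∧ e a = b) (g : β → M) (c : M) :
    HasSum (fun a => if P a then g (e a) else 0) c ↔ HasSum (fun s : S => g s) c := by
  have h1 : (fun a => if P a then g (e a) else 0) = S.indicator g ∘ e := by
    funext a
    by_cases hP : P a
    · rw [if_pos hP, Function.comp, Set.indicator_of_mem ((hS _).2 ⟨a, hP, rfl⟩)]
    · rw [if_neg hP, Function.comp, Set.indicator_of_notMem]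
      intro h
      obtain ⟨a', h2, h3⟩ := (hS _).1 h
      exact hP (he h3 ▸ h2)
  rw [h1, he.hasSum_iff]
  · exact hasSum_subtype_iff_indicator.symm
  · intro b hb
    refine Set.indicator_of_notMem (fun h => ?_) _
    obtain ⟨a, -, h3⟩ := (hS _).1 h
    exact hb ⟨a, h3⟩

variable {F : Type*} [Field F] [NumberField F] {N : ℕ} [hG : SGood F N]

theorem el_inj {I J : FI F} (h : ∀ x, x ∈ el I ↔ x ∈ el J) : I = J :=
  Units.ext (FractionalIdeal.ext h)

theorem mem_el_dl {J : FI F} {x : F} : x ∈ el (dl J) ↔ ∀ w ∈ el J, eTr (x * w) = 1 := by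
  have h := FractionalIdeal.mem_dual (A := ℤ) (K := ℚ) (L := F) (B := 𝓞 F) J.ne_zero (x := x)
  refine h.trans (forall₂_congr fun w _ => ?_)
  rw [eTr_eq_one_iff, Algebra.traceForm_apply]
  exact ⟨fun ⟨k, hk⟩ => ⟨k, hk.symm⟩, fun ⟨k, hk⟩ => ⟨k, hk.symm⟩⟩

/-- The lattice `a R ∩ y Λ` is a fractional ideal of norm `N_R(a) N_Λ(y)`. -/
theorem exists_lat {a y : F} (ha : a ≠ 0) (hy : y ≠ 0) :
    ∃ J : FI F, (∀ x, x ∈ el J ↔ x / a ∈ RS F N ∧ x / y ∈ LS F N) ∧
      HeckeB87.nm J = nmQ (Submonoid.powers N) a * nmQ (copM N) y := by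
  obtain ⟨m, hm, a', ha'⟩ := exists_nat_mul_eq a
  obtain ⟨n, hn, y', hy'⟩ := exists_nat_mul_eq y
  have hm' : (m : F) ≠ 0 := by exact_mod_cast hm
  have hn' : (n : F) ≠ 0 := by exact_mod_cast hn
  set M : F := m * n with hM
  have hM0 : M ≠ 0 := mul_ne_zero hm' hn'
  have hMi : IsIntegral ℤ M := (isIntegral_natCast m).mul (isIntegral_natCast n)
  let A : RS F N := ⟨M * a, by
    rw [show M * a = n * a' by rw [hM, ← ha']; ring]
    exact mul_mem (natCast_mem _ n) (coe_mem_LocS a')⟩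
  let B : LS F N := ⟨M * y, by
    rw [show M * y = m * y' by rw [hM, ← hy']; ring]
    exact mul_mem (natCast_mem _ m) (coe_mem_LocS y')⟩
  have hA : (A : F) ≠ 0 := mul_ne_zero hM0 ha
  have hB : (B : F) ≠ 0 := mul_ne_zero hM0 hy
  have hA0 : A ≠ 0 := fun h => hA (by rw [h]; rfl)
  have hB0 : B ≠ 0 := fun h => hB (by rw [h]; rfl)
  have hcop : IsCoprime (idS A) (idS B) := by
    obtain ⟨k, hk⟩ := pow_mem_idS_LS hB0
    refine ((idS_isCoprime_N hA0).pow_right (n := k)).of_isCoprime_of_dvd_right ?_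
    rw [Ideal.span_singleton_pow, Ideal.dvd_span_singleton]
    exact hk
  have hI : idS A * idS B ≠ ⊥ :=
    mul_ne_zero (idS_ne_bot (SGood.h0R F N) hA0) (idS_ne_bot (SGood.h0L F N) hB0)
  have hI' : ((idS A * idS B : Ideal (𝓞 F)) : FractionalIdeal (𝓞 F)⁰ F) ≠ 0 :=
    FractionalIdeal.coeIdeal_ne_zero.2 hI
  have hs : FractionalIdeal.spanSingleton (𝓞 F)⁰ M⁻¹ ≠ 0 := by
    rw [FractionalIdeal.spanSingleton_ne_zero_iff]; exact inv_ne_zero hM0
  refine ⟨Units.mk0 _ (mul_ne_zero hs hI'), fun x => ?_, ?_⟩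
  · change x ∈ FractionalIdeal.spanSingleton (𝓞 F)⁰ M⁻¹ * _ ↔ _
    rw [FractionalIdeal.mem_singleton_mul]
    constructor
    · rintro ⟨v, hv, rfl⟩
      obtain ⟨c, hc, rfl⟩ := (FractionalIdeal.mem_coeIdeal _).1 hv
      rw [Ideal.mul_eq_inf_of_isCoprime hcop] at hc
      have h1 := (dvd_iff_subring hA).1 (mem_idS.1 hc.1)
      have h2 := (dvd_iff_subring hB).1 (mem_idS.1 hc.2)
      refine ⟨?_, ?_⟩
      · convert h1 using 1
        change _ = (c : F) / (M * a)
        rw [show algebraMap (𝓞 F) F c = (c : F) from rfl]; field_simp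
      · convert h2 using 1
        change _ = (c : F) / (M * y)
        rw [show algebraMap (𝓞 F) F c = (c : F) from rfl]; field_simp
    · rintro ⟨h1, h2⟩
      have h3 : M * x ∈ RS F N := by
        rw [show M * x = A * (x / a) by change _ = M * a * _; field_simp]
        exact mul_mem A.2 h1
      have h4 : M * x ∈ LS F N := by
        rw [show M * x = B * (x / y) by change _ = M * y * _; field_simp]
        exact mul_mem B.2 h2
      obtain ⟨c, hc⟩ := exists_coe_of_mem_RS_LS h3 h4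
      refine ⟨c, (FractionalIdeal.mem_coeIdeal _).2 ⟨c, ?_, rfl⟩, by rw [hc]; field_simp⟩
      rw [Ideal.mul_eq_inf_of_isCoprime hcop]
      refine ⟨mem_idS.2 ((dvd_iff_subring hA).2 ?_), mem_idS.2 ((dvd_iff_subring hB).2 ?_)⟩
      · convert h1 using 1
        change (c : F) / (M * a) = _
        rw [hc]; field_simp
      · convert h2 using 1
        change (c : F) / (M * y) = _
        rw [hc]; field_simp
  · have h1 := nmQ_mul_nmQ (N := N) M
    have h2 : nmQ (Submonoid.powers N) M * nmQ (Submonoid.powers N) a = nmS A := by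
      rw [← nmQ_mul (SGood.h0R F N), ← nmQ_coe (SGood.h0R F N)]
    have h3 : nmQ (copM N) M * nmQ (copM N) y = nmS B := by
      rw [← nmQ_mul (SGood.h0L F N), ← nmQ_coe (SGood.h0L F N)]
    have h4 := nmQ_pos (SGood.h0R F N) hM0
    have h5 := nmQ_pos (SGood.h0L F N) hM0
    rw [HeckeB87.nm, Units.val_mk0, map_mul, FractionalIdeal.absNorm_span_singleton,
      FractionalIdeal.coeIdeal_absNorm, map_mul, ← nmS_eq (SGood.h0R F N),
      ← nmS_eq (SGood.h0L F N), Algebra.norm_inv]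
    push_cast
    rw [← h2, ← h3, abs_inv, ← h1]
    field_simp

variable (N) in
/-- the character `ψ_S`, trivial on `Λ` -/
def pS (x : F) : ℂ := eTr (x - sPart N x)

theorem eTr_eq (x : F) : eTr x = pS N x * psiS N x := by
  rw [pS, psiS, ← eTr_add, sub_add_cancel]

theorem psiS_ne (x : F) : psiS N x ≠ 0 := fun h => by
  have := norm_psiS (N := N) x
  rw [h, norm_zero] at this
  exact zero_ne_one this

theorem pS_add (x y : F) : pS N (x + y) = pS N x * pS N y := by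
  have h := eTr_add x y
  rw [eTr_eq (N := N), eTr_eq (N := N) x, eTr_eq (N := N) y, psiS_add hG.ne] at h
  refine mul_right_cancel₀ (mul_ne_zero (psiS_ne (N := N) x) (psiS_ne (N := N) y)) ?_
  rw [h]; ring

theorem pS_of_mem_LS {l : F} (hl : l ∈ LS F N) : pS N l = 1 := by
  have h := eTr_eq (N := N) l
  rw [← psiS_of_mem_LS hG.ne hl] at h
  exact (mul_right_cancel₀ (psiS_ne (N := N) l) (by rw [← h, one_mul])).symm

theorem pS_of_mem_RS {r : F} (hr : r ∈ RS F N) : pS N r = eTr r := by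
  rw [eTr_eq (N := N) r, psiS_of_mem_RS hG.ne hr, mul_one]

variable (F N) in
/-- The local different. -/
theorem exists_delta : ∃ δ : F, δ ≠ 0 ∧ ∀ x : F, (∀ l ∈ LS F N, pS N (x * l) = 1) ↔
    x * δ ∈ LS F N := by
  have hD : ((discr F : ℤ) : F) ≠ 0 := Int.cast_ne_zero.2 (discr_ne_zero F)
  let I : Ideal (LS F N) :=
    { carrier := {v | ∀ l ∈ LS F N, pS N ((v : F) / discr F * l) = 1}
      add_mem' := fun {u v} hu hv l hl => by
        rw [show ((u + v : LS F N) : F) / discr F * l =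
          (u : F) / discr F * l + (v : F) / discr F * l by push_cast; ring, pS_add, hu l hl,
          hv l hl, one_mul]
      zero_mem' := fun l _ => pS_of_mem_LS (by simp)
      smul_mem' := fun c v hv l hl => by
        rw [show ((c • v : LS F N) : F) / discr F * l = (v : F) / discr F * (c * l) by
          rw [smul_eq_mul]; push_cast; ring]
        exact hv _ (mul_mem c.2 hl) }
  have hI : ∀ v : LS F N, v ∈ I ↔ ∀ l ∈ LS F N, pS N ((v : F) / discr F * l) = 1 :=
    fun v => Iff.rfl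
  obtain ⟨g, hg⟩ := (IsPrincipalIdealRing.principal I).principal
  have hdI : (⟨discr F, intCast_mem _ _⟩ : LS F N) ∈ I := (hI _).2 fun l hl =>
    pS_of_mem_LS (by change ((discr F : ℤ) : F) / discr F * l ∈ _; rw [div_self hD, one_mul]; exact hl)
  have hg0 : (g : F) ≠ 0 := by
    intro h0
    have : g = 0 := Subtype.ext h0
    rw [hg, this, Submodule.span_zero_singleton, Submodule.mem_bot] at hdI
    exact hD (congrArg Subtype.val hdI)
  have hmem : ∀ v : LS F N, v ∈ I ↔ (v : F) / g ∈ LS F N := fun v => by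
    rw [hg, ← dvd_iff_subring hg0]
    exact Ideal.mem_span_singleton
  refine ⟨discr F / g, div_ne_zero hD hg0, fun x => ⟨fun h => ?_, fun h l hl => ?_⟩⟩
  · obtain ⟨r, hr, l, hl, hx⟩ := exists_add_pow hG.ne 0 x
    rw [pow_zero, one_mul] at hx
    have h1 : IsIntegral ℤ ((discr F : F) * r) := isIntegral_discr_mul fun a => by
      have h2 := h a (coe_mem_LocS a)
      rwa [hx, add_mul, pS_add, pS_of_mem_LS (mul_mem hl (coe_mem_LocS a)), mul_one,
        pS_of_mem_RS (mul_mem hr (coe_mem_LocS a))] at h2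
    have h3 : (discr F : F) * x ∈ LS F N := by
      rw [hx, mul_add]
      exact add_mem (mem_LocS_of_isIntegral h1) (mul_mem (intCast_mem _ _) hl)
    have h4 : (⟨_, h3⟩ : LS F N) ∈ I := (hI _).2 fun l hl => by
      change pS N ((discr F : F) * x / discr F * l) = 1
      rw [mul_div_cancel_left₀ _ hD]
      exact h l hl
    have h5 := (hmem _).1 h4
    convert h5 using 1
    change _ = (discr F : F) * x / g
    ring
  · have h1 : g ∈ I := by rw [hg]; exact Submodule.mem_span_singleton_self g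
    have h2 := (hI g).1 h1 _ (mul_mem h hl)
    convert h2 using 2
    field_simp

theorem exists_mul_mem {M : Submonoid ℕ} {a : F} (ha : a ≠ 0) (x : F) :
    ∃ m : F, m ≠ 0 ∧ m / a ∈ LocS F M ∧ x * m ∈ LocS F M := by
  obtain ⟨n, hn, c, hc⟩ := exists_nat_mul_eq (x * a)
  refine ⟨a * n, mul_ne_zero ha (by exact_mod_cast hn), ?_, ?_⟩
  · rw [mul_div_cancel_left₀ _ ha]; exact natCast_mem _ n
  · rw [show x * (a * n) = c by rw [← hc]; ring]; exact coe_mem_LocS c

/-- The dual of `a R ∩ y Λ`. -/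
theorem mem_dl_lat {δ : F} (hδ : ∀ x : F, (∀ l ∈ LS F N, pS N (x * l) = 1) ↔ x * δ ∈ LS F N)
    {a y : F} (ha : a ≠ 0) (hy : y ≠ 0) {J : FI F}
    (hJ : ∀ x, x ∈ el J ↔ x / a ∈ RS F N ∧ x / y ∈ LS F N) (x : F) :
    x ∈ el (dl J) ↔ x * a ∈ RS F N ∧ x * y * δ ∈ LS F N := by
  rw [mem_el_dl]
  constructor
  · intro h
    obtain ⟨m, hm, hm1, hm2⟩ := exists_mul_mem (M := Submonoid.powers N) ha x
    obtain ⟨n, hn, hn1, hn2⟩ := exists_mul_mem (M := copM N) hy x
    refine ⟨mem_RS_of_psiS fun r hr => ?_, (hδ _).1 fun l hl => ?_⟩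
    · obtain ⟨w, ⟨r', hr', h1⟩, l', hl', h2⟩ := exists_approx hG.ne hm hn (a * r) 0
      rw [zero_add] at h2
      have h3 : w ∈ el J := (hJ w).2 ⟨by
        rw [h1, show (a * r + m * r') / a = r + m / a * r' by field_simp]
        exact add_mem hr (mul_mem hm1 hr'), by
        rw [h2, show n * l' / y = n / y * l' by ring]
        exact mul_mem hn1 hl'⟩
      have h4 : x * w ∈ LS F N := by rw [h2, ← mul_assoc]; exact mul_mem hn2 hl'
      rw [← h w h3, ← psiS_of_mem_LS hG.ne h4]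
      refine psiS_congr hG.ne ?_
      rw [h1, show x * a * r - x * (a * r + m * r') = -(x * m * r') by ring]
      exact neg_mem (mul_mem hm2 hr')
    · obtain ⟨w, ⟨r', hr', h1⟩, l', hl', h2⟩ := exists_approx hG.ne hm hn 0 (y * l)
      rw [zero_add] at h1
      have h3 : w ∈ el J := (hJ w).2 ⟨by
        rw [h1, show m * r' / a = m / a * r' by ring]
        exact mul_mem hm1 hr', by
        rw [h2, show (y * l + n * l') / y = l + n / y * l' by field_simp]
        exact add_mem hl (mul_mem hn1 hl')⟩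
      have h4 : x * w ∈ RS F N := by rw [h1, ← mul_assoc]; exact mul_mem hm2 hr'
      rw [← h w h3, ← pS_of_mem_RS h4, h2, mul_add, pS_add, ← mul_assoc x n,
        pS_of_mem_LS (mul_mem hn2 hl'), mul_one, mul_assoc]
  · rintro ⟨h1, h2⟩ w hw
    obtain ⟨h3, h4⟩ := (hJ w).1 hw
    rw [eTr_eq (N := N), psiS_of_mem_RS hG.ne (by
      rw [show x * w = x * a * (w / a) by field_simp]; exact mul_mem h1 h3), mul_one,
      show x * w = x * y * (w / y) by field_simp]
    exact (hδ _).2 h2 _ h4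

theorem absS_delta {δ : F} (h0 : δ ≠ 0)
    (hδ : ∀ x : F, (∀ l ∈ LS F N, pS N (x * l) = 1) ↔ x * δ ∈ LS F N) :
    absS N δ = |(discr F : ℝ)|⁻¹ := by
  obtain ⟨J, hJ, hn⟩ := exists_lat (N := N) (one_ne_zero (α := F)) (one_ne_zero (α := F))
  obtain ⟨J', hJ', hn'⟩ := exists_lat (N := N) (one_ne_zero (α := F)) (inv_ne_zero h0)
  have h1 : dl J = J' := el_inj fun x => by
    rw [mem_dl_lat hδ one_ne_zero one_ne_zero hJ, hJ']
    simp
  have h2 := HeckeB87.nm_dl J
  have h3 : nmQ (Submonoid.powers N) (1 : F) = 1 :=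
    nmQ_of_mem_unitsIn (SGood.h0R F N) (x := (1 : Fˣ)) (one_mem _)
  have h4 : nmQ (copM N) (1 : F) = 1 :=
    nmQ_of_mem_unitsIn (SGood.h0L F N) (x := (1 : Fˣ)) (one_mem _)
  rw [h1, hn, hn', h3, h4] at h2
  have h5 := absS_inv (N := N) δ
  rw [absS, inv_inj] at h5
  rw [← h5, ← h2]; ring

theorem gs_div (t : InfinitePlace F → ℝ) (h q : F) :
    HeckeB87.gs (fun w => (t w)⁻¹) (h / q) =
      HeckeB87.gs (fun w => (t w * w q ^ 2)⁻¹) h := by
  simp only [HeckeB87.gs, HeckeB87.gz, InfinitePlace.apply, map_div₀, norm_div]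
  congr 3
  refine Finset.sum_congr rfl fun φ _ => ?_
  rw [div_pow, mul_inv]; ring

end Crest.Agent.T27.ThO87

namespace Crest.Agent.T27

open ThO87 HeckeB87

/-- **Theta inversion on the lattices `R ∩ yΛ`.** -/
theorem thetaO_87 [Fr0] {F : Type*} [Field F] [NumberField F] {N J : ℕ} {j : O →+* F}
    (h : IsModel F N J j) : ThetaO F N j := by
  classical
  have hG := h.good
  obtain ⟨δ, h0, hδ⟩ := exists_delta F N
  refine ⟨δ, h0, absS_delta h0 hδ, fun y t hy ht => ⟨?_, fun q f hq hf => ?_⟩⟩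
  · obtain ⟨L, hL, -⟩ := exists_lat (N := N) (one_ne_zero (α := F)) hy
    obtain ⟨c, hc⟩ := summable_gs L ht 0
    refine ⟨c, (hasSum_ite_iff h.inj (P := fun x => j x / y ∈ LS F N) (S := el L) (fun b => ?_)
      (HeckeB87.gs t) c).2 (by simpa using hc)⟩
    rw [hL, div_one]
    exact ⟨fun ⟨h1, h2⟩ => by
      obtain ⟨a, rfl⟩ := h.exists_eq h1
      exact ⟨a, h2, rfl⟩, fun ⟨a, h2, e⟩ => e ▸ ⟨h.mem a, h2⟩⟩
  have hq' := h.ne_zero hq
  obtain ⟨L, hL, hn⟩ := exists_lat (N := N) hq' hy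
  set c : ℝ := absS N y / (nr q * Real.sqrt |(discr F : ℝ)| * Real.sqrt (∏ w, t w ^ w.mult))
    with hc
  have hc' : (cov L * Real.sqrt (∏ w, t w ^ w.mult))⁻¹ = c := by
    rw [hc, cov, hn, ← h.nr_eq_nmQ, absS]
    ring
  set G : O → ℂ := fun k => HeckeB87.gs (fun w => (t w * w (j q) ^ 2)⁻¹) (j k) with hGd
  have key : ∀ a : O, ∃ s : ℂ,
      HasSum (fun x : O => if q ∣ x - a ∧ j x / y ∈ LS F N then (HeckeB87.gs t (j x) : ℂ) else 0) s ∧
      HasSum (fun k : O => if j k / (j q / (δ * y)) ∈ LS F N then c * G k * eq (k * a) q else 0)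
        s := by
    intro a
    obtain ⟨z, ⟨r, hr, hz1⟩, l, hl, hz2⟩ := exists_approx hG.ne hq' hy (j a) 0
    rw [zero_add] at hz2
    have hzy : z / y ∈ LS F N := by rw [hz2, mul_div_cancel_left₀ _ hy]; exact hl
    refine ⟨∑' x : el L, ((HeckeB87.gs t (z + x) : ℝ) : ℂ), ?_, ?_⟩
    · have h1 := (Complex.summable_ofReal.2 (summable_gs L ht z)).hasSum
      have h2 := (hasSum_ite_iff (e := fun x : O => j x - z)
        (fun x x' e => h.inj (sub_left_injective e))
        (P := fun x => q ∣ x - a ∧ j x / y ∈ LS F N) (S := el L) (fun b => ?_)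
        (fun w => ((HeckeB87.gs t (z + w) : ℝ) : ℂ)) _).2 h1
      · simpa only [add_sub_cancel] using h2
      rw [hL]
      constructor
      · rintro ⟨h3, h4⟩
        have h5 : z + b ∈ RS F N := by
          rw [hz1, show j a + j q * r + b = j a + j q * (r + b / j q) by field_simp; ring]
          exact add_mem (h.mem a) (mul_mem (h.mem q) (add_mem hr h3))
        obtain ⟨x, hx⟩ := h.exists_eq h5
        refine ⟨x, ⟨(h.dvd_iff hq).2 ?_, ?_⟩, by rw [hx]; ring⟩
        · rw [map_sub, hx, hz1, show (j a + j q * r + b - j a) / j q = r + b / j q by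
            field_simp; ring]
          exact add_mem hr h3
        · rw [hx, add_div]; exact add_mem hzy h4
      · rintro ⟨x, ⟨h3, h4⟩, rfl⟩
        refine ⟨?_, by rw [sub_div]; exact sub_mem h4 hzy⟩
        have h5 := (h.dvd_iff hq).1 h3
        rw [hz1, show (j x - (j a + j q * r)) / j q = j (x - a) / j q - r by
          rw [map_sub]; field_simp; ring]
        exact sub_mem h5 hr
    · have h1 := theta_coset L ht z
      rw [hc'] at h1
      have h2 := (hasSum_ite_iff (e := fun k : O => j k / j q)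
        (fun x x' e => h.inj ((div_left_inj' hq').1 e))
        (P := fun k => j k / (j q / (δ * y)) ∈ LS F N) (S := el (dl L)) (fun b => ?_)
        (fun v => ((c * HeckeB87.gs (fun w => (t w)⁻¹) v : ℝ) : ℂ) * eTr (z * v)) _).2 h1
      · convert h2 using 2 with k
        split_ifs with hk
        · rw [gs_div, h.eq_eq, eTr_eq (N := N)]
          have h3 : pS N (z * (j k / j q)) = 1 := by
            rw [show z * (j k / j q) = j k / j q * y * (z / y) by field_simp]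
            refine (hδ _).2 ?_ _ hzy
            convert hk using 1
            field_simp
          have h4 : psiS N (z * (j k / j q)) = psiS N (j (k * a) / j q) := by
            refine psiS_congr hG.ne ?_
            rw [hz1, map_mul, show (j a + j q * r) * (j k / j q) - j k * j a / j q = r * j k by
              field_simp; ring]
            exact mul_mem hr (h.mem k)
          rw [h3, h4, hGd]
          push_cast
          ring
        · rfl
      rw [mem_dl_lat hδ hq' hy hL]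
      constructor
      · rintro ⟨h3, h4⟩
        obtain ⟨k, hk⟩ := h.exists_eq h3
        refine ⟨k, ?_, by rw [hk]; field_simp⟩
        convert h4 using 1
        rw [hk]; field_simp
      · rintro ⟨k, hk, rfl⟩
        refine ⟨by rw [div_mul_cancel₀ _ hq']; exact h.mem k, ?_⟩
        convert hk using 1
        field_simp
  choose s hs1 hs2 using key
  have H1 := hasSum_sum (s := res q) fun a _ => (hs1 a).mul_left (f a)
  have H2 := hasSum_sum (s := res q) fun a _ => (hs2 a).mul_left (f a)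
  rw [← tsum_mul_left]
  refine (tsum_congr fun x => ?_).trans
    ((H1.tsum_eq.trans H2.tsum_eq.symm).trans (tsum_congr fun k => ?_))
  · obtain ⟨a, ⟨ha, hxa⟩, hu⟩ := exists_unique_res hq x
    rw [Finset.sum_eq_single_of_mem a ha fun b hb hne => by
      rw [if_neg fun hh => hne (hu b ⟨hb, hh.1⟩), mul_zero]]
    by_cases hx : j x / y ∈ LS F N
    · rw [if_pos hx, if_pos ⟨hxa, hx⟩, hf x a hxa]
    · rw [if_neg hx, if_neg fun hh => hx hh.2, mul_zero]
  · by_cases hk : j k / (j q / (δ * y)) ∈ LS F N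
    · simp only [if_pos hk, ft, Finset.sum_mul, Finset.mul_sum]
      exact Finset.sum_congr rfl fun a _ => by rw [hGd]; ring
    · simp only [if_neg hk, mul_zero, Finset.sum_const_zero]

end Crest.Agent.T27
end
end

-- ▼ part T27/ThB1_83
section

/-!
# Row 27, theta module B1: the virtual operators preserve test functions; `ξ_f (u g)`
-/

set_option autoImplicit false

noncomputable section

namespace Crest.Agent.T27.B83

open scoped BigOperators ComplexConjugate

/-! ## the character `e3` -/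

@[simp] theorem e3_zero : e3 0 = 1 := AddChar.map_zero_eq_one _

theorem e3_add (k l : ZMod 3) : e3 (k + l) = e3 k * e3 l := AddChar.map_add_eq_mul _ _ _

@[simp] theorem norm_e3 (k : ZMod 3) : ‖e3 k‖ = 1 := by
  rw [e3, ZMod.stdAddChar_apply, Circle.norm_coe]

theorem e3_ne_zero (k : ZMod 3) : e3 k ≠ 0 := by
  rw [← norm_ne_zero_iff, norm_e3]; exact one_ne_zero

theorem e3_neg_mul (k : ZMod 3) : e3 (-k) * e3 k = 1 := by
  rw [← e3_add, neg_add_cancel, e3_zero]

theorem e3_neg (k : ZMod 3) : e3 (-k) = conj (e3 k) := by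
  apply mul_right_cancel₀ (e3_ne_zero k)
  rw [e3_neg_mul, Complex.conj_mul', norm_e3]; norm_num

theorem e3_injective : Function.Injective e3 := ZMod.injective_stdAddChar

theorem e3_cube (k : ZMod 3) : e3 k ^ 3 = 1 := by
  rw [pow_succ, pow_two, ← e3_add, ← e3_add,
    show k + k + k = 0 by linear_combination k * three_eq, e3_zero]

theorem mul_e3_e3 (z : ℂ) {k l m : ZMod 3} (h : k + l = m) : z * e3 k * e3 l = z * e3 m := by
  rw [mul_assoc, ← e3_add, h]

namespace Ar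

variable {F : Type*} [Field F] {A : Ar F}

/-! ## lattices and principal units -/

theorem Np_ne (A : Ar F) (j : ℕ) : A.N ^ j ≠ 0 := pow_ne_zero _ A.N_ne

theorem Np_L (A : Ar F) (j : ℕ) : A.N ^ j ∈ A.L := A.L.pow_mem A.N_L j

theorem mem_lat' {m x : F} (hm : m ≠ 0) : x ∈ A.lat m ↔ ∃ y ∈ A.L, x = m * y := by
  rw [mem_lat]
  constructor
  · intro h; exact ⟨_, h, by field_simp⟩
  · rintro ⟨y, hy, rfl⟩; rwa [inv_mul_cancel_left₀ hm]

theorem mem_latN {j : ℕ} {x : F} : x ∈ A.lat (A.N ^ j) ↔ ∃ y ∈ A.L, x = A.N ^ j * y :=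
  mem_lat' (A.Np_ne j)

theorem lat_mul_L {m x y : F} (hx : x ∈ A.lat m) (hy : y ∈ A.L) : x * y ∈ A.lat m := by
  rw [mem_lat, ← mul_assoc]; exact A.L.mul_mem hx hy


theorem latN_mono {j k : ℕ} (h : j ≤ k) {x : F} (hx : x ∈ A.lat (A.N ^ k)) :
    x ∈ A.lat (A.N ^ j) := by
  obtain ⟨i, rfl⟩ := Nat.exists_eq_add_of_le h
  obtain ⟨y, hy, rfl⟩ := mem_latN.1 hx
  exact mem_latN.2 ⟨A.N ^ i * y, A.L.mul_mem (A.Np_L i) hy, by ring⟩

theorem latN_L {j : ℕ} {x : F} (hx : x ∈ A.lat (A.N ^ j)) : x ∈ A.L := by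
  obtain ⟨y, hy, rfl⟩ := mem_latN.1 hx
  exact A.L.mul_mem (A.Np_L j) hy


/-- deep times bounded -/
theorem latN_mul_bd {j k : ℕ} {x y : F} (hx : x ∈ A.lat (A.N ^ (j + k)))
    (hy : A.N ^ k * y ∈ A.L) : x * y ∈ A.lat (A.N ^ j) := by
  obtain ⟨z, hz, rfl⟩ := mem_latN.1 hx
  exact mem_latN.2 ⟨z * (A.N ^ k * y), A.L.mul_mem hz hy, by ring⟩

theorem bd_mul_latN {j k : ℕ} {x y : F} (hy : A.N ^ k * y ∈ A.L)
    (hx : x ∈ A.lat (A.N ^ (j + k))) : y * x ∈ A.lat (A.N ^ j) := by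
  rw [mul_comm]; exact latN_mul_bd hx hy

theorem bd_mono {j k : ℕ} (h : j ≤ k) {x : F} (hx : A.N ^ j * x ∈ A.L) : A.N ^ k * x ∈ A.L := by
  obtain ⟨i, rfl⟩ := Nat.exists_eq_add_of_le h
  rw [pow_add, mul_comm (A.N ^ j), mul_assoc]
  exact A.L.mul_mem (A.Np_L i) hx

theorem bd_mul {j k : ℕ} {x y : F} (hx : A.N ^ j * x ∈ A.L) (hy : A.N ^ k * y ∈ A.L) :
    A.N ^ (j + k) * (x * y) ∈ A.L := by
  have := A.L.mul_mem hx hy
  convert this using 1; ring

theorem bd_mul_L {j : ℕ} {x y : F} (hx : A.N ^ j * x ∈ A.L) (hy : y ∈ A.L) :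
    A.N ^ j * (x * y) ∈ A.L := by
  rw [← mul_assoc]; exact A.L.mul_mem hx hy


theorem bd_sub {j : ℕ} {x y : F} (hx : A.N ^ j * x ∈ A.L) (hy : A.N ^ j * y ∈ A.L) :
    A.N ^ j * (x - y) ∈ A.L := by
  rw [mul_sub]; exact A.L.sub_mem hx hy

theorem bd_of_L (j : ℕ) {x : F} (hx : x ∈ A.L) : A.N ^ j * x ∈ A.L := A.L.mul_mem (A.Np_L j) hx

/-- A common bound for `x` and `x⁻¹`. -/
theorem exists_bd2 (A : Ar F) (x y : F) : ∃ m : ℕ, A.N ^ m * x ∈ A.L ∧ A.N ^ m * y ∈ A.L := by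
  obtain ⟨m, hm⟩ := A.bdd x
  obtain ⟨n, hn⟩ := A.bdd y
  exact ⟨max m n, bd_mono (le_max_left _ _) hm, bd_mono (le_max_right _ _) hn⟩

theorem P.mono {j k : ℕ} (h : j ≤ k) {x : F} (hx : A.P k x) : A.P j x := latN_mono h hx

theorem P_one (A : Ar F) (j : ℕ) : A.P j 1 := by
  rw [P, sub_self]; exact zero_mem _

theorem P.mem {j : ℕ} {x : F} (hx : A.P j x) : x ∈ A.L := by
  have := A.L.add_mem (latN_L hx) A.L.one_mem
  rwa [sub_add_cancel] at this

theorem P.exists_eq {j : ℕ} (hj : 1 ≤ j) {x : F} (hx : A.P j x) : ∃ y ∈ A.L, x = 1 + A.N * y := by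
  obtain ⟨y, hy, e⟩ := mem_latN.1 (hx.mono hj)
  exact ⟨y, hy, by rw [pow_one] at e; linear_combination e⟩

theorem P.ne_zero {j : ℕ} (hj : 1 ≤ j) {x : F} (hx : A.P j x) : x ≠ 0 := by
  obtain ⟨y, hy, rfl⟩ := hx.exists_eq hj
  exact A.P_ne y hy

theorem P.inv_mem {j : ℕ} (hj : 1 ≤ j) {x : F} (hx : A.P j x) : x⁻¹ ∈ A.L := by
  obtain ⟨y, hy, rfl⟩ := hx.exists_eq hj
  exact A.P_inv y hy

theorem P.mul {j : ℕ} {x y : F} (hx : A.P j x) (hy : A.P j y) : A.P j (x * y) := by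
  have : x * y - 1 = (x - 1) * y + (y - 1) := by ring
  rw [P, this]
  exact add_mem (lat_mul_L hx hy.mem) hy

theorem P.pow {j : ℕ} {x : F} (hx : A.P j x) (n : ℕ) : A.P j (x ^ n) := by
  induction n with
  | zero => rw [pow_zero]; exact A.P_one j
  | succ n ih => rw [pow_succ]; exact ih.mul hx

theorem P.inv {j : ℕ} (hj : 1 ≤ j) {x : F} (hx : A.P j x) : A.P j x⁻¹ := by
  have h0 := hx.ne_zero hj
  have : x⁻¹ - 1 = -((x - 1) * x⁻¹) := by field_simp; ring
  rw [P, this]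
  exact neg_mem (lat_mul_L hx (hx.inv_mem hj))

theorem P.c_left {j : ℕ} (hj : 1 ≤ j) {x : F} (hx : A.P j x) (y : F) : A.B.c x y = 0 := by
  obtain ⟨z, hz, rfl⟩ := hx.exists_eq hj
  exact A.c_P z hz y

theorem P.c_right {j : ℕ} (hj : 1 ≤ j) {x : F} (hx : A.P j x) (y : F) : A.B.c y x = 0 := by
  rw [A.B.swap, hx.c_left hj, neg_zero]

theorem P.c_mul_left {j : ℕ} (hj : 1 ≤ j) {t : F} (ht : A.P j t) (x y : F) :
    A.B.c (t * x) y = A.B.c x y := by
  rcases eq_or_ne x 0 with rfl | hx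
  · rw [mul_zero]
  rw [A.B.mul_left _ (ht.ne_zero hj) hx, ht.c_left hj, zero_add]

theorem P.c_mul_right {j : ℕ} (hj : 1 ≤ j) {t : F} (ht : A.P j t) (x y : F) :
    A.B.c x (t * y) = A.B.c x y := by
  rw [A.B.swap, ht.c_mul_left hj, ← A.B.swap]

theorem P_one_sub {j : ℕ} {z : F} (hz : z ∈ A.lat (A.N ^ j)) : A.P j (1 - z) := by
  rw [P, sub_sub_cancel_left]; exact neg_mem hz

theorem P_one_add {j : ℕ} {z : F} (hz : z ∈ A.lat (A.N ^ j)) : A.P j (1 + z) := by
  rw [P, add_sub_cancel_left]; exact hz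

/-! ## the support condition -/

variable (A) in
/-- The support condition of test functions of level `j`. -/
def Sup (j : ℕ) (c d : F) : Prop :=
  A.N ^ j * c ∈ A.L ∧ A.N ^ j * d ∈ A.L ∧ ∃ p ∈ A.L, ∃ q ∈ A.L, c * p + d * q = A.N ^ j

theorem Sup.mono {j k : ℕ} (h : j ≤ k) {c d : F} (hs : A.Sup j c d) : A.Sup k c d := by
  obtain ⟨h1, h2, p, hp, q, hq, e⟩ := hs
  refine ⟨bd_mono h h1, bd_mono h h2, ?_⟩
  obtain ⟨i, rfl⟩ := Nat.exists_eq_add_of_le h
  exact ⟨_, bd_of_L i hp, _, bd_of_L i hq, by rw [pow_add, ← e]; ring⟩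

theorem Sup.symm {j : ℕ} {c d : F} (hs : A.Sup j c d) : A.Sup j d c := by
  obtain ⟨h1, h2, p, hp, q, hq, e⟩ := hs
  exact ⟨h2, h1, q, hq, p, hp, by rw [← e]; ring⟩

theorem Sup.neg_right {j : ℕ} {c d : F} (hs : A.Sup j c d) : A.Sup j c (-d) := by
  obtain ⟨h1, h2, p, hp, q, hq, e⟩ := hs
  exact ⟨h1, by rw [mul_neg]; exact neg_mem h2, p, hp, -q, neg_mem hq, by rw [← e]; ring⟩

theorem Sup.ne_zero {j : ℕ} {d : F} (hs : A.Sup j 0 d) : d ≠ 0 := by
  rintro rfl
  obtain ⟨-, -, p, -, q, -, e⟩ := hs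
  exact A.Np_ne j (by rw [← e]; ring)

/-- A row close to a row of the support. -/
theorem Sup.close {j k : ℕ} (hk : 1 ≤ k) {c d c' : F} (hs : A.Sup j c d)
    (hc : c' - c ∈ A.lat (A.N ^ (j + k))) :
    ∃ t y, A.P k t ∧ y ∈ A.lat (A.N ^ k) ∧ c' = t * (c + d * y) := by
  obtain ⟨-, -, p, hp, q, hq, e⟩ := hs
  obtain ⟨w, hw, ew⟩ := mem_latN.1 hc
  have ht : A.P k (1 + A.N ^ k * (p * w)) := P_one_add (mem_latN.2 ⟨_, A.L.mul_mem hp hw, rfl⟩)
  have h0 := ht.ne_zero hk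
  refine ⟨_, A.N ^ k * (q * w * (1 + A.N ^ k * (p * w))⁻¹), ht,
    mem_latN.2 ⟨_, A.L.mul_mem (A.L.mul_mem hq hw) (ht.inv_mem hk), rfl⟩, ?_⟩
  rw [pow_add, ← e] at ew
  have h1 := mul_inv_cancel₀ h0
  linear_combination ew - d * A.N ^ k * q * w * h1

theorem Test.sup {j : ℕ} {f : F → F → ℂ} (hf : A.Test j f) {c d : F} (h : f c d ≠ 0) :
    A.Sup j c d := hf.supp c d h

theorem Test.mono {j k : ℕ} (h : j ≤ k) {f : F → F → ℂ} (hf : A.Test j f) : A.Test k f :=
  ⟨hf.bdd, fun _ _ h0 => (hf.sup h0).mono h,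
    fun c d c' d' h1 h2 => hf.loc c d c' d' (latN_mono h h1) (latN_mono h h2)⟩

theorem Test.zero_zero {j : ℕ} {f : F → F → ℂ} (hf : A.Test j f) : f 0 0 = 0 := by
  by_contra h
  exact (hf.sup h).ne_zero rfl


theorem test_zero (A : Ar F) (j : ℕ) : A.Test j fun _ _ => 0 :=
  ⟨⟨0, fun _ _ => by simp⟩, fun _ _ h => absurd rfl h, fun _ _ _ _ _ _ => by simp⟩

theorem Test.smul {j : ℕ} {f : F → F → ℂ} (hf : A.Test j f) (a : ℂ) :
    A.Test j fun c d => a * f c d := by
  obtain ⟨C, hC⟩ := hf.bdd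
  refine ⟨⟨‖a‖ * C, fun c d => ?_⟩, fun c d h => hf.sup (right_ne_zero_of_mul h), ?_⟩
  · rw [norm_mul]; exact mul_le_mul_of_nonneg_left (hC c d) (norm_nonneg _)
  · intro c d c' d' h1 h2
    rw [hf.loc c d c' d' h1 h2, mul_assoc]

theorem Test.add {j : ℕ} {f g : F → F → ℂ} (hf : A.Test j f) (hg : A.Test j g) :
    A.Test j fun c d => f c d + g c d := by
  obtain ⟨C, hC⟩ := hf.bdd
  obtain ⟨D, hD⟩ := hg.bdd
  refine ⟨⟨C + D, fun c d => (norm_add_le _ _).trans (add_le_add (hC c d) (hD c d))⟩, ?_, ?_⟩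
  · intro c d h
    by_cases h0 : f c d = 0
    · rw [h0, zero_add] at h; exact hg.sup h
    · exact hf.sup h0
  · intro c d c' d' h1 h2
    rw [hf.loc c d c' d' h1 h2, hg.loc c d c' d' h1 h2, add_mul]

theorem IsTest.smul {f : F → F → ℂ} (hf : A.IsTest f) (a : ℂ) : A.IsTest fun c d => a * f c d :=
  hf.imp fun _ h => h.smul a

theorem IsTest.add {f g : F → F → ℂ} (hf : A.IsTest f) (hg : A.IsTest g) :
    A.IsTest fun c d => f c d + g c d := by
  obtain ⟨j, hj⟩ := hf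
  obtain ⟨k, hk⟩ := hg
  exact ⟨max j k, (hj.mono (le_max_left _ _)).add (hk.mono (le_max_right _ _))⟩



/-! ## the elementary operators -/

theorem phase_N {c d x y t : F} (ht : A.P 1 t) (hxy : A.P 1 (1 - x * y)) :
    A.B.c (d + c * x) c - A.B.c (d + c * x) (t * (c + d * y)) =
      A.B.c d c - A.B.c d (t * (c + d * y)) := by
  rw [ht.c_mul_right le_rfl, ht.c_mul_right le_rfl]
  rcases eq_or_ne d 0 with rfl | hd
  · simp
  rcases eq_or_ne c 0 with rfl | hc
  · simp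
  have hs : c / d ≠ 0 := div_ne_zero hc hd
  have e1 : d + c * x = (1 + x * (c / d)) * d := by field_simp
  have e2 : c + d * y = (1 + y / (c / d)) * c := by field_simp
  have key := A.B.one_add_one_add hs (hxy.ne_zero le_rfl) (hxy.c_left le_rfl)
  rcases eq_or_ne (1 + x * (c / d)) 0 with hA | hA
  · have e3 : 1 + y / (c / d) = 1 - x * y := by
      field_simp at hA ⊢; linear_combination y * hA
    rw [e1, e2, hA, e3, hxy.c_mul_right le_rfl, hxy.c_mul_right le_rfl]; simp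
  rcases eq_or_ne (1 + y / (c / d)) 0 with hB | hB
  · have e3 : 1 + x * (c / d) = 1 - x * y := by
      field_simp at hB ⊢; linear_combination x * hB
    rw [e1, e2, hB, e3, hxy.c_mul_left le_rfl]; simp
  rw [e1, e2, A.B.mul_left _ hA hd, A.B.mul_left _ hA hd, A.B.mul_right _ hB hc, key]
  ring

theorem phase_W {c d x y t t' : F} (ht : A.P 1 t) (ht' : A.P 1 t') (hxy : A.P 1 (1 - x * y)) :
    A.B.c c d - A.B.c c (t' * (d + c * x)) + A.B.c (t * (c + d * y)) (t' * (d + c * x)) =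
      A.B.c (t * (c + d * y)) d := by
  rw [ht'.c_mul_right le_rfl, ht'.c_mul_right le_rfl]
  have h := phase_N (c := c) (d := d) ht hxy
  have s1 := A.B.swap c d
  have s2 := A.B.swap c (d + c * x)
  have s3 := A.B.swap (t * (c + d * y)) (d + c * x)
  have s4 := A.B.swap (t * (c + d * y)) d
  linear_combination h + s1 - s2 + s3 - s4

theorem Test.opN {j m : ℕ} {f : F → F → ℂ} (hf : A.Test j f) {x : F} (hx : A.N ^ m * x ∈ A.L) :
    A.Test (j + m + (m + 1)) (opN x f) := by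
  have hsup : ∀ c d, f c (d + c * x) ≠ 0 → A.Sup (j + m) c d := by
    intro c d h
    obtain ⟨h1, h2, p, hp, q, hq, e⟩ := hf.sup h
    refine ⟨bd_mono (by omega) h1, ?_, A.N ^ m * p + A.N ^ m * x * q,
      add_mem (bd_of_L m hp) (A.L.mul_mem hx hq), A.N ^ m * q, bd_of_L m hq, ?_⟩
    · have := bd_sub (bd_mono (Nat.le_add_right j m) h2) (bd_mul h1 hx)
      rwa [add_sub_cancel_right] at this
    · rw [pow_add, ← e]; ring
  refine ⟨hf.bdd.imp fun C hC c d => hC _ _, fun c d h => (hsup c d h).mono (by omega), ?_⟩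
  intro c d c' d' h1 h2
  have h3 : d' + c' * x - (d + c * x) ∈ A.lat (A.N ^ j) := by
    have : d' + c' * x - (d + c * x) = (d' - d) + (c' - c) * x := by ring
    rw [this]
    exact add_mem (latN_mono (by omega) h2) (latN_mul_bd (latN_mono (by omega) h1) hx)
  unfold Ar.opN
  rw [hf.loc c (d + c * x) c' (d' + c' * x) (latN_mono (by omega) h1) h3]
  by_cases h0 : f c (d + c * x) = 0
  · rw [h0, zero_mul, zero_mul]
  obtain ⟨t, y, ht, hy, rfl⟩ := (hsup c d h0).close (by omega) h1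
  rw [phase_N (ht.mono (by omega)) (P_one_sub (bd_mul_latN hx (by rwa [add_comm 1 m])))]

theorem Test.opD {j m : ℕ} {f : F → F → ℂ} (hf : A.Test j f) {s : F} (hs0 : s ≠ 0)
    (hs : A.N ^ m * s ∈ A.L) (hs' : A.N ^ m * s⁻¹ ∈ A.L) : A.Test (j + m + 1) (A.opD s f) := by
  have hsup : ∀ c d, f c (s * d) ≠ 0 → A.Sup (j + m) c d := by
    intro c d h
    obtain ⟨h1, h2, p, hp, q, hq, e⟩ := hf.sup h
    refine ⟨bd_mono (by omega) h1, ?_, A.N ^ m * p, bd_of_L m hp, A.N ^ m * s * q,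
      A.L.mul_mem hs hq, ?_⟩
    · have := bd_mul h2 hs'
      rwa [mul_comm s, mul_inv_cancel_right₀ hs0] at this
    · rw [pow_add, ← e]; ring
  refine ⟨hf.bdd.imp fun C hC c d => ?_,
    fun c d h => (hsup c d (left_ne_zero_of_mul h)).mono (by omega), ?_⟩
  · rw [Ar.opD, norm_mul, norm_e3, mul_one]; exact hC _ _
  intro c d c' d' h1 h2
  have h3 : s * d' - s * d ∈ A.lat (A.N ^ j) := by
    rw [← mul_sub]; exact bd_mul_latN hs (latN_mono (by omega) h2)
  unfold Ar.opD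
  rw [hf.loc c (s * d) c' (s * d') (latN_mono (by omega) h1) h3]
  by_cases h0 : f c (s * d) = 0
  · rw [h0, zero_mul, zero_mul, zero_mul, zero_mul]
  rw [mul_e3_e3 _ rfl, mul_e3_e3 _ rfl]
  congr 2
  rcases eq_or_ne d 0 with rfl | hd
  · obtain ⟨t, y, ht, -, rfl⟩ := (hsup c 0 h0).close le_rfl h1
    simp [ht.c_mul_right le_rfl]
  · rw [A.B.mul_left _ hs0 hd, A.B.mul_left _ hs0 hd]; ring

theorem Test.opA {j m : ℕ} {f : F → F → ℂ} (hf : A.Test j f) {t : F} (ht0 : t ≠ 0)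
    (ht : A.N ^ m * t ∈ A.L) (ht' : A.N ^ m * t⁻¹ ∈ A.L) : A.Test (j + m + 1) (A.opA t f) := by
  have hsup : ∀ c d, f (t * c) d ≠ 0 → A.Sup (j + m) c d := by
    intro c d h
    obtain ⟨h1, h2, p, hp, q, hq, e⟩ := hf.sup h
    refine ⟨?_, bd_mono (by omega) h2, A.N ^ m * t * p, A.L.mul_mem ht hp, A.N ^ m * q,
      bd_of_L m hq, ?_⟩
    · have := bd_mul h1 ht'
      rwa [mul_comm t, mul_inv_cancel_right₀ ht0] at this
    · rw [pow_add, ← e]; ring
  refine ⟨hf.bdd.imp fun C hC c d => ?_,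
    fun c d h => (hsup c d (left_ne_zero_of_mul h)).mono (by omega), ?_⟩
  · rw [Ar.opA, norm_mul, norm_e3, mul_one]; exact hC _ _
  intro c d c' d' h1 h2
  have h3 : t * c' - t * c ∈ A.lat (A.N ^ j) := by
    rw [← mul_sub]; exact bd_mul_latN ht (latN_mono (by omega) h1)
  have h4 := hf.loc (t * c) d (t * c') d' h3 (latN_mono (by omega) h2)
  unfold Ar.opA
  by_cases h0 : f (t * c') d' = 0
  · have h5 : f (t * c) d = 0 := by
      rw [h0] at h4; exact (mul_eq_zero.1 h4.symm).resolve_right (e3_ne_zero _)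
    rw [h0, h5, zero_mul, zero_mul, zero_mul]
  rw [h4, mul_e3_e3 _ rfl, mul_e3_e3 _ rfl]
  congr 2
  rcases eq_or_ne c' 0 with rfl | hc
  · obtain ⟨t', y, ht', -, rfl⟩ := (hsup 0 d' h0).symm.close (c' := d) le_rfl
      (by rw [← neg_sub]; exact neg_mem h2)
    simp [ht'.c_mul_left le_rfl]; ring
  · rw [A.B.mul_right _ ht0 hc, A.B.mul_right _ ht0 hc]; ring

theorem Test.opW {j : ℕ} {f : F → F → ℂ} (hf : A.Test j f) : A.Test (j + 1) (A.opW f) := by
  have hsup : ∀ c d, f d (-c) ≠ 0 → A.Sup j c d := fun c d h => by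
    simpa using (hf.sup h).neg_right.symm
  refine ⟨hf.bdd.imp fun C hC c d => ?_,
    fun c d h => (hsup c d (left_ne_zero_of_mul h)).mono (by omega), ?_⟩
  · rw [Ar.opW, norm_mul, norm_e3, mul_one]; exact hC _ _
  intro c d c' d' h1 h2
  have h3 : -c' - -c ∈ A.lat (A.N ^ j) := by
    rw [← neg_sub', ]; exact neg_mem (latN_mono (by omega) h1)
  unfold Ar.opW
  rw [hf.loc d (-c) d' (-c') (latN_mono (by omega) h2) h3]
  by_cases h0 : f d (-c) = 0
  · rw [h0, zero_mul, zero_mul, zero_mul, zero_mul]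
  rw [mul_e3_e3 _ rfl, mul_e3_e3 _ rfl]
  congr 2
  obtain ⟨t, y, ht, hy, rfl⟩ := (hsup c d h0).close le_rfl h1
  obtain ⟨t', x, ht', hx, rfl⟩ := (hsup c d h0).symm.close le_rfl h2
  rw [A.B.neg_left, A.B.neg_left, phase_W ht ht' (P_one_sub (lat_mul_L hx (latN_L hy))),
    A.B.swap d c, A.B.swap d]
  ring

theorem IsTest.opN {f : F → F → ℂ} (hf : A.IsTest f) (x : F) : A.IsTest (opN x f) := by
  obtain ⟨j, hj⟩ := hf
  obtain ⟨m, hm⟩ := A.bdd x
  exact ⟨_, hj.opN hm⟩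

theorem IsTest.opD {f : F → F → ℂ} (hf : A.IsTest f) {s : F} (hs : s ≠ 0) :
    A.IsTest (A.opD s f) := by
  obtain ⟨j, hj⟩ := hf
  obtain ⟨m, h1, h2⟩ := A.exists_bd2 s s⁻¹
  exact ⟨_, hj.opD hs h1 h2⟩

theorem IsTest.opA {f : F → F → ℂ} (hf : A.IsTest f) {t : F} (ht : t ≠ 0) :
    A.IsTest (A.opA t f) := by
  obtain ⟨j, hj⟩ := hf
  obtain ⟨m, h1, h2⟩ := A.exists_bd2 t t⁻¹
  exact ⟨_, hj.opA ht h1 h2⟩

theorem IsTest.opW {f : F → F → ℂ} (hf : A.IsTest f) : A.IsTest (A.opW f) :=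
  let ⟨_, hj⟩ := hf; ⟨_, hj.opW⟩

theorem IsTest.br {f : F → F → ℂ} (hf : A.IsTest f) {t : F} (ht : t ≠ 0) : A.IsTest (A.br t f) :=
  (hf.opD ht).opA (pow_ne_zero _ ht)

theorem sc_eq {m : F} (hm : m ≠ 0) (n : F) (f : F → F → ℂ) :
    sc m n f = A.opA (m ^ 3) (A.opD (n ^ 3) f) := by
  funext c d
  simp [sc, Ar.opA, Ar.opD, A.B.cube_mul_right _ _ hm]

theorem IsTest.sc {f : F → F → ℂ} (hf : A.IsTest f) {m n : F} (hm : m ≠ 0) (hn : n ≠ 0) :
    A.IsTest (sc m n f) := by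
  rw [sc_eq (A := A) hm]
  exact (hf.opD (pow_ne_zero _ hn)).opA (pow_ne_zero _ hm)

end Ar

end Crest.Agent.T27.B83
end
end

-- ▼ part T27/ThB1b_83
section

/-!
# Row 27, theta module B1 (continued): the action `rho`, the bracket `f⟨t⟩`, `ξ_f (u g)`
-/

set_option autoImplicit false

noncomputable section

namespace Crest.Agent.T27.B83

open scoped BigOperators ComplexConjugate

/-! ## building `Bi` and `Sy` from a reciprocity law -/

/-- The Steinberg relation follows from the reciprocity law. -/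
theorem stein_of_recip {F : Type*} [Field F] {R : Type*} [CommRing R] [IsDomain R]
    [IsPrincipalIdealRing R] [Algebra R F] [IsFractionRing R F] (c : F → F → ZMod 3)
    (s : R → R → ZMod 3) (h0l : ∀ y, c 0 y = 0) (h0r : ∀ x, c x 0 = 0)
    (hml : ∀ {x x' : F} (y : F), x ≠ 0 → x' ≠ 0 → c (x * x') y = c x y + c x' y)
    (hmr : ∀ (x : F) {y y' : F}, y ≠ 0 → y' ≠ 0 → c x (y * y') = c x y + c x y')
    (hself : ∀ x, c x x = 0)
    (hcongr : ∀ {x x' y : R}, y ∣ x - x' → s x y = s x' y)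
    (hneg : ∀ {x y : R}, IsCoprime x y → s (-x) y = s x y)
    (hrec : ∀ {x y : R}, IsCoprime x y → x ≠ 0 → y ≠ 0 →
      c (algebraMap R F x) (algebraMap R F y) = s x y - s y x) (x : F) : c x (1 - x) = 0 := by
  rcases eq_or_ne x 0 with rfl | hx
  · exact h0l _
  rcases eq_or_ne (1 - x) 0 with h1 | h1
  · rw [h1]; exact h0r _
  obtain ⟨a, b, hab, e⟩ := IsFractionRing.exists_reduced_fraction R x
  have hb : (b : R) ≠ 0 := nonZeroDivisors.coe_ne_zero b
  have inj := IsFractionRing.injective R F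
  have hbF : algebraMap R F b ≠ 0 := (map_ne_zero_iff _ inj).2 hb
  have ex : x * algebraMap R F b = algebraMap R F a := by
    rw [← e, IsLocalization.mk'_spec]
  have haF : algebraMap R F a ≠ 0 := by rw [← ex]; exact mul_ne_zero hx hbF
  have ha : a ≠ 0 := (map_ne_zero_iff _ inj).1 haF
  have ey : (1 - x) * algebraMap R F b = algebraMap R F (b - a) := by
    rw [map_sub, ← ex]; ring
  have hcF : algebraMap R F (b - a) ≠ 0 := by rw [← ey]; exact mul_ne_zero h1 hbF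
  have hc : (b : R) - a ≠ 0 := (map_ne_zero_iff _ inj).1 hcF
  have hco : IsCoprime a (b : R) := hab.isCoprime
  have h1' : IsCoprime a ((b : R) - a) := by
    obtain ⟨p, q, hpq⟩ := hco
    exact ⟨p + q, q, by linear_combination hpq⟩
  have h2' : IsCoprime (b : R) ((b : R) - a) := by
    obtain ⟨p, q, hpq⟩ := hco
    exact ⟨p + q, -p, by linear_combination hpq⟩
  have r1 := hrec h1' ha hc
  have r2 := hrec hco ha hb
  have r3 := hrec h2' hb hc
  have c1 : s (b - a) a = s b a := hcongr ⟨-1, by ring⟩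
  have c2 : s (b : R) (b - a) = s a (b - a) := hcongr ⟨1, by ring⟩
  have c3 : s (b - a) b = s a b := by
    rw [← hneg hco]; exact hcongr ⟨1, by ring⟩
  have k1 : c (algebraMap R F a) (algebraMap R F (b - a)) =
      c x (1 - x) + c x (algebraMap R F b) + c (algebraMap R F b) (algebraMap R F (b - a)) := by
    rw [← ex, hml _ hx hbF]
    congr 1
    rw [← ey, hmr _ h1 hbF]
  have k2 : c (algebraMap R F a) (algebraMap R F b) = c x (algebraMap R F b) := by
    rw [← ex, hml _ hx hbF, hself, add_zero]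
  linear_combination r1 - r2 - r3 - k1 + k2 - c1 - c2 + c3

namespace Ar

variable {F : Type*} [Field F] {A : Ar F}

/-! ## the action `rho` -/

theorem X_add_mul (c d x : F) : X c (d + c * x) = X c d := by
  rcases eq_or_ne c 0 with rfl | hc
  · simp
  · rw [X_ne hc, X_ne hc]

/-- `ρ(n(x) g) = ρ(n(x)) ρ(g)`. -/
theorem rho_N_left (a b c1 d1 x : F) (f : F → F → ℂ) :
    A.rho (a + x * c1) (b + x * d1) c1 d1 f = opN x (A.rho a b c1 d1 f) := by
  funext c d
  have e1 : c * (a + x * c1) + d * c1 = c * a + (d + c * x) * c1 := by ring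
  have e2 : c * (b + x * d1) + d * d1 = c * b + (d + c * x) * d1 := by ring
  simp only [rho, opN, kap, e1, e2, X_add_mul]

/-- `ρ(g n(y)) = ρ(g) ρ(n(y))`. -/
theorem rho_N_right (a b c1 d1 y : F) (f : F → F → ℂ) :
    A.rho a (b + a * y) c1 (d1 + c1 * y) f = A.rho a b c1 d1 (opN y f) := by
  funext c d
  have e2 : c * (b + a * y) + d * (d1 + c1 * y) = c * b + d * d1 + (c * a + d * c1) * y := by ring
  simp only [rho, opN, kap, e2, X_add_mul]

theorem rho_n (x : F) (f : F → F → ℂ) : A.rho 1 x 0 1 f = opN x f := by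
  funext c d
  have e1 : c * 1 + d * 0 = c := by ring
  have e2 : c * x + d * 1 = d + c * x := by ring
  simp only [rho, opN, kap, e1, e2, X_add_mul]
  rcases eq_or_ne (X c d) 0 with h | h
  · simp [h]
  · simp [div_self h]


/-- The big cell, normalised. -/
theorem rho_w {c1 : F} (h1 : c1 ≠ 0) (f : F → F → ℂ) :
    A.rho 0 (-c1⁻¹) c1 0 f = A.opW (A.opA c1 (A.opD c1⁻¹ f)) := by
  funext c d
  have e1 : c * 0 + d * c1 = c1 * d := by ring
  have e2 : c * -c1⁻¹ + d * 0 = c1⁻¹ * -c := by ring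
  simp only [rho, opW, opA, opD, kap, e1, e2, X_ne h1]
  rw [mul_e3_e3 _ rfl, mul_e3_e3 _ rfl]
  congr 2
  rcases eq_or_ne c 0 with rfl | hc
  · rcases eq_or_ne d 0 with rfl | hd
    · simp [X_zero]
    · rw [X_zero, X_ne (mul_ne_zero h1 hd), mul_div_cancel_right₀ _ hd, mul_div_cancel_left₀ _ h1]
      simp [A.B.mul_right _ h1 hd]
  rcases eq_or_ne d 0 with rfl | hd
  · have e3 : c1⁻¹ * -c / c = -c1⁻¹ := by field_simp
    have e4 : c1⁻¹ * -c / c1 = -(c / c1 ^ 2) := by field_simp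
    rw [mul_zero, X_zero, X_ne hc, e3, e4]
    simp [A.B.div_right _ hc (pow_ne_zero 2 h1), A.B.sq_right, A.B.swap c1 c]
  · rw [X_ne hc, X_ne (mul_ne_zero h1 hd), mul_div_cancel_left₀ _ h1,
      A.B.div_left _ (mul_ne_zero h1 hd) hc, A.B.mul_left _ h1 hd]
    simp [A.B.mul_right _ h1 hd]
    ring


/-- Bruhat decomposition. -/
theorem rho_bruhat {a b c1 d1 : F} (hdet : a * d1 - b * c1 = 1) (h1 : c1 ≠ 0) (f : F → F → ℂ) :
    A.rho a b c1 d1 f = opN (a / c1) (A.rho 0 (-c1⁻¹) c1 d1 f) := by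
  rw [← rho_N_left]
  congr 1
  · field_simp; ring
  · field_simp; linear_combination -hdet

theorem rho_bruhat' {a b c1 d1 : F} (hdet : a * d1 - b * c1 = 1) (h1 : c1 ≠ 0) (f : F → F → ℂ) :
    A.rho a b c1 d1 f = opN (a / c1) (A.rho 0 (-c1⁻¹) c1 0 (opN (d1 / c1) f)) := by
  rw [rho_bruhat hdet h1, ← rho_N_right]
  congr 2
  · ring
  · field_simp; ring

/-- The torus. -/
theorem rho_h {a : F} (ha : a ≠ 0) (f : F → F → ℂ) :
    A.rho a 0 0 a⁻¹ f = A.opA a (A.opD a⁻¹ f) := by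
  funext c d
  have e1 : c * a + d * 0 = a * c := by ring
  have e2 : c * 0 + d * a⁻¹ = a⁻¹ * d := by ring
  simp only [rho, opA, opD, kap, e1, e2, X_zero]
  rw [mul_e3_e3 _ rfl]
  congr 2
  rcases eq_or_ne c 0 with rfl | hc
  · rcases eq_or_ne d 0 with rfl | hd
    · simp [X_zero]
    · rw [mul_zero, X_zero, X_zero, mul_div_cancel_right₀ _ hd,
        mul_div_cancel_left₀ _ (inv_ne_zero ha)]
      simp [A.B.swap d a]
  · rw [X_ne hc, X_ne (mul_ne_zero ha hc), mul_div_cancel_right₀ _ hc,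
      A.B.div_right _ (mul_ne_zero ha hc) (inv_ne_zero ha)]
    simp [A.B.mul_right _ ha hc]

theorem rho_borel {a b d1 : F} (hdet : a * d1 = 1) (f : F → F → ℂ) :
    A.rho a b 0 d1 f = A.opA a (A.opD a⁻¹ (opN (b / a) f)) := by
  have ha : a ≠ 0 := left_ne_zero_of_mul_eq_one hdet
  rw [← rho_h ha, ← rho_N_right]
  congr 1
  · field_simp; ring
  · rw [zero_mul, add_zero]; exact eq_inv_of_mul_eq_one_right hdet

theorem IsTest.rho {f : F → F → ℂ} (hf : A.IsTest f) {a b c1 d1 : F}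
    (hdet : a * d1 - b * c1 = 1) : A.IsTest (A.rho a b c1 d1 f) := by
  rcases eq_or_ne c1 0 with rfl | h1
  · have h : a * d1 = 1 := by linear_combination hdet
    have ha : a ≠ 0 := left_ne_zero_of_mul_eq_one h
    rw [rho_borel h]
    exact ((hf.opN _).opD (inv_ne_zero ha)).opA ha
  · rw [rho_bruhat' hdet h1, rho_w h1]
    exact ((((hf.opN _).opD (inv_ne_zero h1)).opA h1).opW).opN _





theorem kap_deep {a b c1 d1 : F} (hdet : a * d1 - b * c1 = 1) (ha : A.P 1 a) (hd : A.P 1 d1)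
    (c d : F) : A.kap a b c1 d1 c d = A.B.c d c - A.B.c d (c * a + d * c1) := by
  have ha0 := ha.ne_zero le_rfl
  have hd0 := hd.ne_zero le_rfl
  unfold kap
  rcases eq_or_ne c 0 with rfl | hc
  · rcases eq_or_ne d 0 with rfl | hd'
    · simp [X_zero]
    rcases eq_or_ne c1 0 with rfl | h1
    · simp [X_zero, mul_div_cancel_left₀ _ hd', hd.c_left le_rfl]
    · simp [X_zero, X_ne h1, X_ne (mul_ne_zero hd' h1), mul_div_cancel_left₀ _ hd',
        mul_div_cancel_right₀ _ h1, A.B.mul_right _ hd' h1, A.B.swap c1 d]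
  rcases eq_or_ne c1 0 with rfl | h1
  · rw [mul_zero, add_zero, X_ne hc, X_ne (mul_ne_zero hc ha0), mul_div_cancel_left₀ _ hc,
      ha.c_left le_rfl, mul_comm c a, ha.c_mul_right le_rfl, sub_self]
  rw [X_ne hc, X_ne h1]
  rcases eq_or_ne d 0 with rfl | hd'
  · rw [zero_mul, add_zero, X_ne (mul_ne_zero hc ha0), mul_div_cancel_left₀ _ hc,
      ha.c_left le_rfl]
    simp
  rcases eq_or_ne (c * a + d * c1) 0 with h2 | h2
  · have e1 : c * b + d * d1 = -(c / c1) := by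
      field_simp; linear_combination d1 * h2 - c * hdet
    have e3 : -(c / c1) / c = -c1⁻¹ := by field_simp
    have e4 : -(c / c1) / c1 = -(c / c1 ^ 2) := by field_simp
    have e5 : A.B.c d c + A.B.c c1 c = 0 := by
      rw [← A.B.mul_left _ hd' h1, show d * c1 = -(a * c) by linear_combination h2, A.B.neg_left,
        ha.c_mul_left le_rfl, A.B.self]
    rw [h2, X_zero, e1, e3, e4]
    simp only [A.B.neg_left, A.B.neg_right, A.B.inv_left, A.B.zero_right,
      A.B.div_right _ hc (pow_ne_zero 2 h1), A.B.sq_right, A.B.self]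
    linear_combination -e5
  · have st := A.B.add_form (mul_ne_zero hc ha0) (mul_ne_zero hd' h1) h2 rfl
    rw [X_ne h2, A.B.div_left _ h2 hc, A.B.div_right _ h2 h1, A.B.div_right _ h2 h1, A.B.self]
    generalize c * a + d * c1 = c' at st ⊢
    rw [mul_comm c a, ha.c_mul_left le_rfl, ha.c_mul_left le_rfl, A.B.mul_right _ hd' h1,
      A.B.mul_right _ hd' h1] at st
    have s1 := A.B.swap c d
    have s2 := A.B.swap c' d
    linear_combination st - s1 + s2

/-- The principal congruence subgroup of level `N^{2j}` acts trivially. -/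
theorem Test.rho_deep {j : ℕ} (hj : 1 ≤ j) {f : F → F → ℂ} (hf : A.Test j f) {a b c1 d1 : F}
    (hdet : a * d1 - b * c1 = 1) (ha : A.P (j + j) a) (hb : b ∈ A.lat (A.N ^ (j + j)))
    (hc : c1 ∈ A.lat (A.N ^ (j + j))) (hd : A.P (j + j) d1) : A.rho a b c1 d1 f = f := by
  funext c d
  unfold Ar.rho
  by_cases h : A.N ^ j * c ∈ A.L ∧ A.N ^ j * d ∈ A.L
  · have h1 : c * a + d * c1 - c ∈ A.lat (A.N ^ j) := by
      rw [show c * a + d * c1 - c = c * (a - 1) + d * c1 by ring]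
      exact add_mem (bd_mul_latN h.1 ha) (bd_mul_latN h.2 hc)
    have h2 : c * b + d * d1 - d ∈ A.lat (A.N ^ j) := by
      rw [show c * b + d * d1 - d = c * b + d * (d1 - 1) by ring]
      exact add_mem (bd_mul_latN h.1 hb) (bd_mul_latN h.2 hd)
    rw [hf.loc c d _ _ h1 h2, kap_deep hdet (ha.mono (by omega)) (hd.mono (by omega)),
      mul_e3_e3 _ (add_neg_cancel _), e3_zero, mul_one]
  · have h1 : f c d = 0 := by
      by_contra h0; exact h ⟨(hf.sup h0).1, (hf.sup h0).2.1⟩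
    have h2 : f (c * a + d * c1) (c * b + d * d1) = 0 := by
      by_contra h0
      obtain ⟨s1, s2, -⟩ := hf.sup h0
      refine h ⟨?_, ?_⟩
      · have := bd_sub (bd_mul_L s1 hd.mem) (bd_mul_L s2 (latN_L hc))
        convert this using 2
        linear_combination (-c) * hdet
      · have := bd_sub (bd_mul_L s2 ha.mem) (bd_mul_L s1 (latN_L hb))
        convert this using 2
        linear_combination (-d) * hdet
    rw [h1, h2, zero_mul]

/-- Invariance under the principal congruence subgroup gives local constancy. -/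
theorem test_of_inv {j : ℕ} (hj : 1 ≤ j) {f : F → F → ℂ} (hb : ∃ C : ℝ, ∀ c d, ‖f c d‖ ≤ C)
    (hs : ∀ c d, f c d ≠ 0 → A.Sup j c d)
    (hi : ∀ a b c1 d1, a * d1 - b * c1 = 1 → A.P j a → b ∈ A.lat (A.N ^ j) →
      c1 ∈ A.lat (A.N ^ j) → A.P j d1 → A.rho a b c1 d1 f = f) : A.Test (j + j + j + j) f := by
  have key : ∀ c d c' d', f c d ≠ 0 → c' - c ∈ A.lat (A.N ^ (j + j + j + j)) →
      d' - d ∈ A.lat (A.N ^ (j + j + j + j)) → f c' d' = f c d * e3 (A.B.c d c - A.B.c d c') := by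
    intro c d c' d' h0 h1 h2
    obtain ⟨sc, sd, p, hp, q, hq, e⟩ := hs c d h0
    have hN := A.Np_ne j
    obtain ⟨P, rfl⟩ : ∃ P, p = A.N ^ j * P := ⟨(A.N ^ j)⁻¹ * p, by field_simp⟩
    obtain ⟨Q, rfl⟩ : ∃ Q, q = A.N ^ j * Q := ⟨(A.N ^ j)⁻¹ * q, by field_simp⟩
    have e1 : c * P + d * Q = 1 := mul_left_cancel₀ hN (by linear_combination e)
    have hδ : A.P (j + j + j) (P * c' + Q * d') := by
      rw [Ar.P, show P * c' + Q * d' - 1 = P * (c' - c) + Q * (d' - d) by linear_combination e1]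
      exact add_mem (bd_mul_latN hp h1) (bd_mul_latN hq h2)
    have hδ0 := hδ.ne_zero (by omega)
    have hε : (P * c' + Q * d')⁻¹ - 1 ∈ A.lat (A.N ^ (j + (j + j))) := by
      rw [← add_assoc]; exact hδ.inv (by omega)
    have hδ1 := mul_inv_cancel₀ hδ0
    generalize (P * c' + Q * d')⁻¹ = ε at hε hδ1
    have g1 : ∀ {x y : F}, A.N ^ j * x ∈ A.L → y ∈ A.lat (A.N ^ (j + j + j + j)) →
        x * y ∈ A.lat (A.N ^ j) := fun hx hy => latN_mono (by omega) (bd_mul_latN hx hy)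
    have g2 : ∀ {x y : F}, A.N ^ j * x ∈ A.L → A.N ^ j * y ∈ A.L →
        x * y * (ε - 1) ∈ A.lat (A.N ^ j) := fun hx hy => bd_mul_latN (bd_mul hx hy) hε
    have ka : A.P j (d * Q * ε + P * c') := by
      rw [Ar.P, show d * Q * ε + P * c' - 1 = d * Q * (ε - 1) + P * (c' - c) by
        linear_combination e1]
      exact add_mem (g2 sd hq) (g1 hp h1)
    have kd : A.P j (c * P * ε + Q * d') := by
      rw [Ar.P, show c * P * ε + Q * d' - 1 = c * P * (ε - 1) + Q * (d' - d) by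
        linear_combination e1]
      exact add_mem (g2 sc hp) (g1 hq h2)
    have kb : P * d' - d * P * ε ∈ A.lat (A.N ^ j) := by
      rw [show P * d' - d * P * ε = P * (d' - d) - d * P * (ε - 1) by ring]
      exact sub_mem (g1 hp h2) (g2 sd hp)
    have kc : Q * c' - c * Q * ε ∈ A.lat (A.N ^ j) := by
      rw [show Q * c' - c * Q * ε = Q * (c' - c) - c * Q * (ε - 1) by ring]
      exact sub_mem (g1 hq h1) (g2 sc hq)
    have hdet : (d * Q * ε + P * c') * (c * P * ε + Q * d') -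
        (P * d' - d * P * ε) * (Q * c' - c * Q * ε) = 1 := by
      linear_combination hδ1 + (P * c' + Q * d') * ε * e1
    have h3 := congrFun (congrFun (hi _ _ _ _ hdet ka kb kc kd) c) d
    have f1 : c * (d * Q * ε + P * c') + d * (Q * c' - c * Q * ε) = c' := by
      linear_combination c' * e1
    have f2 : c * (P * d' - d * P * ε) + d * (c * P * ε + Q * d') = d' := by
      linear_combination d' * e1
    rw [Ar.rho, kap_deep hdet (ka.mono hj) (kd.mono hj), f1, f2] at h3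
    rw [← h3, mul_e3_e3 _ (neg_add_cancel _), e3_zero, mul_one]
  refine ⟨hb, fun c d h => (hs c d h).mono (by omega), fun c d c' d' h1 h2 => ?_⟩
  by_cases h0 : f c d = 0
  · by_contra h3
    rw [h0, zero_mul] at h3
    have := key c' d' c d h3 (by rw [← neg_sub]; exact neg_mem h1)
      (by rw [← neg_sub]; exact neg_mem h2)
    exact mul_ne_zero h3 (e3_ne_zero _) (this.symm.trans h0)
  · exact key c d c' d' h0 h1 h2

theorem P.c_congr {t t' : F} (ht : A.P 1 t) (ht' : A.P 1 t') (x y : F) :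
    A.B.c (x * t) (y * t') = A.B.c x y := by
  rw [mul_comm x, mul_comm y, ht.c_mul_left le_rfl, ht'.c_mul_right le_rfl]

/-- `f^{D k} = f^D` for a deep principal unit `k`. -/
theorem Test.rho_w_deep {j : ℕ} (hj : 1 ≤ j) {f : F → F → ℂ} (hf : A.Test j f) {k D : F}
    (hD : D ≠ 0) (hk : A.P (j + j) k) :
    A.rho 0 (D * k)⁻¹ (-(D * k)) 0 f = A.rho 0 D⁻¹ (-D) 0 f := by
  have hk1 : A.P 1 k := hk.mono (by omega)
  have hk0 := hk1.ne_zero le_rfl
  have hki := hk1.inv le_rfl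
  have hdet : k * k⁻¹ - 0 * 0 = 1 := by field_simp; ring
  have h := hf.rho_deep hj hdet hk (zero_mem _) (zero_mem _) (hk.inv (by omega))
  have h2 : ∀ C E, f (C * k) (E * k⁻¹) = f C E := by
    intro C E
    have h1 := congrFun (congrFun h C) E
    rw [Ar.rho, kap_deep hdet hk1 hki] at h1
    simpa [mul_comm C k, hk1.c_mul_right le_rfl] using h1
  funext c d
  have e1 : c * 0 + d * -(D * k) = (c * 0 + d * -D) * k := by ring
  have e2 : c * (D * k)⁻¹ + d * 0 = (c * D⁻¹ + d * 0) * k⁻¹ := by rw [mul_inv]; ring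
  rw [Ar.rho, Ar.rho, kap, kap, e1, e2, h2, X_ne (neg_ne_zero.2 hD),
    X_ne (neg_ne_zero.2 (mul_ne_zero hD hk0))]
  congr 3
  generalize c * 0 + d * -D = C
  generalize c * D⁻¹ + d * 0 = E
  rcases eq_or_ne C 0 with rfl | hC
  · rw [zero_mul, X_zero, X_zero, ← P.c_congr hki (hki.mul hki) (E / X c d) (E / -D)]
    congr 1 <;> field_simp
  · rw [X_ne hC, X_ne (mul_ne_zero hC hk0), ← P.c_congr hk1 (A.P_one 1) (C / X c d) (C / -D)]
    congr 1 <;> field_simp

/-! ## the bracket `f⟨t⟩` -/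

theorem br_apply (t : F) (f : F → F → ℂ) (c d : F) : A.br t f c d =
    f (t ^ 2 * c) (t * d) *
      e3 (A.B.c t (t ^ 2 * c) + (A.B.c d (t ^ 2 * c) - A.B.c d c - A.B.c d (t ^ 2))) := by
  simp only [br, opA, opD]; rw [mul_e3_e3 _ rfl]

theorem br_apply_ne {t c : F} (ht : t ≠ 0) (hc : c ≠ 0) (f : F → F → ℂ) (d : F) :
    A.br t f c d = f (t ^ 2 * c) (t * d) * e3 (A.B.c t c) := by
  rw [br_apply, A.B.mul_right _ (pow_ne_zero 2 ht) hc, A.B.mul_right _ (pow_ne_zero 2 ht) hc,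
    A.B.sq_right t, A.B.self]
  congr 2; ring

theorem br_apply_zero (t : F) (f : F → F → ℂ) (d : F) :
    A.br t f 0 d = f 0 (t * d) * e3 (A.B.c d t) := by
  rw [br_apply, A.B.sq_right]; simp



/-- `f⟨t⟩⟨t'⟩ = conj c(t, t') f⟨t t'⟩` (for `f (0, 0) = 0`). -/
theorem br_br {t t' : F} (ht : t ≠ 0) (ht' : t' ≠ 0) {f : F → F → ℂ} (h0 : f 0 0 = 0) :
    A.br t' (A.br t f) = fun c d => e3 (-A.B.c t t') * A.br (t * t') f c d := by
  funext c d
  rcases eq_or_ne c 0 with rfl | hc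
  · rw [br_apply_zero, br_apply_zero, br_apply_zero, ← mul_assoc t]
    rcases eq_or_ne d 0 with rfl | hd
    · simp [h0]
    rw [mul_e3_e3 _ rfl, mul_left_comm, ← e3_add, A.B.mul_left _ ht' hd, A.B.mul_right _ ht ht',
      A.B.swap t' t]
    congr 2; ring
  · rw [br_apply_ne ht' hc, br_apply_ne ht (mul_ne_zero (pow_ne_zero 2 ht') hc),
      br_apply_ne (mul_ne_zero ht ht') hc, mul_e3_e3 _ rfl, mul_left_comm (e3 _), ← e3_add,
      A.B.mul_right _ (pow_ne_zero 2 ht') hc, A.B.sq_right, A.B.mul_left _ ht ht', ← mul_assoc,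
      ← mul_assoc, mul_pow]
    congr 2; ring

/-- `f⟨k⟩ = f` for a deep principal unit `k`. -/
theorem Test.br_deep {j : ℕ} (hj : 1 ≤ j) {f : F → F → ℂ} (hf : A.Test j f) {k : F}
    (hk : A.P (j + j) k) : A.br k f = f := by
  have hk1 : A.P 1 k := hk.mono (by omega)
  have hk0 := hk1.ne_zero le_rfl
  funext c d
  rw [br_apply]
  by_cases h : A.N ^ j * c ∈ A.L ∧ A.N ^ j * d ∈ A.L
  · have h1 : k ^ 2 * c - c ∈ A.lat (A.N ^ j) := by
      rw [← sub_one_mul]; exact latN_mul_bd (hk.pow 2) h.1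
    have h2 : k * d - d ∈ A.lat (A.N ^ j) := by
      rw [← sub_one_mul]; exact latN_mul_bd hk h.2
    rw [hf.loc c d _ _ h1 h2, mul_e3_e3 _ rfl, hk1.c_left le_rfl, (hk1.pow 2).c_right le_rfl]
    simp
  · have h1 : f c d = 0 := by
      by_contra h0; exact h ⟨(hf.sup h0).1, (hf.sup h0).2.1⟩
    have h2 : f (k ^ 2 * c) (k * d) = 0 := by
      by_contra h0
      obtain ⟨s1, s2, -⟩ := hf.sup h0
      refine h ⟨?_, ?_⟩
      · have := bd_mul_L s1 ((hk1.pow 2).inv_mem le_rfl)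
        convert this using 2
        field_simp
      · have := bd_mul_L s2 (hk1.inv_mem le_rfl)
        convert this using 2
        field_simp
    rw [h1, h2, zero_mul]

/-- `f⟨m³ r⟩ = (f[m³]⟨r⟩)(m³ ·)`. -/
theorem br_cube_mul {m r : F} (hm : m ≠ 0) (hr : r ≠ 0) (f : F → F → ℂ) :
    A.br (m ^ 3 * r) f = sc m m (A.br r (sc m 1 f)) := by
  have h3 : m ^ 3 ≠ 0 := pow_ne_zero _ hm
  funext c d
  simp only [sc]
  rcases eq_or_ne c 0 with rfl | hc
  · rw [mul_zero, br_apply_zero, br_apply_zero, A.B.cube_mul_right _ _ hm,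
      A.B.cube_mul_left _ _ hm]
    simp only [sc]
    congr 2 <;> ring
  · rw [br_apply_ne (mul_ne_zero h3 hr) hc, br_apply_ne hr (mul_ne_zero h3 hc),
      A.B.cube_mul_right _ _ hm, A.B.cube_mul_left _ _ hm]
    simp only [sc]
    congr 2 <;> ring

/-! ## the functions `ξ_f` -/

variable (A) in
/-- Coprime rows of `R`. -/
def Cop (c d : F) : Prop := c ∈ A.R ∧ d ∈ A.R ∧ ∃ p ∈ A.R, ∃ q ∈ A.R, p * c + q * d = 1

variable (A) in
open Classical in
/-- The exponent of the cubic symbol `(x / y)` as a function on `F`. -/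
def sy (x y : F) : ZMod 3 := if h : x ∈ A.R ∧ y ∈ A.R then A.S.s ⟨x, h.1⟩ ⟨y, h.2⟩ else 0


theorem sy_mk {x y : F} (hx : x ∈ A.R) (hy : y ∈ A.R) : A.sy x y = A.S.s ⟨x, hx⟩ ⟨y, hy⟩ :=
  dif_pos ⟨hx, hy⟩

theorem cop_mk {c d : F} (hc : c ∈ A.R) (hd : d ∈ A.R) :
    A.Cop c d ↔ IsCoprime (⟨c, hc⟩ : A.R) ⟨d, hd⟩ := by
  constructor
  · rintro ⟨-, -, p, hp, q, hq, e⟩
    exact ⟨⟨p, hp⟩, ⟨q, hq⟩, Subtype.ext e⟩
  · rintro ⟨p, q, e⟩
    exact ⟨hc, hd, p, p.2, q, q.2, congrArg Subtype.val e⟩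

theorem cop_coe (c d : A.R) : A.Cop c d ↔ IsCoprime c d := cop_mk c.2 d.2

theorem Cop.symm {c d : F} (h : A.Cop c d) : A.Cop d c := by
  obtain ⟨h1, h2, p, hp, q, hq, e⟩ := h
  exact ⟨h2, h1, q, hq, p, hp, by rw [← e]; ring⟩

theorem xi_of_cop {c d : F} (h : A.Cop c d) (f : F → F → ℂ) :
    A.xi f c d = f c d * e3 (A.sy d c) := by
  rw [xi, dif_pos ⟨h.1, h.2.1⟩, if_pos ((cop_mk _ _).1 h), sy_mk h.2.1 h.1]

theorem xi_of_not_cop {c d : F} (h : ¬ A.Cop c d) (f : F → F → ℂ) : A.xi f c d = 0 := by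
  rw [xi]
  split_ifs with h1 h2
  · exact absurd ((cop_mk _ _).2 h2) h
  · rfl
  · rfl

theorem xi_ne_zero {f : F → F → ℂ} {c d : F} (h : A.xi f c d ≠ 0) : A.Cop c d ∧ f c d ≠ 0 := by
  by_cases h1 : A.Cop c d
  · rw [xi_of_cop h1] at h; exact ⟨h1, left_ne_zero_of_mul h⟩
  · exact absurd (xi_of_not_cop h1 f) h

theorem norm_xi_le (f : F → F → ℂ) (c d : F) : ‖A.xi f c d‖ ≤ ‖f c d‖ := by
  by_cases h1 : A.Cop c d
  · rw [xi_of_cop h1, norm_mul, norm_e3, mul_one]
  · rw [xi_of_not_cop h1, norm_zero]; exact norm_nonneg _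




theorem cop_mul_iff {a b c1 d1 : F} (ha : a ∈ A.R) (hb : b ∈ A.R) (hc : c1 ∈ A.R) (hd : d1 ∈ A.R)
    (hdet : a * d1 - b * c1 = 1) (c d : F) :
    A.Cop (c * a + d * c1) (c * b + d * d1) ↔ A.Cop c d := by
  constructor
  · rintro ⟨h1, h2, p, hp, q, hq, e⟩
    refine ⟨?_, ?_, p * a + q * b, add_mem (mul_mem hp ha) (mul_mem hq hb), p * c1 + q * d1,
      add_mem (mul_mem hp hc) (mul_mem hq hd), by rw [← e]; ring⟩
    · convert sub_mem (mul_mem h1 hd) (mul_mem h2 hc) using 1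
      linear_combination (-c) * hdet
    · convert sub_mem (mul_mem h2 ha) (mul_mem h1 hb) using 1
      linear_combination (-d) * hdet
  · rintro ⟨h1, h2, p, hp, q, hq, e⟩
    exact ⟨add_mem (mul_mem h1 ha) (mul_mem h2 hc), add_mem (mul_mem h1 hb) (mul_mem h2 hd),
      p * d1 - q * b, sub_mem (mul_mem hp hd) (mul_mem hq hb), q * a - p * c1,
      sub_mem (mul_mem hq ha) (mul_mem hp hc), by linear_combination e + (p * c + q * d) * hdet⟩

theorem coe_X (c d : A.R) : algebraMap A.R F (X c d) = X (c : F) (d : F) := by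
  rcases eq_or_ne c 0 with rfl | hc
  · rw [X_zero, ZeroMemClass.coe_zero, X_zero]; rfl
  · rw [X_ne hc, X_ne (by exact_mod_cast hc)]; rfl

/-- MASTER in terms of `sy` and `kap`. -/
theorem sy_master {a b c1 d1 : F} (ha : a ∈ A.R) (hb : b ∈ A.R) (hc : c1 ∈ A.R) (hd : d1 ∈ A.R)
    (hdet : a * d1 - b * c1 = 1) {c d : F} (h : A.Cop c d) :
    A.sy (c * b + d * d1) (c * a + d * c1) = A.sy d c + A.sy d1 c1 - A.kap a b c1 d1 c d := by
  have := A.pid
  have := A.inf
  have h' := (cop_mul_iff ha hb hc hd hdet c d).2 h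
  have key := A.S.master (a := ⟨a, ha⟩) (b := ⟨b, hb⟩) (c1 := ⟨c1, hc⟩) (d1 := ⟨d1, hd⟩)
    (c := ⟨c, h.1⟩) (d := ⟨d, h.2.1⟩) (c' := ⟨_, h'.1⟩) (d' := ⟨_, h'.2.1⟩) (Subtype.ext hdet)
    ((cop_mk _ _).1 h) rfl rfl
  rw [coe_X, coe_X, coe_X] at key
  rw [sy_mk h'.2.1 h'.1, sy_mk h.2.1 h.1, sy_mk hd hc, key]
  rfl

/-- `ξ_f (u g) = (d₁ / c₁) ξ_{ρ(g) f} (u)` for `g ∈ SL₂(R)`. -/
theorem xi_rho {a b c1 d1 : F} (ha : a ∈ A.R) (hb : b ∈ A.R) (hc : c1 ∈ A.R) (hd : d1 ∈ A.R)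
    (hdet : a * d1 - b * c1 = 1) (f : F → F → ℂ) (c d : F) :
    A.xi f (c * a + d * c1) (c * b + d * d1) = e3 (A.sy d1 c1) * A.xi (A.rho a b c1 d1 f) c d := by
  by_cases h : A.Cop c d
  · rw [xi_of_cop h, xi_of_cop ((cop_mul_iff ha hb hc hd hdet c d).2 h),
      sy_master ha hb hc hd hdet h, rho, mul_e3_e3 _ rfl, mul_left_comm, ← e3_add]
    congr 2; ring
  · rw [xi_of_not_cop h, xi_of_not_cop (mt (cop_mul_iff ha hb hc hd hdet c d).1 h), mul_zero]

theorem sy_zero (x : F) : A.sy x 0 = 0 := by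
  by_cases hx : x ∈ A.R
  · rw [sy_mk hx (zero_mem _)]; exact A.S.zero _
  · exact dif_neg fun h => hx h.1



/-! ## the symbol on `F`, units of `R` -/

theorem sy_congr {x x' y t : F} (hx : x ∈ A.R) (hy : y ∈ A.R) (ht : t ∈ A.R)
    (h : x' = x + y * t) : A.sy x' y = A.sy x y := by
  have hx' : x' ∈ A.R := h ▸ add_mem hx (mul_mem hy ht)
  rw [sy_mk hx hy, sy_mk hx' hy]
  exact A.S.congr ⟨⟨t, ht⟩, Subtype.ext (by simp [h])⟩

theorem Cop.mul_left {x x' y : F} (h : A.Cop x y) (h' : A.Cop x' y) : A.Cop (x * x') y :=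
  (cop_mk (mul_mem h.1 h'.1) h.2.1).2 (((cop_mk h.1 h.2.1).1 h).mul_left ((cop_mk h'.1 h.2.1).1 h'))

theorem Cop.mul_right {x y y' : F} (h : A.Cop x y) (h' : A.Cop x y') : A.Cop x (y * y') :=
  (h.symm.mul_left h'.symm).symm

theorem sy_mul_left {x x' y : F} (h : A.Cop x y) (h' : A.Cop x' y) :
    A.sy (x * x') y = A.sy x y + A.sy x' y := by
  rw [sy_mk h.1 h.2.1, sy_mk h'.1 h.2.1, sy_mk (mul_mem h.1 h'.1) h.2.1]
  exact A.S.mul_left ((cop_mk _ _).1 h) ((cop_mk _ _).1 h')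

theorem sy_mul_right {x y y' : F} (h : A.Cop x y) (h' : A.Cop x y') (hy : y ≠ 0) (hy' : y' ≠ 0) :
    A.sy x (y * y') = A.sy x y + A.sy x y' := by
  rw [sy_mk h.1 h.2.1, sy_mk h.1 h'.2.1, sy_mk h.1 (mul_mem h.2.1 h'.2.1)]
  exact A.S.mul_right ((cop_mk _ _).1 h) ((cop_mk _ _).1 h') (fun e => hy (congrArg Subtype.val e))
    (fun e => hy' (congrArg Subtype.val e))




variable (A) in
/-- Units of `R`. -/
def Un (u : F) : Prop := u ≠ 0 ∧ u ∈ A.R ∧ u⁻¹ ∈ A.R

theorem Un.isUnit {u : F} (hu : A.Un u) : IsUnit (⟨u, hu.2.1⟩ : A.R) :=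
  IsUnit.of_mul_eq_one ⟨u⁻¹, hu.2.2⟩ (Subtype.ext (mul_inv_cancel₀ hu.1))


theorem Un.inv {u : F} (hu : A.Un u) : A.Un u⁻¹ :=
  ⟨inv_ne_zero hu.1, hu.2.2, by rw [inv_inv]; exact hu.2.1⟩

theorem Un.mul {u v : F} (hu : A.Un u) (hv : A.Un v) : A.Un (u * v) :=
  ⟨mul_ne_zero hu.1 hv.1, mul_mem hu.2.1 hv.2.1, by rw [mul_inv]; exact mul_mem hu.2.2 hv.2.2⟩

theorem Un.pow {u : F} (hu : A.Un u) (n : ℕ) : A.Un (u ^ n) :=
  ⟨pow_ne_zero _ hu.1, pow_mem hu.2.1 n, by rw [← inv_pow]; exact pow_mem hu.2.2 n⟩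


theorem Un.cop {u y : F} (hu : A.Un u) (hy : y ∈ A.R) : A.Cop u y :=
  ⟨hu.2.1, hy, u⁻¹, hu.2.2, 0, zero_mem _, by rw [inv_mul_cancel₀ hu.1]; ring⟩

theorem Cop.un {d : F} (h : A.Cop 0 d) : A.Un d := by
  obtain ⟨-, hd, p, -, q, hq, e⟩ := h
  have h : d * q = 1 := by linear_combination e
  exact ⟨left_ne_zero_of_mul_eq_one h, hd, by rw [← eq_inv_of_mul_eq_one_right h]; exact hq⟩

theorem Un.sy_right {u : F} (hu : A.Un u) (x : F) : A.sy x u = 0 := by
  by_cases hx : x ∈ A.R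
  · rw [sy_mk hx hu.2.1]; exact A.S.unit _ hu.isUnit
  · exact dif_neg fun h => hx h.1

theorem Un.sy_left {u y : F} (hu : A.Un u) (hy : y ∈ A.R) : A.sy u y = A.B.c u y := by
  rw [sy_mk hu.2.1 hy]; exact A.S.unit_left hu.isUnit _

theorem Un.c_eq {u v : F} (hu : A.Un u) (hv : A.Un v) : A.B.c u v = 0 := by
  rw [← hu.sy_left hv.2.1, hv.sy_right]

theorem Un.sy_mul_right {u x y : F} (hu : A.Un u) (h : A.Cop x y) :
    A.sy x (u * y) = A.sy x y := by
  rw [sy_mk h.1 h.2.1, sy_mk h.1 (mul_mem hu.2.1 h.2.1)]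
  exact A.S.unit_mul_right hu.isUnit ((cop_mk _ _).1 h)

theorem Un.cop_mul_iff {u : F} (hu : A.Un u) (c d : F) : A.Cop (u * c) d ↔ A.Cop c d := by
  constructor
  · intro h
    have := (hu.inv.cop h.2.1).mul_left h
    rwa [inv_mul_cancel_left₀ hu.1] at this
  · intro h; exact (hu.cop h.2.1).mul_left h

theorem Un.cop_mul_iff' {u : F} (hu : A.Un u) (c d : F) : A.Cop c (u * d) ↔ A.Cop c d :=
  ⟨fun h => ((hu.cop_mul_iff d c).1 h.symm).symm, fun h => ((hu.cop_mul_iff d c).2 h.symm).symm⟩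

theorem Un.xi_opD {s : F} (hs : A.Un s) (f : F → F → ℂ) (c d : F) :
    A.xi (A.opD s f) c d = A.xi f c (s * d) := by
  by_cases h : A.Cop c d
  · rw [xi_of_cop h, xi_of_cop ((hs.cop_mul_iff' c d).2 h), opD, mul_e3_e3 _ rfl,
      sy_mul_left (hs.cop h.1) h.symm, hs.sy_left h.1]
  · rw [xi_of_not_cop h, xi_of_not_cop (mt (hs.cop_mul_iff' c d).1 h)]

theorem Un.xi_opA {t : F} (ht : A.Un t) (f : F → F → ℂ) (c d : F) :
    A.xi (A.opA t f) c d = A.xi f (t * c) d := by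
  by_cases h : A.Cop c d
  · rw [xi_of_cop h, xi_of_cop ((ht.cop_mul_iff c d).2 h), opA, mul_e3_e3 _ rfl,
      ht.sy_mul_right h.symm]
    congr 2
    rcases eq_or_ne c 0 with rfl | hc
    · simp [h.un.c_eq ht]
    · rw [A.B.mul_right _ ht.1 hc]; ring
  · rw [xi_of_not_cop h, xi_of_not_cop (mt (ht.cop_mul_iff c d).1 h)]

/-- `ξ_{f⟨u⟩} (c, d) = ξ_f (u² c, u d)` for a unit `u` of `R`. -/
theorem Un.xi_br {u : F} (hu : A.Un u) (f : F → F → ℂ) (c d : F) :
    A.xi (A.br u f) c d = A.xi f (u ^ 2 * c) (u * d) := by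
  rw [br, (hu.pow 2).xi_opA, hu.xi_opD]


/-! ## approximation -/





/-- Every non-zero vector is a multiple of a coprime vector of `R`. -/
theorem exists_cop (A : Ar F) {x y : F} (h : ¬ (x = 0 ∧ y = 0)) :
    ∃ ρ α β : F, ρ ≠ 0 ∧ A.Cop α β ∧ x = ρ * α ∧ y = ρ * β := by
  classical
  have := A.pid
  obtain ⟨b, hb, hb0, hx⟩ := A.frac x
  obtain ⟨b', hb', hb0', hy⟩ := A.frac y
  have hx' : b * b' * x ∈ A.R := by rw [mul_comm b, mul_assoc]; exact mul_mem hb' hx
  have hy' : b * b' * y ∈ A.R := by rw [mul_assoc]; exact mul_mem hb hy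
  let : GCDMonoid A.R := IsBezout.toGCDDomain A.R
  obtain ⟨α, β, e1, e2, hu⟩ := extract_gcd (⟨_, hx'⟩ : A.R) ⟨_, hy'⟩
  set g := gcd (⟨_, hx'⟩ : A.R) ⟨_, hy'⟩
  have e1' : b * b' * x = g * α := congrArg Subtype.val e1
  have e2' : b * b' * y = g * β := congrArg Subtype.val e2
  have hbb := mul_ne_zero hb0 hb0'
  have hg : (g : F) ≠ 0 := by
    intro h0
    rw [h0, zero_mul] at e1' e2'
    exact h ⟨(mul_eq_zero.1 e1').resolve_left hbb, (mul_eq_zero.1 e2').resolve_left hbb⟩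
  refine ⟨g / (b * b'), α, β, div_ne_zero hg hbb, (cop_coe _ _).2 ((gcd_isUnit_iff _ _).1 hu), ?_, ?_⟩
  · field_simp; linear_combination e1'
  · field_simp; linear_combination e2'

end Ar

end Crest.Agent.T27.B83
end
end

-- ▼ part T27/ThOp_83

/-!
# Row 27, theta leaf B1: `OpStmt`
-/

set_option autoImplicit false
set_option linter.unusedSectionVars false

noncomputable section

namespace Crest.Agent.T27.TH

open scoped ComplexConjugate
open NumberField B83

namespace Op83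

/-! ## discrete logarithm -/

/-- The discrete logarithm of a cube root of unity. -/
def lg3 (z : ℂ) : ZMod 3 := Function.invFun e3 z

theorem lg3_e3 (k : ZMod 3) : lg3 (e3 k) = k := Function.leftInverse_invFun e3_injective k

theorem e3_lg3 {z : ℂ} (hz : z ^ 3 = 1) : e3 (lg3 z) = z := by
  refine Function.invFun_eq (f := e3) ?_
  have h1 : e3 1 ≠ 1 := fun h => absurd (e3_injective (h.trans e3_zero.symm)) (by decide)
  have h2 : e3 1 ^ 2 + e3 1 + 1 = 0 := by
    have : (e3 1 - 1) * (e3 1 ^ 2 + e3 1 + 1) = 0 := by linear_combination e3_cube 1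
    exact (mul_eq_zero.1 this).resolve_left (sub_ne_zero.2 h1)
  have h3 : e3 2 = e3 1 ^ 2 := by rw [pow_two, ← e3_add]; rfl
  have h4 : (z - 1) * ((z - e3 1) * (z - e3 1 ^ 2)) = 0 := by
    linear_combination hz + (z - 1) * e3_cube 1 - (z - 1) * z * h2
  rcases mul_eq_zero.1 h4 with h | h
  · exact ⟨0, by rw [e3_zero, sub_eq_zero.1 h]⟩
  rcases mul_eq_zero.1 h with h | h
  · exact ⟨1, (sub_eq_zero.1 h).symm⟩
  · exact ⟨2, by rw [h3, sub_eq_zero.1 h]⟩

theorem lg3_mul {z w : ℂ} (hz : z ^ 3 = 1) (hw : w ^ 3 = 1) : lg3 (z * w) = lg3 z + lg3 w := by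
  conv_lhs => rw [← e3_lg3 hz, ← e3_lg3 hw, ← e3_add, lg3_e3]

theorem lg3_one : lg3 1 = 0 := by rw [← e3_zero, lg3_e3]

variable {F : Type} [Field F] [NumberField F] [Emb F] [Ar F]

/-! ## the additive data -/

open Classical in
/-- The exponent of `cc`. -/
def cB (x y : F) : ZMod 3 := if x = 0 ∨ y = 0 then 0 else lg3 (Ar.cc x y)

theorem cB_ne {x y : F} (hx : x ≠ 0) (hy : y ≠ 0) : cB x y = lg3 (Ar.cc x y) :=
  if_neg (not_or.2 ⟨hx, hy⟩)

theorem cB_zero_left (y : F) : cB 0 y = 0 := if_pos (Or.inl rfl)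

theorem cB_zero_right (x : F) : cB x 0 = 0 := if_pos (Or.inr rfl)

theorem e3_cB {x y : F} (hx : x ≠ 0) (hy : y ≠ 0) : e3 (cB x y) = Ar.cc x y := by
  rw [cB_ne hx hy, e3_lg3 (Ar.cc_cube x y hx hy)]

theorem cB_mul_left {x x' : F} (y : F) (hx : x ≠ 0) (hx' : x' ≠ 0) :
    cB (x * x') y = cB x y + cB x' y := by
  rcases eq_or_ne y 0 with rfl | hy
  · simp [cB_zero_right]
  rw [cB_ne (mul_ne_zero hx hx') hy, cB_ne hx hy, cB_ne hx' hy, Ar.cc_mul_left _ _ _ hx hx' hy,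
    lg3_mul (Ar.cc_cube _ _ hx hy) (Ar.cc_cube _ _ hx' hy)]

theorem cB_mul_right (x : F) {y y' : F} (hy : y ≠ 0) (hy' : y' ≠ 0) :
    cB x (y * y') = cB x y + cB x y' := by
  rcases eq_or_ne x 0 with rfl | hx
  · simp [cB_zero_left]
  rw [cB_ne hx (mul_ne_zero hy hy'), cB_ne hx hy, cB_ne hx hy', Ar.cc_mul_right _ _ _ hx hy hy',
    lg3_mul (Ar.cc_cube _ _ hx hy) (Ar.cc_cube _ _ hx hy')]

theorem cB_self (x : F) : cB x x = 0 := by
  rcases eq_or_ne x 0 with rfl | hx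
  · exact cB_zero_left _
  refine eq_zero_of_two ?_
  rw [cB_ne hx hx, ← lg3_mul (Ar.cc_cube _ _ hx hx) (Ar.cc_cube _ _ hx hx), Ar.cc_swap x x hx hx,
    lg3_one]

open Classical in
/-- The exponent of `sy`. -/
def sB (x y : RR F) : ZMod 3 := if y ≠ 0 ∧ IsCoprime x y then lg3 (Ar.sy (x : F) (y : F)) else 0

theorem sB_pos {x y : RR F} (hy : y ≠ 0) (h : IsCoprime x y) :
    sB x y = lg3 (Ar.sy (x : F) (y : F)) := if_pos ⟨hy, h⟩

theorem e3_sB {x y : RR F} (hy : y ≠ 0) (h : IsCoprime x y) :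
    e3 (sB x y) = Ar.sy (x : F) (y : F) := by
  rw [sB_pos hy h, e3_lg3 (Ar.sy_cube x y hy h)]

theorem coe_ne {y : RR F} (hy : y ≠ 0) : (y : F) ≠ 0 := fun h => hy (Subtype.ext h)

theorem sB_zero (x : RR F) : sB x 0 = 0 := if_neg fun h => h.1 rfl

theorem sB_congr {x x' y : RR F} (h : y ∣ x - x') : sB x y = sB x' y := by
  obtain ⟨t, ht⟩ := h
  have e : x = x' + y * t := by linear_combination ht
  subst e
  unfold sB
  rcases eq_or_ne y 0 with rfl | hy
  · simp
  rw [IsCoprime.add_mul_left_left_iff]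
  split_ifs
  · rw [Subring.coe_add, Subring.coe_mul, Ar.sy_congr _ x'.2 _ y.2 _ t.2 (coe_ne hy)]
  · rfl

theorem sB_mul_left {x x' y : RR F} (h : IsCoprime x y) (h' : IsCoprime x' y) :
    sB (x * x') y = sB x y + sB x' y := by
  rcases eq_or_ne y 0 with rfl | hy
  · simp [sB_zero]
  rw [sB_pos hy h, sB_pos hy h', sB_pos hy (h.mul_left h'), Subring.coe_mul,
    Ar.sy_mul_left _ x.2 _ x'.2 _ y.2 (coe_ne hy),
    lg3_mul (Ar.sy_cube x y hy h) (Ar.sy_cube x' y hy h')]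

theorem sB_mul_right {x y y' : RR F} (h : IsCoprime x y) (h' : IsCoprime x y') (hy : y ≠ 0)
    (hy' : y' ≠ 0) : sB x (y * y') = sB x y + sB x y' := by
  rw [sB_pos hy h, sB_pos hy' h', sB_pos (mul_ne_zero hy hy') (h.mul_right h'), Subring.coe_mul,
    Ar.sy_mul_right _ x.2 _ y.2 _ y'.2 (coe_ne hy) (coe_ne hy'),
    lg3_mul (Ar.sy_cube x y hy h) (Ar.sy_cube x y' hy' h')]

theorem sB_unit (x : RR F) {y : RR F} (hy : IsUnit y) : sB x y = 0 := by
  obtain ⟨v, hv⟩ := hy.exists_right_inv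
  have h : (y : F) * v = 1 := congrArg Subtype.val hv
  unfold sB
  split_ifs with h1
  · rw [Ar.sy_unit _ x.2 _ y.2 (coe_ne h1.1)
      (by rw [← eq_inv_of_mul_eq_one_right h]; exact v.2), lg3_one]
  · rfl

theorem sB_recip {x y : RR F} (h : IsCoprime x y) (hx : x ≠ 0) (hy : y ≠ 0) :
    cB (algebraMap (RR F) F x) (algebraMap (RR F) F y) = sB x y - sB y x := by
  apply e3_injective
  rw [sub_eq_add_neg, e3_add, e3_neg, e3_sB hy h, e3_sB hx h.symm]
  exact (e3_cB (coe_ne hx) (coe_ne hy)).trans (Ar.cc_eq x y hx hy h)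

theorem sB_neg {x y : RR F} (h : IsCoprime x y) : sB (-x) y = sB x y := by
  have h1 : IsCoprime (-1 : RR F) y := isCoprime_one_left.neg_left
  have h0 : sB (1 : RR F) y = 0 := by
    have h := sB_mul_left (x := 1) (x' := 1) (y := y) isCoprime_one_left isCoprime_one_left
    rw [mul_one] at h
    linear_combination -h
  have h2 := sB_mul_left h1 h1
  rw [neg_mul_neg, mul_one, h0] at h2
  rw [← neg_one_mul, sB_mul_left h1 h, eq_zero_of_two h2.symm, zero_add]

theorem N_ne : (Ar.N F : F) ≠ 0 := by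
  have := Ar.two_le (F := F)
  exact Nat.cast_ne_zero.2 (by omega)

theorem mem_R_of_int {x : F} (hx : IsIntegral ℤ x) : x ∈ (Ar.R : Subring F) :=
  (Ar.mem_R x).2 ⟨0, by simpa using hx⟩

theorem mem_L_of_int {x : F} (hx : IsIntegral ℤ x) : x ∈ (Ar.L : Subring F) :=
  (Ar.mem_L x).2 ⟨1, Nat.coprime_one_left _, by simpa using hx⟩

theorem frac (x : F) : ∃ b ∈ (Ar.R : Subring F), b ≠ 0 ∧ b * x ∈ (Ar.R : Subring F) := by
  obtain ⟨m, hm, h⟩ := ((IsFractionRing.isAlgebraic_iff ℤ ℚ F).2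
    (Algebra.IsAlgebraic.isAlgebraic (R := ℚ) x)).exists_integral_multiple
  refine ⟨(m : F), intCast_mem _ m, Int.cast_ne_zero.2 hm, mem_R_of_int ?_⟩
  simpa using h

instance : IsFractionRing (RR F) F := by
  refine IsFractionRing.of_field _ _ fun z => ?_
  obtain ⟨b, hb, hb0, h⟩ := frac z
  exact ⟨⟨_, h⟩, ⟨b, hb⟩, (mul_div_cancel_left₀ _ hb0).symm⟩

variable (F) in
/-- The bicharacter. -/
def biOf : Bi F where
  c := cB
  zero_left := cB_zero_left
  zero_right := cB_zero_right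
  mul_left := cB_mul_left
  mul_right := cB_mul_right
  self := cB_self
  stein := stein_of_recip cB sB cB_zero_left cB_zero_right cB_mul_left cB_mul_right cB_self
    sB_congr sB_neg sB_recip

theorem pow_kc : (Ar.N F : F) ^ Ar.kc F = Ar.N F * (Ar.N F : F) ^ (Ar.kc F - 1) := by
  rw [← pow_succ', Nat.sub_add_cancel Ar.one_le_kc]

variable (F) in
/-- The arithmetic datum of `ThAr_83`. -/
def arOf : B83.Ar F where
  B := biOf F
  R := Ar.R
  L := Ar.L
  N := (Ar.N F : F) ^ Ar.kc F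
  N_ne := pow_ne_zero _ N_ne
  N_L := pow_mem (natCast_mem _ _) _
  N_R := pow_mem (natCast_mem _ _) _
  Ninv_R := (Ar.mem_R _).2 ⟨Ar.kc F, by
    rw [mul_inv_cancel₀ (pow_ne_zero _ N_ne)]; exact isIntegral_one⟩
  P_ne x hx := by
    rw [pow_kc, mul_assoc]; exact (Ar.unit_P _ (mul_mem (pow_mem (natCast_mem _ _) _) hx)).1
  P_inv x hx := by
    rw [pow_kc, mul_assoc]; exact (Ar.unit_P _ (mul_mem (pow_mem (natCast_mem _ _) _) hx)).2
  bdd x := by
    obtain ⟨k, hk⟩ := Ar.pow_mem_L x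
    refine ⟨k, ?_⟩
    rw [pow_kc, mul_pow, mul_comm ((Ar.N F : F) ^ k), mul_assoc]
    exact mul_mem (pow_mem (pow_mem (natCast_mem _ _) _) _) hk
  c_P x hx y := by
    rcases eq_or_ne y 0 with rfl | hy
    · exact cB_zero_right _
    have h0 : 1 + (Ar.N F : F) ^ Ar.kc F * x ≠ 0 := by
      rw [pow_kc, mul_assoc]; exact (Ar.unit_P _ (mul_mem (pow_mem (natCast_mem _ _) _) hx)).1
    show cB _ _ = 0
    rw [cB_ne h0 hy, Ar.cc_P x hx y hy, lg3_one]
  dense y := by
    obtain ⟨r, hr, l, hl, e⟩ := Ar.approx y 1 one_ne_zero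
    exact ⟨r, hr, by rw [e]; simpa using hl⟩
  pid := Ar.pidR
  inf := inferInstance
  frac := frac
  S :=
    { s := sB
      congr := sB_congr
      mul_left := sB_mul_left
      mul_right := sB_mul_right
      unit := sB_unit
      zero := sB_zero
      recip := sB_recip }

theorem A_c (x y : F) : (arOf F).B.c x y = cB x y := rfl

theorem A_N : (arOf F).N = (Ar.N F : F) ^ Ar.kc F := rfl

theorem deep_iff {j : ℕ} {x : F} : Deep (Ar.kc F * j) x ↔ x ∈ (arOf F).lat ((arOf F).N ^ j) := by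
  rw [B83.Ar.mem_latN, A_N, ← pow_mul]; rfl

theorem deep_mono {j k : ℕ} (h : j ≤ k) {x : F} (hx : Deep k x) : Deep j x := by
  obtain ⟨i, rfl⟩ := Nat.exists_eq_add_of_le h
  obtain ⟨y, hy, rfl⟩ := hx
  exact ⟨(Ar.N F : F) ^ i * y, mul_mem (pow_mem (natCast_mem _ _) _) hy, by ring⟩

/-! ## translation -/

/-- Currying. -/
def cu (f : F × F → ℂ) (c d : F) : ℂ := f (c, d)

theorem XK_zero (d : F) : XK ((0 : F), d) = d⁻¹ := if_pos rfl

theorem XK_ne {c : F} (hc : c ≠ 0) (d : F) : XK (c, d) = c := if_neg hc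

theorem XK_ne_zero {c d : F} (h : ¬ (c = 0 ∧ d = 0)) : XK (c, d) ≠ 0 := by
  rcases eq_or_ne c 0 with rfl | hc
  · rw [XK_zero]; exact inv_ne_zero fun hd => h ⟨rfl, hd⟩
  · rwa [XK_ne hc]

theorem kap_eq {a b c1 d1 c d : F} (hdet : a * d1 - b * c1 = 1) (h : ¬ (c = 0 ∧ d = 0)) :
    (arOf F).B.c (XK (c * a + d * c1, c * b + d * d1) / XK (c, d))
      (XK (c * a + d * c1, c * b + d * d1) / XK (c1, d1)) = (arOf F).kap a b c1 d1 c d := by
  unfold B83.Ar.kap
  generalize (arOf F).B = B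
  rcases eq_or_ne c1 0 with rfl | h1
  · have ha : a ≠ 0 := left_ne_zero_of_mul_eq_one (b := d1) (by linear_combination hdet)
    have hd1 : d1 = a⁻¹ := eq_inv_of_mul_eq_one_right (by linear_combination hdet)
    subst hd1
    rcases eq_or_ne c 0 with rfl | hc
    · have hd : d ≠ 0 := fun hd => h ⟨rfl, hd⟩
      simp only [zero_mul, mul_zero, add_zero, zero_add, XK_zero, X_zero]
      rw [show (d * a⁻¹)⁻¹ / d⁻¹ = a by field_simp, show (d * a⁻¹)⁻¹ / a⁻¹⁻¹ = d⁻¹ by field_simp,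
        show d * a⁻¹ / d = a⁻¹ by field_simp, show d * a⁻¹ / a⁻¹ = d by field_simp]
      simp
    · simp only [mul_zero, add_zero, XK_zero, X_zero, XK_ne hc, X_ne hc, XK_ne (mul_ne_zero hc ha),
        X_ne (mul_ne_zero hc ha)]
      rw [mul_div_cancel_left₀ _ hc, B.div_right _ (mul_ne_zero hc ha) (inv_ne_zero ha),
        B.div_right _ (mul_ne_zero hc ha) (inv_ne_zero (inv_ne_zero ha))]
      simp
  rw [XK_ne h1, X_ne h1]
  rcases eq_or_ne c 0 with rfl | hc
  · have hd : d ≠ 0 := fun hd => h ⟨rfl, hd⟩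
    simp only [zero_mul, zero_add, XK_zero, X_zero, XK_ne (mul_ne_zero hd h1),
      X_ne (mul_ne_zero hd h1)]
    rw [mul_div_cancel_right₀ _ h1, B.div_left _ (mul_ne_zero hd h1) hd,
      B.div_left _ (mul_ne_zero hd h1) (inv_ne_zero hd)]
    simp
  rw [XK_ne hc, X_ne hc]
  rcases eq_or_ne (c * a + d * c1) 0 with h2 | h2
  · have e1 : c * b + d * d1 = -(c / c1) := by
      field_simp; linear_combination d1 * h2 - c * hdet
    rw [h2, XK_zero, X_zero, e1, show (-(c / c1))⁻¹ / c = -(c1 / c ^ 2) by field_simp,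
      show (-(c / c1))⁻¹ / c1 = -c⁻¹ by field_simp, show -(c / c1) / c = -c1⁻¹ by field_simp,
      show -(c / c1) / c1 = -(c / c1 ^ 2) by field_simp]
    simp [B.div_right _ hc (pow_ne_zero 2 h1), B.div_left _ h1 (pow_ne_zero 2 hc), B.sq_right,
      B.sq_left]
  · rw [XK_ne h2, X_ne h2]

theorem det_eq {g : Mat F} (hg : g.det = 1) : g 0 0 * g 1 1 - g 0 1 * g 1 0 = 1 := by
  rw [← hg, Matrix.det_fin_two]

theorem row_ne {a b c1 d1 c d : F} (hdet : a * d1 - b * c1 = 1) (h : ¬ (c = 0 ∧ d = 0)) :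
    ¬ (c * a + d * c1 = 0 ∧ c * b + d * d1 = 0) := fun h' =>
  h ⟨by linear_combination d1 * h'.1 - c1 * h'.2 - c * hdet,
    by linear_combination a * h'.2 - b * h'.1 - d * hdet⟩

theorem rho_apply {g : Mat F} (hg : g.det = 1) (f : F × F → ℂ) {c d : F}
    (h : ¬ (c = 0 ∧ d = 0)) :
    rho g f (c, d) = (arOf F).rho (g 0 0) (g 0 1) (g 1 0) (g 1 1) (cu f) c d := by
  have hdet := det_eq hg
  have h1 := XK_ne_zero h
  have h2 := XK_ne_zero (row_ne hdet h)
  have h3 : XK (g 1 0, g 1 1) ≠ 0 := XK_ne_zero fun h' => by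
    rw [h'.1, h'.2] at hdet; simp at hdet
  rw [B83.Ar.rho, ← kap_eq hdet h, e3_neg, A_c, e3_cB (div_ne_zero h2 h1) (div_ne_zero h2 h3)]
  rfl

omit [NumberField F] [Emb F] [Ar F] in
theorem rmul_zero (g : Mat F) : rmul 0 g = 0 := by simp [rmul]

theorem rho_zero (g : Mat F) {f : F × F → ℂ} (h0 : f 0 = 0) : rho g f 0 = 0 := by
  rw [rho, rmul_zero, h0, zero_mul]

theorem cu_rho {g : Mat F} (hg : g.det = 1) {f : F × F → ℂ} (h0 : f 0 = 0) :
    cu (rho g f) = (arOf F).rho (g 0 0) (g 0 1) (g 1 0) (g 1 1) (cu f) := by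
  funext c d
  by_cases h : c = 0 ∧ d = 0
  · obtain ⟨rfl, rfl⟩ := h
    have h1 : cu f 0 0 = 0 := h0
    simp only [B83.Ar.rho, zero_mul, add_zero, h1]
    exact rho_zero g h0
  · exact rho_apply hg f h

omit [Field F] [NumberField F] [Emb F] [Ar F] in
theorem cu_inj {f g : F × F → ℂ} (h : cu f = cu g) : f = g :=
  funext fun u => congrFun (congrFun h u.1) u.2

theorem cu_opT {t : F} (ht : t ≠ 0) {f : F × F → ℂ} (h0 : f 0 = 0) :
    cu (opT t f) = (arOf F).br t (cu f) := by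
  funext c d
  rcases eq_or_ne c 0 with rfl | hc
  · rw [B83.Ar.br_apply_zero]
    rcases eq_or_ne d 0 with rfl | hd
    · have h1 : f (0, 0) = 0 := h0
      simp [cu, opT, h1]
    · simp only [cu, opT, mul_zero, XK_zero]
      rw [← e3_cB ht (inv_ne_zero hd), ← A_c, Bi.inv_right, ← Bi.swap]
  · rw [B83.Ar.br_apply_ne ht hc, A_c, e3_cB ht hc]
    simp only [cu, opT, XK_ne hc]

theorem cu_opC (m : F) (f : F × F → ℂ) : cu (opC m f) = B83.Ar.sc m 1 (cu f) := by
  funext c d; simp [cu, opC, B83.Ar.sc]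

theorem cu_opS (m : F) (f : F × F → ℂ) : cu (opS m f) = B83.Ar.sc m m (cu f) := rfl

theorem opT_zero (t : F) {f : F × F → ℂ} (h0 : f 0 = 0) : opT t f 0 = 0 := by
  have h1 : f (0, 0) = 0 := h0
  simp [opT, h1]

theorem opC_zero (t : F) {f : F × F → ℂ} (h0 : f 0 = 0) : opC t f 0 = 0 := by
  have h1 : f (0, 0) = 0 := h0
  simp [opC, h1]

theorem cop_iff (c d : F) : Cop c d ↔ (arOf F).Cop c d := Iff.rfl

theorem syR_eq {c d : F} (h : Cop c d) : syR (c, d) = e3 ((arOf F).sy d c) := by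
  rcases eq_or_ne c 0 with rfl | hc
  · rw [B83.Ar.sy_zero, e3_zero]; exact if_pos rfl
  · rw [B83.Ar.sy_mk (A := arOf F) h.2.1 h.1, syR, if_neg hc]
    exact (e3_sB (x := ⟨d, h.2.1⟩) (y := ⟨c, h.1⟩) (fun e => hc (congrArg Subtype.val e))
      ((B83.Ar.cop_mk (A := arOf F) h.1 h.2.1).1 h).symm).symm

theorem xiF_eq (f : F × F → ℂ) (c d : F) : xiF f (c, d) = (arOf F).xi (cu f) c d := by
  by_cases h : Cop c d
  · rw [B83.Ar.xi_of_cop ((cop_iff c d).1 h), ← syR_eq h]; exact if_pos h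
  · rw [B83.Ar.xi_of_not_cop (mt (cop_iff c d).2 h)]; exact if_neg h

theorem xi_congr {f g : F → F → ℂ} (h : ∀ c d, ¬ (c = 0 ∧ d = 0) → f c d = g c d) (c d : F) :
    (arOf F).xi f c d = (arOf F).xi g c d := by
  by_cases h1 : (arOf F).Cop c d
  · rw [B83.Ar.xi_of_cop h1, B83.Ar.xi_of_cop h1, h]
    rintro ⟨rfl, rfl⟩
    exact h1.un.1 rfl
  · rw [B83.Ar.xi_of_not_cop h1, B83.Ar.xi_of_not_cop h1]

theorem mono (f : F × F → ℂ) (j j' : ℕ) (hf : TestFn j f) (h : j ≤ j') : TestFn j' f := by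
  refine ⟨hf.le.trans h, hf.bdd, fun u hu => ?_, fun k hk => hf.inv k fun i i' =>
    deep_mono h (hk i i')⟩
  obtain ⟨i, rfl⟩ := Nat.exists_eq_add_of_le h
  obtain ⟨h1, h2, a, ha, b, hb, e⟩ := hf.supp u hu
  have hN : (Ar.N F : F) ^ i ∈ (Ar.L : Subring F) := pow_mem (natCast_mem _ _) _
  refine ⟨?_, ?_, _, mul_mem hN ha, _, mul_mem hN hb, by rw [pow_add, ← e]; ring⟩
  · rw [pow_add, mul_comm (_ ^ j), mul_assoc]; exact mul_mem hN h1
  · rw [pow_add, mul_comm (_ ^ j), mul_assoc]; exact mul_mem hN h2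

theorem test_zero {f : F × F → ℂ} {j : ℕ} (hf : TestFn j f) : f 0 = 0 := by
  by_contra h
  obtain ⟨-, -, a, -, b, -, e⟩ := hf.supp 0 h
  exact pow_ne_zero j N_ne (by rw [← e]; simp)

theorem isTest_of {f : F × F → ℂ} (hf : Test f) : ∃ j, 1 ≤ j ∧ (arOf F).Test j (cu f) := by
  obtain ⟨j, hj⟩ := hf
  have h1 : 1 ≤ j := Ar.one_le_kc.trans hj.le
  have hf := mono f j (Ar.kc F * j) hj (Nat.le_mul_of_pos_left _ Ar.one_le_kc)
  refine ⟨j + j + j + j, by omega, B83.Ar.test_of_inv h1 (hf.bdd.imp fun C hC c d => hC _) ?_ ?_⟩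
  · intro c d h
    obtain ⟨h1, h2, a, ha, b, hb, e⟩ := hf.supp (c, d) h
    rw [pow_mul] at h1 h2 e
    exact ⟨h1, h2, a, ha, b, hb, by rw [A_N, ← e]; ring⟩
  · intro a b c1 d1 hdet ha hb hc hd
    have h2 := hf.inv (mkSL a b c1 d1 hdet) (by
      intro i i'
      fin_cases i <;> fin_cases i'
      · simpa [mkSL] using deep_iff.2 ha
      · simpa [mkSL] using deep_iff.2 hb
      · simpa [mkSL] using deep_iff.2 hc
      · simpa [mkSL] using deep_iff.2 hd)
    have h3 := cu_rho (mkSL a b c1 d1 hdet).det_coe (test_zero hf)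
    rw [h2] at h3
    exact h3.symm

theorem testFn_of {f : F × F → ℂ} {j : ℕ} (h1 : 1 ≤ j) (hf : (arOf F).Test j (cu f)) :
    TestFn (Ar.kc F * (j + j)) f := by
  refine ⟨Nat.le_mul_of_pos_right _ (by omega), hf.bdd.imp fun C hC u => hC _ _, fun u hu => ?_,
    fun k hk => cu_inj ?_⟩
  · obtain ⟨h1, h2, a, ha, b, hb, e⟩ := (hf.sup (c := u.1) (d := u.2) hu).mono (Nat.le_add_right j j)
    rw [A_N, ← pow_mul] at h1 h2 e
    exact ⟨h1, h2, a, ha, b, hb, by rw [← e]; ring⟩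
  · rw [cu_rho k.det_coe hf.zero_zero]
    refine hf.rho_deep h1 (det_eq k.det_coe) (deep_iff.1 ?_) (deep_iff.1 ?_) (deep_iff.1 ?_)
      (deep_iff.1 ?_)
    · simpa using hk 0 0
    · simpa using hk 0 1
    · simpa using hk 1 0
    · simpa using hk 1 1

theorem test_iff {f : F × F → ℂ} : Test f ↔ (arOf F).IsTest (cu f) :=
  ⟨fun h => let ⟨j, _, hj⟩ := isTest_of h; ⟨j, hj⟩,
    fun ⟨j, hj⟩ => ⟨_, testFn_of (Nat.le_add_left 1 j) (hj.mono (Nat.le_succ j))⟩⟩

theorem test_zero' {f : F × F → ℂ} (hf : Test f) : f 0 = 0 := let ⟨_, hj⟩ := hf; test_zero hj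

/-! ## the fields of `OpStmt` -/

theorem steinberg (x y : F) (hx : x ≠ 0) (hy : y ≠ 0) (h : x + y = 1) : Ar.cc x y = 1 := by
  rw [← e3_cB hx hy, show y = 1 - x by linear_combination h, ← A_c, Bi.stein, e3_zero]

theorem close (f : F × F → ℂ) (j : ℕ) (hf : TestFn j f) : ∃ J, ∀ u u' : F × F,
    Deep J (u'.1 - u.1) → Deep J (u'.2 - u.2) →
      (u.2 ≠ 0 → f u' * Ar.cc u.2 (XK u') = f u * Ar.cc u.2 (XK u)) ∧ (u.2 = 0 → f u' = f u) := by
  obtain ⟨i, -, hi⟩ := isTest_of ⟨j, hf⟩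
  refine ⟨Ar.kc F * (i + 1), ?_⟩
  rintro ⟨c, d⟩ ⟨c', d'⟩ h1 h2
  have h1' := deep_iff.1 h1
  have h2' := deep_iff.1 h2
  have key : f (c', d') = f (c, d) * e3 ((arOf F).B.c d c - (arOf F).B.c d c') :=
    (hi.mono (Nat.le_succ i)).loc c d c' d' h1' h2'
  refine ⟨fun hd => ?_, fun hd => ?_⟩
  · have hd : d ≠ 0 := hd
    by_cases h0 : f (c', d') = 0
    · have h3 : f (c, d) = 0 := by
        rw [h0] at key; exact (mul_eq_zero.1 key.symm).resolve_right (e3_ne_zero _)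
      rw [h0, h3, zero_mul, zero_mul]
    have hu' : ¬ (c' = 0 ∧ d' = 0) := by
      rintro ⟨rfl, rfl⟩; exact h0 (test_zero hf)
    have e1 : (arOf F).B.c d (XK (c, d)) = (arOf F).B.c d c := by
      rcases eq_or_ne c 0 with rfl | hc
      · simp [XK_zero]
      · rw [XK_ne hc]
    have e2 : (arOf F).B.c d (XK (c', d')) = (arOf F).B.c d c' := by
      rcases eq_or_ne c' 0 with rfl | hc
      · obtain ⟨t, y, ht, -, rfl⟩ := (hi.sup (c := 0) (d := d') h0).symm.close (c' := d) le_rfl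
          (by rw [← neg_sub]; exact neg_mem h2')
        simp [XK_zero, ht.c_mul_left le_rfl]
      · rw [XK_ne hc]
    rw [← e3_cB hd (XK_ne_zero hu'), ← e3_cB hd (XK_ne_zero fun h => hd h.2), ← A_c, ← A_c, e1, e2,
      key, mul_e3_e3 _ (sub_add_cancel _ _)]
  · have hd : d = 0 := hd
    subst hd
    simpa using key

theorem master (f : F × F → ℂ) (g : Mat F) (hg : g.det = 1) (hR : InR g) :
    tr (xiF f) g = fun u => syR (g 1 0, g 1 1) * xiF (rho g f) u := by
  have hdet := det_eq hg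
  funext ⟨c, d⟩
  have hc : Cop (g 1 0) (g 1 1) :=
    ⟨hR 1 0, hR 1 1, -g 0 1, neg_mem (hR 0 1), g 0 0, hR 0 0, by linear_combination hdet⟩
  rw [syR_eq hc, xiF_eq, xi_congr (f := cu (rho g f)) fun c d h => rho_apply hg f h,
    ← B83.Ar.xi_rho (A := arOf F) (hR 0 0) (hR 0 1) (hR 1 0) (hR 1 1) hdet, ← xiF_eq]
  rfl

theorem deep_of_latt {j : ℕ} {x : F} (hx : x ∈ latt F (Ar.N F ^ j)) : Deep j x := by
  obtain ⟨y, hy, rfl⟩ := hx
  exact ⟨y, mem_L_of_int hy, by push_cast; rfl⟩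

variable (F) in
/-- The elements acting on `ξ` by a cube root of unity. -/
def Proj (ξ : F × F → ℂ) : Subgroup (SL F) where
  carrier := {g | ∃ k : ZMod 3, tr ξ (g : Mat F) = fun u => e3 k * ξ u}
  one_mem' := ⟨0, by rw [Matrix.SpecialLinearGroup.coe_one, tr_one]; simp⟩
  mul_mem' := by
    rintro g h ⟨k, hk⟩ ⟨l, hl⟩
    refine ⟨l + k, ?_⟩
    rw [Matrix.SpecialLinearGroup.coe_mul, tr_mul, hl]
    funext u
    have := congrFun hk u
    simp only [tr] at this ⊢
    rw [this, e3_add, mul_assoc]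
  inv_mem' := by
    rintro g ⟨k, hk⟩
    refine ⟨-k, ?_⟩
    funext u
    have h1 := congrFun hk (rmul u ((g⁻¹ : SL F) : Mat F))
    simp only [tr] at h1 ⊢
    rw [← rmul_mul, ← Matrix.SpecialLinearGroup.coe_mul, inv_mul_cancel,
      Matrix.SpecialLinearGroup.coe_one, rmul_one] at h1
    rw [h1, ← mul_assoc, e3_neg_mul, one_mul]

omit [NumberField F] [Emb F] [Ar F] in
theorem stab_proj (ξ : F × F → ℂ) : (Stab ξ).relIndex (Proj F ξ) ≠ 0 := by
  have hk : ∀ g : Proj F ξ, ∃ k : ZMod 3, tr ξ ((g : SL F) : Mat F) = fun u => e3 k * ξ u :=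
    fun g => g.2
  choose k hk using hk
  have : Finite (Proj F ξ ⧸ (Stab ξ).subgroupOf (Proj F ξ)) := by
    refine Finite.of_injective (fun q => k q.out) fun q q' h => ?_
    rw [← q.out_eq, ← q'.out_eq]
    refine QuotientGroup.eq.2 ?_
    show tr ξ (((q.out : SL F)⁻¹ * (q'.out : SL F) : SL F) : Mat F) = ξ
    have h' : k q.out = k q'.out := h
    rw [Matrix.SpecialLinearGroup.coe_mul, tr_mul, hk, ← h', ← hk, ← tr_mul,
      ← Matrix.SpecialLinearGroup.coe_mul, inv_mul_cancel, Matrix.SpecialLinearGroup.coe_one, tr_one]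
  exact Subgroup.index_ne_zero_of_finite

theorem adm (hR : RowStmt F) (f : F × F → ℂ) (hf : Test f) : Adm (xiF f) := by
  obtain ⟨j, hj⟩ := hf
  refine ⟨hj.bdd.imp fun C hC u => ?_, ⟨Ar.N F ^ j, pow_ne_zero _ ?_, ?_⟩, ?_⟩
  · rw [xiF_eq]; exact (B83.Ar.norm_xi_le _ _ _).trans (hC u)
  · have := Ar.two_le (F := F); omega
  · rintro ⟨c, d⟩ hu
    rw [xiF_eq] at hu
    obtain ⟨⟨hc, hd, p', hp', q', hq', e'⟩, h0⟩ := B83.Ar.xi_ne_zero hu
    obtain ⟨h1, h2, p, hp, q, hq, e⟩ := hj.supp (c, d) h0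
    have hN : (Ar.N F : F) ^ j ∈ (Ar.R : Subring F) := pow_mem (natCast_mem _ _) _
    push_cast
    refine ⟨Ar.int_of _ (mul_mem hN hc) h1, Ar.int_of _ (mul_mem hN hd) h2, ?_⟩
    simp only at e h1 h2 ⊢
    have hM := pow_ne_zero j (N_ne (F := F))
    generalize (Ar.N F : F) ^ j = M at *
    obtain ⟨r, hr, l, hl, el⟩ := Ar.approx (q' * (M * p' - p) - p' * (M * q' - q)) M hM
    refine ⟨p + l * (M * d), q - l * (M * c), Ar.int_of _ ?_ (add_mem hp (mul_mem hl h2)),
      Ar.int_of _ ?_ (sub_mem hq (mul_mem hl h1)), by linear_combination e⟩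
    · rw [show p + l * (M * d) = M * p' - r * d by
        linear_combination (-d) * el + (M * p' - p) * e' - p' * (M * e' - e)]
      exact sub_mem (mul_mem hN hp') (mul_mem hr hd)
    · rw [show q - l * (M * c) = M * q' + r * c by
        linear_combination c * el + (M * q' - q) * e' - q' * (M * e' - e)]
      exact add_mem (mul_mem hN hq') (mul_mem hr hc)
  · refine Subgroup.relIndex_ne_zero_trans (stab_proj _) ?_
    refine hR.cong (Ar.N F ^ j) _ (pow_ne_zero _ (by have := Ar.two_le (F := F); omega)) ?_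
    intro g hg hg1
    have hRg : InR (g : Mat F) := fun i i' => mem_R_of_int (hg i i')
    have hc : Cop (g 1 0) (g 1 1) := ⟨hRg 1 0, hRg 1 1, -g 0 1, neg_mem (hRg 0 1), g 0 0, hRg 0 0,
      by linear_combination det_eq g.det_coe⟩
    refine ⟨(arOf F).sy (g 1 1) (g 1 0), ?_⟩
    rw [master f g g.det_coe hRg, hj.inv g fun i i' => deep_of_latt (hg1 i i'), syR_eq hc]

omit [NumberField F] [Emb F] [Ar F] in
theorem nT_coe (p : F) : ((nT p : SL F) : Mat F) = !![1, p; 0, 1] := rfl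

theorem cu_rho_nT (p : F) {f : F × F → ℂ} (h0 : f 0 = 0) :
    cu (rho (nT p : SL F) f) = B83.Ar.opN p (cu f) := by
  rw [cu_rho (nT p).det_coe h0, ← B83.Ar.rho_n (A := arOf F)]
  rfl

theorem rho_nT_mul (f : F × F → ℂ) (g : Mat F) (p : F) (hg : g.det = 1) (h0 : f 0 = 0) :
    rho (((nT p : SL F) : Mat F) * g) f = rho (nT p : SL F) (rho g f) := by
  apply cu_inj
  rw [cu_rho_nT p (rho_zero g h0), cu_rho hg h0,
    cu_rho (by rw [Matrix.det_mul, hg, (nT p).det_coe, one_mul]) h0, ← B83.Ar.rho_N_left]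
  simp [nT_coe, Matrix.mul_apply, Fin.sum_univ_two]

theorem rho_mul_nT (f : F × F → ℂ) (g : Mat F) (p : F) (hg : g.det = 1) (h0 : f 0 = 0) :
    rho (g * ((nT p : SL F) : Mat F)) f = rho g (rho (nT p : SL F) f) := by
  apply cu_inj
  rw [cu_rho hg (rho_zero _ h0), cu_rho_nT p h0,
    cu_rho (by rw [Matrix.det_mul, hg, (nT p).det_coe, one_mul]) h0, ← B83.Ar.rho_N_right]
  simp [nT_coe, Matrix.mul_apply, Fin.sum_univ_two, add_comm]

theorem XK_smul {m : F} (hm : m ≠ 0) (c d : F) :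
    ∃ n : F, n ≠ 0 ∧ XK (m ^ 3 * c, m ^ 3 * d) = n ^ 3 * XK (c, d) := by
  rcases eq_or_ne c 0 with rfl | hc
  · exact ⟨m⁻¹, inv_ne_zero hm, by rw [mul_zero, XK_zero, XK_zero, mul_inv, inv_pow]⟩
  · exact ⟨m, hm, by rw [XK_ne hc, XK_ne (mul_ne_zero (pow_ne_zero _ hm) hc)]⟩

theorem rho_opS (f : F × F → ℂ) (g : Mat F) (m : F) (hg : g.det = 1) (hm : m ≠ 0) :
    rho g (opS m f) = opS m (rho g f) := by
  funext ⟨c, d⟩
  by_cases h : c = 0 ∧ d = 0
  · obtain ⟨rfl, rfl⟩ := h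
    simp [rho, opS, rmul]
  have hdet := det_eq hg
  have h1 := XK_ne_zero h
  have h2 := XK_ne_zero (row_ne hdet h)
  have h3 : XK (g 1 0, g 1 1) ≠ 0 := XK_ne_zero fun h' => by
    rw [h'.1, h'.2] at hdet; simp at hdet
  have e : rmul (m ^ 3 * c, m ^ 3 * d) g =
      (m ^ 3 * (c * g 0 0 + d * g 1 0), m ^ 3 * (c * g 0 1 + d * g 1 1)) := by
    simp only [rmul]; congr 1 <;> ring
  obtain ⟨n, hn, en⟩ := XK_smul hm c d
  obtain ⟨n', hn', en'⟩ := XK_smul hm (c * g 0 0 + d * g 1 0) (c * g 0 1 + d * g 1 1)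
  simp only [rho, opS]
  rw [e, en, en']
  simp only [rmul]
  generalize XK (c * g 0 0 + d * g 1 0, c * g 0 1 + d * g 1 1) = x' at h2 ⊢
  generalize XK (c, d) = x at h1 ⊢
  generalize XK (g 1 0, g 1 1) = x1 at h3 ⊢
  rw [show n' ^ 3 * x' / (n ^ 3 * x) = (n' / n) ^ 3 * (x' / x) by field_simp, mul_div_assoc,
    ← e3_cB (div_ne_zero h2 h1) (div_ne_zero h2 h3),
    ← e3_cB (mul_ne_zero (pow_ne_zero _ (div_ne_zero hn' hn)) (div_ne_zero h2 h1))
      (mul_ne_zero (pow_ne_zero _ hn') (div_ne_zero h2 h3)), ← A_c, ← A_c,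
    Bi.cube_mul_left _ _ _ (div_ne_zero hn' hn), Bi.cube_mul_right _ _ _ hn']

theorem opT_opT (f : F × F → ℂ) (t t' : F) (ht : t ≠ 0) (ht' : t' ≠ 0) (h0 : f 0 = 0) :
    opT t' (opT t f) = fun u => conj (Ar.cc t t') * opT (t * t') f u := by
  apply cu_inj
  rw [cu_opT ht' (opT_zero t h0), cu_opT ht h0, B83.Ar.br_br ht ht' h0,
    ← cu_opT (mul_ne_zero ht ht') h0, e3_neg, A_c, e3_cB ht ht']
  rfl

theorem opT_cube (f : F × F → ℂ) (t m : F) (ht : t ≠ 0) (hm : m ≠ 0) (h0 : f 0 = 0) :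
    opT (m ^ 3 * t) f = opS m (opT t (opC m f)) := by
  apply cu_inj
  rw [cu_opT (mul_ne_zero (pow_ne_zero _ hm) ht) h0, B83.Ar.br_cube_mul hm ht, cu_opS,
    cu_opT ht (opC_zero m h0), cu_opC]

theorem opT_P (f : F × F → ℂ) (hf : Test f) :
    ∃ J, ∀ t k : F, t ≠ 0 → PJ J k → opT (t * k) f = opT t f := by
  obtain ⟨j, hj, h⟩ := isTest_of hf
  refine ⟨Ar.kc F * (j + j), fun t k ht hk => cu_inj ?_⟩
  have hk' : (arOf F).P (j + j) k := deep_iff.1 hk
  have hk0 := hk'.ne_zero (by omega)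
  have h1 := B83.Ar.br_br (A := arOf F) hk0 ht h.zero_zero
  rw [h.br_deep hj hk', hk'.c_left (by omega)] at h1
  rw [cu_opT (mul_ne_zero ht hk0) (test_zero' hf), cu_opT ht (test_zero' hf), h1, mul_comm t]
  simp

omit [NumberField F] [Emb F] [Ar F] in
theorem det_gam (α : F) {β : F} (hβ : β ≠ 0) : (gam α β).det = 1 := by
  rw [gam, Matrix.det_fin_two_of]; field_simp; ring

theorem opW_P (f : F × F → ℂ) (hf : Test f) :
    ∃ J, ∀ D k : F, D ≠ 0 → PJ J k → opW (D * k) f = opW D f := by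
  obtain ⟨j, hj, h⟩ := isTest_of hf
  refine ⟨Ar.kc F * (j + j), fun D k hD hk => cu_inj ?_⟩
  have hk' : (arOf F).P (j + j) k := deep_iff.1 hk
  have hk0 := hk'.ne_zero (by omega)
  rw [opW, opW, cu_rho (det_gam 0 hD) (test_zero' hf),
    cu_rho (det_gam 0 (mul_ne_zero hD hk0)) (test_zero' hf)]
  exact h.rho_w_deep hj hD hk'

theorem xi_opT_unit (f : F × F → ℂ) (u : F) (hu : UR u) :
    xiF (opT u f) = tr (xiF f) !![u ^ 2, 0; 0, u] := by
  classical
  funext ⟨c, d⟩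
  have e : rmul (c, d) !![u ^ 2, 0; 0, u] = (u ^ 2 * c, u * d) := by
    simp [rmul, mul_comm]
  have h0 : Function.update f 0 0 0 = 0 := Function.update_self _ _ _
  have h1 : ∀ c d : F, ¬ (c = 0 ∧ d = 0) → cu f c d = cu (Function.update f 0 0) c d :=
    fun c d h => (Function.update_of_ne (fun e => h (Prod.mk.inj e)) _ _).symm
  rw [tr, e, xiF_eq, xiF_eq, xi_congr h1, ← B83.Ar.Un.xi_br (A := arOf F) hu, ← cu_opT hu.1 h0]
  refine xi_congr (fun c d h => ?_) c d
  have h2 : ¬ (u ^ 2 * c = 0 ∧ u * d = 0) := fun h' =>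
    h ⟨(mul_eq_zero.1 h'.1).resolve_left (pow_ne_zero _ hu.1),
      (mul_eq_zero.1 h'.2).resolve_left hu.1⟩
  have h3 := h1 _ _ h2
  simp only [cu, opT] at h3 ⊢
  rw [h3]

theorem hermite (g : Mat F) (hg : g.det ≠ 0) : ∃ (ρ b e : F) (σ : Mat F), ρ ≠ 0 ∧ e ≠ 0 ∧
    σ.det = 1 ∧ InR σ ∧ g = !![ρ, b; 0, e] * σ := by
  rw [Matrix.det_fin_two] at hg
  obtain ⟨e, γ, δ, he, hc, e1, e2⟩ := (arOf F).exists_cop (x := g 1 0) (y := g 1 1) fun h => hg (by
    rw [h.1, h.2]; ring)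
  obtain ⟨hγ, hδ, p, hp, q, hq, e3⟩ := hc
  refine ⟨g 0 0 * δ - g 0 1 * γ, g 0 0 * p + g 0 1 * q, e, !![q, -p; γ, δ], fun h => hg ?_, he,
    ?_, ?_, ?_⟩
  · rw [e1, e2]; linear_combination e * h
  · rw [Matrix.det_fin_two_of]; linear_combination e3
  · intro i j
    fin_cases i <;> fin_cases j
    · exact hq
    · exact neg_mem hp
    · exact hγ
    · exact hδ
  · ext i j
    fin_cases i <;> fin_cases j <;> simp [Matrix.mul_apply, Fin.sum_univ_two]
    · linear_combination (-g 0 0) * e3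
    · linear_combination (-g 0 1) * e3
    · exact e1
    · exact e2

end Op83

open Op83 in
/-- **Leaf B1.** -/
theorem opStmt_83 (F : Type) [Field F] [NumberField F] [Emb F] [Ar F] (hR : RowStmt F) :
    OpStmt F where
  steinberg := steinberg
  mono := mono
  add f g hf hg := test_iff.2 ((test_iff.1 hf).add (test_iff.1 hg))
  smul a f hf := test_iff.2 ((test_iff.1 hf).smul a)
  zero := test_iff.2 ⟨0, (arOf F).test_zero 0⟩
  test_rho f g hg hf := test_iff.2 (by
    rw [cu_rho hg (test_zero' hf)]; exact (test_iff.1 hf).rho (det_eq hg))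
  test_opC f m hm hf := test_iff.2 (by rw [cu_opC]; exact (test_iff.1 hf).sc hm one_ne_zero)
  test_opS f m hm hf := test_iff.2 (by rw [cu_opS]; exact (test_iff.1 hf).sc hm hm)
  test_opT f t ht hf := test_iff.2 (by rw [cu_opT ht (test_zero' hf)]; exact (test_iff.1 hf).br ht)
  close := close
  master := master
  adm := adm hR
  rho_nT f p h0 := cu_inj (cu_rho_nT p h0)
  rho_nT_mul := rho_nT_mul
  rho_mul_nT := rho_mul_nT
  rho_opS := rho_opS
  opT_opT := opT_opT
  opT_cube := opT_cube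
  opT_P := opT_P
  opW_P := opW_P
  xi_opT_unit := xi_opT_unit
  hermite := hermite

end Crest.Agent.T27.TH
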