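import Crest.Agent.PVc.R17.Contour
import Crest.Agent.PVc.R17.LZeroAuxA
import Crest.Agent.T27.IfaceZ_52
import Crest.Agent.T27.EulZ_52
import Crest.Agent.T27.Split_52

-- ▼ part T27/Expl_52
section

/-!
# Row 27, module Z: Borel–Carathéodory and one contour shift

If `g(s) = (s - 1) exp (∑ b(n) n^{-s})` continues to a zero-free function on `Re s > 1 - δ` with
`|g(s)| ≤ exp (E (1 + |t|))`, then `log N ∑_{N < n ≤ 2N} b(n) ≤ C (N + E N^{1 - δ/2})`.
-/

set_option autoImplicit false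

noncomputable section

namespace Crest.Agent.T27

open Complex MeasureTheory Filter Topology Crest.Agent.R17 Finset

namespace Expl52

/-- Mellin representation of a smooth sum, with summability. -/
theorem hasSum_Wc {a : ℕ → ℂ} (ha0 : a 0 = 0) {X σ : ℝ} (hX : 0 < X)
    (hs : LSeriesSummable a σ) :
    HasSum (fun n : ℕ => a n * Wc (n / X) 0) ((1 / (2 * Real.pi) : ℂ) * ∫ u : ℝ,
      Wm (σ + u * I + 0) * (X : ℂ) ^ ((σ : ℂ) + u * I) * LSeries a (σ + u * I)) := by
  have hX' : (X : ℂ) ≠ 0 := ofReal_ne_zero.2 hX.ne'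
  have hW : Integrable fun u : ℝ => ‖Wm (σ + u * I + 0)‖ := by
    simpa using integrable_Wm_mul_pow σ 0
  have hn : ∀ (n : ℕ) (u : ℝ), ‖Wm (σ + u * I + 0) * (X : ℂ) ^ ((σ : ℂ) + u * I) *
      (a n * (n : ℂ) ^ (-((σ : ℂ) + u * I)))‖ =
      X ^ σ * ‖LSeries.term a σ n‖ * ‖Wm (σ + u * I + 0)‖ := by
    intro n u
    rcases Nat.eq_zero_or_pos n with rfl | h0
    · simp [ha0]
    · rw [LSeries.term_def₀ ha0, norm_mul, norm_mul, norm_mul, norm_mul,
        norm_cpow_eq_rpow_re_of_pos hX, norm_natCast_cpow_of_pos h0, norm_natCast_cpow_of_pos h0]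
      simp only [add_re, neg_re, ofReal_re, mul_re, I_re, ofReal_im, I_im, mul_zero, zero_mul,
        sub_self, add_zero]
      ring
  have hi : ∀ n : ℕ, Integrable fun u : ℝ => Wm (σ + u * I + 0) *
      (X : ℂ) ^ ((σ : ℂ) + u * I) * (a n * (n : ℂ) ^ (-((σ : ℂ) + u * I))) := by
    intro n
    rcases Nat.eq_zero_or_pos n with rfl | h0
    · simp [ha0]
    refine (hW.const_mul _).mono' (Continuous.aestronglyMeasurable ?_)
      (Eventually.of_forall fun u => (hn n u).le)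
    refine ((differentiable_Wm.continuous.comp (by fun_prop)).mul
      (Continuous.const_cpow (by fun_prop) (Or.inl hX'))).mul (continuous_const.mul
      (Continuous.const_cpow (by fun_prop) (Or.inl ?_)))
    exact_mod_cast h0.ne'
  have h1 := (hasSum_integral_of_summable_integral_norm hi (by
    simp only [hn, integral_const_mul]
    exact (hs.norm.mul_left _).mul_right _)).mul_left (1 / (2 * Real.pi) : ℂ)
  have e1 : ∀ n : ℕ, (1 / (2 * Real.pi) : ℂ) * ∫ u : ℝ, Wm (σ + u * I + 0) *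
      (X : ℂ) ^ ((σ : ℂ) + u * I) * (a n * (n : ℂ) ^ (-((σ : ℂ) + u * I))) =
      a n * Wc (n / X) 0 := by
    intro n
    rcases Nat.eq_zero_or_pos n with rfl | h0
    · simp [ha0]
    have h0' : (0 : ℝ) < n := by exact_mod_cast h0
    rw [Wc_eq_integral (div_pos h0' hX) σ 0, mul_left_comm (a n), ← integral_const_mul (a n)]
    congr 2
    funext u
    rw [ofReal_div, div_cpow_ofReal_nonneg h0'.le hX.le, cpow_neg (X : ℂ), div_inv_eq_mul,
      ofReal_natCast]
    ring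
  simp only [e1] at h1
  have e2 : ∀ u : ℝ, ∑' n : ℕ, Wm (σ + u * I + 0) * (X : ℂ) ^ ((σ : ℂ) + u * I) *
      (a n * (n : ℂ) ^ (-((σ : ℂ) + u * I))) =
      Wm (σ + u * I + 0) * (X : ℂ) ^ ((σ : ℂ) + u * I) * LSeries a (σ + u * I) := fun u => by
    rw [tsum_mul_left]
    unfold LSeries
    simp only [LSeries.term_def₀ ha0]
  simp only [e2] at h1
  exact h1

theorem norm_log_le (t : ℝ) : ‖log ((2 : ℂ) + t * I - 1)‖ ≤ |t| + 4 := by
  set z : ℂ := (2 : ℂ) + t * I - 1 with hz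
  have h1 : z.re = 1 := by simp [hz]; norm_num
  have h2 : z.im = t := by simp [hz]
  have h3 : 1 ≤ ‖z‖ := by
    have := re_le_norm z
    linarith
  have h4 : ‖z‖ ≤ 1 + |t| := by
    have := norm_le_abs_re_add_abs_im z
    rw [h1, h2, abs_one] at this
    exact this
  have h5 := norm_le_abs_re_add_abs_im (log z)
  rw [log_re, log_im, abs_of_nonneg (Real.log_nonneg h3)] at h5
  have h6 := Real.log_le_sub_one_of_pos (show 0 < ‖z‖ by linarith)
  have h7 := abs_arg_le_pi z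
  linarith [Real.pi_lt_four]

theorem norm_LSeries_two {f : ℕ → ℂ} {E : ℝ} (hE : 0 ≤ E) (hf : ∀ n, ‖f n‖ ≤ E) {s : ℂ}
    (hs : s.re = 2) : ‖LSeries f s‖ ≤ 2 * E := by
  have h1 : HasSum (fun n : ℕ => E * (1 / (n : ℝ) ^ 2)) (E * (Real.pi ^ 2 / 6)) :=
    hasSum_zeta_two.mul_left E
  refine (tsum_of_norm_bounded h1 fun n => ?_).trans ?_
  · rw [LSeries.norm_term_eq, hs]
    split_ifs
    · positivity
    · rw [Real.rpow_two, mul_one_div]
      gcongr
      exact hf n
  · have : Real.pi ^ 2 / 6 ≤ 2 := by nlinarith [Real.pi_lt_d2, Real.pi_pos]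
    nlinarith

/-- the logarithmic derivative -/
theorem deriv_bound {δ E : ℝ} (hδ : 0 < δ) (hδ1 : δ ≤ 1 / 4) (hE : 1 ≤ E) {l : ℂ → ℂ}
    (hl : DifferentiableOn ℂ l {s | 1 - δ < s.re})
    (hre : ∀ s : ℂ, 1 - δ < s.re → s.re ≤ 4 → (l s).re ≤ E * (1 + |s.im|))
    (h2 : ∀ t : ℝ, ‖l (2 + t * I)‖ ≤ 6 * (E * (1 + |t|))) {s : ℂ} (hs : 1 - δ / 2 ≤ s.re)
    (hs2 : s.re ≤ 2) : ‖deriv l s‖ ≤ 576 / δ ^ 2 * (E * (1 + |s.im|)) := by
  set t := s.im with ht
  set A := E * (1 + |t|) with hA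
  have hA0 : 0 < A := by positivity
  set s₀ : ℂ := 2 + t * I with hs₀
  have hball : ∀ z ∈ Metric.ball (0 : ℂ) (1 + δ), |z.re| < 1 + δ ∧ |z.im| < 1 + δ := fun z hz =>
    ⟨(abs_re_le_norm z).trans_lt (mem_ball_zero_iff.1 hz),
      (abs_im_le_norm z).trans_lt (mem_ball_zero_iff.1 hz)⟩
  have hre0 : ∀ z : ℂ, (s₀ + z).re = 2 + z.re := fun z => by simp [hs₀]
  have him0 : ∀ z : ℂ, (s₀ + z).im = t + z.im := fun z => by simp [hs₀]
  have hf : DifferentiableOn ℂ (fun z => l (s₀ + z)) (Metric.ball 0 (1 + δ)) := by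
    refine hl.comp (differentiableOn_id.const_add _) fun z hz => ?_
    have := abs_lt.1 (hball z hz).1
    show 1 - δ < (s₀ + z).re
    rw [hre0]; linarith
  have hM : Set.MapsTo (fun z => l (s₀ + z)) (Metric.ball 0 (1 + δ)) {z | z.re ≤ 3 * A} := by
    intro z hz
    have h1 := abs_lt.1 (hball z hz).1
    have h3 := (hball z hz).2
    refine (hre _ (by rw [hre0]; linarith) (by rw [hre0]; linarith)).trans ?_
    rw [him0, hA]
    have h4 : |t + z.im| ≤ |t| + 2 := (abs_add_le _ _).trans (by linarith)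
    nlinarith [abs_nonneg t]
  have hbc : ∀ z : ℂ, ‖z‖ ≤ 1 + 3 * δ / 4 → ‖l (s₀ + z)‖ ≤ 144 / δ * A := by
    intro z hz
    have h1 := borelCaratheodory (M := 3 * A) (by positivity) hf hM (by positivity)
      (z := z) (mem_ball_zero_iff.2 (by linarith))
    simp only [add_zero] at h1
    refine h1.trans ?_
    have h3 : δ / 4 ≤ 1 + δ - ‖z‖ := by linarith
    have h4 : 0 < δ / 4 := by positivity
    have h5 := h2 t
    rw [← add_div]
    calc (2 * (3 * A) * ‖z‖ + ‖l s₀‖ * (1 + δ + ‖z‖)) / (1 + δ - ‖z‖)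
        ≤ (2 * (3 * A) * 2 + 6 * A * 4) / (δ / 4) := by
          gcongr
          · linarith
          · linarith
      _ = _ := by field_simp; ring
  have hd : DiffContOnCl ℂ l (Metric.ball s (δ / 4)) := by
    refine DifferentiableOn.diffContOnCl (hl.mono fun w hw => ?_)
    rw [closure_ball _ (by positivity), mem_closedBall_iff_norm] at hw
    have := abs_le.1 ((abs_re_le_norm (w - s)).trans hw)
    rw [sub_re] at this
    show 1 - δ < w.re
    linarith
  refine (norm_deriv_le_of_forall_mem_sphere_norm_le (C := 144 / δ * A) (by positivity) hd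
    fun w hw => ?_).trans_eq (by field_simp; ring)
  rw [mem_sphere_iff_norm] at hw
  have h1 : ‖s - s₀‖ ≤ 1 + δ / 2 := by
    have e : s - s₀ = ((s.re - 2 : ℝ) : ℂ) := by
      apply Complex.ext <;> simp [hs₀, ht]
    rw [e, norm_real, Real.norm_eq_abs, abs_le]
    constructor <;> linarith
  have h3 := hbc (w - s₀) (by
    calc ‖w - s₀‖ = ‖(w - s) + (s - s₀)‖ := by ring_nf
      _ ≤ ‖w - s‖ + ‖s - s₀‖ := norm_add_le _ _
      _ ≤ _ := by linarith)
  rwa [add_sub_cancel] at h3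

theorem Wc_zero (y : ℝ) : Wc y 0 = (Real.exp (-(Real.log y) ^ 2) : ℝ) := by
  simp [Wc]

theorem Wc_ge {N n : ℕ} (hN : 2 ≤ N) (hn : n ∈ Ioc N (2 * N)) :
    1 / 2 ≤ Real.exp (-(Real.log (n / N : ℝ)) ^ 2) := by
  obtain ⟨h1, h2⟩ := mem_Ioc.1 hn
  have hN0 : (0 : ℝ) < N := by exact_mod_cast (by omega : 0 < N)
  have h3 : (1 : ℝ) ≤ n / N := by
    rw [one_le_div hN0]; exact_mod_cast h1.le
  have h4 : (n : ℝ) / N ≤ 2 := by
    rw [div_le_iff₀ hN0]; exact_mod_cast h2
  have h5 := Real.log_nonneg h3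
  have h6 : Real.log (n / N : ℝ) ≤ Real.log 2 := Real.log_le_log (by linarith) h4
  have h7 := Real.log_two_lt_d9
  have h8 := Real.add_one_le_exp (-(Real.log (n / N : ℝ)) ^ 2)
  nlinarith

end Expl52

open Expl52

/-- **Explicit bound.** -/
theorem explicit_52 {δ : ℝ} (hδ : 0 < δ) (hδ1 : δ ≤ 1 / 4) : ∃ C : ℝ, 0 < C ∧
    ∀ (b : ℕ → ℝ) (E : ℝ) (g : ℂ → ℂ), 1 ≤ E → (∀ n, 0 ≤ b n) → (∀ n, b n ≤ E) →
      DifferentiableOn ℂ g {s | 1 - δ < s.re} → (∀ s : ℂ, 1 - δ < s.re → g s ≠ 0) →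
      (∀ s : ℂ, 1 < s.re → g s = (s - 1) * exp (LSeries (fun n => (b n : ℂ)) s)) →
      (∀ s : ℂ, 1 - δ < s.re → s.re ≤ 4 → ‖g s‖ ≤ Real.exp (E * (1 + |s.im|))) →
      ∀ N : ℕ, 2 ≤ N →
        (∑ n ∈ Ioc N (2 * N), b n) * Real.log N ≤ C * (N + E * (N : ℝ) ^ (1 - δ / 2)) := by
  obtain ⟨A, hA, hAb⟩ := norm_integral_Wm_le 2 2
  set K : ℝ := 1 + 576 / δ ^ 2 with hK
  have hK0 : 0 < K := by positivity
  refine ⟨2 * (A * (2 / δ * K) + ‖Wm (1 + 0)‖), by positivity,
    fun b E g hE hb0 hbE hg hg0 hgL hgb N hN => ?_⟩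
  set f : ℕ → ℂ := fun n => (b n : ℂ) with hf
  have hfn : ∀ n, ‖f n‖ ≤ E := fun n => by
    rw [hf, norm_real, Real.norm_of_nonneg (hb0 n)]; exact hbE n
  have habs : ∀ s : ℂ, 1 < s.re → LSeries.abscissaOfAbsConv f < s.re := fun s hs =>
    (LSeries.abscissaOfAbsConv_le_of_le_const ⟨E, fun n _ => hfn n⟩).trans_lt (by exact_mod_cast hs)
  have hU : IsOpen {s : ℂ | 1 - δ < s.re} := isOpen_lt continuous_const continuous_re
  have hV : IsOpen {s : ℂ | 1 < s.re} := isOpen_lt continuous_const continuous_re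
  have hslit : ∀ s : ℂ, 1 < s.re → s - 1 ∈ slitPlane := fun s hs => by
    left; simp only [sub_re, one_re]; linarith
  have hE0 : ∀ s : ℂ, 1 < s.re → HasDerivAt (fun s => log (s - 1) + LSeries f s)
      (1 / (s - 1) + -LSeries (LSeries.logMul f) s) s := fun s hs =>
    (((hasDerivAt_id s).sub_const 1).clog (hslit s hs)).add (LSeries_hasDerivAt (habs s hs))
  obtain ⟨l, hl, hle, hlE⟩ := LZA.exists_log (U := {s | 1 - δ < s.re}) (V := {s | 1 < s.re})
    (E := fun s => log (s - 1) + LSeries f s) hU (convex_halfSpace_re_gt _)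
    (fun s (hs : 1 < s.re) => show 1 - δ < s.re by linarith)
    (convex_halfSpace_re_gt _).isPreconnected hg hg0
    (fun s hs => (hE0 s hs).continuousAt.continuousWithinAt)
    (fun s hs => by rw [exp_add, exp_log (slitPlane_ne_zero (hslit s hs)), hgL s hs])
  have hder : ∀ s : ℂ, 1 - δ / 2 ≤ s.re → s.re ≤ 2 →
      ‖deriv l s‖ ≤ 576 / δ ^ 2 * (E * (1 + |s.im|)) := fun s h1 h2 => by
    refine deriv_bound hδ hδ1 hE hl (fun s h1 h2 => ?_) (fun t => ?_) h1 h2
    · have := hgb s h1 h2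
      rwa [← hle s h1, norm_exp, Real.exp_le_exp] at this
    · rw [hlE _ (show 1 < ((2 : ℂ) + t * I).re by simp)]
      refine (norm_add_le _ _).trans ?_
      have h3 := norm_log_le t
      have h4 := norm_LSeries_two (by linarith) hfn (s := 2 + t * I) (by simp)
      nlinarith [abs_nonneg t]
  set G : ℂ → ℂ := fun s => 1 - (s - 1) * deriv l s with hG
  have hGd : DifferentiableOn ℂ G (strip (1 - δ / 2) 2) := by
    refine (((differentiableOn_id.sub_const 1).mul (hl.deriv hU)).const_sub 1).mono fun s hs => ?_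
    have := hs.1
    show 1 - δ < s.re
    linarith
  have hGb : ∀ s ∈ strip (1 - δ / 2) 2, ‖G s‖ ≤ K * E * (1 + |s.im|) ^ 2 := fun s hs => by
    have h1 := hder s hs.1 hs.2
    have h2 : ‖s - 1‖ ≤ 1 + |s.im| := by
      refine (norm_le_abs_re_add_abs_im _).trans ?_
      have h3 : |(s - 1).re| ≤ 1 := by
        rw [sub_re, one_re, abs_le]
        constructor <;> linarith [hs.1, hs.2]
      rw [sub_im, one_im, sub_zero]
      linarith
    have h3 : 1 ≤ E * (1 + |s.im|) ^ 2 := by nlinarith [abs_nonneg s.im, sq_nonneg |s.im|]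
    calc ‖G s‖ ≤ ‖(1 : ℂ)‖ + ‖(s - 1) * deriv l s‖ := norm_sub_le _ _
      _ ≤ E * (1 + |s.im|) ^ 2 + (1 + |s.im|) * (576 / δ ^ 2 * (E * (1 + |s.im|))) := by
          rw [norm_one, norm_mul]
          gcongr
      _ = _ := by rw [hK]; ring
  have hN0 : (0 : ℝ) < N := by exact_mod_cast (by omega : 0 < N)
  have hshift := Wm_shift_pole (G := G) (σ₀ := 1 - δ / 2) (σ₁ := 2) (C := K * E) (T := 0) (J := 2)
    (ρ := 1) (by simp; linarith) (by simp) hN0 0 hGd fun w hw _ => hGb w hw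
  have hsum := hasSum_Wc (a := LSeries.logMul f) (by simp) (σ := 2) hN0
    (LSeriesSummable_logMul_of_lt_re (habs _ (by simp)))
  have e1 : ∀ u : ℝ, Wm ((2 : ℝ) + u * I + 0) * ((N : ℝ) : ℂ) ^ (((2 : ℝ) : ℂ) + u * I) *
      LSeries (LSeries.logMul f) ((2 : ℝ) + u * I) =
      Wm ((2 : ℝ) + u * I + 0) * ((N : ℝ) : ℂ) ^ (((2 : ℝ) : ℂ) + u * I) * G ((2 : ℝ) + u * I) /
        ((2 : ℝ) + u * I - 1) := fun u => by
    have h1 : 1 < (((2 : ℝ) : ℂ) + u * I).re := by simp
    have h2 : deriv l ((2 : ℝ) + u * I) = _ :=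
      ((hE0 _ h1).congr_of_eventuallyEq (by
        filter_upwards [hV.mem_nhds h1] with w hw using hlE w hw)).deriv
    have h3 := slitPlane_ne_zero (hslit _ h1)
    simp only [hG, h2]
    field_simp
    ring
  simp only [e1] at hsum
  rw [hshift] at hsum
  have hint := hAb (fun u => G ((1 - δ / 2 : ℝ) + u * I) / ((1 - δ / 2 : ℝ) + u * I - 1))
    (1 - δ / 2) (2 / δ * K * E) N 0 hN0 (by
      rw [zero_re, add_zero, abs_le]; constructor <;> linarith) fun u => by
      have h1 := hGb ((1 - δ / 2 : ℝ) + u * I) (Contour.line_mem le_rfl (by linarith) u)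
      have h2 : δ / 2 ≤ ‖((1 - δ / 2 : ℝ) : ℂ) + u * I - 1‖ := by
        refine le_trans ?_ (abs_re_le_norm _)
        have : (((1 - δ / 2 : ℝ) : ℂ) + u * I - 1).re = -(δ / 2) := by simp
        rw [this, abs_neg, abs_of_pos (by positivity)]
      have h3 : (((1 - δ / 2 : ℝ) : ℂ) + u * I).im = u := by simp
      rw [h3] at h1
      rw [norm_div]
      calc _ ≤ K * E * (1 + |u|) ^ 2 / (δ / 2) := by gcongr
        _ = _ := by field_simp
  simp only [← mul_div_assoc] at hint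
  have hG1 : G 1 = 1 := by simp [hG]
  rw [hG1, cpow_one, mul_one] at hsum
  -- the real form
  set r : ℕ → ℝ := fun n => Real.log n * b n * Real.exp (-(Real.log (n / N : ℝ)) ^ 2) with hr
  have e2 : ∀ n : ℕ, LSeries.logMul f n * Wc (n / N) 0 = (r n : ℂ) := fun n => by
    rw [Wc_zero, hr, LSeries.logMul, ← natCast_log]
    simp only [hf, ofReal_mul]
  simp only [e2] at hsum
  have hr0 : ∀ n, 0 ≤ r n := fun n =>
    mul_nonneg (mul_nonneg (Real.log_natCast_nonneg n) (hb0 n)) (Real.exp_pos _).le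
  have h1 := sum_le_hasSum (Ioc N (2 * N)) (fun n _ => hr0 n) (hasSum_re hsum)
  have h2 : (∑ n ∈ Ioc N (2 * N), b n) * Real.log N ≤ 2 * ∑ n ∈ Ioc N (2 * N), r n := by
    rw [sum_mul, mul_sum]
    refine sum_le_sum fun n hn => ?_
    have h3 := Wc_ge hN hn
    have h4 : Real.log N ≤ Real.log n :=
      Real.log_le_log hN0 (by exact_mod_cast (mem_Ioc.1 hn).1.le)
    have h5 := hb0 n
    have h6 := Real.log_natCast_nonneg N
    calc b n * Real.log N ≤ 2 * (Real.log n * b n * (1 / 2)) := by nlinarith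
      _ ≤ 2 * r n := mul_le_mul_of_nonneg_left (mul_le_mul_of_nonneg_left h3
          (mul_nonneg (Real.log_natCast_nonneg n) h5)) (by norm_num)
  refine h2.trans ?_
  rw [mul_assoc]
  refine mul_le_mul_of_nonneg_left (h1.trans ((re_le_norm _).trans ?_)) (by norm_num)
  have hpi : (0 : ℝ) < Real.pi := Real.pi_pos
  have e3 : ‖(1 / (2 * Real.pi) : ℂ)‖ = 1 / (2 * Real.pi) := by
    rw [norm_div, norm_one, norm_mul, norm_real, Real.norm_of_nonneg hpi.le]
    simp
  have e4 : ‖2 * (Real.pi : ℂ) * (Wm (1 + 0) * ((N : ℝ) : ℂ))‖ = 2 * Real.pi * (‖Wm (1 + 0)‖ * N) := by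
    rw [norm_mul, norm_mul, norm_mul, norm_real, norm_real, Real.norm_of_nonneg hpi.le,
      Real.norm_of_nonneg hN0.le]
    simp
  rw [norm_mul, e3]
  have h7 := (norm_add_le _ _).trans (add_le_add hint e4.le)
  refine (mul_le_mul_of_nonneg_left h7 (by positivity)).trans ?_
  simp only [zero_im, abs_zero, add_zero, one_pow, mul_one]
  have h8 : 1 / (2 * Real.pi) ≤ 1 := by
    rw [div_le_one (by positivity)]; linarith [Real.pi_gt_three]
  set Y := E * (N : ℝ) ^ (1 - δ / 2) with hY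
  have hY0 : 0 ≤ Y := by positivity
  set B := A * (2 / δ * K) with hB
  have hB0 : 0 ≤ B := by positivity
  have e5 : 1 / (2 * Real.pi) * (A * (2 / δ * K * E) * (N : ℝ) ^ (1 - δ / 2) +
      2 * Real.pi * (‖Wm 1‖ * N)) = 1 / (2 * Real.pi) * (B * Y) + ‖Wm 1‖ * N := by
    rw [hB, hY]; field_simp
  rw [e5]
  have h9 : 1 / (2 * Real.pi) * (B * Y) ≤ B * Y := mul_le_of_le_one_left (by positivity) h8
  nlinarith [norm_nonneg (Wm 1), mul_nonneg hB0 hN0.le, mul_nonneg (norm_nonneg (Wm 1)) hY0]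

end Crest.Agent.T27
end
end

-- ▼ part T27/Cheb_52

/-!
# Row 27, module Z: descent from `K(ω)` to `K` and the Chebotarev bound

`chebG_52 : 0 < d → InvZeta d → ZetaCont → LCont → ChebG`.
-/

set_option autoImplicit false

noncomputable section

namespace Crest.Agent.T27

open NumberField Ideal Complex Filter Topology
open Crest.Agent.R014.EulC_534 (rE)

namespace Desc52

/-- the character modulo `3` -/
def c3 : ℕ →* ℂ where
  toFun n := (jacobiSym n 3 : ℤ)
  map_one' := by simp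
  map_mul' m n := by rw [Nat.cast_mul, jacobiSym.mul_left]; push_cast; rfl

theorem c3_apply (n : ℕ) : c3 n = (jacobiSym n 3 : ℤ) := rfl

theorem c3_congr {m n : ℕ} (h : m ≡ n [MOD 3]) : c3 m = c3 n := by
  rw [c3_apply, c3_apply, jacobiSym.mod_left' (a₂ := n)]
  exact_mod_cast h

theorem norm_c3 (n : ℕ) : ‖c3 n‖ ≤ 1 := by
  rw [c3_apply]
  rcases jacobiSym.trichotomy n 3 with h | h | h <;> simp [h]

theorem c3_one {n : ℕ} (h : n % 3 = 1) : c3 n = 1 := by
  rw [c3_congr (n := 1) h, map_one]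

theorem c3_two {n : ℕ} (h : n % 3 = 2) : c3 n = -1 := by
  rw [c3_congr (n := 2) h, c3_apply]
  have : jacobiSym ((2 : ℕ) : ℤ) 3 = -1 := by norm_num
  rw [this]; simp

theorem norm_pc_le (K : Type*) [Field K] [NumberField K] {c : ℕ →* ℂ} (hc : ∀ n, ‖c n‖ ≤ 1)
    (n : ℕ) : ‖pc K c n‖ ≤ Module.finrank ℚ K := by
  unfold pc
  split_ifs with h
  · rw [norm_mul, norm_natCast]
    refine (mul_le_of_le_one_left (Nat.cast_nonneg _) (hc n)).trans ?_
    exact_mod_cast rE_le_52 K h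
  · simp

theorem summable_pc (K : Type*) [Field K] [NumberField K] {c : ℕ →* ℂ} (hc : ∀ n, ‖c n‖ ≤ 1)
    {s : ℂ} (hs : 1 < s.re) : LSeriesSummable (pc K c) s :=
  LSeriesSummable_of_bounded_of_one_lt_re (fun n _ => norm_pc_le K hc n) hs

theorem norm_one_le (n : ℕ) : ‖(1 : ℕ →* ℂ) n‖ ≤ 1 := by simp

/-- the prime series of `K(ω)` -/
theorem prime_series {K F : Type*} [Field K] [NumberField K] [Field F] [NumberField F]
    [Algebra K F] [IsGalois K F] {ζ : F} (hζ : IsPrimitiveRoot ζ 3)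
    (hgen : Algebra.adjoin K {ζ} = ⊤) : ∃ κ : ℂ, ∀ s : ℂ, 1 < s.re →
      2 * LSeries (pc F 1) s = Module.finrank K F * (LSeries (pc K 1) s + LSeries (pc K c3) s) +
        κ * (3 : ℂ) ^ (-s) := by
  set D : ℕ := Module.finrank K F
  refine ⟨2 * rE F 3 - D * rE K 3, fun s hs => ?_⟩
  have h1 := (summable_pc F norm_one_le hs).hasSum.mul_left 2
  have h2 := (((summable_pc K norm_one_le hs).hasSum.add
    (summable_pc K norm_c3 hs).hasSum).mul_left (D : ℂ)).add
    (hasSum_ite_eq 3 ((2 * rE F 3 - D * rE K 3 : ℂ) * (3 : ℂ) ^ (-s)))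
  refine h1.unique (h2.congr_fun fun n => ?_)
  have h0 : ∀ (L : Type _) [Field L] [NumberField L] (c : ℕ →* ℂ), pc L c 0 = 0 := fun L _ _ c => by
    simp [pc, Nat.not_prime_zero]
  have h0' : ∀ c : ℕ →* ℂ, pc K c 0 = 0 := fun c => by simp [pc, Nat.not_prime_zero]
  rw [LSeries.term_def₀ (h0 F 1), LSeries.term_def₀ (h0' 1), LSeries.term_def₀ (h0' c3)]
  unfold pc
  by_cases hn : n.Prime
  · simp only [if_pos hn, MonoidHom.one_apply, one_mul]
    have h2 := hn.two_le
    by_cases h3 : n = 3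
    · subst h3
      have : c3 3 = 0 := by
        rw [c3_congr (m := 3) (n := 0) rfl, c3_apply]; norm_num
      rw [this, if_pos rfl]
      push_cast
      ring
    · rw [if_neg h3]
      have h4 : ¬ 3 ∣ n := fun h => h3 ((Nat.prime_dvd_prime_iff_eq Nat.prime_three hn).1 h).symm
      have h5 : ¬ n ∣ 3 := fun h => h3 ((Nat.prime_dvd_prime_iff_eq hn Nat.prime_three).1 h)
      rcases (by omega : n % 3 = 1 ∨ n % 3 = 2) with h | h
      · rw [rE_split_52 (K := K) (by norm_num) hζ hgen hn (by omega), c3_one h]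
        push_cast
        ring
      · rw [rE_zero_52 (by norm_num) hζ hn h5 (by omega), c3_two h]
        push_cast
        ring
  · have h3 : n ≠ 3 := fun h => hn (h ▸ Nat.prime_three)
    simp [hn, h3]

theorem at_one {K : Type*} [Field K] [NumberField K] {f : ℂ → ℂ}
    (hf : DifferentiableOn ℂ f {s | 0 < s.re})
    (hfz : ∀ s : ℂ, 1 < s.re → f s = (s - 1) * dedekindZeta K s) : f 1 ≠ 0 := by
  have h1 : ContinuousAt f 1 := hf.continuousOn.continuousAt
    ((isOpen_lt continuous_const continuous_re).mem_nhds (by simp))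
  have h2 : Tendsto (fun s : ℝ => f s) (𝓝[>] 1) (𝓝 (f 1)) :=
    (h1.tendsto.comp (continuous_ofReal.tendsto' 1 1 ofReal_one)).mono_left nhdsWithin_le_nhds
  have h3 := tendsto_sub_one_mul_dedekindZeta_nhdsGT K
  have h4 : Tendsto (fun s : ℝ => f s) (𝓝[>] 1) (𝓝 (dedekindZeta_residue K)) := by
    refine h3.congr' ?_
    filter_upwards [self_mem_nhdsWithin] with s hs
    exact (hfz s (by simpa using hs)).symm
  rw [tendsto_nhds_unique h2 h4]
  exact_mod_cast dedekindZeta_residue_ne_zero K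

end Desc52

open Desc52

theorem InvZeta.mono {d d' : ℝ} (h : InvZeta d) (hd : d' ≤ d) : InvZeta d' := by
  intro F _ _ hw
  obtain ⟨G, h1, h2⟩ := h F hw
  exact ⟨G, h1.mono fun s (hs : 1 - d' < s.re) => show 1 - d < s.re by linarith, h2⟩

/-- **Descent**: `ζ_K` has no zero in the half plane. -/
theorem descent_52 {d : ℝ} (hd : 0 < d) (hd1 : d ≤ 1 / 4) (hI : InvZeta d) (hL : LCont)
    (K : Type) [Field K] [NumberField K] (hK : IsTotallyComplex K) {f : ℂ → ℂ}
    (hf : DifferentiableOn ℂ f {s | 0 < s.re})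
    (hfz : ∀ s : ℂ, 1 < s.re → f s = (s - 1) * dedekindZeta K s) {s : ℂ} (hs : 1 - d < s.re) :
    f s ≠ 0 := by
  rcases eq_or_ne s 1 with rfl | hs1
  · exact at_one hf hfz
  let F := CyclotomicField 3 K
  have hG : IsGalois K F := IsCyclotomicExtension.isGalois {3} K F
  have hζ := IsCyclotomicExtension.zeta_spec 3 K F
  have hgen := IsCyclotomicExtension.adjoin_primitive_root_eq_top (A := K) hζ
  obtain ⟨κ, hκ⟩ := prime_series hζ hgen
  set D : ℕ := Module.finrank K F with hD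
  have hD0 : D ≠ 0 := Module.finrank_pos.ne'
  obtain ⟨G, hG1, hG2⟩ := hI F ⟨_, by
    have := hζ.geom_sum_eq_zero (by norm_num)
    simp only [Finset.sum_range_succ, Finset.sum_range_zero] at this
    linear_combination this⟩
  obtain ⟨g, hg1, hg2⟩ := hL K hK (span {((3 : ℕ) : 𝓞 K)}) (by simp) (fun I => c3 (absNorm I))
    (fun I J => by rw [map_mul, map_mul]) (fun I => norm_c3 _)
    (fun x y h => c3_congr (absNorm_congr_52 3 h))
  obtain ⟨C, -, hC⟩ := euler_52
  obtain ⟨R₁, h11, -, h12⟩ := hC F 1 norm_one_le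
  obtain ⟨R₂, h21, -, h22⟩ := hC K 1 norm_one_le
  obtain ⟨R₃, h31, -, h32⟩ := hC K c3 norm_c3
  simp only [MonoidHom.one_apply, one_mul] at h12 h22
  have hU : IsOpen {s : ℂ | 1 - d < s.re} := isOpen_lt continuous_const continuous_re
  have m0 : {s : ℂ | 1 - d < s.re} ⊆ {s | 0 < s.re} := fun s (hs : 1 - d < s.re) =>
    show 0 < s.re by linarith
  have m1 : {s : ℂ | 1 - d < s.re} ⊆ {s | 3 / 4 < s.re} := fun s (hs : 1 - d < s.re) =>
    show 3 / 4 < s.re by linarith
  have h3 : Differentiable ℂ fun s : ℂ => κ * (3 : ℂ) ^ (-s) :=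
    (differentiable_id.neg.const_cpow (Or.inl (by norm_num))).const_mul κ
  have hΦ : DifferentiableOn ℂ (fun s => G s ^ 2 * (f s * g s) ^ D *
      exp (κ * (3 : ℂ) ^ (-s) + 2 * R₁ s - D * (R₂ s + R₃ s))) {s | 1 - d < s.re} :=
    ((hG1.pow 2).mul (((hf.mono m0).mul (hg1.mono m0)).pow D)).mul
      (((h3.differentiableOn.add ((h11.mono m1).const_mul 2)).sub
        (((h21.mono m1).add (h31.mono m1)).const_mul _)).cexp)
  have hΨ : DifferentiableOn ℂ (fun s : ℂ => ((s - 1) * (s - 1)) ^ D) {s | 1 - d < s.re} := by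
    fun_prop
  have heq := (hΦ.analyticOnNhd hU).eqOn_of_preconnected_of_eventuallyEq (hΨ.analyticOnNhd hU)
    (convex_halfSpace_re_gt _).isPreconnected (z₀ := 2) (show 1 - d < (2 : ℂ).re by simp; linarith)
    (by
      filter_upwards [(isOpen_lt continuous_const continuous_re).mem_nhds
        (show (2 : ℂ) ∈ {s : ℂ | 1 < s.re} by simp)] with s hs
      have e1 := hG2 s hs
      rw [zeta_eq_tsum_52 F hs, h12 s hs] at e1
      rw [hfz s hs, hg2 s hs, zeta_eq_tsum_52 K hs, h22 s hs, h32 s hs]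
      have e2 : exp (LSeries (pc F 1) s + R₁ s) ^ 2 =
          (exp (LSeries (pc K 1) s + R₂ s) * exp (LSeries (pc K c3) s + R₃ s)) ^ D *
            exp (κ * (3 : ℂ) ^ (-s) + 2 * R₁ s - D * (R₂ s + R₃ s)) := by
        rw [← exp_add, ← exp_nat_mul, ← exp_nat_mul, ← exp_add]
        congr 1
        push_cast
        linear_combination hκ s hs
      calc _ = ((s - 1) * (s - 1)) ^ D * (G s ^ 2 *
            ((exp (LSeries (pc K 1) s + R₂ s) * exp (LSeries (pc K c3) s + R₃ s)) ^ D *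
            exp (κ * (3 : ℂ) ^ (-s) + 2 * R₁ s - D * (R₂ s + R₃ s)))) := by
            simp only [mul_pow]; ring
        _ = _ := by rw [← e2, ← mul_pow (G s), e1, one_pow, mul_one])
  intro h0
  have h4 := heq hs
  simp only [h0, zero_mul, zero_pow hD0, mul_zero] at h4
  exact pow_ne_zero D (mul_ne_zero (sub_ne_zero.2 hs1) (sub_ne_zero.2 hs1)) h4.symm

/-- **Primes of degree one**, uniformly in the field. -/
theorem degOne_52 {d : ℝ} (hd : 0 < d) (hd1 : d ≤ 1 / 4) (hI : InvZeta d) (hZ : ZetaCont)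
    (hL : LCont) : ∃ C : ℝ, 0 < C ∧ ∀ (K : Type) [Field K] [NumberField K], IsTotallyComplex K →
      ∀ N : ℕ, 2 ≤ N → (∑ n ∈ Finset.Ioc N (2 * N), if n.Prime then (rE K n : ℝ) else 0) *
        Real.log N ≤ C * (N + (Module.finrank ℚ K + Real.log |(discr K : ℝ)|) *
          (N : ℝ) ^ (1 - d / 2)) := by
  obtain ⟨C₂, hC₂, hZ⟩ := hZ
  obtain ⟨C₃, hC₃, hE⟩ := euler_52
  obtain ⟨C₄, hC₄, hX⟩ := explicit_52 hd hd1
  refine ⟨C₄ * (1 + C₂ + C₃), by positivity, fun K _ _ hK N hN => ?_⟩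
  obtain ⟨f, hf1, hf2, hf3⟩ := hZ K hK
  obtain ⟨R, hR1, hR2, hR3⟩ := hE K 1 norm_one_le
  simp only [MonoidHom.one_apply, one_mul] at hR3
  set n : ℝ := (Module.finrank ℚ K : ℝ) with hn
  set L : ℝ := Real.log |(discr K : ℝ)| with hLd
  have hn1 : 1 ≤ n := by
    have : 0 < Module.finrank ℚ K := Module.finrank_pos
    rw [hn]; exact_mod_cast this
  have hL0 : 0 ≤ L := Real.log_nonneg (by
    have := Int.one_le_abs (discr_ne_zero K)
    exact_mod_cast this)
  have hE1 : n ≤ (1 + C₂ + C₃) * (n + L) := by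
    nlinarith [mul_nonneg (add_pos hC₂ hC₃).le (show 0 ≤ n + L by linarith)]
  have h := hX (fun m => if m.Prime then (rE K m : ℝ) else 0) ((1 + C₂ + C₃) * (n + L))
    (fun s => f s * exp (-R s)) (hn1.trans hE1) (fun m => by positivity) (fun m => by
      split_ifs with hm
      · exact le_trans (by rw [hn]; exact_mod_cast rE_le_52 K hm) hE1
      · linarith)
    ((hf1.mono fun s (hs : 1 - d < s.re) => show 0 < s.re by linarith).mul
      (hR1.mono fun s (hs : 1 - d < s.re) => show 3 / 4 < s.re by linarith).neg.cexp)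
    (fun s hs => mul_ne_zero (descent_52 hd hd1 hI hL K hK hf1 hf2 hs) (exp_ne_zero _))
    (fun s hs => by
      have e : (fun m : ℕ => ((if m.Prime then (rE K m : ℝ) else 0 : ℝ) : ℂ)) = pc K 1 := by
        funext m
        unfold pc
        split_ifs <;> simp
      rw [e, hf2 s hs, zeta_eq_tsum_52 K hs, hR3 s hs, mul_assoc, ← exp_add, add_neg_cancel_right])
    (fun s hs hs4 => by
      have h1 := hf3 s (by linarith) hs4
      have h2 : ‖exp (-R s)‖ ≤ Real.exp (C₃ * n) := by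
        rw [norm_exp]
        exact Real.exp_le_exp.2 ((re_le_norm _).trans (by rw [norm_neg]; exact hR2 s (by linarith)))
      rw [norm_mul]
      refine (mul_le_mul h1 h2 (norm_nonneg _) (Real.exp_pos _).le).trans ?_
      rw [← Real.exp_add, Real.exp_le_exp]
      have h3 := abs_nonneg s.im
      have h4 : 0 ≤ n := by linarith
      nlinarith [mul_nonneg hC₂.le (mul_nonneg hL0 h3), mul_nonneg hC₃.le hL0,
        mul_nonneg hC₃.le (mul_nonneg (add_nonneg h4 hL0) h3),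
        mul_nonneg (add_nonneg h4 hL0) h3]) N hN
  refine h.trans ?_
  rw [mul_assoc C₄]
  refine mul_le_mul_of_nonneg_left ?_ hC₄.le
  have : (0 : ℝ) ≤ N := Nat.cast_nonneg N
  nlinarith [mul_nonneg (add_pos hC₂ hC₃).le this]

/-- **Module Z.** -/
theorem chebG_52 {d : ℝ} (hd : 0 < d) (hI : InvZeta d) (hZ : ZetaCont) (hL : LCont) : ChebG := by
  classical
  intro a ha
  obtain ⟨δ, hδ, hδ1, hδd⟩ : ∃ δ : ℝ, 0 < δ ∧ δ ≤ 1 / 4 ∧ δ ≤ d :=
    ⟨min d (1 / 4), lt_min hd (by norm_num), min_le_right _ _, min_le_left _ _⟩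
  obtain ⟨C, hC, h⟩ := degOne_52 hδ hδ1 (hI.mono hδd) hZ hL
  obtain ⟨C₁, q₀, hC₁, hK⟩ := kum_79 a ha
  refine ⟨δ / 2, 2 * C * (1 + C₁), 1, q₀, by positivity, by positivity, fun q N hq hq₀ hN => ?_⟩
  obtain ⟨K, _, _, h1, h2, h3, h4⟩ := hK q hq hq₀
  have h5 := h K h1 N hN
  set n : ℝ := (Module.finrank ℚ K : ℝ) with hn
  have hn0 : 0 < n := by
    have : 0 < Module.finrank ℚ K := Module.finrank_pos
    rw [hn]; exact_mod_cast this
  have h6 : n * (R27.spl a q N).card ≤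
      ∑ m ∈ Finset.Ioc N (2 * N), if m.Prime then (rE K m : ℝ) else 0 := by
    rw [mul_comm, ← nsmul_eq_mul, ← Finset.sum_const]
    refine le_trans (Finset.sum_le_sum fun p hp => ?_)
      (Finset.sum_le_sum_of_subset_of_nonneg (Finset.filter_subset _ _) fun m _ _ => by positivity)
    obtain ⟨-, hp1, hp2, hp3⟩ := Finset.mem_filter.1 hp
    obtain ⟨S, hS1, hS2⟩ := h4 p hp1 hp2 hp3
    rw [if_pos hp1, hn, ← hS1]
    have f1 : Finite {P : Ideal (𝓞 K) // absNorm P = p} := finite_setOfPred_absNorm_eq (S := 𝓞 K) p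
    have := Nat.card_le_card_of_injective
      (fun P : S => (⟨P.1, hS2 P.1 P.2⟩ : {P : Ideal (𝓞 K) // absNorm P = p}))
      fun P Q h => Subtype.ext (congrArg (fun z : {P : Ideal (𝓞 K) // absNorm P = p} => z.1) h)
    rw [Nat.card_eq_fintype_card, Fintype.card_coe] at this
    exact_mod_cast this
  have hN0 : (0 : ℝ) < N := by exact_mod_cast (by omega : 0 < N)
  have hlog : 1 / 2 ≤ Real.log N := by
    have : Real.log 2 ≤ Real.log N := Real.log_le_log (by norm_num) (by exact_mod_cast hN)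
    linarith [Real.log_two_gt_d9]
  have hq0 : (0 : ℝ) < q := by exact_mod_cast hq.pos
  set Y := (N : ℝ) ^ (1 - δ / 2) with hY
  have hY0 : 0 ≤ Y := by positivity
  set l := Real.log N with hl
  have hl0 : 0 < l := by linarith
  have h7 : n * (R27.spl a q N).card * l ≤ C * (N + C₁ * q * n * Y) :=
    ((mul_le_mul_of_nonneg_right h6 hl0.le).trans h5).trans (by gcongr)
  have h8 : ((R27.spl a q N).card : ℝ) ≤ C * (N / (n * l) + C₁ * q * Y / l) := by
    rw [← mul_le_mul_iff_left₀ (mul_pos hn0 hl0)]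
    calc _ = n * (R27.spl a q N).card * l := by ring
      _ ≤ _ := h7
      _ = _ := by field_simp
  have h9 : N / (n * l) ≤ 2 * (N / ((q : ℝ) ^ 2 * l)) := by
    rw [← mul_div_assoc, div_le_div_iff₀ (by positivity) (by positivity)]
    nlinarith [mul_le_mul_of_nonneg_left h2 (mul_pos hN0 hl0).le]
  have h10 : C₁ * q * Y / l ≤ 2 * (C₁ * (q * Y)) := by
    rw [div_le_iff₀ hl0]
    nlinarith [mul_nonneg hC₁.le (mul_nonneg hq0.le hY0)]
  refine h8.trans ?_
  rw [pow_one]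
  have h11 : 0 ≤ N / ((q : ℝ) ^ 2 * l) := by positivity
  have h12 : 0 ≤ (q : ℝ) * Y := by positivity
  calc C * (N / (n * l) + C₁ * q * Y / l)
      ≤ C * (2 * (N / ((q : ℝ) ^ 2 * l)) + 2 * (C₁ * (q * Y))) := by gcongr
    _ ≤ _ := by
      nlinarith [mul_nonneg hC.le h12, mul_nonneg hC.le (mul_nonneg hC₁.le h11)]

end Crest.Agent.T27
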