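import Crest.Agent.T27.Sar_77
import Crest.Agent.T27.Mdl_77
import Crest.Agent.T27.Symbol_55
import Crest.Agent.T27.RecDefs_64
import Crest.Agent.T27.ThAr_83
import Crest.Agent.T27.ThB_54
import Crest.Agent.T27.ThG1_80

-- ▼ part T27/SarF_95
section

/-!
# Row 27, S-arithmetic: finiteness statements (helper95)

* `UR_fg_95` : the `S`-units are finitely generated;
* `exists_E_95` : a finite transversal of `Rˣ / (Rˣ)^m`;
* `finiteIndex_95`, `fin_cl_95` : `Fˣ / (U P_J)` is finite as soon as `U ⊇ (Rˣ)^m`;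
* `exists_compl_95` : in a commutative group of squarefree exponent every subgroup has a complement.
-/

set_option autoImplicit false
set_option linter.unusedSectionVars false

noncomputable section

open NumberField IsDedekindDomain
open scoped nonZeroDivisors

namespace Crest.Agent.T27

/-! ## group theory -/

section grp

variable {G : Type*} [CommGroup G]

theorem relIndex_ne_zero_of_map_95 {H K : Subgroup G} {α : Type*} [Finite α] (f : K → α)
    (hf : ∀ x y : K, f x = f y → (x : G) / y ∈ H) : H.relIndex K ≠ 0 := by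
  have : Finite (K ⧸ H.subgroupOf K) := by
    refine Finite.of_injective (fun q : K ⧸ H.subgroupOf K => f q.out) fun q q' h => ?_
    have h1 := hf _ _ h.symm
    rw [← q.out_eq', ← q'.out_eq', QuotientGroup.eq, Subgroup.mem_subgroupOf]
    simpa [div_eq_mul_inv, mul_comm] using h1
  exact Subgroup.index_ne_zero_of_finite

theorem finiteIndex_sup_95 {A B C : Subgroup G} (h : (A ⊔ B).FiniteIndex) (hC : C.relIndex B ≠ 0) :
    (A ⊔ C).FiniteIndex := by
  have h1 : (A ⊔ C).relIndex ((A ⊔ C) ⊔ B) ≠ 0 := by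
    rw [Subgroup.relIndex_sup_left]
    exact fun h0 => hC (Subgroup.relIndex_eq_zero_of_le_left le_sup_right h0)
  have h2 : ((A ⊔ C) ⊔ B).FiniteIndex :=
    Subgroup.finiteIndex_of_le (H := A ⊔ B) (sup_le_sup_right le_sup_left B)
  refine ⟨?_⟩
  rw [← Subgroup.relIndex_mul_index (le_sup_left : A ⊔ C ≤ (A ⊔ C) ⊔ B)]
  exact mul_ne_zero h1 h2.index_ne_zero

/-- A finite transversal of a subgroup of finite relative index. -/
theorem exists_transversal_95 {H K : Subgroup G} (h : H.relIndex K ≠ 0) :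
    ∃ T : Finset G, (∀ t ∈ T, t ∈ K) ∧ ∀ x ∈ K, ∃! t, t ∈ T ∧ x / t ∈ H := by
  classical
  have : Finite (K ⧸ H.subgroupOf K) :=
    Nat.finite_of_card_ne_zero h
  have := Fintype.ofFinite (K ⧸ H.subgroupOf K)
  refine ⟨Finset.univ.image fun q : K ⧸ H.subgroupOf K => (q.out : G), ?_, fun x hx => ?_⟩
  · intro t ht
    obtain ⟨q, -, rfl⟩ := Finset.mem_image.1 ht
    exact q.out.2
  · have key : ∀ q : K ⧸ H.subgroupOf K,
        x / (q.out : G) ∈ H ↔ q = QuotientGroup.mk (⟨x, hx⟩ : K) := by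
      intro q
      conv_rhs => rw [← q.out_eq', QuotientGroup.eq, Subgroup.mem_subgroupOf]
      simp [div_eq_mul_inv, mul_comm]
    refine ⟨((QuotientGroup.mk (⟨x, hx⟩ : K) : K ⧸ H.subgroupOf K).out : G),
      ⟨Finset.mem_image.2 ⟨_, Finset.mem_univ _, rfl⟩, (key _).2 rfl⟩, ?_⟩
    rintro t ⟨ht, ht'⟩
    obtain ⟨q, -, rfl⟩ := Finset.mem_image.1 ht
    rw [(key q).1 ht']

theorem exists_compl_add_95 {M : Type*} [AddCommGroup M] (n : ℕ) [Module (ZMod n) M]
    [IsSemisimpleRing (ZMod n)] (H : AddSubgroup M) : ∃ K : AddSubgroup M, IsCompl H K := by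
  have h : IsSemisimpleModule (ZMod n) M := inferInstance
  obtain ⟨K, hK⟩ := h.exists_isCompl (AddSubgroup.toZModSubmodule n H)
  refine ⟨(AddSubgroup.toZModSubmodule n).symm K, ?_⟩
  rw [(AddSubgroup.toZModSubmodule n).isCompl_iff, OrderIso.apply_symm_apply]
  exact hK

/-- In a commutative group of squarefree exponent every subgroup has a complement. -/
theorem exists_compl_95 {n : ℕ} (hn : Squarefree n) (h : ∀ g : G, g ^ n = 1) (H : Subgroup G) :
    ∃ K : Subgroup G, IsCompl H K := by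
  have hn0 : NeZero n := ⟨hn.ne_zero⟩
  have : IsReduced (ZMod n) := isReduced_zmod.2 (Or.inl hn)
  have : IsSemisimpleRing (ZMod n) := IsArtinianRing.isSemisimpleRing_of_isReduced _
  let _ : Module (ZMod n) (Additive G) := AddCommGroup.zmodModule (fun x => by
    change Additive.ofMul (x.toMul ^ n) = 0
    rw [h]; rfl)
  obtain ⟨K, hK⟩ := exists_compl_add_95 n (Subgroup.toAddSubgroup H)
  refine ⟨Subgroup.toAddSubgroup.symm K, ?_⟩
  rw [Subgroup.toAddSubgroup.isCompl_iff, OrderIso.apply_symm_apply]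
  exact hK

/-- The same, in the form of a unique factorisation. -/
theorem exists_compl_mul_95 {n : ℕ} (hn : Squarefree n) (h : ∀ g : G, g ^ n = 1)
    (H : Subgroup G) :
    ∃ K : Subgroup G, (∀ g, g ∈ H → g ∈ K → g = 1) ∧ ∀ g, ∃ a ∈ H, ∃ b ∈ K, g = a * b := by
  obtain ⟨K, hK⟩ := exists_compl_95 hn h H
  refine ⟨K, fun g h1 h2 => ?_, fun g => ?_⟩
  · have : g ∈ H ⊓ K := ⟨h1, h2⟩
    rwa [hK.inf_eq_bot, Subgroup.mem_bot] at this
  · have : g ∈ H ⊔ K := by rw [hK.sup_eq_top]; trivial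
    obtain ⟨a, ha, b, hb, rfl⟩ := Subgroup.mem_sup.1 this
    exact ⟨a, ha, b, hb, rfl⟩

end grp

/-! ## the `S`-unit theorem (finite generation) -/

section sunit

variable {F : Type*} [Field F] [NumberField F] {N : ℕ}

theorem valuation_le_one_of_mem_RS_95 {x : F} (hx : x ∈ RS F N) (v : HeightOneSpectrum (𝓞 F))
    (hv : (N : 𝓞 F) ∉ v.asIdeal) : v.valuation F x ≤ 1 := by
  obtain ⟨k, a, ha⟩ := exists_eq_of_mem_RS hx
  have h1 : v.valuation F (N : F) = 1 := by
    have : (N : F) = algebraMap (𝓞 F) F (N : 𝓞 F) := by simp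
    rw [this, v.valuation_of_algebraMap]
    exact v.intValuation_eq_one_iff.2 hv
  have h2 : v.valuation F (a : F) ≤ 1 := v.valuation_le_one a
  rw [← ha, map_mul, map_pow, h1, one_pow, one_mul] at h2
  exact h2

theorem finite_primes_95 (hN : N ≠ 0) :
    {v : HeightOneSpectrum (𝓞 F) | (N : 𝓞 F) ∈ v.asIdeal}.Finite := by
  have h : (Ideal.span {(N : 𝓞 F)} : Ideal (𝓞 F)) ≠ ⊥ := by
    simpa using hN
  refine (Ideal.finite_factors h).subset fun v hv => ?_
  simpa [Ideal.dvd_span_singleton] using hv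

/-- The `S`-units are finitely generated. -/
theorem UR_fg_95 (hN : N ≠ 0) : (UR F N).FG := by
  set S := {v : HeightOneSpectrum (𝓞 F) | (N : 𝓞 F) ∈ v.asIdeal} with hS
  have : Finite S := finite_primes_95 hN
  let φ : Additive Fˣ →+ (S → ℤ) :=
    { toFun := fun x v => (v.1.valuationOfNeZero x.toMul).toAdd
      map_zero' := by funext v; simp
      map_add' := fun x y => by funext v; simp }
  let ι : Additive (𝓞 F)ˣ →+ Additive Fˣ :=
    MonoidHom.toAdditive (Units.map (algebraMap (𝓞 F) F : 𝓞 F →* F))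
  have h1 : ((UR F N).toAddSubgroup.toIntSubmodule).FG := by
    refine Submodule.fg_of_fg_map_of_fg_inf_ker φ.toIntLinearMap (IsNoetherian.noetherian _) ?_
    have h2 : (LinearMap.range ι.toIntLinearMap).FG := by
      rw [LinearMap.range_eq_map]
      exact Module.Finite.fg_top.map _
    refine h2.of_le ?_
    rintro x ⟨hx, hx0⟩
    have hx' : x.toMul ∈ UR F N := hx
    have hv : ∀ v : S, v.1.valuation F ((x.toMul : Fˣ) : F) = 1 := by
      intro v
      have : (v.1.valuationOfNeZero x.toMul).toAdd = 0 := congrFun hx0 v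
      rw [← v.1.valuationOfNeZero_eq, toAdd_eq_zero.1 this]; rfl
    obtain ⟨a, ha⟩ := HeightOneSpectrum.mem_integers_of_valuation_le_one (R := 𝓞 F) F
      ((x.toMul : Fˣ) : F) fun v => by
        by_cases h : v ∈ S
        · exact (hv ⟨v, h⟩).le
        · exact valuation_le_one_of_mem_RS_95 hx'.1 v h
    obtain ⟨b, hb⟩ := HeightOneSpectrum.mem_integers_of_valuation_le_one (R := 𝓞 F) F
      ((x.toMul : Fˣ) : F)⁻¹ fun v => by
        by_cases h : v ∈ S
        · rw [map_inv₀, hv ⟨v, h⟩, inv_one]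
        · exact valuation_le_one_of_mem_RS_95 hx'.2 v h
    have hab : a * b = 1 := by
      apply IsFractionRing.injective (𝓞 F) F
      rw [map_mul, ha, hb, map_one, mul_inv_cancel₀ x.toMul.ne_zero]
    refine ⟨Additive.ofMul ⟨a, b, hab, by rw [mul_comm, hab]⟩, ?_⟩
    apply Additive.toMul.injective
    exact Units.ext ha
  rw [Submodule.fg_iff_addSubgroup_fg, AddSubgroup.toIntSubmodule_toAddSubgroup] at h1
  exact (Subgroup.fg_iff_add_fg _).2 h1

/-- A subgroup containing the `m`-th powers of the `S`-units has finite index in them. -/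
theorem relIndex_UR_95 (hN : N ≠ 0) {m : ℕ} (hm : m ≠ 0) {U : Subgroup Fˣ}
    (hU : ∀ u ∈ UR F N, u ^ m ∈ U) : U.relIndex (UR F N) ≠ 0 := by
  have h := (Subgroup.isFiniteRelIndex_map_powMonoidHom_of_fg (UR_fg_95 (F := F) hN) hm).relIndex_ne_zero
  refine fun h0 => h (Subgroup.relIndex_eq_zero_of_le_left ?_ h0)
  rintro _ ⟨u, hu, rfl⟩
  exact hU u hu

/-- A finite transversal of `Rˣ / (Rˣ)^m` (the fields `E_unit`, `E_rep` of `TH.Ar` for `m = 3`). -/
theorem exists_E_pow_95 (hN : N ≠ 0) {m : ℕ} (hm : m ≠ 0) :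
    ∃ E : Finset F, (∀ η ∈ E, η ≠ 0 ∧ η ∈ RS F N ∧ η⁻¹ ∈ RS F N) ∧
      ∀ u : F, u ≠ 0 → u ∈ RS F N → u⁻¹ ∈ RS F N →
        ∃! η, η ∈ E ∧ ∃ v : F, v ≠ 0 ∧ v ∈ RS F N ∧ v⁻¹ ∈ RS F N ∧ u = η * v ^ m := by
  classical
  obtain ⟨T, hT, hT'⟩ := exists_transversal_95
    (relIndex_UR_95 (F := F) hN hm (U := (UR F N).map (powMonoidHom m))
      fun u hu => ⟨u, hu, rfl⟩)
  refine ⟨T.image fun t : Fˣ => (t : F), ?_, fun u hu h1 h2 => ?_⟩
  · intro η hη
    obtain ⟨t, ht, rfl⟩ := Finset.mem_image.1 hη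
    exact ⟨t.ne_zero, (hT t ht).1, (hT t ht).2⟩
  · obtain ⟨t, ⟨ht, v, hv, hv'⟩, huniq⟩ := hT' (Units.mk0 u hu) ⟨h1, h2⟩
    refine ⟨t, ⟨Finset.mem_image.2 ⟨t, ht, rfl⟩, v, v.ne_zero, hv.1, hv.2, ?_⟩, ?_⟩
    · have := congrArg (fun z : Fˣ => (z : F)) hv'
      simp only [powMonoidHom_apply, Units.val_pow_eq_pow_val, Units.val_div_eq_div_val,
        Units.val_mk0] at this
      rw [this, mul_div_cancel₀ _ t.ne_zero]
    · rintro η ⟨hη, w, hw0, hw1, hw2, rfl⟩
      obtain ⟨t', ht', rfl⟩ := Finset.mem_image.1 hη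
      rw [huniq t' ⟨ht', Units.mk0 w hw0, ⟨hw1, hw2⟩, Units.ext (by simp)⟩]

theorem exists_E_95 (hN : N ≠ 0) :
    ∃ E : Finset F, (∀ η ∈ E, η ≠ 0 ∧ η ∈ RS F N ∧ η⁻¹ ∈ RS F N) ∧
      ∀ u : F, u ≠ 0 → u ∈ RS F N → u⁻¹ ∈ RS F N →
        ∃! η, η ∈ E ∧ ∃ v : F, v ≠ 0 ∧ v ∈ RS F N ∧ v⁻¹ ∈ RS F N ∧ u = η * v ^ 3 :=
  exists_E_pow_95 hN (by norm_num)

end sunit

/-! ## finiteness of the ray class groups -/

section ray

variable {F : Type*} [Field F] [NumberField F] {N : ℕ}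

/-- The ideal `O ∩ x Λ`. -/
def capI_95 (N : ℕ) (x : F) : Ideal (𝓞 F) where
  carrier := {a | (a : F) / x ∈ LS F N}
  add_mem' := fun {a b} ha hb => by
    change ((a : F) + b) / x ∈ LS F N
    rw [add_div]; exact add_mem ha hb
  zero_mem' := by
    change (0 : F) / x ∈ LS F N
    rw [zero_div]; exact zero_mem _
  smul_mem' := fun c a ha => by
    change ((c : F) * a) / x ∈ LS F N
    rw [mul_div_assoc]; exact mul_mem (coe_mem_LocS c) ha

theorem mem_capI_95 {x : F} {a : 𝓞 F} : a ∈ capI_95 N x ↔ (a : F) / x ∈ LS F N := Iff.rfl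

theorem exists_pow_mem_capI_95 (hN : N ≠ 0) (x : F) : ∃ k : ℕ, (N : 𝓞 F) ^ k ∈ capI_95 N x := by
  obtain ⟨k, hk⟩ := exists_pow_mul_mem_LS hN x⁻¹
  refine ⟨k, mem_capI_95.2 ?_⟩
  simpa [div_eq_mul_inv] using hk

theorem capI_mem_95 (hN : N ≠ 0) (x : F) : capI_95 N x ∈ (Ideal (𝓞 F))⁰ := by
  obtain ⟨k, hk⟩ := exists_pow_mem_capI_95 hN x
  refine mem_nonZeroDivisors_of_ne_zero fun h => ?_
  rw [h] at hk
  have : (N : 𝓞 F) ^ k = 0 := by simpa using hk
  exact hN (by simpa using pow_eq_zero_iff_of_pos_95 this)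
where
  pow_eq_zero_iff_of_pos_95 {k : ℕ} (h : (N : 𝓞 F) ^ k = 0) : (N : 𝓞 F) = 0 :=
    eq_zero_of_pow_eq_zero h

variable [hG : SGood F N]

theorem cap_half_95 {x y : F} (hx0 : x ≠ 0) (hy0 : y ≠ 0) (hx : x ∈ LS F N) {a b : 𝓞 F}
    (hb : b ≠ 0)
    (h : Ideal.span {a} * capI_95 N x = Ideal.span {b} * capI_95 N y) :
    (a : F) / b ∈ RS F N ∧ (a : F) * x / (b * y) ∈ LS F N := by
  have hb' : (b : F) ≠ 0 := by simpa using hb
  have key : ∀ c ∈ capI_95 N x, ∃ z ∈ capI_95 N y, (a : F) * c = b * z := by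
    intro c hc
    have : a * c ∈ Ideal.span {b} * capI_95 N y :=
      h ▸ Ideal.mul_mem_mul (Ideal.mem_span_singleton_self a) hc
    obtain ⟨z, hz, hz'⟩ := Ideal.mem_span_singleton_mul.1 this
    exact ⟨z, hz, by simpa using (congrArg (fun t : 𝓞 F => (t : F)) hz').symm⟩
  constructor
  · obtain ⟨k, hk⟩ := exists_pow_mem_capI_95 hG.ne x
    obtain ⟨z, -, hz⟩ := key _ hk
    refine mem_RS.2 ⟨k, ?_⟩
    have : (N : F) ^ k * ((a : F) / b) = z := by
      have h1 : (((N : 𝓞 F) ^ k : 𝓞 F) : F) = (N : F) ^ k := by simp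
      rw [h1] at hz
      field_simp
      linear_combination hz
    rw [this]; exact z.isIntegral_coe
  · obtain ⟨d, hd, c, hc⟩ := exists_eq_of_mem_LS hx
    have hd0 : (d : F) ≠ 0 := by exact_mod_cast ne_zero_of_coprime F hd
    obtain ⟨z, hz, hz'⟩ := key c (mem_capI_95.2 (by
      rw [← hc, mul_div_cancel_right₀ _ hx0]; exact natCast_mem _ d))
    have : (a : F) * x / (b * y) = (z : F) / y * (d : F)⁻¹ := by
      rw [← hc] at hz'
      field_simp
      linear_combination hz'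
    rw [this]
    exact mul_mem hz (inv_mem_LS_of_coprime hd)

theorem finiteIndex_UR_UL_95 : (UR F N ⊔ UL F N).FiniteIndex := by
  have hN0 := SGood.cast_ne F N
  choose k hk using fun x : Fˣ => exists_pow_mul_mem_LS hG.ne (x : F)
  refine ⟨?_⟩
  rw [← Subgroup.relIndex_top_right]
  refine relIndex_ne_zero_of_map_95 (α := ClassGroup (𝓞 F))
    (fun x => ClassGroup.mk0 ⟨capI_95 N ((N : F) ^ k x.1 * (x.1 : F)), capI_mem_95 hG.ne _⟩) ?_
  rintro ⟨x, hxt⟩ ⟨y, hyt⟩ hxy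
  obtain ⟨a, b, ha, hb, h⟩ := ClassGroup.mk0_eq_mk0_iff.1 hxy
  change Ideal.span {a} * capI_95 N ((N : F) ^ k x * (x : F)) =
    Ideal.span {b} * capI_95 N ((N : F) ^ k y * (y : F)) at h
  clear hxy
  change x / y ∈ _
  have hx0 : (N : F) ^ k x * x ≠ 0 := mul_ne_zero (pow_ne_zero _ hN0) x.ne_zero
  have hy0 : (N : F) ^ k y * y ≠ 0 := mul_ne_zero (pow_ne_zero _ hN0) y.ne_zero
  obtain ⟨h1, h2⟩ := cap_half_95 hx0 hy0 (hk x) hb h
  obtain ⟨h3, h4⟩ := cap_half_95 hy0 hx0 (hk y) ha h.symm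
  have ha' : (a : F) ≠ 0 := by simpa using ha
  have hb' : (b : F) ≠ 0 := by simpa using hb
  have hNu : Units.mk0 (N : F) hN0 ∈ UR F N := ⟨natCast_mem _ N, inv_N_mem_RS⟩
  have hc : Units.mk0 ((b : F) / a) (div_ne_zero hb' ha') ∈ UR F N :=
    ⟨h3, by simpa using h1⟩
  have hl : Units.mk0 ((a : F) * ((N : F) ^ k x * x) / (b * ((N : F) ^ k y * y)))
      (div_ne_zero (mul_ne_zero ha' hx0) (mul_ne_zero hb' hy0)) ∈ UL F N :=
    ⟨h2, by simpa only [Units.val_mk0, inv_div] using h4⟩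
  refine Subgroup.mem_sup.2 ⟨_, mul_mem (mul_mem hc (pow_mem hNu (k y)))
    (inv_mem (pow_mem hNu (k x))), _, hl, Units.ext ?_⟩
  have := x.ne_zero
  have := y.ne_zero
  simp only [Units.val_mul, Units.val_mk0, Units.val_pow_eq_pow_val, Units.val_inv_eq_inv_val,
    Units.val_div_eq_div_val]
  field_simp

theorem relIndex_PJ_UL_95 (J : ℕ) : (PJ F N J).relIndex (UL F N) ≠ 0 := by
  have hN0 := SGood.cast_ne F N
  have hI : Ideal.span {(N : 𝓞 F) ^ J} ≠ ⊥ := by
    simpa using fun h => absurd h hG.ne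
  have : Finite (𝓞 F ⧸ Ideal.span {(N : 𝓞 F) ^ J}) := Ideal.finiteQuotientOfFreeOfNeBot _ hI
  have hex : ∀ u : UL F N, ∃ a : 𝓞 F, ∃ l ∈ LS F N, (a : F) = ((u : Fˣ) : F) + (N : F) ^ J * l := by
    intro u
    obtain ⟨a, -, h⟩ := exists_approx_int hG.ne (m := 1) (y := (N : F) ^ J) (a := 0)
      (b := ((u : Fˣ) : F)) one_ne_zero (pow_ne_zero _ hN0) (one_mem _)
      (pow_mem (natCast_mem _ N) J) (zero_mem _) u.2.1
    exact ⟨a, h⟩
  choose a l hl ha using hex
  refine relIndex_ne_zero_of_map_95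
    (fun u => Ideal.Quotient.mk (Ideal.span {(N : 𝓞 F) ^ J}) (a u)) fun x y h => ?_
  obtain ⟨c, hc⟩ := Ideal.mem_span_singleton.1 (Ideal.Quotient.eq.1 h)
  have hc' : (a x : F) - a y = (N : F) ^ J * c := by
    simpa using congrArg (fun t : 𝓞 F => (t : F)) hc
  refine ⟨div_mem x.2 y.2, ((c : F) - l x + l y) * ((y : Fˣ) : F)⁻¹,
    mul_mem (add_mem (sub_mem (coe_mem_LocS c) (hl x)) (hl y)) y.2.2, ?_⟩
  have := (y : Fˣ).ne_zero
  rw [Units.val_div_eq_div_val]
  field_simp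
  linear_combination hc' - ha x + ha y

/-- `Fˣ / (Rˣ P_J)` is finite. -/
theorem finiteIndex_UR_PJ_95 (J : ℕ) : (UR F N ⊔ PJ F N J).FiniteIndex :=
  finiteIndex_sup_95 finiteIndex_UR_UL_95 (relIndex_PJ_UL_95 J)

/-- `Fˣ / (U P_J)` is finite if `U` contains the `m`-th powers of the `S`-units. -/
theorem finiteIndex_95 (J : ℕ) (U : Subgroup Fˣ) {m : ℕ} (hm : m ≠ 0)
    (hU : ∀ u ∈ UR F N, u ^ m ∈ U) : (U ⊔ PJ F N J).FiniteIndex := by
  rw [sup_comm]
  exact finiteIndex_sup_95 (by rw [sup_comm]; exact finiteIndex_UR_PJ_95 J)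
    (relIndex_UR_95 hG.ne hm hU)

/-- The field `fin_cl` of `TH.Ar`. -/
theorem fin_cl_95 (J : ℕ) : ∃ T : Finset F, (∀ t ∈ T, t ≠ 0) ∧ ∀ x : F, x ≠ 0 → ∃ t ∈ T, ∃ u : F,
    u ≠ 0 ∧ u ∈ RS F N ∧ u⁻¹ ∈ RS F N ∧ ∃ y ∈ LS F N, x = u * t * (1 + (N : F) ^ J * y) := by
  classical
  obtain ⟨T, -, hT⟩ := exists_transversal_95 (H := UR F N ⊔ PJ F N J) (K := ⊤) (by
    rw [Subgroup.relIndex_top_right]; exact (finiteIndex_UR_PJ_95 J).index_ne_zero)
  refine ⟨T.image fun t : Fˣ => (t : F), ?_, fun x hx => ?_⟩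
  · intro t ht
    obtain ⟨t, -, rfl⟩ := Finset.mem_image.1 ht
    exact t.ne_zero
  · obtain ⟨t, ⟨ht, h⟩, -⟩ := hT (Units.mk0 x hx) trivial
    obtain ⟨u, hu, p, ⟨-, y, hy, hp⟩, h⟩ := Subgroup.mem_sup.1 h
    refine ⟨t, Finset.mem_image.2 ⟨t, ht, rfl⟩, u, u.ne_zero, hu.1, hu.2, y, hy, ?_⟩
    have := congrArg (fun z : Fˣ => (z : F)) h
    simp only [Units.val_mul, Units.val_div_eq_div_val, Units.val_mk0] at this
    have ht0 := t.ne_zero
    rw [← hp, mul_right_comm, this, div_mul_cancel₀ _ ht0]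

end ray

end Crest.Agent.T27
end
end

-- ▼ part T27/Inst_77
section

/-!
# Row 27, construction of the number-field model of the frame `Fr0` (helper77)
-/

set_option autoImplicit false
set_option linter.unusedSectionVars false

noncomputable section

open NumberField
open scoped nonZeroDivisors

namespace Crest.Agent.T27

namespace I77

/-- A multiplicative system of generators of the non-zero principal ideals. -/
theorem exists_system {R : Type*} [CommMonoidWithZero R] [Nontrivial R]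
    [UniqueFactorizationMonoid R] (K : Submonoid R)
    (hK : ∀ p : R, p ≠ 0 → ∃ u, IsUnit u ∧ u * p ∈ K) :
    ∃ S : Submonoid R, S ≤ K ∧ (∀ n ∈ S, n ≠ 0) ∧ (∀ m ∈ S, ∀ n ∈ S, Associated m n → m = n) ∧
      ∀ n, n ≠ 0 → ∃ u, IsUnit u ∧ u * n ∈ S := by
  classical
  have h1 : ∀ a : Associates R, ∃ g : R, Associates.mk g = a ∧ (a ≠ 0 → g ∈ K) := fun a => by
    obtain ⟨p, rfl⟩ := Associates.mk_surjective a
    by_cases hp : p = 0
    · exact ⟨0, by rw [hp], fun h => absurd (by rw [hp]; rfl) h⟩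
    obtain ⟨u, hu, h⟩ := hK p hp
    exact ⟨u * p, Associates.mk_eq_mk_iff_associated.2 (associated_unit_mul_left _ _ hu),
      fun _ => h⟩
  choose g hg hgK using h1
  set T : Set R := {p | Prime p ∧ g (Associates.mk p) = p}
  refine ⟨Submonoid.closure T, Submonoid.closure_le.2 fun p hp => ?_, fun n hn => ?_,
    fun m hm n hn h => ?_, fun n hn => ?_⟩
  · rw [← hp.2]
    exact hgK _ (by simpa using hp.1.ne_zero)
  · induction hn using Submonoid.closure_induction with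
    | mem p hp => exact hp.1.ne_zero
    | one => exact one_ne_zero
    | mul a b _ _ ha hb => exact mul_ne_zero ha hb
  · obtain ⟨s, hs, rfl⟩ := Submonoid.exists_multiset_of_mem_closure hm
    obtain ⟨t, ht, rfl⟩ := Submonoid.exists_multiset_of_mem_closure hn
    have h2 := UniqueFactorizationMonoid.factors_unique (fun x hx => (hs x hx).1.irreducible)
      (fun x hx => (ht x hx).1.irreducible) h
    rw [Multiset.rel_eq.1 (h2.mono fun a ha b hb hab => ?_)]
    rw [← (hs a ha).2, ← (ht b hb).2, Associates.mk_eq_mk_iff_associated.2 hab]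
  · induction n using UniqueFactorizationMonoid.induction_on_prime with
    | h₁ => exact absurd rfl hn
    | h₂ x hx =>
      obtain ⟨y, hy⟩ := hx.exists_left_inv
      exact ⟨y, IsUnit.of_mul_eq_one x hy, hy ▸ one_mem _⟩
    | h₃ a p ha hp ih =>
      obtain ⟨u, hu, h⟩ := ih ha
      have h3 : Associated p (g (Associates.mk p)) :=
        (Associates.mk_eq_mk_iff_associated.1 (hg _)).symm
      have h4 : g (Associates.mk p) ∈ T := ⟨h3.prime hp, by rw [hg]⟩
      obtain ⟨v, hv⟩ := h3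
      refine ⟨v * u, v.isUnit.mul hu, ?_⟩
      have : v * u * (p * a) = g (Associates.mk p) * (u * a) := by rw [← hv]; ac_rfl
      rw [this]
      exact mul_mem (Submonoid.subset_closure h4) h

/-- A finite transversal of the units. -/
theorem exists_transversal {R W : Type*} [Monoid R] [Finite W] (c : R → W) :
    ∃ U : Finset R, 1 ∈ U ∧ (∀ u ∈ U, IsUnit u) ∧ (∀ v, IsUnit v → ∃ u ∈ U, c u = c v) ∧
      ∀ u ∈ U, ∀ u' ∈ U, c u = c u' → u = u' := by
  classical
  have h1 : ∀ w : W, ∃ u : R, IsUnit u ∧ ((∃ v, IsUnit v ∧ c v = w) → c u = w) ∧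
      (w = c 1 ∨ (¬ ∃ v, IsUnit v ∧ c v = w) → u = 1) := fun w => by
    by_cases h : w = c 1
    · exact ⟨1, isUnit_one, fun _ => h.symm, fun _ => rfl⟩
    by_cases h' : ∃ v, IsUnit v ∧ c v = w
    · obtain ⟨v, hv, e⟩ := h'
      exact ⟨v, hv, fun _ => e, fun h2 => (h2.elim h fun h3 => h3 ⟨v, hv, e⟩).elim⟩
    · exact ⟨1, isUnit_one, fun h2 => absurd h2 h', fun _ => rfl⟩
  choose r hr1 hr2 hr3 using h1
  have key : ∀ w, r (c (r w)) = r w := fun w => by
    by_cases h' : ∃ v, IsUnit v ∧ c v = w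
    · rw [hr2 w h']
    · rw [hr3 w (Or.inr h'), hr3 _ (Or.inl rfl)]
  refine ⟨(Set.finite_range r).toFinset, by simpa using ⟨c 1, hr3 _ (Or.inl rfl)⟩, ?_, ?_, ?_⟩
  · simpa using hr1
  · intro v hv
    exact ⟨r (c v), by simp, hr2 _ ⟨v, hv, rfl⟩⟩
  · simp only [Set.Finite.mem_toFinset]
    rintro _ ⟨w, rfl⟩ _ ⟨w', rfl⟩ e
    rw [← key w, e, key]

/-- Upper bound for the number of ideals. -/
theorem exists_count (F : Type*) [Field F] [NumberField F] : ∃ kp : ℕ, ∀ X : ℕ,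
    {I : Ideal (𝓞 F) | I ≠ ⊥ ∧ Ideal.absNorm I ≤ X}.ncard ≤ kp * X := by
  have h1 := (NumberField.Ideal.tendsto_norm_le_div_atTop F).comp tendsto_natCast_atTop_atTop
  obtain ⟨C, hC⟩ := h1.bddAbove_range
  refine ⟨⌈C⌉₊, fun X => ?_⟩
  rcases Nat.eq_zero_or_pos X with rfl | hX
  · have : {I : Ideal (𝓞 F) | I ≠ ⊥ ∧ Ideal.absNorm I ≤ 0} = ∅ := by
      ext I
      simp [Ideal.absNorm_eq_zero_iff]
    rw [this]; simp
  have h2 := hC ⟨X, rfl⟩
  simp only [Function.comp, Nat.cast_le] at h2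
  rw [div_le_iff₀ (by exact_mod_cast hX)] at h2
  have h3 : {I : Ideal (𝓞 F) | I ≠ ⊥ ∧ Ideal.absNorm I ≤ X}.ncard ≤
      Nat.card {I : Ideal (𝓞 F) // Ideal.absNorm I ≤ X} :=
    Set.ncard_le_ncard (fun I hI => hI.2) (Ideal.finite_setOfPred_absNorm_le X)
  have h4 : ((Nat.card {I : Ideal (𝓞 F) // Ideal.absNorm I ≤ X} : ℕ) : ℝ) ≤ (⌈C⌉₊ * X : ℕ) := by
    push_cast
    exact h2.trans (mul_le_mul_of_nonneg_right (Nat.le_ceil C) (Nat.cast_nonneg X))
  exact h3.trans (by exact_mod_cast h4)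

open Classical in
/-- The class of an element of `F` modulo a subgroup of `Fˣ`. -/
def clsH {F : Type*} [Field F] (H : Subgroup Fˣ) : F →*₀ WithZero (Fˣ ⧸ H) where
  toFun x := if h : x = 0 then 0 else ((Units.mk0 x h : Fˣ ⧸ H) : WithZero (Fˣ ⧸ H))
  map_zero' := dif_pos rfl
  map_one' := by rw [dif_neg one_ne_zero, Units.mk0_one]; rfl
  map_mul' x y := by
    by_cases hx : x = 0
    · rw [dif_pos hx, dif_pos (mul_eq_zero_of_left hx y)]
      exact (MulZeroClass.zero_mul (M₀ := WithZero (Fˣ ⧸ H)) _).symm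
    by_cases hy : y = 0
    · rw [dif_pos hy, dif_pos (mul_eq_zero_of_right x hy)]
      exact (MulZeroClass.mul_zero (M₀ := WithZero (Fˣ ⧸ H)) _).symm
    rw [dif_neg hx, dif_neg hy, dif_neg (mul_ne_zero hx hy), ← WithZero.coe_mul,
      ← QuotientGroup.mk_mul]
    congr 2
    ext; rfl

theorem clsH_units {F : Type*} [Field F] (H : Subgroup Fˣ) (x : Fˣ) :
    clsH H (x : F) = ((x : Fˣ ⧸ H) : WithZero (Fˣ ⧸ H)) := by
  have : clsH H (x : F) = ((Units.mk0 (x : F) x.ne_zero : Fˣ ⧸ H) : WithZero (Fˣ ⧸ H)) :=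
    dif_neg x.ne_zero
  rw [this, Units.mk0_val]

theorem clsH_eq_iff {F : Type*} [Field F] (H : Subgroup Fˣ) {x y : F} (hx : x ≠ 0) (hy : y ≠ 0) :
    clsH H x = clsH H y ↔ ∃ t ∈ H, y = x * t := by
  lift x to Fˣ using hx.isUnit
  lift y to Fˣ using hy.isUnit
  rw [clsH_units, clsH_units, WithZero.coe_inj, QuotientGroup.eq]
  constructor
  · intro h
    exact ⟨_, h, by simp⟩
  · rintro ⟨t, ht, e⟩
    obtain rfl : y = x * t := Units.ext e
    simpa using ht

variable {F : Type*} [Field F] [NumberField F] {N : ℕ} [hG : SGood F N]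

/-- Every class modulo `P_J` contains an element of `R`. -/
theorem exists_mem_PJ_mul (J : ℕ) (x : F) : ∃ p ∈ PJ F N J, x * p ∈ RS F N := by
  obtain ⟨d, hd0, hd, hx⟩ := exists_cop_mul_mem_RS hG.ne x
  have h1 := Nat.ModEq.pow_totient (hd.pow_right J)
  have h2 : 0 < Nat.totient (N ^ J) := Nat.totient_pos.2 (pow_pos (Nat.pos_of_ne_zero hG.ne) J)
  obtain ⟨k, hk⟩ := Nat.exists_eq_succ_of_ne_zero h2.ne'
  rw [hk, Nat.succ_eq_add_one] at h1
  obtain ⟨c, hc⟩ := h1.symm.dvd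
  have hd1 : (d : F) ≠ 0 := by exact_mod_cast hd0
  have hu : Units.mk0 (d : F) hd1 ∈ UL F N := ⟨natCast_mem _ d, inv_mem_LS_of_coprime hd⟩
  refine ⟨Units.mk0 (d : F) hd1 ^ (k + 1), ⟨pow_mem hu _, c, intCast_mem _ c, ?_⟩, ?_⟩
  · have := congrArg (Int.cast : ℤ → F) hc
    push_cast at this ⊢
    rw [Units.val_mk0]
    linear_combination this
  · have : x * ((Units.mk0 (d : F) hd1 ^ (k + 1) : Fˣ) : F) = (d : F) ^ k * (d * x) := by
      push_cast; rw [Units.val_mk0]; ring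
    rw [this]
    exact mul_mem (pow_mem (natCast_mem _ d) k) hx

/-- The complement of the units. -/
theorem exists_K (J : ℕ) : ∃ K : Subgroup Fˣ, Co F N J ≤ K ∧
    (∀ u ∈ UR F N, u ∈ K → u ∈ Co F N J) ∧ ∀ x : Fˣ, ∃ u ∈ UR F N, u * x ∈ K := by
  obtain ⟨K, hK1, hK2⟩ := exists_compl_mul_95 (G := Fˣ ⧸ Co F N J) (n := 6) (by
    rw [show (6 : ℕ) = 2 * 3 by norm_num, Nat.squarefree_mul (by norm_num)]
    exact ⟨Nat.prime_two.prime.squarefree, Nat.prime_three.prime.squarefree⟩) (fun g => by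
    obtain ⟨x, rfl⟩ := QuotientGroup.mk_surjective g
    rw [← QuotientGroup.mk_pow, QuotientGroup.eq_one_iff]
    exact pow_six_mem_Co x) ((UR F N).map (QuotientGroup.mk' _))
  refine ⟨K.comap (QuotientGroup.mk' _), fun x hx => ?_, fun u hu h => ?_, fun x => ?_⟩
  · rw [Subgroup.mem_comap, QuotientGroup.mk'_apply, (QuotientGroup.eq_one_iff x).2 hx]
    exact one_mem _
  · rw [← QuotientGroup.eq_one_iff]
    exact hK1 _ ⟨u, hu, rfl⟩ h
  · obtain ⟨y, hy, k, hk, e⟩ := hK2 (QuotientGroup.mk' _ x)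
    obtain ⟨u, hu, e'⟩ := Subgroup.mem_map.1 hy
    refine ⟨u⁻¹, inv_mem hu, ?_⟩
    rw [Subgroup.mem_comap, map_mul, map_inv, e, e', inv_mul_cancel_left]
    exact hk

end I77

open I77 in
theorem model_77 : ModelStmt := by
  intro F _ _ N J hG w hw
  have hfin : (Fi F N J).FiniteIndex :=
    finiteIndex_95 J _ (m := 6) (by norm_num) fun u hu => pow_six_mem_Up hu
  obtain ⟨K, hK1, hK2, hK3⟩ := exists_K (F := F) (N := N) J
  obtain ⟨S, hS1, hS2, hS3, hS4⟩ := exists_system (R := RS F N)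
    ((K.toSubmonoid.map (Units.coeHom F)).comap (RS F N).subtype) fun p hp => by
      obtain ⟨u, hu, h⟩ := hK3 (Units.mk0 (p : F) (by simpa using hp))
      exact ⟨⟨u, hu.1⟩, isUnit_iff_subring.2 ⟨u.ne_zero, hu.2⟩, _, h, rfl⟩
  set c : RS F N →*₀ WithZero (Fˣ ⧸ Fi F N J) :=
    (clsH (Fi F N J)).comp (RS F N).subtype.toMonoidWithZeroHom with hc
  have hc' : ∀ x : RS F N, c x = clsH (Fi F N J) (x : F) := fun _ => rfl
  have : Finite (WithZero (Fˣ ⧸ Fi F N J)) := inferInstanceAs (Finite (Option (Fˣ ⧸ Fi F N J)))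
  obtain ⟨U, hU1, hU2, hU3, hU4⟩ := exists_transversal c
  obtain ⟨kp, hkp⟩ := exists_count F
  have hw' : w ∈ RS F N := mem_LocS_of_isIntegral
    ⟨Polynomial.X ^ 2 + Polynomial.X + 1, by monicity!, by simpa using hw⟩
  have hmaps : ∀ X : ℕ, Set.MapsTo idS {n : RS F N | n ∈ S ∧ nmS n ≤ X}
      {I : Ideal (𝓞 F) | I ≠ ⊥ ∧ Ideal.absNorm I ≤ X} := fun X n hn =>
    ⟨idS_ne_bot (SGood.h0R F N) (hS2 n hn.1), by rw [← nmS_eq (SGood.h0R F N)]; exact hn.2⟩
  have hinj : ∀ X : ℕ, Set.InjOn idS {n : RS F N | n ∈ S ∧ nmS n ≤ X} := fun X m hm n hn e =>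
    hS3 m hm.1 n hn.1 ((idS_eq_iff (SGood.h0R F N)).1 e)
  have hfinI : ∀ X : ℕ, {I : Ideal (𝓞 F) | I ≠ ⊥ ∧ Ideal.absNorm I ≤ X}.Finite := fun X =>
    (Ideal.finite_setOfPred_absNorm_le X).subset fun I hI => hI.2
  let fr : Fr0 :=
    { OF := RS F N
      fin_quot := fun n hn => finite_quot_RS hn
      omF := ⟨w, hw'⟩
      omF_sq_add := Subtype.ext (by simpa using hw)
      unit_six := isUnit_six_RS
      PrimF := fun n => n ∈ S
      prim_one := one_mem S
      prim_mul := fun m n hm hn => mul_mem hm hn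
      prim_ne := hS2
      prim_assoc := fun m n hm hn => hS3 m hm n hn
      prim_ex := hS4
      ClF := Fˣ ⧸ Fi F N J
      clsF := c
      clsF_ne := fun n hn => by
        rw [hc', ← Units.val_mk0 (a := (n : F)) (by simpa using hn), clsH_units]
        exact WithZero.coe_ne_zero
      clsF_surj := fun q => by
        induction q using WithZero.recZeroCoe with
        | zero => exact ⟨0, map_zero c⟩
        | coe q =>
          obtain ⟨x, rfl⟩ := QuotientGroup.mk_surjective q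
          obtain ⟨p, hp, h⟩ := exists_mem_PJ_mul (N := N) J (x : F)
          refine ⟨⟨_, h⟩, ?_⟩
          rw [hc', ← clsH_units, eq_comm,
            clsH_eq_iff _ x.ne_zero (mul_ne_zero x.ne_zero p.ne_zero)]
          exact ⟨p, PJ_le_Fi hp, rfl⟩
      clsF_prim := fun m n v hm hn hv e => by
        obtain ⟨a, ha, ea⟩ := hS1 hm
        obtain ⟨b, hb, eb⟩ := hS1 hn
        change (a : F) = m at ea
        change (b : F) = n at eb
        obtain ⟨hv0, hv1⟩ := isUnit_iff_subring.1 hv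
        rw [hc', hc', Subring.coe_mul, ← ea, ← eb,
          clsH_eq_iff _ (mul_ne_zero hv0 a.ne_zero) b.ne_zero] at e
        obtain ⟨t, ht, e⟩ := e
        have hu : Units.mk0 (v : F) hv0 ∈ UR F N := ⟨v.2, hv1⟩
        have e' : Units.mk0 (v : F) hv0 = b * (a * t)⁻¹ := by
          rw [eq_mul_inv_iff_mul_eq]
          exact Units.ext (by simp [e, mul_assoc])
        have h1 : Units.mk0 (v : F) hv0 ∈ K :=
          e' ▸ mul_mem hb (inv_mem (mul_mem ha (hK1 (Fi_le_Co ht))))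
        rw [hc', ← map_one (clsH (Fi F N J)), eq_comm, clsH_eq_iff _ one_ne_zero hv0]
        exact ⟨_, Up_le_Fi ⟨hu, hK2 _ hu h1⟩, by simp⟩
      U0F := U
      one_mem_U0F := hU1
      unit_U0F := hU2
      ex_U0F := hU3
      inj_U0F := hU4
      eqF := fun x n => psiS N ((x : F) / n)
      eqF_add := fun x y n => by rw [Subring.coe_add, add_div, psiS_add hG.ne]
      eqF_self := fun x n => psiS_of_mem_RS hG.ne (by
        by_cases hn : (n : F) = 0
        · simp [hn]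
        · simp [hn])
      eqF_mul := fun g x n hg => by
        rw [Subring.coe_mul, Subring.coe_mul, mul_div_mul_left _ _ (by simpa using hg)]
      eqF_norm := fun x n => norm_psiS _
      eqF_nondeg := fun k n hn h => (dvd_iff_subring (by simpa using hn)).2
        (mem_RS_of_psiS fun y hy => by
          rw [← h ⟨y, hy⟩, Subring.coe_mul, mul_div_right_comm])
      kp := kp
      fin_prim := fun X => Set.Finite.of_injOn (hmaps X) (hinj X) (hfinI X)
      card_prim := fun X =>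
        (Set.ncard_le_ncard_of_injOn _ (hmaps X) (hinj X) (hfinI X)).trans (hkp X) }
  refine ⟨fr, (RS F N).subtype, ⟨hG, Subtype.val_injective, fun x => ⟨fun ⟨y, e⟩ => e ▸ y.2, fun hx => ⟨⟨x, hx⟩, rfl⟩⟩, fun _ _ => rfl,
    fun m n hm hn => ?_⟩, rfl⟩
  exact clsH_eq_iff _ (fun h => hm (Subtype.ext h)) (fun h => hn (Subtype.ext h))

end Crest.Agent.T27
end
end

-- ▼ part T27/LnkB_61
section

/-!
# Row 27: the symbols of the frame in terms of `Rc.zs`, and `RecAx` from a bicharacter (helper61)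
-/

set_option autoImplicit false

noncomputable section

namespace Crest.Agent.T27

open scoped ComplexConjugate
open Rc SymbolAux

/-- The character `k ↦ exp(2πik/6)` of `ZMod 6`. -/
def e6 (k : ZMod 6) : ℂ := ZMod.stdAddChar k

theorem e6_add (a b : ZMod 6) : e6 (a + b) = e6 a * e6 b := AddChar.map_add_eq_mul _ a b

@[simp] theorem e6_zero : e6 0 = 1 := AddChar.map_zero_eq_one _

theorem norm_e6 (a : ZMod 6) : ‖e6 a‖ = 1 := by
  rw [e6, ZMod.stdAddChar_apply]; exact Circle.norm_coe _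


theorem e6_neg (a : ZMod 6) : e6 (-a) = conj (e6 a) := by
  rw [← Complex.inv_eq_conj (norm_e6 a)]
  exact eq_inv_of_mul_eq_one_right (by rw [← e6_add, add_neg_cancel, e6_zero])


theorem e6_mul_neg (a : ZMod 6) : e6 a * e6 (-a) = 1 := by
  rw [← e6_add, add_neg_cancel, e6_zero]

theorem e6_nsmul (n : ℕ) (a : ZMod 6) : e6 (n * a) = e6 a ^ n := by
  rw [← nsmul_eq_mul]; exact AddChar.map_nsmul_eq_pow _ n a

theorem e6_pow_six (a : ZMod 6) : e6 a ^ 6 = 1 := by
  rw [← e6_nsmul, Nat.cast_ofNat, show (6 : ZMod 6) = 0 by decide, zero_mul, e6_zero]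


theorem e6_one : e6 1 = 1 + omC := by
  have h := ZMod.stdAddChar_coe (N := 6) 1
  rw [Int.cast_one] at h
  rw [e6, h, show (2 * Real.pi * Complex.I * ((1 : ℤ) : ℂ) / ((6 : ℕ) : ℂ) : ℂ) =
    ((Real.pi / 3 : ℝ) : ℂ) * Complex.I by push_cast; ring]
  apply Complex.ext
  · rw [Complex.exp_ofReal_mul_I_re, Real.cos_pi_div_three]; simp [omC]; norm_num
  · rw [Complex.exp_ofReal_mul_I_im, Real.sin_pi_div_three]; simp [omC]

theorem e6_eq_pow (k : ZMod 6) : e6 k = (1 + omC) ^ k.val := by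
  rw [← e6_one, ← e6_nsmul, mul_one, ZMod.natCast_zmod_val]

theorem one_add_omC_sq : (1 + omC) ^ 2 = omC := by linear_combination omC_mul

theorem one_add_omC_cube : (1 + omC) ^ 3 = -1 := by linear_combination (omC + 2) * omC_mul

theorem e6_sq (k : ZMod 6) : e6 k ^ 2 = omC ^ k.val := by
  rw [e6_eq_pow, ← pow_mul, mul_comm, pow_mul, one_add_omC_sq]

theorem e6_cube (k : ZMod 6) : e6 k ^ 3 = (-1) ^ k.val := by
  rw [e6_eq_pow, ← pow_mul, mul_comm, pow_mul, one_add_omC_cube]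


variable [Fr0]

theorem zeta_eq : (1 + om : O) ^ 2 - (1 + om) + 1 = 0 := by linear_combination om_sq_add

theorem sym_prime_eq_zs {p a : O} (hp : Prime p) (h : Primary p) (ha : ¬ p ∣ a) :
    sym p a = e6 (zs (1 + om) a p) := by
  have := Fr0.fin_quot p hp.ne_zero
  have h1 : p ∣ a ^ ((nm p - 1) / 6) - (1 + om) ^ (zs (1 + om) a p).val :=
    zs_prime zeta_eq isUnit_six hp ha
  obtain ⟨h6, -⟩ := nm_prime_mod_six' hp
  generalize zs (1 + om) a p = k at h1 ⊢
  have h2 : p ∣ a ^ ((nm p - 1) / 3) - om ^ k.val := by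
    have := h1.trans (sub_dvd_pow_sub_pow _ _ 2)
    rwa [← pow_mul, ← pow_mul, mul_comm k.val, pow_mul (1 + om),
      show (1 + om : O) ^ 2 = om by linear_combination om_sq_add,
      show (nm p - 1) / 6 * 2 = (nm p - 1) / 3 by omega] at this
  have h3 : p ∣ a ^ ((nm p - 1) / 2) - (-1) ^ k.val := by
    have := h1.trans (sub_dvd_pow_sub_pow _ _ 3)
    rwa [← pow_mul, ← pow_mul, mul_comm k.val, pow_mul (1 + om),
      show (1 + om : O) ^ 3 = -1 by linear_combination (om + 2) * om_sq_add,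
      show (nm p - 1) / 6 * 3 = (nm p - 1) / 2 by omega] at this
  have h4 : quad1 p a = (-1) ^ k.val := by
    rw [quad1, if_neg ha]
    rcases neg_one_pow_eq_or ℤ k.val with h5 | h5
    · have e1 : (-1 : O) ^ k.val = 1 := by exact_mod_cast congrArg (Int.cast : ℤ → O) h5
      have e2 : (-1 : ℂ) ^ k.val = 1 := by exact_mod_cast congrArg (Int.cast : ℤ → ℂ) h5
      rw [e2, if_pos (e1 ▸ h3)]
    · have e1 : (-1 : O) ^ k.val = -1 := by exact_mod_cast congrArg (Int.cast : ℤ → O) h5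
      have e2 : (-1 : ℂ) ^ k.val = -1 := by exact_mod_cast congrArg (Int.cast : ℤ → ℂ) h5
      rw [e2, if_neg]
      intro h7
      rw [e1] at h3
      refine not_dvd_two hp ?_
      have := dvd_sub h3 h7
      rwa [show a ^ ((nm p - 1) / 2) - -1 - (a ^ ((nm p - 1) / 2) - 1) = 2 by ring] at this
  rw [sym, Symbol_quad_prime hp h, cub_prime hp h, h4, cub1_of_dvd hp h h2, ← e6_sq, ← e6_cube,
    map_pow, ← e6_neg, pow_succ' (e6 k), mul_assoc, ← mul_pow, e6_mul_neg, one_pow, mul_one]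

/-- The sextic symbol of the frame is `e6` of the Gauss–Zolotarev exponent. -/
theorem sym_eq_zs {n a : O} (hn : n ≠ 0) (h : IsCoprime a n) :
    sym n a = e6 (zs (1 + om) a n) := by
  obtain ⟨u, m, hu, hm, rfl⟩ := exists_eq_unit_mul_primary hn
  rw [sym_unit_mul_left hu, zs_assoc (1 + om) a (associated_unit_mul_left m u hu)]
  have h' := h.of_mul_right_right
  clear h hn
  refine Primary.induction (P := fun m => IsCoprime a m → sym m a = e6 (zs (1 + om) a m))
    (fun _ => ?_) (fun p n hp hp' hn ih h => ?_) hm h'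
  · rw [sym_one_left, zs_unit _ _ isUnit_one, e6_zero]
  · have := Fr0.fin_quot (p * n) (mul_ne_zero hp.ne_zero hn.ne_zero)
    rw [sym_mul_left hp.ne_zero hn.ne_zero, zs_mul_right zeta_eq isUnit_six hp.ne_zero h, e6_add,
      ih h.of_mul_right_right, sym_prime_eq_zs hp hp'
        fun hd => hp.not_isUnit (h.of_mul_right_left.isUnit_of_dvd' hd dvd_rfl)]

theorem cub_eq_e6 {n a : O} (hn : n ≠ 0) (h : IsCoprime a n) :
    cub n a = e6 (zs (1 + om) a n) ^ 2 := by
  rw [← sym_sq' hn, sym_eq_zs hn h]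




open Classical in
/-- Reciprocity in the frame from an additive bicharacter. -/
theorem recAx_of_T (T : O → O → ZMod 6)
    (hmul : ∀ x x' y, x ≠ 0 → x' ≠ 0 → y ≠ 0 → T (x * x') y = T x y + T x' y)
    (hanti : ∀ x y, x ≠ 0 → y ≠ 0 → T y x = -T x y)
    (hcls : ∀ x x' y, x ≠ 0 → y ≠ 0 → cls x = cls x' → T x y = T x' y)
    (hcop : ∀ a b, a ≠ 0 → b ≠ 0 → IsCoprime a b →
      T a b = zs (1 + om) a b - zs (1 + om) b a)
    (hself : ∀ b, b ≠ 0 → T b b = zs (1 + om) (-1) b) :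
    RecAx (fun m n => if m = 0 ∨ n = 0 then 0 else e6 (T n m)) where
  congr m m' n n' hm hn := by
    by_cases h : m = 0 ∨ n = 0
    · rw [if_pos h, if_pos]
      rcases h with rfl | rfl
      · exact Or.inl (cls_eq_zero.1 (by rw [← hm, map_zero]))
      · exact Or.inr (cls_eq_zero.1 (by rw [← hn, map_zero]))
    · have hm0 : m ≠ 0 := fun h0 => h (Or.inl h0)
      have hn0 : n ≠ 0 := fun h0 => h (Or.inr h0)
      have hm1 : m' ≠ 0 := ne_zero_of_cls_eq hm.symm hm0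
      have hn1 : n' ≠ 0 := ne_zero_of_cls_eq hn.symm hn0
      rw [if_neg h, if_neg (not_or.2 ⟨hm1, hn1⟩), hcls n n' m hn0 hm0 hn, hanti m n' hm0 hn1,
        hanti m' n' hm1 hn1, hcls m m' n' hm0 hn1 hm]
  mul_left m m' n hm hm' hn := by
    rw [if_neg (not_or.2 ⟨mul_ne_zero hm hm', hn⟩), if_neg (not_or.2 ⟨hm, hn⟩),
      if_neg (not_or.2 ⟨hm', hn⟩), hanti _ n (mul_ne_zero hm hm') hn, hmul _ _ _ hm hm' hn,
      hanti m n hm hn, hanti m' n hm' hn, neg_add, e6_add]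
  anti m n hm hn := by
    rw [if_neg (not_or.2 ⟨hm, hn⟩), if_neg (not_or.2 ⟨hn, hm⟩), hanti n m hn hm, e6_mul_neg]
  pow_six m n hm hn := by rw [if_neg (not_or.2 ⟨hm, hn⟩), e6_pow_six]
  self n hn := by
    rw [if_neg (not_or.2 ⟨hn, hn⟩), hself n hn, sym_eq_zs hn isCoprime_one_left.neg_left]
  recip m n hm hn h := by
    rw [if_neg (not_or.2 ⟨hm, hn⟩), hcop n m hn hm h.symm, sym_eq_zs hm h.symm, sym_eq_zs hn h,
      ← e6_add, sub_add_cancel]

end Crest.Agent.T27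
end
end

-- ▼ part T27/LnkA_61
section

/-!
# Row 27: the reciprocity bicharacter `T` of `RecStmt` on `R = O_F[1/N]` (helper61)

`RecT F N ζ` bundles the output of `Rc.RecStmt` for `S = RS F N`.  We show that `T` kills sixth
powers and `P₃ = 1 + N³ Λ`, that `T b b = (-1 / b)`, the Steinberg relation, and we build the
cubic data `Bi`, `Sy` of the theta module.
-/

set_option autoImplicit false
set_option linter.unusedSectionVars false

noncomputable section

open NumberField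

namespace Crest.Agent.T27

open Rc

/-- The output of `RecStmt` for `S = O_F[1/N]`. -/
structure RecT (F : Type) [Field F] (N : ℕ) (ζ : RS F N) where
  /-- the bicharacter -/
  T : F → F → ZMod 6
  mul_left : ∀ x x' y, x ≠ 0 → x' ≠ 0 → y ≠ 0 → T (x * x') y = T x y + T x' y
  anti : ∀ x y, x ≠ 0 → y ≠ 0 → T y x = -T x y
  deep : ∀ t y, IsIntegral ℤ t → y ≠ 0 → T (1 + (N : F) ^ 3 * t) y = 0
  recip : ∀ a b : RS F N, a ≠ 0 → b ≠ 0 → IsCoprime a b →
    T (a : F) (b : F) = zs ζ a b - zs ζ b a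
  zeta : ζ ^ 2 - ζ + 1 = 0
  fin : ∀ b : RS F N, b ≠ 0 → Finite (RS F N ⧸ Ideal.span {b})

theorem nonempty_RecT (h : RecStmt) (F : Type) [Field F] [NumberField F] (N : ℕ) [hG : SGood F N]
    (ζ : RS F N) (hζ : ζ ^ 2 - ζ + 1 = 0) : Nonempty (RecT F N ζ) := by
  obtain ⟨-, hfin, T, h1, h2, h3, h4⟩ := h F N hG.six hG.ne (RS F N) Subtype.val_injective
    (fun x => by
      rw [← mem_RS]
      exact ⟨fun ⟨y, hy⟩ => hy ▸ y.2, fun hx => ⟨⟨x, hx⟩, rfl⟩⟩) ζ hζ
  exact ⟨⟨T, h1, h2, h3, h4, hζ, hfin⟩⟩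

namespace RecT

variable {F : Type} [Field F] {N : ℕ} {ζ : RS F N} (r : RecT F N ζ)

theorem mul_right {x y y' : F} (hx : x ≠ 0) (hy : y ≠ 0) (hy' : y' ≠ 0) :
    r.T x (y * y') = r.T x y + r.T x y' := by
  rw [r.anti _ x (mul_ne_zero hy hy') hx, r.mul_left _ _ _ hy hy' hx, r.anti y x hy hx,
    r.anti y' x hy' hx]
  ring

theorem one_left {y : F} (hy : y ≠ 0) : r.T 1 y = 0 := by
  have h := r.mul_left 1 1 y one_ne_zero one_ne_zero hy
  rw [mul_one] at h
  linear_combination -h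


theorem inv_left {x y : F} (hx : x ≠ 0) (hy : y ≠ 0) : r.T x⁻¹ y = -r.T x y := by
  have h := r.mul_left x x⁻¹ y hx (inv_ne_zero hx) hy
  rw [mul_inv_cancel₀ hx, r.one_left hy] at h
  linear_combination -h

theorem inv_right {x y : F} (hx : x ≠ 0) (hy : y ≠ 0) : r.T x y⁻¹ = -r.T x y := by
  rw [r.anti _ x (inv_ne_zero hy) hx, r.inv_left hy hx, r.anti y x hy hx]

theorem div_left {x x' y : F} (hx : x ≠ 0) (hx' : x' ≠ 0) (hy : y ≠ 0) :
    r.T (x / x') y = r.T x y - r.T x' y := by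
  rw [div_eq_mul_inv, r.mul_left _ _ _ hx (inv_ne_zero hx') hy, r.inv_left hx' hy, sub_eq_add_neg]

theorem div_right {x y y' : F} (hx : x ≠ 0) (hy : y ≠ 0) (hy' : y' ≠ 0) :
    r.T x (y / y') = r.T x y - r.T x y' := by
  rw [div_eq_mul_inv, r.mul_right hx hy (inv_ne_zero hy'), r.inv_right hx hy', sub_eq_add_neg]

theorem pow_left {x y : F} (hx : x ≠ 0) (hy : y ≠ 0) (n : ℕ) : r.T (x ^ n) y = n * r.T x y := by
  induction n with
  | zero => simp [r.one_left hy]
  | succ n ih => rw [pow_succ, r.mul_left _ _ _ (pow_ne_zero _ hx) hx hy, ih]; push_cast; ring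

theorem pow_right {x y : F} (hx : x ≠ 0) (hy : y ≠ 0) (n : ℕ) : r.T x (y ^ n) = n * r.T x y := by
  rw [r.anti _ x (pow_ne_zero _ hy) hx, r.pow_left hy hx, r.anti y x hy hx]; ring

theorem six_eq : (6 : ZMod 6) = 0 := by decide

theorem pow_six_left {x y : F} (hx : x ≠ 0) (hy : y ≠ 0) : r.T (x ^ 6) y = 0 := by
  rw [r.pow_left hx hy, Nat.cast_ofNat, six_eq, zero_mul]

theorem pow_six_right {x y : F} (hx : x ≠ 0) (hy : y ≠ 0) : r.T x (y ^ 6) = 0 := by
  rw [r.pow_right hx hy, Nat.cast_ofNat, six_eq, zero_mul]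

variable [NumberField F] [hG : SGood F N]

/-- `T` is trivial on `1 + N³ Λ`. -/
theorem deep_LS {l y : F} (hl : l ∈ LS F N) (hy : y ≠ 0) : r.T (1 + (N : F) ^ 3 * l) y = 0 := by
  obtain ⟨d, hd, a, ha⟩ := exists_eq_of_mem_LS hl
  have hd0 : (d : F) ≠ 0 := by exact_mod_cast ne_zero_of_coprime F hd
  have hN3 : 1 < N ^ 3 := Nat.one_lt_pow (by norm_num) (SGood.one_lt F N)
  have h1 : d ^ (N ^ 3).totient ≡ 1 [MOD N ^ 3] := Nat.ModEq.pow_totient (hd.pow_right 3)
  obtain ⟨k, hk⟩ : ∃ k, (N ^ 3).totient = k + 1 :=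
    Nat.exists_eq_succ_of_ne_zero (Nat.totient_pos.2 (by omega)).ne'
  obtain ⟨m, hm⟩ := (Nat.modEq_iff_dvd.1 h1.symm)
  have hm' : (d : F) ^ (k + 1) = 1 + (N : F) ^ 3 * m := by
    have := congrArg (Int.cast : ℤ → F) hm
    rw [hk] at this
    push_cast at this
    linear_combination this
  have h2 := r.deep m y (isIntegral_intCast m) hy
  have h3 := r.deep (m + (d : F) ^ k * a) y ((isIntegral_intCast m).add
    (((isIntegral_natCast d).pow k).mul a.isIntegral_coe)) hy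
  have h4 : 1 + (N : F) ^ 3 * (m + (d : F) ^ k * a) =
      (1 + (N : F) ^ 3 * m) * (1 + (N : F) ^ 3 * l) := by
    rw [← hm', ← ha]
    linear_combination -hm'
  rw [h4, r.mul_left _ _ _ (hm' ▸ pow_ne_zero _ hd0) (one_add_pow_mul_LS (by norm_num) hl).1 hy,
    h2, zero_add] at h3
  exact h3

theorem deep_LS_right {l x : F} (hl : l ∈ LS F N) (hx : x ≠ 0) :
    r.T x (1 + (N : F) ^ 3 * l) = 0 := by
  rw [r.anti _ x (one_add_pow_mul_LS (by norm_num) hl).1 hx, r.deep_LS hl hx, neg_zero]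

theorem PJ_left {j : ℕ} (hj : 3 ≤ j) {x : Fˣ} (hx : x ∈ PJ F N j) {y : F} (hy : y ≠ 0) :
    r.T x y = 0 := by
  obtain ⟨-, l, hl, h⟩ := PJ_anti hj hx
  rw [h, r.deep_LS hl hy]


theorem unit_left {u b : RS F N} (hu : IsUnit u) (hb : b ≠ 0) : r.T u b = zs ζ u b := by
  obtain ⟨v, hv⟩ := hu.exists_right_inv
  rw [r.recip u b hu.ne_zero hb ⟨v, 0, by linear_combination hv⟩, zs_unit ζ b hu, sub_zero]

include r in
theorem zs_neg_one_add (b : RS F N) (hb : b ≠ 0) : zs ζ (-1) b + zs ζ (-1) b = 0 := by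
  have := r.fin b hb
  have h1 : IsCoprime (-1 : RS F N) b := isCoprime_one_left.neg_left
  rw [← zs_mul_left r.zeta isUnit_six_RS h1 h1, neg_mul_neg, mul_one, zs_one_left]

theorem self_aux {b : RS F N} (hb : b ≠ 0) {l : F} (hl : l ∈ LS F N)
    (h : (b : F)⁻¹ = (N : F) ^ 3 * l) : r.T b b = zs ζ (-1) b := by
  have hb' : (b : F) ≠ 0 := by simpa using hb
  have h1 := one_add_pow_mul_LS (j := 3) (by norm_num) hl
  have e : ((1 + b : RS F N) : F) = b * (1 + (N : F) ^ 3 * l) := by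
    rw [← h]; push_cast; field_simp; ring
  have hb1 : (1 + b : RS F N) ≠ 0 := by
    intro h0
    rw [h0] at e
    exact mul_ne_zero hb' h1.1 e.symm
  have h2 := r.recip (1 + b) b hb1 hb ⟨1, -1, by ring⟩
  rw [e, r.mul_left _ _ _ hb' h1.1 hb', r.deep_LS hl hb', add_zero,
    zs_congr ζ (a := 1 + b) (a' := 1) (by simp), zs_one_left,
    zs_congr ζ (a := b) (a' := -1) (b := 1 + b) ⟨1, by ring⟩,
    ← r.unit_left isUnit_one.neg hb1, e,
    r.mul_right (by simp) hb' h1.1, r.deep_LS_right hl (by simp), add_zero,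
    r.unit_left isUnit_one.neg hb] at h2
  rw [h2]
  linear_combination -r.zs_neg_one_add b hb

/-- `T b b = (-1 / b)`. -/
theorem self_eq {b : RS F N} (hb : b ≠ 0) : r.T b b = zs ζ (-1) b := by
  have hb' : (b : F) ≠ 0 := by simpa using hb
  have hN : (N : F) ≠ 0 := SGood.cast_ne F N
  obtain ⟨k, hk⟩ := exists_pow_mul_mem_LS hG.ne (b : F)⁻¹
  let u : RS F N := ⟨((N : F)⁻¹ ^ (k + 1)) ^ 6, pow_mem (pow_mem inv_N_mem_RS _) _⟩
  have hu : IsUnit u := isUnit_iff_subring.2 ⟨by simp [u, hN], by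
    simpa [u] using pow_mem (pow_mem (natCast_mem (RS F N) N) (k + 1)) 6⟩
  have hu0 : ((N : F)⁻¹ ^ (k + 1)) ≠ 0 := pow_ne_zero _ (inv_ne_zero hN)
  have h1 := r.self_aux (b := u * b) (mul_ne_zero hu.ne_zero hb)
    (l := (N : F) ^ (5 * k + 3) * ((N : F) ^ k * (b : F)⁻¹))
    (mul_mem (pow_mem (natCast_mem _ N) _) hk) (by
      simp only [u, Subring.coe_mul, mul_inv, inv_pow, inv_inv]
      ring)
  rw [zs_assoc ζ (-1) (b := u * b) (b' := b) (associated_unit_mul_left b u hu)] at h1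
  rw [← h1]
  change _ = r.T (((N : F)⁻¹ ^ (k + 1)) ^ 6 * b) (((N : F)⁻¹ ^ (k + 1)) ^ 6 * b)
  rw [r.mul_left _ _ _ (pow_ne_zero _ hu0) hb' (mul_ne_zero (pow_ne_zero _ hu0) hb'),
    r.pow_six_left hu0 (mul_ne_zero (pow_ne_zero _ hu0) hb'), zero_add,
    r.mul_right hb' (pow_ne_zero _ hu0) hb', r.pow_six_right hb' hu0, zero_add]

theorem exists_coprime_frac (x : F) :
    ∃ a b : RS F N, b ≠ 0 ∧ IsCoprime a b ∧ x = (a : F) / b := by
  classical
  obtain ⟨a, b, hb, rfl⟩ := IsFractionRing.div_surjective (A := RS F N) x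
  have hb0 : b ≠ 0 := nonZeroDivisors.ne_zero hb
  obtain ⟨g, hg⟩ := (IsPrincipalIdealRing.principal (Ideal.span {a, b})).principal
  have ha : g ∣ a := Ideal.mem_span_singleton.1 (by
    change a ∈ Submodule.span _ {g}
    rw [← hg]; exact Ideal.subset_span (by simp))
  have hb' : g ∣ b := Ideal.mem_span_singleton.1 (by
    change b ∈ Submodule.span _ {g}
    rw [← hg]; exact Ideal.subset_span (by simp))
  obtain ⟨a', rfl⟩ := ha
  obtain ⟨b', rfl⟩ := hb'
  have hg0 : g ≠ 0 := left_ne_zero_of_mul hb0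
  obtain ⟨p, q, hpq⟩ := Ideal.mem_span_pair.1 (show g ∈ Ideal.span {g * a', g * b'} by
    rw [hg]; exact Submodule.mem_span_singleton_self g)
  refine ⟨a', b', right_ne_zero_of_mul hb0, ⟨p, q, mul_left_cancel₀ hg0 (by
    linear_combination hpq)⟩, ?_⟩
  have : (g : F) ≠ 0 := by simpa using hg0
  change ((g * a' : RS F N) : F) / ((g * b' : RS F N) : F) = _
  push_cast
  rw [mul_div_mul_left _ _ this]

/-- The Steinberg relation. -/
theorem stein {x : F} (hx : x ≠ 0) (hx1 : 1 - x ≠ 0) : r.T x (1 - x) = 0 := by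
  obtain ⟨a, b, hb, hab, rfl⟩ := exists_coprime_frac (N := N) x
  have hb' : (b : F) ≠ 0 := by simpa using hb
  have ha' : (a : F) ≠ 0 := fun h => hx (by simp [h])
  have ha : a ≠ 0 := by simpa using ha'
  have e : 1 - (a : F) / b = ((b - a : RS F N) : F) / b := by push_cast; field_simp
  rw [e] at hx1 ⊢
  have hc' : ((b - a : RS F N) : F) ≠ 0 := fun h => hx1 (by rw [h, zero_div])
  have hc : b - a ≠ 0 := fun h => hc' (by rw [h]; rfl)
  obtain ⟨p, q, hpq⟩ := id hab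
  have := r.fin b hb
  rw [r.div_left ha' hb' hx1, r.div_right ha' hc' hb', r.div_right hb' hc' hb',
    r.recip a (b - a) ha hc ⟨p + q, q, by linear_combination hpq⟩, r.recip a b ha hb hab,
    r.recip b (b - a) hb hc ⟨p + q, -p, by linear_combination hpq⟩, r.self_eq hb,
    zs_congr ζ (a := b - a) (a' := b) (b := a) ⟨-1, by ring⟩,
    zs_congr ζ (a := b) (a' := a) (b := b - a) ⟨1, by ring⟩,
    zs_congr ζ (a := b - a) (a' := -1 * a) (b := b) ⟨1, by ring⟩,
    zs_mul_left r.zeta isUnit_six_RS isCoprime_one_left.neg_left hab]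
  linear_combination r.zs_neg_one_add b hb

theorem self_add {x : F} (hx : x ≠ 0) : r.T x x + r.T x x = 0 := by
  linear_combination r.anti x x hx hx

end RecT

/-- The reduction `ℤ/6 → ℤ/3`. -/
def c63 : ZMod 6 →+* ZMod 3 := ZMod.castHom (by norm_num) (ZMod 3)

namespace RecT

variable {F : Type} [Field F] [NumberField F] {N : ℕ} [hG : SGood F N] {ζ : RS F N}
  (r : RecT F N ζ)

open Classical in
/-- The cubic bicharacter `c = T mod 3`. -/
def bi : B83.Bi F where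
  c x y := if x = 0 ∨ y = 0 then 0 else c63 (r.T x y)
  zero_left y := by simp
  zero_right x := by simp
  mul_left {x x'} y hx hx' := by
    by_cases hy : y = 0
    · simp [hy]
    · simp [hx, hx', hy, r.mul_left x x' y hx hx' hy]
  mul_right x {y y'} hy hy' := by
    by_cases hx : x = 0
    · simp [hx]
    · simp [hx, hy', hy, r.mul_right hx hy hy']
  self x := by
    by_cases hx : x = 0
    · simp [hx]
    · simp only [hx, or_self, if_false]
      apply B83.eq_zero_of_two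
      rw [← map_add, r.self_add hx, map_zero]
  stein x := by
    split_ifs with h
    · rfl
    · rw [r.stein (fun h0 => h (Or.inl h0)) (fun h0 => h (Or.inr h0)), map_zero]

theorem bi_c {x y : F} (hx : x ≠ 0) (hy : y ≠ 0) : r.bi.c x y = c63 (r.T x y) := by
  simp [bi, hx, hy]

open Classical in
/-- The cubic symbol `s x y = zs ζ x y mod 3`. -/
def sy : B83.Sy r.bi (RS F N) where
  s x y := if y = 0 then 0 else c63 (zs ζ x y)
  congr h := by rw [zs_congr ζ h]
  mul_left {x x' y} h h' := by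
    by_cases hy : y = 0
    · simp [hy]
    · have := r.fin y hy
      simp [hy, zs_mul_left r.zeta isUnit_six_RS h h']
  mul_right {x y y'} h h' hy hy' := by
    have := r.fin _ (mul_ne_zero hy hy')
    simp [hy, hy', zs_mul_right r.zeta isUnit_six_RS hy (h.mul_right h')]
  unit x {y} hy := by simp [zs_unit ζ x hy]
  zero x := by simp
  recip {x y} h hx hy := by
    have hx' : (x : F) ≠ 0 := by simpa using hx
    have hy' : (y : F) ≠ 0 := by simpa using hy
    change r.bi.c (x : F) (y : F) = _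
    rw [r.bi_c hx' hy', r.recip x y hx hy h, if_neg hx, if_neg hy, map_sub]


end RecT

end Crest.Agent.T27
end
end

-- ▼ part T27/LnkT_60
section

/-!
# Row 27: the kernel of the reciprocity bicharacter `RecT.T` (helper60)
-/

set_option autoImplicit false
set_option linter.unusedSectionVars false

noncomputable section

open NumberField

namespace Crest.Agent.T27

namespace RecT

variable {F : Type} [Field F] {N : ℕ} {ζ : RS F N} (r : RecT F N ζ)

/-- The left kernel of `T` as a subgroup of `Fˣ`; it contains `PJ F N j` (`3 ≤ j`) and the sixth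
powers. -/
def ker : Subgroup Fˣ where
  carrier := {x | ∀ y, y ≠ 0 → r.T x y = 0}
  mul_mem' := fun {a b} ha hb y hy => by
    rw [Units.val_mul, r.mul_left _ _ _ a.ne_zero b.ne_zero hy, ha y hy, hb y hy, add_zero]
  one_mem' := fun _ hy => r.one_left hy
  inv_mem' := fun {a} ha y hy => by
    rw [Units.val_inv_eq_inv_val, r.inv_left a.ne_zero hy, ha y hy, neg_zero]

theorem mem_ker {x : Fˣ} : x ∈ r.ker ↔ ∀ y, y ≠ 0 → r.T x y = 0 := Iff.rfl

theorem pow_six_mem_ker (x : Fˣ) : x ^ 6 ∈ r.ker := fun y hy => by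
  rw [Units.val_pow_eq_pow_val, r.pow_six_left x.ne_zero hy]



variable [NumberField F] [hG : SGood F N]

theorem PJ_le_ker {j : ℕ} (hj : 3 ≤ j) : PJ F N j ≤ r.ker := fun _ hx _ hy => r.PJ_left hj hx hy

end RecT

end Crest.Agent.T27
end
end

-- ▼ part T27/LnkC_61
section

/-!
# Row 27: `RecAx` for the number-field model of the frame (helper61)
-/

set_option autoImplicit false
set_option linter.unusedSectionVars false

noncomputable section

open NumberField

namespace Crest.Agent.T27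

open scoped ComplexConjugate
open Rc

/-- The Gauss–Zolotarev exponent is invariant under ring isomorphisms. -/
theorem zs_map_equiv {S S' : Type*} [CommRing S] [CommRing S'] (e : S ≃+* S') {ζ a b : S}
    (hζ : ζ ^ 2 - ζ + 1 = 0) (h6 : IsUnit (6 : S)) [Finite (S ⧸ Ideal.span {b})]
    (h : IsCoprime a b) : zs (e ζ) (e a) (e b) = zs ζ a b := by
  classical
  let φ : (S ⧸ Ideal.span {b}) ≃+* (S' ⧸ Ideal.span {e b}) :=
    Ideal.quotientEquiv _ _ e (by simp [Ideal.map_span])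
  have hφ : ∀ (c : S) (q : S ⧸ Ideal.span {b}), φ (c • q) = e c • φ q := by
    intro c q
    obtain ⟨x, rfl⟩ := Ideal.Quotient.mk_surjective q
    change Ideal.Quotient.mk _ (e (c * x)) = Ideal.Quotient.mk _ (e c * e x)
    rw [map_mul e]
  have : Finite (S' ⧸ Ideal.span {e b}) := Finite.of_equiv _ φ.toEquiv
  cases nonempty_fintype (S ⧸ Ideal.span {b})
  cases nonempty_fintype (S' ⧸ Ideal.span {e b})
  have hζ' : e ζ ^ 2 - e ζ + 1 = 0 := by simpa using congrArg e hζ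
  have h6' : IsUnit (6 : S') := by simpa [map_ofNat] using h6.map e
  have hs' := isSec_sec (Q := S' ⧸ Ideal.span {e b}) hζ' h6'
  have hs : IsSec ζ (S ⧸ Ideal.span {b}) fun q => sec (e ζ) _ (φ q) := fun q hq => by
    simp only [hφ]
    exact hs' _ (by simpa using hq)
  have h' : IsCoprime (e a) (e b) := h.map (e : S →+* S')
  rw [zs, zs, zm_eq hζ' h6' (smul_inj_of_coprime h') hs',
    zm_eq hζ h6 (smul_inj_of_coprime h) hs]
  refine (Fintype.sum_equiv φ.toEquiv _ _ fun q => ?_).symm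
  change (if sec (e ζ) _ (φ q) = 0 then (if q = 0 then 0 else sec (e ζ) _ (φ (a • q))) else 0) =
    if sec (e ζ) _ (φ q) = 0 then (if φ q = 0 then 0 else sec (e ζ) _ (e a • φ q)) else 0
  rw [hφ]
  simp only [EmbeddingLike.map_eq_zero_iff]

namespace IsModel

variable [Fr0] {F : Type} [Field F] [NumberField F] {N J : ℕ} {j : O →+* F}
  (h : IsModel F N J j)

/-- The sixth root of unity `1 + ω` in `RS F N`. -/
def zeta : RS F N := h.equiv (1 + om)


theorem zeta_sq : h.zeta ^ 2 - h.zeta + 1 = 0 := by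
  have := congrArg h.equiv zeta_eq
  rwa [map_add, map_sub, map_pow, map_one, map_zero] at this

theorem zs_equiv {a n : O} (hn : n ≠ 0) (hc : IsCoprime a n) :
    zs h.zeta (h.equiv a) (h.equiv n) = zs (1 + om) a n :=
  have := Fr0.fin_quot n hn
  zs_map_equiv h.equiv zeta_eq isUnit_six hc



theorem nonempty_recT (hR : RecStmt) : Nonempty (RecT F N h.zeta) :=
  have := h.good
  nonempty_RecT hR F N h.zeta h.zeta_sq

/-- `T` only depends on the class. -/
theorem T_congr (hJ : 3 ≤ J) (r : RecT F N h.zeta) {x x' : O} (hx : x ≠ 0) (e : cls x = cls x')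
    {y : F} (hy : y ≠ 0) : r.T (j x) y = r.T (j x') y := by
  have := h.good
  obtain ⟨t, ht, e'⟩ := (h.cls_iff x x' hx (ne_zero_of_cls_eq e.symm hx)).1 e
  obtain ⟨s, p, hp, rfl⟩ := mem_Co.1 (Fi_le_Co ht)
  rw [e', r.mul_left _ _ _ (h.ne_zero hx) (Units.ne_zero _) hy,
    mul_mem (r.pow_six_mem_ker s) (r.PJ_le_ker hJ hp) y hy, add_zero]

open Classical in
/-- Reciprocity in the model, with the explicit factor. -/
theorem recAx_of_recT (hJ : 3 ≤ J) (r : RecT F N h.zeta) :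
    RecAx (fun m n => if m = 0 ∨ n = 0 then 0 else e6 (r.T (j n) (j m))) := by
  have := h.good
  refine recAx_of_T (fun x y => r.T (j x) (j y)) (fun x x' y hx hx' hy => ?_)
    (fun x y hx hy => r.anti _ _ (h.ne_zero hx) (h.ne_zero hy))
    (fun x x' y hx hy e => h.T_congr hJ r hx e (h.ne_zero hy)) (fun a b ha hb hc => ?_)
    (fun b hb => ?_)
  · rw [map_mul, r.mul_left _ _ _ (h.ne_zero hx) (h.ne_zero hx') (h.ne_zero hy)]
  · rw [← h.zs_equiv hb hc, ← h.zs_equiv ha hc.symm]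
    exact r.recip (h.equiv a) (h.equiv b) (by simpa using ha) (by simpa using hb) 
      (hc.map (h.equiv : O →+* RS F N))
  · rw [← h.zs_equiv hb isCoprime_one_left.neg_left, map_neg, map_one]
    exact r.self_eq (b := h.equiv b) (by simpa using hb)

end IsModel

/-- Leaf I-REC. -/
theorem recAx_model [Fr0] {F : Type} [Field F] [NumberField F] {N J : ℕ} {j : O →+* F}
    (hR : RecStmt) (h : IsModel F N J j) (hJ : 3 ≤ J) : ∃ R, RecAx R := by
  obtain ⟨r⟩ := h.nonempty_recT hR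
  exact ⟨_, h.recAx_of_recT hJ r⟩

end Crest.Agent.T27
end
end

-- ▼ part T27/LnkSy_60
section

/-!
# Row 27: the (conjugate) cubic symbol and the cubic bicharacter on `F` (helper60)

`syS ζ x y = conj (x / y)₃` for coprime `x, y ∈ RS F N` (zero otherwise), `ccS T x y = e(-T(x,y)/3)`.
These are the fields `sy`, `cc` of `TH.Ar F`.
-/

set_option autoImplicit false
set_option linter.unusedSectionVars false

noncomputable section

open NumberField
open scoped ComplexConjugate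

namespace Crest.Agent.T27

open Rc

/-- `k ↦ exp(-2πik/3)` on `ZMod 6`. -/
def w3 (k : ZMod 6) : ℂ := ZMod.stdAddChar (4 * k)

theorem w3_add (k l : ZMod 6) : w3 (k + l) = w3 k * w3 l := by
  rw [w3, mul_add, AddChar.map_add_eq_mul]; rfl

theorem w3_zero : w3 0 = 1 := by rw [w3, mul_zero, AddChar.map_zero_eq_one]

theorem w3_cube (k : ZMod 6) : w3 k ^ 3 = 1 := by
  have h : k + k + k = 3 * k := by ring
  have h2 : 4 * (3 * k) = 0 := by rw [← mul_assoc, show (4 * 3 : ZMod 6) = 0 from rfl, zero_mul]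
  calc w3 k ^ 3 = w3 (k + k + k) := by rw [w3_add, w3_add]; ring
    _ = 1 := by rw [h, w3, h2, AddChar.map_zero_eq_one]

theorem norm_w3 (k : ZMod 6) : ‖w3 k‖ = 1 := by
  rw [w3, ZMod.stdAddChar_apply, Circle.norm_coe]

theorem w3_neg (k : ZMod 6) : w3 (-k) = conj (w3 k) := by
  have h1 : w3 (-k) * w3 k = 1 := by rw [← w3_add, neg_add_cancel, w3_zero]
  have h2 : conj (w3 k) * w3 k = 1 := by
    rw [mul_comm, Complex.mul_conj, Complex.normSq_eq_norm_sq, norm_w3]; simp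
  have h3 : w3 k ≠ 0 := right_ne_zero_of_mul_eq_one h1
  exact mul_right_cancel₀ h3 (h1.trans h2.symm)

theorem w3_sub (k l : ZMod 6) : w3 (k - l) = w3 k * conj (w3 l) := by
  rw [sub_eq_add_neg, w3_add, w3_neg]

theorem w3_eq_one_iff {k : ZMod 6} : w3 k = 1 ↔ 4 * k = 0 := by
  rw [w3, ← AddChar.map_zero_eq_one (ZMod.stdAddChar (N := 6)), ZMod.injective_stdAddChar.eq_iff]

theorem cop_of_unit60 {R : Type*} [CommRing R] {u : R} (hu : IsUnit u) (b : R) :
    IsCoprime u b := by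
  obtain ⟨v, hv⟩ := hu.exists_left_inv
  exact ⟨v, 0, by rw [hv, zero_mul, add_zero]⟩

variable {F : Type} [Field F] {N : ℕ}

open Classical in
/-- The conjugate cubic symbol `conj (x / y)₃` on `RS F N`, as a function on `F`. -/
def syS (ζ : RS F N) (x y : F) : ℂ :=
  if h : x ∈ RS F N ∧ y ∈ RS F N then
    if IsCoprime (⟨x, h.1⟩ : RS F N) ⟨y, h.2⟩ then w3 (zs ζ ⟨x, h.1⟩ ⟨y, h.2⟩) else 0
  else 0

/-- The cubic bicharacter. -/
def ccS (T : F → F → ZMod 6) (x y : F) : ℂ := w3 (T x y)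

theorem syS_cop (ζ : RS F N) {x y : RS F N} (h : IsCoprime x y) : syS ζ x y = w3 (zs ζ x y) := by
  rw [syS, dif_pos ⟨x.2, y.2⟩, if_pos h]

theorem syS_ncop (ζ : RS F N) {x y : RS F N} (h : ¬ IsCoprime x y) : syS ζ (x : F) y = 0 := by
  rw [syS, dif_pos ⟨x.2, y.2⟩, if_neg h]

namespace RecT

variable {ζ : RS F N} (h : RecT F N ζ) [NumberField F] [hG : SGood F N]

include h

theorem sy_mul_left : ∀ x ∈ RS F N, ∀ x' ∈ RS F N, ∀ y ∈ RS F N, y ≠ 0 →
    syS ζ (x * x') y = syS ζ x y * syS ζ x' y := by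
  intro x hx x' hx' y hy h0
  lift x to RS F N using hx
  lift x' to RS F N using hx'
  lift y to RS F N using hy
  have := h.fin y fun e => h0 (by rw [e]; rfl)
  rw [← Subring.coe_mul]
  by_cases h1 : IsCoprime x y
  · by_cases h2 : IsCoprime x' y
    · rw [syS_cop ζ h1, syS_cop ζ h2, syS_cop ζ (h1.mul_left h2),
        zs_mul_left h.zeta isUnit_six_RS h1 h2, w3_add]
    · rw [syS_ncop ζ h2, mul_zero, syS_ncop ζ fun e => h2 e.of_mul_left_right]
  · rw [syS_ncop ζ h1, zero_mul, syS_ncop ζ fun e => h1 e.of_mul_left_left]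

theorem sy_mul_right : ∀ x ∈ RS F N, ∀ y ∈ RS F N, ∀ y' ∈ RS F N, y ≠ 0 → y' ≠ 0 →
    syS ζ x (y * y') = syS ζ x y * syS ζ x y' := by
  intro x hx y hy y' hy' h0 h0'
  lift x to RS F N using hx
  lift y to RS F N using hy
  lift y' to RS F N using hy'
  have n1 : y ≠ 0 := fun e => h0 (by rw [e]; rfl)
  have n2 : y' ≠ 0 := fun e => h0' (by rw [e]; rfl)
  have := h.fin _ (mul_ne_zero n1 n2)
  rw [← Subring.coe_mul]
  by_cases h1 : IsCoprime x y
  · by_cases h2 : IsCoprime x y'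
    · rw [syS_cop ζ h1, syS_cop ζ h2, syS_cop ζ (h1.mul_right h2),
        zs_mul_right h.zeta isUnit_six_RS n1 (h1.mul_right h2), w3_add]
    · rw [syS_ncop ζ h2, mul_zero, syS_ncop ζ fun e => h2 e.of_mul_right_right]
  · rw [syS_ncop ζ h1, zero_mul, syS_ncop ζ fun e => h1 e.of_mul_right_left]

theorem sy_congr : ∀ x ∈ RS F N, ∀ y ∈ RS F N, ∀ t ∈ RS F N, y ≠ 0 →
    syS ζ (x + y * t) y = syS ζ x y := by
  intro x hx y hy t ht _
  lift x to RS F N using hx
  lift y to RS F N using hy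
  lift t to RS F N using ht
  rw [← Subring.coe_mul, ← Subring.coe_add]
  by_cases h1 : IsCoprime x y
  · rw [syS_cop ζ h1, syS_cop ζ (h1.add_mul_left_left t), zs_congr ζ (a' := x) ⟨t, by ring⟩]
  · rw [syS_ncop ζ h1, syS_ncop ζ fun e => h1 (IsCoprime.add_mul_left_left_iff.1 e)]

theorem sy_unit : ∀ x ∈ RS F N, ∀ y ∈ RS F N, y ≠ 0 → y⁻¹ ∈ RS F N → syS ζ x y = 1 := by
  intro x hx y hy h0 hi
  lift x to RS F N using hx
  lift y to RS F N using hy
  have hu : IsUnit y := isUnit_iff_subring.2 ⟨h0, hi⟩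
  rw [syS_cop ζ (cop_of_unit60 hu x).symm, zs_unit ζ x hu, w3_zero]

theorem sy_cube (x y : RS F N) (_ : y ≠ 0) (hc : IsCoprime x y) : syS ζ (x : F) y ^ 3 = 1 := by
  rw [syS_cop ζ hc, w3_cube]

theorem sy_nontriv (p : RS F N) (hp : Prime p) :
    ∃ x : RS F N, IsCoprime x p ∧ syS ζ (x : F) p ≠ 1 := by
  have hfin := h.fin p hp.ne_zero
  have hpr : (Ideal.span {p}).IsPrime := (Ideal.span_singleton_prime hp.ne_zero).2 hp
  set K := RS F N ⧸ Ideal.span {p} with hK
  obtain ⟨g, hg⟩ := IsCyclic.exists_generator (α := Kˣ)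
  obtain ⟨x, hx⟩ := Ideal.Quotient.mk_surjective (g : K)
  have hnd : ¬ p ∣ x := fun e => g.ne_zero (by
    rw [← hx]; exact Ideal.Quotient.eq_zero_iff_mem.2 (Ideal.mem_span_singleton.2 e))
  have hc : IsCoprime x p := ((hp.irreducible.coprime_iff_not_dvd).2 hnd).symm
  refine ⟨x, hc, fun e => ?_⟩
  rw [syS_cop ζ hc, w3_eq_one_iff] at e
  have h1 := zs_prime h.zeta isUnit_six_RS hp hnd
  have h2 : ((Ideal.Quotient.mk (Ideal.span {p})) x) ^ ((Nat.card K - 1) / 6) =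
      (Ideal.Quotient.mk (Ideal.span {p}) ζ) ^ (zs ζ x p).val := by
    rw [← map_pow, ← map_pow]
    exact Ideal.Quotient.eq.2 (Ideal.mem_span_singleton.2 h1)
  have h3 : ζ ^ ((zs ζ x p).val * 2) = 1 := by
    have : 6 ∣ (zs ζ x p).val * 2 := by
      generalize zs ζ x p = k at e
      revert k; decide
    obtain ⟨c, hc⟩ := this
    rw [hc, pow_mul, zeta_six h.zeta, one_pow]
  have h4 : g ^ ((Nat.card K - 1) / 6 * 2) = 1 := by
    apply Units.ext
    rw [Units.val_pow_eq_pow_val, ← hx, pow_mul, h2, ← pow_mul, ← map_pow, h3, map_one,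
      Units.val_one]
  have h5 := orderOf_dvd_of_pow_eq_one h4
  let _ : Field K := (Finite.isField_of_domain K).toField
  rw [orderOf_eq_card_of_forall_mem_zpowers hg, Nat.card_units] at h5
  have h6 := card_eq (Q := K) h.zeta isUnit_six_RS
  have h7 : 1 < Nat.card K := Finite.one_lt_card
  have h8 := Nat.le_of_dvd (by omega) h5
  omega

theorem cc_mul_left (x x' y : F) (hx : x ≠ 0) (hx' : x' ≠ 0) (hy : y ≠ 0) :
    ccS h.T (x * x') y = ccS h.T x y * ccS h.T x' y := by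
  rw [ccS, h.mul_left _ _ _ hx hx' hy, w3_add]; rfl

theorem cc_mul_right (x y y' : F) (hx : x ≠ 0) (hy : y ≠ 0) (hy' : y' ≠ 0) :
    ccS h.T x (y * y') = ccS h.T x y * ccS h.T x y' := by
  rw [ccS, h.mul_right hx hy hy', w3_add]; rfl

theorem cc_swap (x y : F) (hx : x ≠ 0) (hy : y ≠ 0) : ccS h.T x y * ccS h.T y x = 1 := by
  rw [ccS, ccS, ← w3_add, h.anti x y hx hy, add_neg_cancel, w3_zero]

theorem cc_P : ∀ z ∈ LS F N, ∀ y : F, y ≠ 0 → ccS h.T (1 + (N : F) ^ 3 * z) y = 1 := by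
  intro z hz y hy
  rw [ccS, h.deep_LS hz hy, w3_zero]

theorem cc_eq (x y : RS F N) (hx : x ≠ 0) (hy : y ≠ 0) (hc : IsCoprime x y) :
    ccS h.T x y = syS ζ (x : F) y * conj (syS ζ (y : F) x) := by
  rw [ccS, h.recip x y hx hy hc, w3_sub, syS_cop ζ hc, syS_cop ζ hc.symm]

end RecT

end Crest.Agent.T27
end
end

-- ▼ part T27/SarCnt_21
section

/-!
# Row 27: the number of ideals of `O_F[1/N]` of norm at most `X` is at most `kp * X`
-/

set_option autoImplicit false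

noncomputable section

namespace Crest.Agent.T27

open NumberField Filter
open scoped nonZeroDivisors

variable {F : Type*} [Field F] [NumberField F] {N : ℕ}

namespace SC21

/-- The contraction of the ideal `(x)` of `R`. -/
def idl (x : RS F N) : Ideal (𝓞 F) :=
  (Ideal.span {x}).comap (algebraMap (𝓞 F) (RS F N))

theorem card_eq (hN : N ≠ 0) {x : RS F N} (hx : x ≠ 0) :
    Nat.card (RS F N ⧸ Ideal.span {x}) = Ideal.absNorm (idl x) := by
  have hx' : (x : F) ≠ 0 := fun h => hx (Subtype.ext h)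
  rw [Ideal.absNorm_apply, Submodule.cardQuot_apply]
  symm
  refine Nat.card_eq_of_bijective
    (Ideal.quotientMap (Ideal.span {x}) (algebraMap (𝓞 F) (RS F N)) le_rfl)
    ⟨Ideal.quotientMap_injective, fun q => ?_⟩
  obtain ⟨r, rfl⟩ := Ideal.Quotient.mk_surjective q
  obtain ⟨a, ⟨t, ht, ha⟩, -⟩ := exists_approx_int (N := N) hN (a := (r : F)) (b := 0) hx'
    one_ne_zero x.2 (one_mem _) r.2 (zero_mem _)
  refine ⟨Ideal.Quotient.mk _ a, ?_⟩
  refine (Ideal.quotientMap_mk (x := a)).trans ?_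
  rw [Ideal.Quotient.eq, Ideal.mem_span_singleton]
  refine ⟨⟨t, ht⟩, Subtype.ext ?_⟩
  simp [ha]

omit [NumberField F] in
theorem exists_mem (x : RS F N) : ∃ (k : ℕ) (a : 𝓞 F), a ∈ idl x ∧
    algebraMap (𝓞 F) (RS F N) a = (N : RS F N) ^ k * x := by
  obtain ⟨k, a, h⟩ := exists_eq_of_mem_RS x.2
  have h1 : algebraMap (𝓞 F) (RS F N) a = (N : RS F N) ^ k * x := Subtype.ext (by simp [h])
  refine ⟨k, a, ?_, h1⟩
  rw [idl, Ideal.mem_comap, h1, Ideal.mem_span_singleton]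
  exact dvd_mul_left _ _

theorem isUnit_N (hN : N ≠ 0) : IsUnit (N : RS F N) :=
  isUnit_natCast_LocS (zero_notMem_powers hN) (Submonoid.mem_powers N) dvd_rfl

theorem idl_ne (hN : N ≠ 0) {x : RS F N} (hx : x ≠ 0) : idl x ≠ ⊥ := by
  obtain ⟨k, a, ha, h⟩ := exists_mem x
  intro h0
  rw [h0, Ideal.mem_bot] at ha
  rw [ha, map_zero] at h
  exact mul_ne_zero ((isUnit_N hN).pow k).ne_zero hx h.symm

theorem dvd_of_le (hN : N ≠ 0) {x y : RS F N} (h : idl x ≤ idl y) : y ∣ x := by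
  obtain ⟨k, a, ha, h1⟩ := exists_mem x
  have h2 := h ha
  rw [idl, Ideal.mem_comap, h1, Ideal.mem_span_singleton] at h2
  exact (((isUnit_N hN).pow k).dvd_mul_left).1 h2

theorem count_ideals (F : Type*) [Field F] [NumberField F] : ∃ kp : ℕ, ∀ X : ℕ,
    Nat.card {I : (Ideal (𝓞 F))⁰ // Ideal.absNorm (I : Ideal (𝓞 F)) ≤ X} ≤ kp * X := by
  have h := (Ideal.tendsto_norm_le_div_atTop₀ F).comp tendsto_natCast_atTop_atTop
  obtain ⟨B, hB⟩ := h.bddAbove_range
  obtain ⟨kp, hkp⟩ := exists_nat_ge B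
  refine ⟨kp, fun X => ?_⟩
  rcases Nat.eq_zero_or_pos X with rfl | hX
  · have : IsEmpty {I : (Ideal (𝓞 F))⁰ // Ideal.absNorm (I : Ideal (𝓞 F)) ≤ 0} := ⟨fun I => by
      have h1 := I.2
      rw [Nat.le_zero, Ideal.absNorm_eq_zero_iff] at h1
      exact nonZeroDivisors.ne_zero I.1.2 h1⟩
    rw [Nat.card_of_isEmpty]
    exact Nat.zero_le _
  · have h1 := hB ⟨X, rfl⟩
    simp only [Function.comp, Nat.cast_le] at h1
    have hX' : (0 : ℝ) < X := by exact_mod_cast hX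
    rw [div_le_iff₀ hX'] at h1
    have h2 : (Nat.card {I : (Ideal (𝓞 F))⁰ // Ideal.absNorm (I : Ideal (𝓞 F)) ≤ X} : ℝ) ≤
        kp * X := h1.trans (by gcongr)
    exact_mod_cast h2

end SC21

open SC21


theorem count_nm_21 (F : Type*) [Field F] [NumberField F] {N : ℕ} (hN : N ≠ 0) :
    ∃ kp : ℕ, ∀ (X : ℕ) (S : Finset (RS F N)),
      (∀ x ∈ S, x ≠ 0 ∧ Nat.card (RS F N ⧸ Ideal.span {x}) ≤ X) →
      (∀ x ∈ S, ∀ y ∈ S, Associated x y → x = y) → S.card ≤ kp * X := by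
  obtain ⟨kp, h⟩ := count_ideals F
  refine ⟨kp, fun X S h1 h2 => le_trans ?_ (h X)⟩
  have : Finite {I : (Ideal (𝓞 F))⁰ // Ideal.absNorm (I : Ideal (𝓞 F)) ≤ X} :=
    Ideal.finite_setOfPred_absNorm_le₀ X
  rw [← Nat.card_eq_finsetCard]
  refine Nat.card_le_card_of_injective
    (fun x : S => (⟨⟨idl x.1, mem_nonZeroDivisors_of_ne_zero (idl_ne hN (h1 _ x.2).1)⟩, by
      rw [← card_eq hN (h1 _ x.2).1]; exact (h1 _ x.2).2⟩ :
        {I : (Ideal (𝓞 F))⁰ // Ideal.absNorm (I : Ideal (𝓞 F)) ≤ X})) fun x y hxy => ?_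
  have h3 : idl x.1 = idl y.1 := by simpa using hxy
  exact Subtype.ext (h2 _ x.2 _ y.2
    (associated_of_dvd_dvd (dvd_of_le hN h3.ge) (dvd_of_le hN h3.le)))

theorem count_real_21 (F : Type*) [Field F] [NumberField F] {N : ℕ} (hN : N ≠ 0) :
    ∃ C : ℝ, ∀ (X : ℝ) (S : Finset (RS F N)), 0 ≤ X →
      (∀ x ∈ S, x ≠ 0 ∧ (Nat.card (RS F N ⧸ Ideal.span {x}) : ℝ) ≤ X) →
      (∀ x ∈ S, ∀ y ∈ S, Associated x y → x = y) → (S.card : ℝ) ≤ C * X := by
  obtain ⟨kp, h⟩ := count_nm_21 F hN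
  refine ⟨kp, fun X S hX h1 h2 => ?_⟩
  have h3 := h ⌊X⌋₊ S (fun x hx => ⟨(h1 x hx).1, Nat.le_floor (h1 x hx).2⟩) h2
  have h4 : (S.card : ℝ) ≤ kp * (⌊X⌋₊ : ℝ) := by exact_mod_cast h3
  exact h4.trans (by gcongr; exact Nat.floor_le hX)


end Crest.Agent.T27
end
end

-- ▼ part T27/LnkAr_60

/-!
# Row 27: the instance `TH.Ar F` for `R = RS F N`, and its dictionary with a model frame (helper60)
-/

set_option autoImplicit false
set_option linter.unusedSectionVars false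

noncomputable section

open NumberField
open scoped ComplexConjugate

namespace Crest.Agent.T27

open Rc

/-- Transport of the symbol `zs` along a ring isomorphism of principal ideal domains. -/
theorem zs_equiv60 {S S' : Type*} [CommRing S] [CommRing S'] [IsDomain S] [IsDomain S']
    [IsPrincipalIdealRing S] (e : S ≃+* S') {ζ : S} (hζ : ζ ^ 2 - ζ + 1 = 0) (h6 : IsUnit (6 : S))
    (hfin : ∀ b : S, b ≠ 0 → Finite (S ⧸ Ideal.span {b})) (a : S) {b : S} (hb : b ≠ 0)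
    (hab : IsCoprime a b) : zs (e ζ) (e a) (e b) = zs ζ a b := by
  have hζ' : e ζ ^ 2 - e ζ + 1 = 0 := by simpa using congrArg e hζ
  have h6' : IsUnit (6 : S') := by simpa only [map_ofNat] using h6.map e
  have q : ∀ c : S, (S ⧸ Ideal.span {c}) ≃+* (S' ⧸ Ideal.span {e c}) := fun c =>
    Ideal.quotientEquiv _ _ e (by simp [Ideal.map_span])
  induction b using UniqueFactorizationMonoid.induction_on_prime with
  | h₁ => exact absurd rfl hb
  | h₂ x hx => rw [zs_unit _ _ hx, zs_unit _ _ (hx.map e)]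
  | h₃ c p hc hp ih =>
    have f1 := hfin _ hb
    have f2 : Finite (S' ⧸ Ideal.span {e p * e c}) := by
      rw [← map_mul]; exact Finite.of_equiv _ (q _).toEquiv
    have f3 := hfin _ hp.ne_zero
    have f4 : Finite (S' ⧸ Ideal.span {e p}) := Finite.of_equiv _ (q _).toEquiv
    have hp' : Prime (e p) := (MulEquiv.prime_iff e).2 hp
    have hab' : IsCoprime (e a) (e p * e c) := by rw [← map_mul]; exact hab.map (e : S →+* S')
    rw [map_mul, zs_mul_right hζ h6 hp.ne_zero hab, zs_mul_right hζ' h6' hp'.ne_zero hab',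
      ih hc hab.of_mul_right_right]
    congr 1
    have hnd : ¬ p ∣ a := fun h => hp.not_isUnit (hab.of_mul_right_left.isUnit_of_dvd' h dvd_rfl)
    have h1 := zs_prime hζ h6 hp hnd
    have h2 := zs_prime hζ' h6' hp' (a := e a) fun h => hnd ((map_dvd_iff e).1 h)
    rw [← Nat.card_congr (q p).toEquiv] at h2
    have h3 := (map_dvd_iff e).2 h1
    rw [map_sub, map_pow, map_pow] at h3
    refine val_inj hζ' h6' hp'.not_isUnit ?_
    have h4 := dvd_sub h3 h2
    rwa [sub_sub_sub_cancel_left] at h4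

theorem w3_eq_conj (k : ZMod 6) : w3 k = conj (e6 k ^ 2) := by
  rw [map_pow, ← e6_neg, ← e6_nsmul, w3, e6]
  congr 1
  revert k; decide

variable {F : Type} [Field F] [NumberField F] [TH.Emb F] {N : ℕ} [hG : SGood F N]

/-- Existence of a transversal of `Rˣ / (Rˣ)³`. -/
def EStmt (F : Type) [Field F] (N : ℕ) : Prop :=
  ∃ E : Finset F, (∀ η ∈ E, η ≠ 0 ∧ η ∈ RS F N ∧ η⁻¹ ∈ RS F N) ∧
    ∀ u : F, u ≠ 0 → u ∈ RS F N → u⁻¹ ∈ RS F N →
      ∃! η, η ∈ E ∧ ∃ v : F, v ≠ 0 ∧ v ∈ RS F N ∧ v⁻¹ ∈ RS F N ∧ u = η * v ^ 3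

/-- Finiteness of `Fˣ / (Rˣ P_J)`. -/
def FinClStmt (F : Type) [Field F] (N : ℕ) : Prop :=
  ∀ J : ℕ, ∃ T : Finset F, (∀ t ∈ T, t ≠ 0) ∧ ∀ x : F, x ≠ 0 → ∃ t ∈ T, ∃ u : F,
    u ≠ 0 ∧ u ∈ RS F N ∧ u⁻¹ ∈ RS F N ∧ ∃ y ∈ LS F N, x = u * t * (1 + (N : F) ^ J * y)

/-- The arithmetic data of the theta function for `R = 𝓞_F[1/N]`. -/
@[reducible] def arOf60 {ζ : RS F N} (r : RecT F N ζ) (hE : EStmt F N) (hC : FinClStmt F N) :
    TH.Ar F where
  N := N
  two_le := SGood.one_lt F N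
  R := RS F N
  L := LS F N
  mem_R _ := mem_RS
  mem_L _ := mem_LS
  pidR := inferInstance
  pidL := inferInstance
  int_of _ := isIntegral_of_mem_RS_LS
  approx x _ hy := exists_add_mul hG.ne hy x
  unit_P _ hy := one_add_mul_LS hy
  pow_mem_L := exists_pow_mul_mem_LS hG.ne
  nm := nmQ (Submonoid.powers N)
  nm_mul := nmQ_mul (SGood.h0R F N)
  nm_pos _ hx := nmQ_pos (SGood.h0R F N) hx
  fin_quot _ hx := finite_quot_RS hx
  nm_eq x _ := nmQ_coe (SGood.h0R F N) x
  nm_unitL x hx h1 h2 := by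
    have h3 : absS N x = 1 := absS_of_mem_UL (x := Units.mk0 x hx) ⟨h1, h2⟩
    rw [nmQ_eq_absS, TH.G.nF_eq, h3, one_mul]
  count_nm := by
    obtain ⟨C, hC⟩ := count_real_21 F hG.ne
    refine ⟨C, fun X S hX h1 h2 => hC X S hX (fun x hx => ⟨(h1 x hx).1, ?_⟩) h2⟩
    have := (h1 x hx).2
    rwa [nmQ_coe (SGood.h0R F N)] at this
  E := hE.choose
  E_unit := hE.choose_spec.1
  E_rep := hE.choose_spec.2
  fin_cl := hC
  psi := psiS N
  psi_add := psiS_add hG.ne
  psi_R _ hx := psiS_of_mem_RS hG.ne hx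
  psi_L x hx := by rw [psiS_of_mem_LS hG.ne hx, TH.G.eF_eq, eTr]
  psi_prim _ h := mem_RS_of_psiS h
  sy := syS ζ
  sy_mul_left := r.sy_mul_left
  sy_mul_right := r.sy_mul_right
  sy_congr := r.sy_congr
  sy_unit := r.sy_unit
  sy_cube := r.sy_cube
  sy_zero _ _ _ h := syS_ncop ζ h
  sy_nontriv := r.sy_nontriv
  cc := ccS r.T
  cc_mul_left := r.cc_mul_left
  cc_mul_right := r.cc_mul_right
  cc_cube _ _ _ _ := w3_cube _
  cc_swap := r.cc_swap
  kc := 3
  one_le_kc := by norm_num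
  cc_P := r.cc_P
  cc_eq := r.cc_eq

omit hG in
/-- The symbol of `arOf60` is the conjugate of the cubic symbol of a model frame. -/
theorem IsModel.syS_eq [Fr0] {J : ℕ} {j : O →+* F} (h : IsModel F N J j) (x : O) {n : O}
    (hn : n ≠ 0) : syS (h.equiv (1 + om)) (j x) (j n) = conj (cub n x) := by
  rw [← h.coe_equiv, ← h.coe_equiv]
  by_cases hc : IsCoprime x n
  · have hc' : IsCoprime (h.equiv x) (h.equiv n) := hc.map (h.equiv : O →+* RS F N)
    rw [syS_cop _ hc', zs_equiv60 h.equiv zeta_eq Fr0.unit_six Fr0.fin_quot x hn hc, cub_eq_e6 hn hc, w3_eq_conj]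
  · rw [(cub_eq_zero_iff' hn).2 fun e => hc e.symm, map_zero, syS_ncop]
    intro e
    simpa using hc (by simpa using e.map (h.equiv.symm : RS F N →+* O))

omit hG in
/-- **The instance `TH.Ar F` attached to a model frame, with its dictionary.** -/
theorem exists_ar60 (hR : RecStmt) [Fr0] {J : ℕ} {j : O →+* F} (h : IsModel F N J j)
    (hJ : 3 ≤ J) :
    ∃ A : TH.Ar F, A.N = N ∧ A.R = RS F N ∧ A.L = LS F N ∧ A.kc = 3 ∧
      (∀ x n : O, n ≠ 0 → A.sy (j x) (j n) = conj (cub n x)) ∧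
      (∀ x n : O, A.psi (j x / j n) = eq x n) ∧
      (∀ n : O, A.nm (j n) = nr n) ∧
      (∀ t ∈ Co F N J, ∀ y : F, y ≠ 0 → A.cc t y = 1) ∧
      (∀ x : F, TH.absS x = absS N x) := by
  have := h.good
  have hζ : h.equiv (1 + om) ^ 2 - h.equiv (1 + om) + 1 = 0 := by
    simpa using congrArg h.equiv zeta_eq
  obtain ⟨r⟩ := nonempty_RecT hR F N _ hζ
  refine ⟨arOf60 r (exists_E_95 this.ne) fin_cl_95, rfl, rfl, rfl, rfl, fun x n hn => h.syS_eq x hn,
    fun x n => (h.eq_eq x n).symm, fun n => (h.nr_eq_nmQ n).symm, fun t ht y hy => ?_, fun x => ?_⟩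
  · obtain ⟨s, p, hp, rfl⟩ := mem_Co.1 ht
    show w3 _ = 1
    rw [r.mem_ker.1 (r.ker.mul_mem (r.pow_six_mem_ker s) (r.PJ_le_ker hJ hp)) y hy, w3_zero]
  · show nmQ (Submonoid.powers N) x / TH.nF x = _
    by_cases hx : x = 0
    · rw [hx, nmQ_zero (SGood.h0R F N), zero_div, absS_zero]
    · rw [nmQ_eq_absS, ← TH.G.nF_eq, mul_div_cancel_right₀ _ (TH.G.nF_pos hx).ne']

end Crest.Agent.T27
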