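import Crest.Agent.T27.MainA_94

/-!
# Row 27, theta leaf C2 (helper94), part B: the main formula and the Whittaker function
-/

set_option autoImplicit false

noncomputable section

namespace Crest.Agent.T27.TH

open scoped ComplexConjugate
open NumberField

namespace M94

variable {F : Type} [Field F] [NumberField F] [Emb F]

theorem nF_mul (x y : F) : nF (x * y) = nF x * nF y := by
  simp only [nF, em, map_mul, norm_mul, mul_pow, Finset.prod_mul_distrib]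

theorem nF_pos {x : F} (hx : x ≠ 0) : 0 < nF x :=
  Finset.prod_pos fun j _ => pow_pos (norm_pos_iff.2 ((map_ne_zero (Emb.σ j)).2 hx)) 2

theorem eF_zero : eF (0 : F) = 1 := by simp [eF, eV, em]


variable [Ar F]

theorem absS_mul (x y : F) : absS (x * y) = absS x * absS y := by
  rw [absS, absS, absS, Ar.nm_mul, nF_mul, mul_div_mul_comm]

theorem absS_pos {x : F} (hx : x ≠ 0) : 0 < absS x := div_pos (Ar.nm_pos x hx) (nF_pos hx)

theorem absS_ur {u : F} (hu : UR u) : absS u = (nF u)⁻¹ := by rw [absS, nm_ur hu, one_div]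

theorem N_ne : (Ar.N F : F) ≠ 0 := by
  have := Ar.two_le (F := F)
  exact Nat.cast_ne_zero.2 (by omega)

theorem deep_mono {j j' : ℕ} (h : j ≤ j') {x : F} (hx : Deep j' x) : Deep j x := by
  obtain ⟨y, hy, rfl⟩ := hx
  obtain ⟨k, rfl⟩ := Nat.exists_eq_add_of_le h
  exact ⟨(Ar.N F : F) ^ k * y, mul_mem (pow_mem (natCast_mem _ _) _) hy, by ring⟩

theorem PJ_unit {J : ℕ} (hJ : 1 ≤ J) {k : F} (hk : PJ J k) :
    k ≠ 0 ∧ k ∈ (Ar.L : Subring F) ∧ k⁻¹ ∈ (Ar.L : Subring F) := by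
  obtain ⟨y, hy, h⟩ := deep_mono hJ hk
  have hk' : k = 1 + (Ar.N F : F) * y := by rw [pow_one] at h; linear_combination h
  rw [hk']
  exact ⟨(Ar.unit_P y hy).1, add_mem (one_mem _) (mul_mem (natCast_mem _ _) hy), (Ar.unit_P y hy).2⟩

theorem absS_PJ {J : ℕ} (hJ : 1 ≤ J) {k : F} (hk : PJ J k) : absS k = 1 := by
  obtain ⟨h0, h1, h2⟩ := PJ_unit hJ hk
  rw [absS, Ar.nm_unitL k h0 h1 h2, div_self (nF_pos h0).ne']

theorem mem_L_of_int {x : F} (hx : IsIntegral ℤ x) : x ∈ (Ar.L : Subring F) :=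
  (Ar.mem_L x).2 ⟨1, Nat.coprime_one_left _, by simpa using hx⟩

theorem mem_R_of_int {x : F} (hx : IsIntegral ℤ x) : x ∈ (Ar.R : Subring F) :=
  (Ar.mem_R x).2 ⟨0, by simpa using hx⟩

theorem pow_mem_L_mono {j j' : ℕ} (h : j ≤ j') {x : F}
    (hx : (Ar.N F : F) ^ j * x ∈ (Ar.L : Subring F)) :
    (Ar.N F : F) ^ j' * x ∈ (Ar.L : Subring F) := by
  obtain ⟨k, rfl⟩ := Nat.exists_eq_add_of_le h
  have : (Ar.N F : F) ^ (j + k) * x = (Ar.N F : F) ^ k * ((Ar.N F : F) ^ j * x) := by ring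
  rw [this]
  exact mul_mem (pow_mem (natCast_mem _ _) _) hx

theorem test_zero {f : F × F → ℂ} (hf : Test f) : f 0 = 0 := by
  obtain ⟨j, hj⟩ := hf
  by_contra h
  obtain ⟨-, -, a, -, b, -, hab⟩ := hj.supp 0 h
  simp only [Prod.fst_zero, Prod.snd_zero, mul_zero, add_zero] at hab
  exact pow_ne_zero j N_ne hab.symm

theorem xiF_smul (a : ℂ) (f : F × F → ℂ) :
    xiF (fun u => a * f u) = fun u => a * xiF f u := by
  funext u
  simp only [xiF]
  split_ifs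
  · ring
  · ring


theorem good (hC : CuspStmt F) {f : F × F → ℂ} (hf : Test f) : Good (xiF f) := by
  obtain ⟨κ, -, h⟩ := hC
  exact (h f hf).1

theorem tau_smul (hC : CuspStmt F) (hA : TauStmt F) {f : F × F → ℂ} (hf : Test f) (a : ℂ) (r : F) :
    tau (xiF fun u => a * f u) r = a * tau (xiF f) r := by
  rw [xiF_smul, hA.tau_smul a _ (good hC hf)]

theorem WF_unit (hO : OpStmt F) (hC : CuspStmt F) (hA : TauStmt F) {f : F × F → ℂ} (hf : Test f)
    {u : F} (hu : UR u) : WF f u = tt f u := by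
  have h0 := hu.1
  have hn := nF_pos h0
  have e1 : (1 : F) * u ^ 2 / u = u := by field_simp
  have e2 : (nF u)⁻¹ ^ (3 / 2 : ℝ) * (nF u * nF (u ^ 2) ^ (1 / 3 : ℝ)) = nF u ^ (1 / 6 : ℝ) := by
    rw [pow_two, nF_mul, Real.mul_rpow hn.le hn.le, Real.inv_rpow hn.le, ← Real.rpow_neg hn.le]
    nth_rewrite 2 [← Real.rpow_one (nF u)]
    rw [← Real.rpow_add hn, ← Real.rpow_add hn, ← Real.rpow_add hn]
    norm_num
  rw [WF, hO.xi_opT_unit f u hu, hA.tau_tri _ (good hC hf) _ _ _ _ (pow_ne_zero 2 h0) h0, e1,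
    mul_zero, zero_div, neg_zero, eF_zero, mul_one, tt, absS_ur hu, ← e2]
  push_cast
  ring

theorem WF_opT (hO : OpStmt F) (hC : CuspStmt F) (hA : TauStmt F) {f : F × F → ℂ} (hf : Test f)
    {t r : F} (ht : t ≠ 0) (hr : r ≠ 0) :
    ((absS t ^ (3 / 2 : ℝ) : ℝ) : ℂ) * WF (opT t f) r = conj (Ar.cc t r) * WF f (t * r) := by
  rw [WF, WF, hO.opT_opT f t r ht hr (test_zero hf),
    tau_smul hC hA (hO.test_opT f _ (mul_ne_zero ht hr) hf), absS_mul,
    Real.mul_rpow (absS_pos ht).le (absS_pos hr).le]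
  push_cast
  ring

theorem WF_cube (hO : OpStmt F) (hC : CuspStmt F) {f : F × F → ℂ} (hf : Test f)
    {m r : F} (hm : m ≠ 0) (hr : r ≠ 0) :
    WF f (m ^ 3 * r) = ((Real.sqrt (absS m) : ℝ) : ℂ) * WF (opC m f) r := by
  obtain ⟨κ, -, h⟩ := hC
  have hp := absS_pos hm
  have e : (absS m * (absS m * absS m)) ^ (3 / 2 : ℝ) * (absS m ^ 4)⁻¹ = Real.sqrt (absS m) := by
    rw [← pow_three, ← Real.rpow_natCast, ← Real.rpow_natCast, ← Real.rpow_mul hp.le,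
      ← Real.rpow_neg hp.le, ← Real.rpow_add hp, Real.sqrt_eq_rpow]
    norm_num
  rw [WF, WF, hO.opT_cube f r m hr hm (test_zero hf),
    (h _ (hO.test_opT _ r hr (hO.test_opC f m hm hf))).2.2.2.1 m hm, absS_mul,
    Real.mul_rpow (absS_pos (pow_ne_zero 3 hm)).le (absS_pos hr).le, pow_three, absS_mul, absS_mul,
    ← e]
  push_cast
  ring

theorem main_R (hO : OpStmt F) (hC : CuspStmt F) (hA : TauStmt F) (hH : HeckeStmt F) (r : RR F) :
    r ≠ 0 → ∀ f : F × F → ℂ, Test f → tt f r = thF (r : F) * WF f r := by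
  induction r using (wellFounded_dvdNotUnit (α := RR F)).induction with
  | _ r ih =>
  intro hr f hf
  by_cases hu : IsUnit r
  · rw [thF_unit hu, one_mul, WF_unit hO hC hA hf (ur_of_isUnit hu)]
  obtain ⟨p, hp, r₁, rfl⟩ := WfDvdMonoid.exists_irreducible_factor hu hr
  have hp : Prime p := hp.prime
  have hp0 := coe_ne hp.ne_zero
  have hr₁ : r₁ ≠ 0 := right_ne_zero_of_mul hr
  by_cases h1 : p ∣ r₁
  · obtain ⟨r₂, rfl⟩ := h1
    have hr₂ : r₂ ≠ 0 := right_ne_zero_of_mul hr₁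
    by_cases h2 : p ∣ r₂
    · obtain ⟨r₃, rfl⟩ := h2
      have hr₃ : r₃ ≠ 0 := right_ne_zero_of_mul hr₂
      have e : ((p * (p * (p * r₃)) : RR F) : F) = (p : F) ^ 3 * r₃ := by
        simp only [Subring.coe_mul]; ring
      have hlt : DvdNotUnit r₃ (p * (p * (p * r₃))) :=
        ⟨hr₃, p * (p * p), fun h => hp.not_isUnit (isUnit_of_mul_isUnit_left h), by ring⟩
      rw [e, (hH f hf p r₃ hp hr₃).1, ih r₃ hlt hr₃ _ (hO.test_opC f _ hp0 hf), thF_cube hp,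
        WF_cube hO hC hf hp0 (coe_ne hr₃), Real.sqrt_mul (absS_pos hp0).le]
      push_cast
      ring
    · have e : ((p * (p * r₂) : RR F) : F) = (p : F) ^ 2 * r₂ := by
        simp only [Subring.coe_mul]; ring
      rw [e, (hH f hf p r₂ hp hr₂).2.1 h2, thF_sq hp h2, zero_mul]
  · have hlt : DvdNotUnit r₁ (p * r₁) := ⟨hr₁, p, hp.not_isUnit, by ring⟩
    have h := WF_opT hO hC hA hf hp0 (coe_ne hr₁)
    rw [Subring.coe_mul, (hH f hf p r₁ hp hr₁).2.2 h1, ih r₁ hlt hr₁ _ (hO.test_opT f _ hp0 hf),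
      thF_prime hp h1]
    linear_combination gn (r₁ : F) p * thF (r₁ : F) * h

theorem main (hO : OpStmt F) (hC : CuspStmt F) (hA : TauStmt F) (hH : HeckeStmt F)
    (f : F × F → ℂ) (hf : Test f) (r : F) (hr : r ≠ 0) : tt f r = thF r * WF f r := by
  by_cases h : r ∈ (Ar.R : Subring F)
  · exact main_R hO hC hA hH ⟨r, h⟩ (fun h' => hr (congrArg Subtype.val h')) f hf
  · obtain ⟨κ, -, hκ⟩ := hC
    have : tau (xiF f) r = 0 := by
      by_contra h'
      exact h ((hκ f hf).2.2.2.2 r h')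
    rw [tt, this, thF_of_not_mem h, zero_mul, zero_mul]

theorem W_P' (hO : OpStmt F) (f : F × F → ℂ) (hf : Test f) :
    ∃ J, 1 ≤ J ∧ ∀ r k : F, r ≠ 0 → PJ J k → WF f (r * k) = WF f r := by
  obtain ⟨J, hJ⟩ := hO.opT_P f hf
  refine ⟨max J 1, le_max_right _ _, fun r k hr hk => ?_⟩
  rw [WF, WF, hJ r k hr (deep_mono (le_max_left _ _) hk), absS_mul,
    absS_PJ (le_max_right _ _) hk, mul_one]

theorem W_P (hO : OpStmt F) (f : F × F → ℂ) (hf : Test f) :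
    ∃ J, ∀ r k : F, r ≠ 0 → PJ J k → WF f (r * k) = WF f r :=
  (W_P' hO f hf).imp fun _ h => h.2

/-- Reduction to finitely many classes. -/
theorem W_red (hO : OpStmt F) (hC : CuspStmt F) (hA : TauStmt F) (f : F × F → ℂ) (hf : Test f) :
    ∃ T : Finset F, (∀ t ∈ T, t ≠ 0) ∧ ∀ r : F, r ≠ 0 → ∃ t ∈ T, ∃ u k : F, UR u ∧
      k ∈ (Ar.L : Subring F) ∧ r = u * t * k ∧ absS r = absS t / nF u ∧
      ‖WF f r‖ = absS t ^ (3 / 2 : ℝ) * (‖tau (xiF (opT t f)) u‖ * nF u ^ (1 / 6 : ℝ)) := by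
  obtain ⟨J, hJ1, hJ⟩ := W_P' hO f hf
  obtain ⟨T, hT, h⟩ := Ar.fin_cl (F := F) J
  refine ⟨T, hT, fun r hr => ?_⟩
  obtain ⟨t, ht, u, hu0, hu1, hu2, y, hy, rfl⟩ := h r hr
  have hu : UR u := ⟨hu0, hu1, hu2⟩
  have ht0 := hT t ht
  have hk : PJ J (1 + (Ar.N F : F) ^ J * y) := ⟨y, hy, by ring⟩
  refine ⟨t, ht, u, _, hu, (PJ_unit hJ1 hk).2.1, rfl, ?_, ?_⟩
  · rw [absS_mul, absS_mul, absS_PJ hJ1 hk, absS_ur hu]; ring
  · have h1 := congrArg norm (WF_opT hO hC hA hf ht0 hu0)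
    rw [WF_unit hO hC hA (hO.test_opT f t ht0 hf) hu, norm_mul, norm_mul, Complex.norm_conj,
      Complex.norm_eq_one_of_pow_eq_one (Ar.cc_cube t u ht0 hu0) (by norm_num), one_mul, tt,
      norm_mul, Complex.norm_real, Complex.norm_real,
      Real.norm_of_nonneg (Real.rpow_nonneg (absS_pos ht0).le _),
      Real.norm_of_nonneg (Real.rpow_nonneg (nF_pos hu0).le _)] at h1
    rw [hJ _ _ (mul_ne_zero hu0 ht0) hk, mul_comm u t, ← h1]

theorem W_supp (hO : OpStmt F) (hC : CuspStmt F) (hA : TauStmt F) (f : F × F → ℂ) (hf : Test f) :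
    ∃ J : ℕ, ∀ r : F, r ≠ 0 → WF f r ≠ 0 → (Ar.N F : F) ^ J * r ∈ (Ar.L : Subring F) := by
  obtain ⟨T, hT, h⟩ := W_red hO hC hA f hf
  have key : ∀ t : F, ∃ J : ℕ, t ≠ 0 → ∀ u, tau (xiF (opT t f)) u ≠ 0 →
      (Ar.N F : F) ^ J * (u * t) ∈ (Ar.L : Subring F) := by
    intro t
    by_cases ht : t = 0
    · exact ⟨0, fun h => absurd ht h⟩
    obtain ⟨M, hM, hs⟩ := hA.supp _ (good hC (hO.test_opT f t ht hf))
    obtain ⟨k, hk⟩ := Ar.pow_mem_L (t / (M : F))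
    refine ⟨k, fun _ u hu => ?_⟩
    have hM' : (M : F) ≠ 0 := Nat.cast_ne_zero.2 hM
    have : (Ar.N F : F) ^ k * (u * t) = (Ar.N F : F) ^ k * (t / M) * (M * u) := by field_simp
    rw [this]
    exact mul_mem hk (mem_L_of_int (hs u hu))
  choose J hJ using key
  refine ⟨T.sup J, fun r hr hW => ?_⟩
  obtain ⟨t, ht, u, k, -, hk, rfl, -, h2⟩ := h r hr
  have h3 : tau (xiF (opT t f)) u ≠ 0 := by
    intro h0
    rw [h0, norm_zero, zero_mul, mul_zero, norm_eq_zero] at h2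
    exact hW h2
  rw [← mul_assoc]
  exact mul_mem (pow_mem_L_mono (Finset.le_sup ht) (hJ t (hT t ht) u h3)) hk

theorem W_le (hL : LatStmt F) (hT : ThetaStmt F) (hO : OpStmt F) (hC : CuspStmt F)
    (hA : TauStmt F) (f : F × F → ℂ) (hf : Test f) :
    ∃ C : ℝ, ∀ r : F, r ≠ 0 → ‖WF f r‖ ≤ C * (Real.sqrt (absS r))⁻¹ := by
  obtain ⟨T, hT0, h⟩ := W_red hO hC hA f hf
  have key : ∀ t : F, ∃ C : ℝ, 0 ≤ C ∧ (t ≠ 0 → ∀ u, u ≠ 0 →
      ‖tau (xiF (opT t f)) u‖ * nF u ^ (1 / 6 : ℝ) ≤ C * Real.sqrt (nF u)) := by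
    intro t
    by_cases ht : t = 0
    · exact ⟨0, le_rfl, fun h => absurd ht h⟩
    have hg := good hC (hO.test_opT f t ht hf)
    obtain ⟨M, hM, hs⟩ := hA.supp _ hg
    obtain ⟨C, hb⟩ := hT.bound _ hg
    have hM' : (M : F) ≠ 0 := Nat.cast_ne_zero.2 hM
    have hnM := nF_pos hM'
    refine ⟨Real.sqrt (|C| * (nF (M : F) + 1)), Real.sqrt_nonneg _, fun _ u hu => ?_⟩
    have hn := nF_pos hu
    by_cases h0 : tau (xiF (opT t f)) u = 0
    · rw [h0, norm_zero, zero_mul]; positivity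
    have h1 := hL.one_le _ (mul_ne_zero hM' hu) (hs u h0)
    rw [nF_mul] at h1
    rw [← Real.sqrt_mul (by positivity)]
    refine Real.le_sqrt_of_sq_le ?_
    rw [mul_pow, ← Real.rpow_natCast (nF u ^ (1 / 6 : ℝ)), ← Real.rpow_mul hn.le]
    have e : (1 / 6 : ℝ) * ((2 : ℕ) : ℝ) = 1 / 3 := by norm_num
    rw [e]
    refine (hb u hu).trans ?_
    calc C * (1 + nF u) ≤ |C| * (nF (M : F) * nF u + nF u) := by
          gcongr; exact le_abs_self C
      _ = _ := by ring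
  choose C hC0 hCt using key
  refine ⟨∑ t ∈ T, absS t ^ (3 / 2 : ℝ) * Real.sqrt (absS t) * C t, fun r hr => ?_⟩
  obtain ⟨t, ht, u, k, hu, -, -, h1, h2⟩ := h r hr
  have ht0 := hT0 t ht
  have hp := absS_pos ht0
  have hn := nF_pos hu.1
  have hle : absS t ^ (3 / 2 : ℝ) * Real.sqrt (absS t) * C t ≤
      ∑ t ∈ T, absS t ^ (3 / 2 : ℝ) * Real.sqrt (absS t) * C t :=
    Finset.single_le_sum (f := fun t => absS t ^ (3 / 2 : ℝ) * Real.sqrt (absS t) * C t)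
      (fun s hs => by have := absS_pos (hT0 s hs); have := hC0 s; positivity) ht
  rw [h2]
  calc absS t ^ (3 / 2 : ℝ) * (‖tau (xiF (opT t f)) u‖ * nF u ^ (1 / 6 : ℝ))
      ≤ absS t ^ (3 / 2 : ℝ) * (C t * Real.sqrt (nF u)) :=
        mul_le_mul_of_nonneg_left (hCt t ht0 u hu.1) (by positivity)
    _ = absS t ^ (3 / 2 : ℝ) * Real.sqrt (absS t) * C t * (Real.sqrt (absS r))⁻¹ := by
        have := Real.sqrt_pos.2 hp
        rw [h1, Real.sqrt_div hp.le]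
        field_simp
    _ ≤ _ := by gcongr

end M94

end Crest.Agent.T27.TH
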