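import Crest.Agent.T27.Gauss_55

/-!
# Row 27 frame: reciprocity laws (port of `PVc/R17/Recip.lean`)

`Rs` is the sextic reciprocity factor (a bicharacter of the class group, `Rs m n * Rs n m = 1`),
`Rq = Rs ^ 3` the quadratic sign (symmetric), `Rs ^ 2` the cubic factor.
-/

set_option autoImplicit false
set_option linter.unusedSectionVars false
set_option linter.unusedVariables false

noncomputable section

namespace Crest.Agent.T27

open scoped ComplexConjugate

theorem sqrt_nr_mul [Fr0] (m n : O) :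
    (Real.sqrt (nr (m * n)) : ℂ) = (Real.sqrt (nr m) : ℂ) * (Real.sqrt (nr n) : ℂ) := by
  rw [nr_mul, Real.sqrt_mul (Nat.cast_nonneg _), Complex.ofReal_mul]

/-- On squarefree primary elements. -/
theorem th_sqfree [Fr0] {n : O} (hn : Primary n) (hs : Squarefree n) :
    th n = gc n 1 / (Real.sqrt (nr n) : ℂ) * conj (arg n) := by
  obtain ⟨h1, h2, h3⟩ := sq1_cu hn hs primary_one
  rw [one_pow, mul_one] at h1 h2 h3
  rw [th, if_pos ⟨hn, h3⟩, h1, h2]
  simp [nr]

variable [Fr]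

theorem Rs_congr {m m' n n' : O} (hm : cls m = cls m') (hn : cls n = cls n') :
    Rs m n = Rs m' n' := Fr.recAx.congr m m' n n' hm hn
theorem Rs_mul_left {m m' n : O} (hm : m ≠ 0) (hm' : m' ≠ 0) (hn : n ≠ 0) :
    Rs (m * m') n = Rs m n * Rs m' n := Fr.recAx.mul_left m m' n hm hm' hn
theorem Rs_anti {m n : O} (hm : m ≠ 0) (hn : n ≠ 0) : Rs m n * Rs n m = 1 :=
  Fr.recAx.anti m n hm hn
theorem Rs_pow_six {m n : O} (hm : m ≠ 0) (hn : n ≠ 0) : Rs m n ^ 6 = 1 :=
  Fr.recAx.pow_six m n hm hn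
theorem norm_Rs {m n : O} (hm : m ≠ 0) (hn : n ≠ 0) : ‖Rs m n‖ = 1 :=
  Complex.norm_eq_one_of_pow_eq_one (Rs_pow_six hm hn) (by norm_num)
theorem Rs_ne_zero {m n : O} (hm : m ≠ 0) (hn : n ≠ 0) : Rs m n ≠ 0 :=
  left_ne_zero_of_mul_eq_one (Rs_anti hm hn)
theorem conj_Rs {m n : O} (hm : m ≠ 0) (hn : n ≠ 0) : conj (Rs m n) = Rs n m := by
  rw [← Complex.inv_eq_conj (norm_Rs hm hn)]
  exact inv_eq_of_mul_eq_one_right (Rs_anti hm hn)
theorem Rs_one_left {n : O} (hn : n ≠ 0) : Rs 1 n = 1 := by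
  have h := Rs_mul_left one_ne_zero one_ne_zero hn
  rw [one_mul] at h
  exact mul_left_cancel₀ (Rs_ne_zero one_ne_zero hn) (by rw [← h, mul_one])
theorem Rs_one_right {n : O} (hn : n ≠ 0) : Rs n 1 = 1 := by
  rw [← conj_Rs one_ne_zero hn, Rs_one_left hn, map_one]
/-- Sextic reciprocity. -/
theorem sym_recip' {m n : O} (hm : m ≠ 0) (hn : n ≠ 0) : sym m n = Rs m n * sym n m := by
  by_cases h : IsCoprime m n
  · exact Fr.recAx.recip m n hm hn h
  · rw [(sym_eq_zero_iff' hm).2 h, (sym_eq_zero_iff' hn).2 fun h' => h h'.symm, mul_zero]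
theorem sym_recip {m n : O} (hm : PO m) (hn : PO n) : sym m n = Rs m n * sym n m :=
  sym_recip' hm.2 hn.2
/-- The supplementary laws. -/
theorem sym_unit_right {n u : O} (hn : n ≠ 0) (hu : IsUnit u) : sym n u = Rs n u := by
  rw [sym_recip' hn hu.ne_zero, sym_unit_left hu, mul_one]
theorem sym_unit_congr {n n' u : O} (hn : n ≠ 0) (h : cls n = cls n') (hu : IsUnit u) :
    sym n u = sym n' u := by
  rw [sym_unit_right hn hu, sym_unit_right (ne_zero_of_cls_eq h.symm hn) hu, Rs_congr h rfl]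
theorem cub_unit_congr {n n' u : O} (hn : n ≠ 0) (h : cls n = cls n') (hu : IsUnit u) :
    cub n u = cub n' u := by
  rw [← sym_sq' hn, ← sym_sq' (ne_zero_of_cls_eq h.symm hn), sym_unit_congr hn h hu]
theorem quad_unit_congr {n n' u : O} (hn : n ≠ 0) (h : cls n = cls n') (hu : IsUnit u) :
    quad n u = quad n' u := by
  rw [← sym_pow_three' hn, ← sym_pow_three' (ne_zero_of_cls_eq h.symm hn), sym_unit_congr hn h hu]
/-- Units of trivial class are sixth power residues. -/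
theorem sym_of_cls_one {u : O} (hu : IsUnit u) (h1 : cls u = 1) (n : O) : sym n u = 1 := by
  rcases eq_or_ne n 0 with rfl | hn
  · rw [sym_eq_prod, pf_zero, Finset.prod_empty]
  · rw [sym_unit_right hn hu, Rs_congr rfl (h1.trans (map_one cls).symm), Rs_one_right hn]
theorem quad_of_cls_one {u : O} (hu : IsUnit u) (h1 : cls u = 1) (n : O) : quad n u = 1 := by
  rcases eq_or_ne n 0 with rfl | hn
  · rw [quad, pf_zero, Finset.prod_empty]
  · rw [← sym_pow_three' hn, sym_of_cls_one hu h1, one_pow]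
theorem quad_mul_cls_one {u : O} (hu : IsUnit u) (h1 : cls u = 1) (n x : O) :
    quad n (u * x) = quad n x := by
  rw [quad_mul_right', quad_of_cls_one hu h1, one_mul]
theorem uinv_quad (n : O) : UInv (quad n) := fun _ x hu h1 => quad_mul_cls_one hu h1 n x

/-! ## the quadratic sign -/

theorem Rq_congr {m m' n n' : O} (hm : cls m = cls m') (hn : cls n = cls n') :
    Rq m n = Rq m' n' := by rw [Rq, Rq, Rs_congr hm hn]
theorem norm_Rq {m n : O} (hm : m ≠ 0) (hn : n ≠ 0) : ‖Rq m n‖ = 1 := by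
  rw [Rq, norm_pow, norm_Rs hm hn, one_pow]
theorem Rq_one_left {n : O} (hn : n ≠ 0) : Rq 1 n = 1 := by rw [Rq, Rs_one_left hn, one_pow]
/-- Quadratic reciprocity. -/
theorem quad_recip' {m n : O} (hm : m ≠ 0) (hn : n ≠ 0) : quad m n = Rq m n * quad n m := by
  rw [← sym_pow_three' hm, ← sym_pow_three' hn, sym_recip' hm hn, mul_pow, Rq]

/-! ## the quadratic Gauss sum -/

theorem g4_congr {n n' : O} (h : cls n = cls n') : g4 n = g4 n' := Fr.gauAx.congr n n' h
theorem norm_g4 {n : O} (hn : n ≠ 0) : ‖g4 n‖ = 1 := Fr.gauAx.norm n hn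
theorem g4_mul {m n : O} (hm : m ≠ 0) (hn : n ≠ 0) : g4 (m * n) = g4 m * g4 n * Rq m n :=
  Fr.gauAx.mul m n hm hn
theorem g4_mul_sq {n y : O} (hn : n ≠ 0) (hy : y ≠ 0) : g4 (n * y ^ 2) = g4 n :=
  Fr.gauAx.mul_sq n y hn hy
theorem g4_one : g4 1 = 1 := by
  have h := g4_mul (one_ne_zero (α := O)) one_ne_zero
  rw [one_mul, Rq_one_left one_ne_zero, mul_one] at h
  have h0 : g4 1 ≠ 0 := by
    rw [← norm_ne_zero_iff, norm_g4 one_ne_zero]
    exact one_ne_zero
  exact mul_left_cancel₀ h0 (by rw [← h, mul_one])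
/-- Evaluation of the quadratic Gauss sum. -/
theorem gam_three {n : O} (hn : PO n) (hs : Squarefree n) : gam 3 n = g4 n :=
  Fr.gauAx.three n hn.1 hs

/-! ## class characters -/


/-- The class function `G(n) = (2/n)₃ · g4 n`. -/
def Gf (n : O) : ℂ := cub n 2 * g4 n

theorem Gf_congr' {n n' : O} (hn : n ≠ 0) (h : cls n = cls n') : Gf n = Gf n' := by
  rw [Gf, Gf, g4_congr h, cub_unit_congr hn h isUnit_two]
theorem Gf_congr {n n' : O} (hn : PO n) (hn' : PO n') (h : cls n = cls n') : Gf n = Gf n' :=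
  Gf_congr' hn.2 h
theorem norm_Gf' {n : O} (hn : n ≠ 0) : ‖Gf n‖ = 1 := by
  rw [Gf, norm_mul, norm_cub' hn (isCoprime_of_isUnit n isUnit_two), norm_g4 hn, one_mul]
theorem norm_Gf {n : O} (hn : PO n) : ‖Gf n‖ = 1 := norm_Gf' hn.2
theorem Gf_mul' {m n : O} (hm : m ≠ 0) (hn : n ≠ 0) : Gf (m * n) = Gf m * Gf n * Rq m n := by
  rw [Gf, Gf, Gf, cub_mul_left hm hn, g4_mul hm hn]
  ring
theorem Gf_mul {m n : O} (hm : PO m) (hn : PO n) : Gf (m * n) = Gf m * Gf n * Rq m n :=
  Gf_mul' hm.2 hn.2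
theorem Gf_one : Gf 1 = 1 := by
  rw [Gf, g4_one, cub_one_left, one_mul]
/-- The conversion of Möbius coefficients into theta coefficients. -/
theorem mu_gam_five {n : O} (hn : PO n) (hs : Squarefree n) :
    mu n * gam 5 n = Gf n * th n := by
  rw [th_sqfree hn.1 hs]
  refine Primary.induction (P := fun n => Squarefree n →
    mu n * gam 5 n = Gf n * (gc n 1 / (Real.sqrt (nr n) : ℂ) * conj (arg n))) ?_ ?_ hn.1 hs
  · intro _
    have h1 : gs 5 1 1 = 1 := by
      have := sum_res_eq_char (one_ne_zero (α := O)) 1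
      simpa [gs] using this
    have h2 : gc 1 1 = 1 := by
      have := sum_res_eq_char (one_ne_zero (α := O)) 1
      simpa [gc] using this
    simp [Gf_one, gam, h1, h2]
  · intro p n hp hp0 hn0 ih hs
    have hp' := hp0.po
    have hn := hn0.po
    have hc : IsCoprime p n := (squarefree_mul_iff.1 hs).1.isCoprime
    have h1 := ih (squarefree_mul_iff.1 hs).2.2
    have h2 := mu_gam_five_prime hp hp'
    have h3 : sym p 4 = cub p 2 := by
      rw [← sym_sq hp'.1, ← sym_pow_right hp']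
      norm_num
    rw [h3, gam_three hp' hp.squarefree, ← Gf, gam.eq_1 2, gs_two hp'.1] at h2
    have h4 : gam 5 (p * n) = sym p n ^ 5 * sym n p ^ 5 * gam 5 p * gam 5 n := by
      rw [gam, gam, gam, gs_mul 5 hp' hn hc, sqrt_nr_mul]
      ring
    have h5 : sym p n ^ 5 * sym n p ^ 5 = Rq p n * (cub p n * cub n p) := by
      have h6 := sym_pow_six hn.1 hc.symm
      rw [← sym_sq hp'.1, ← sym_sq hn.1, sym_recip hp' hn, Rq]
      generalize Rs p n = R at *
      generalize sym n p = t at *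
      linear_combination (R ^ 5 * t ^ 4) * h6
    rw [mu_mul hp'.1 hn.1 hc, mu_prime hp hp'.1, h4, h5, Gf_mul hp' hn, gc_mul hp'.1 hn.1 hc,
      arg_mul, map_mul, sqrt_nr_mul]
    calc _ = Rq p n * (cub p n * cub n p) * (-gam 5 p) * (mu n * gam 5 n) := by ring
      _ = _ := by rw [h1, h2]; ring

end Crest.Agent.T27
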