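import Crest.Agent.T27.Basic_55

/-!
# Row 27 frame: calculus of the log-Gaussian weight `Wc` (port of `PVc/R17/Weight.lean`)

Differences with `R17`: `PolyB` has a third field `supp` (the coefficients vanish off the rows
`Rep`).  The namespace `PW` contains the elementary sums over rows used here and in `Poisson_23`.
-/

set_option autoImplicit false
set_option linter.unusedSectionVars false

noncomputable section

namespace Crest.Agent.T27

open scoped ComplexConjugate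
open MeasureTheory

namespace PW

open Finset

variable [Fr0]

theorem card_erase_le (X : ℕ) : (((ball X).erase 0).card : ℝ) ≤ c7 * X := by
  have h1 := card_ball_le X
  rw [card_erase_of_mem (zero_mem_ball X)]
  exact_mod_cast (by omega : (ball X).card - 1 ≤ (kk + 7) * X)

theorem mem_erase_ball {X : ℕ} {z : O} :
    z ∈ (ball X).erase 0 ↔ (z ≠ 0 ∧ Rep z) ∧ nm z ≤ X := by
  rw [mem_erase, mem_ball, and_assoc]

/-- Abel summation against the bound `#{0 < N n ≤ X} ≤ c7 X`. -/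
theorem abel (g : ℕ → ℝ) (h0 : ∀ k, 0 ≤ g k) (hg : ∀ k, 1 ≤ k → g (k + 1) ≤ g k) (X : ℕ) :
    ∑ n ∈ (ball X).erase 0, g (nm n) ≤ c7 * ∑ k ∈ range X, g (k + 1) := by
  have key : ∀ X : ℕ, ∑ n ∈ (ball X).erase 0, g (nm n) +
      (c7 * X - (((ball X).erase 0).card : ℝ)) * g X ≤ c7 * ∑ k ∈ range X, g (k + 1) := by
    intro X
    induction X with
    | zero =>
      have : (ball 0).erase 0 = ∅ := eq_empty_of_forall_notMem fun z hz => by
        rw [mem_erase_ball] at hz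
        exact hz.1.1 (nm_eq_zero.1 (by omega))
      simp [this]
    | succ X ih =>
      have hs : (ball X).erase 0 ⊆ (ball (X + 1)).erase 0 := fun z hz => by
        rw [mem_erase_ball] at hz ⊢
        exact ⟨hz.1, by omega⟩
      have h1 : ∑ n ∈ (ball (X + 1)).erase 0 \ (ball X).erase 0, g (nm n) =
          ((((ball (X + 1)).erase 0).card : ℝ) - ((ball X).erase 0).card) * g (X + 1) := by
        rw [sum_congr rfl (g := fun _ => g (X + 1)), sum_const, card_sdiff_of_subset hs,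
          nsmul_eq_mul, Nat.cast_sub (card_le_card hs)]
        intro z hz
        rw [mem_sdiff, mem_erase_ball, mem_erase_ball] at hz
        congr 1
        have h3 : ¬ nm z ≤ X := fun h => hz.2 ⟨hz.1.1, h⟩
        have h4 := hz.1.2
        omega
      have h2 : (c7 * X - (((ball X).erase 0).card : ℝ)) * g (X + 1) ≤
          (c7 * X - (((ball X).erase 0).card : ℝ)) * g X := by
        have h3 := card_erase_le X
        rcases Nat.eq_zero_or_pos X with rfl | hX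
        · have h4 : (0 : ℝ) ≤ (((ball 0).erase 0).card : ℝ) := Nat.cast_nonneg _
          have h5 : (c7 * ((0 : ℕ) : ℝ) - (((ball 0).erase 0).card : ℝ)) = 0 := by
            simp only [Nat.cast_zero] at h3 ⊢
            linarith
          rw [h5, zero_mul, zero_mul]
        · exact mul_le_mul_of_nonneg_left (hg X hX) (by linarith)
      rw [← sum_sdiff hs, h1, sum_range_succ]
      push_cast
      linarith
  have h1 := key X
  have h2 := mul_nonneg (sub_nonneg.2 (card_erase_le X)) (h0 X)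
  linarith

theorem rpow_step_ge {p : ℝ} (hp : 0 ≤ p) {x : ℝ} (hx : 0 < x) :
    p * (x + 1) ^ (-(p + 1)) ≤ x ^ (-p) - (x + 1) ^ (-p) := by
  have hx1 : 0 < x + 1 := by linarith
  have h1 := Real.one_sub_inv_le_log_of_pos (div_pos hx1 hx)
  have h2 : 1 - ((x + 1) / x)⁻¹ = (x + 1)⁻¹ := by
    field_simp
    ring
  have h3 : 1 + p * (x + 1)⁻¹ ≤ ((x + 1) / x) ^ p := by
    rw [Real.rpow_def_of_pos (div_pos hx1 hx)]
    have := Real.add_one_le_exp (Real.log ((x + 1) / x) * p)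
    have h4 := mul_le_mul_of_nonneg_left h1 hp
    rw [h2] at h4
    linarith
  have h5 : x ^ (-p) = ((x + 1) / x) ^ p * (x + 1) ^ (-p) := by
    rw [Real.div_rpow hx1.le hx.le, Real.rpow_neg hx.le, Real.rpow_neg hx1.le]
    have := Real.rpow_pos_of_pos hx1 p
    field_simp
  rw [h5, neg_add, Real.rpow_add hx1, Real.rpow_neg_one]
  have h6 := mul_le_mul_of_nonneg_right h3 (Real.rpow_pos_of_pos hx1 (-p)).le
  linarith

theorem sum_tail {σ : ℝ} (hσ : 1 < σ) :
    ∃ C : ℝ, 0 < C ∧ ∀ (X : ℝ) (S : Finset O), 1 ≤ X → (∀ n ∈ S, Rep n) → (∀ n ∈ S, X ≤ nr n) →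
      ∑ n ∈ S, nr n ^ (-σ) ≤ C * X ^ (1 - σ) := by
  have hp : 0 < σ - 1 := by linarith
  have h7 := c7_pos
  refine ⟨c7 * (2 + (σ - 1)⁻¹), by positivity, fun X S hX hR hS => ?_⟩
  have hX0 : 0 < X := by linarith
  have hm : ∀ k : ℕ, 0 < max (k : ℝ) X := fun k => lt_max_of_lt_right hX0
  have hmono : ∀ k : ℕ, max (k : ℝ) X ≤ max ((k + 1 : ℕ) : ℝ) X := fun k =>
    max_le_max_right _ (by simp)
  have h1 : S ⊆ (ball (S.sup nm)).erase 0 := fun z hz => mem_erase_ball.2 ⟨⟨by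
    rintro rfl
    have := hS 0 hz
    rw [nr, nm_eq_zero.2 rfl, Nat.cast_zero] at this
    linarith, hR z hz⟩, le_sup (f := nm) hz⟩
  have h2 : ∀ Y : ℕ, ∑ k ∈ range Y, (max ((k + 1 : ℕ) : ℝ) X) ^ (-σ) ≤
      min (Y : ℝ) (X + 1) * X ^ (-σ) + (σ - 1)⁻¹ * (X ^ (1 - σ) - (max (Y : ℝ) X) ^ (1 - σ)) := by
    intro Y
    induction Y with
    | zero => simp [hX0.le, min_eq_left (by linarith : (0 : ℝ) ≤ X + 1)]
    | succ Y ih =>
      rw [sum_range_succ]
      have h3 : 0 < X ^ (-σ) := Real.rpow_pos_of_pos hX0 _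
      rcases lt_or_ge (Y : ℝ) X with h | h
      · have h4 : (max ((Y + 1 : ℕ) : ℝ) X) ^ (-σ) ≤ X ^ (-σ) :=
          Real.rpow_le_rpow_of_nonpos hX0 (le_max_right _ _) (by linarith)
        have h5 : (max ((Y + 1 : ℕ) : ℝ) X) ^ (1 - σ) ≤ (max (Y : ℝ) X) ^ (1 - σ) :=
          Real.rpow_le_rpow_of_nonpos (hm Y) (hmono Y) (by linarith)
        have h6 := mul_le_mul_of_nonneg_left h5 (inv_pos.2 hp).le
        rw [min_eq_left (by linarith)] at ih
        rw [min_eq_left (by push_cast; linarith)]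
        push_cast at *
        linarith
      · have h4 := rpow_step_ge hp.le (hX0.trans_le h)
        rw [show -(σ - 1 + 1) = -σ by ring, show -(σ - 1) = 1 - σ by ring,
          ← le_inv_mul_iff₀ hp] at h4
        have h5 : min (Y : ℝ) (X + 1) ≤ min ((Y + 1 : ℕ) : ℝ) (X + 1) :=
          min_le_min_right _ (by simp)
        have h6 := mul_le_mul_of_nonneg_right h5 h3.le
        rw [max_eq_left h] at ih
        rw [max_eq_left (by push_cast; linarith)]
        push_cast at *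
        linarith
  calc ∑ n ∈ S, nr n ^ (-σ) = ∑ n ∈ S, (max (nm n : ℝ) X) ^ (-σ) :=
        sum_congr rfl fun n hn => by rw [max_eq_left (hS n hn)]
    _ ≤ ∑ n ∈ (ball (S.sup nm)).erase 0, (max (nm n : ℝ) X) ^ (-σ) :=
        sum_le_sum_of_subset_of_nonneg h1 fun n _ _ => (Real.rpow_pos_of_pos (hm _) _).le
    _ ≤ c7 * ∑ k ∈ range (S.sup nm), (max ((k + 1 : ℕ) : ℝ) X) ^ (-σ) :=
        abel (fun k => (max (k : ℝ) X) ^ (-σ)) (fun k => (Real.rpow_pos_of_pos (hm _) _).le)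
          (fun k _ => Real.rpow_le_rpow_of_nonpos (hm k) (hmono k) (by linarith)) _
    _ ≤ _ := by
        have h3 := h2 (S.sup nm)
        have h4 : min ((S.sup nm : ℕ) : ℝ) (X + 1) * X ^ (-σ) ≤ (2 * X) * X ^ (-σ) :=
          mul_le_mul_of_nonneg_right ((min_le_right _ _).trans (by linarith))
            (Real.rpow_pos_of_pos hX0 _).le
        have h5 : X ^ (1 - σ) = X * X ^ (-σ) := by
          rw [sub_eq_add_neg, Real.rpow_add hX0, Real.rpow_one]
        have h6 := mul_nonneg (inv_pos.2 hp).le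
          (Real.rpow_pos_of_pos (hm (S.sup nm)) (1 - σ)).le
        rw [h5] at h3 ⊢
        rw [mul_assoc]
        exact mul_le_mul_of_nonneg_left (by linarith) h7.le

theorem sum_all {σ : ℝ} (hσ : 1 < σ) :
    ∃ C : ℝ, 0 < C ∧ ∀ S : Finset O, (∀ n ∈ S, Rep n) → ∑ n ∈ S, nr n ^ (-σ) ≤ C := by
  obtain ⟨C, hC, h⟩ := sum_tail hσ
  refine ⟨C, hC, fun S hS => ?_⟩
  rw [← sum_erase S (a := 0) (by
    rw [nr, nm_eq_zero.2 rfl, Nat.cast_zero, Real.zero_rpow (by linarith)])]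
  simpa using h 1 (S.erase 0) le_rfl (fun n hn => hS n (mem_of_mem_erase hn))
    fun n hn => one_le_nr (ne_of_mem_erase hn)

open Classical in
/-- `N(n)^{-σ}` restricted to the rows. -/
def rp (σ : ℝ) (n : O) : ℝ := if Rep n then nr n ^ (-σ) else 0

theorem rp_nonneg (σ : ℝ) (n : O) : 0 ≤ rp σ n := by
  unfold rp
  split_ifs
  · positivity
  · exact le_rfl

theorem rp_of_rep {σ : ℝ} {n : O} (h : Rep n) : rp σ n = nr n ^ (-σ) := if_pos h

theorem rp_of_not {σ : ℝ} {n : O} (h : ¬ Rep n) : rp σ n = 0 := if_neg h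

theorem sum_rp (σ : ℝ) (S : Finset O) [DecidablePred (Rep : O → Prop)] :
    ∑ n ∈ S, rp σ n = ∑ n ∈ S.filter Rep, nr n ^ (-σ) := by
  rw [sum_filter]
  refine sum_congr rfl fun n _ => ?_
  split_ifs with h
  exacts [rp_of_rep h, rp_of_not h]

theorem summable_rp {σ : ℝ} (hσ : 1 < σ) : Summable (rp σ) := by
  classical
  obtain ⟨C, -, h⟩ := sum_all hσ
  refine summable_of_sum_le (c := C) (rp_nonneg σ) fun S => ?_
  rw [sum_rp]
  exact h _ fun n hn => (mem_filter.1 hn).2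

theorem sum_rp_tail {σ : ℝ} (hσ : 1 < σ) :
    ∃ C : ℝ, 0 < C ∧ ∀ (X : ℝ) (S : Finset O), 1 ≤ X → (∀ n ∈ S, X ≤ nr n) →
      ∑ n ∈ S, rp σ n ≤ C * X ^ (1 - σ) := by
  classical
  obtain ⟨C, hC, h⟩ := sum_tail hσ
  refine ⟨C, hC, fun X S hX hS => ?_⟩
  rw [sum_rp]
  exact h X _ hX (fun n hn => (mem_filter.1 hn).2) fun n hn => hS n (mem_filter.1 hn).1

end PW

namespace WA

theorem norm_Wc {y : ℝ} (s : ℂ) :
    ‖Wc y s‖ = Real.exp (-(Real.log y) ^ 2 + s.re * Real.log y) := by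
  rw [Wc, Complex.norm_exp]
  congr 1
  generalize Real.log y = L
  simp [sq]


theorem cpow_eq {y : ℝ} (hy : 0 < y) (t : ℂ) :
    (y : ℂ) ^ t = Complex.exp (t * (Real.log y : ℂ)) := by
  rw [Complex.cpow_def_of_ne_zero (by exact_mod_cast hy.ne'), Complex.ofReal_log hy.le, mul_comm]




theorem norm_Wc_le_rpow (A B : ℝ) : ∃ C : ℝ, 0 < C ∧ ∀ (y : ℝ) (s : ℂ), 0 < y → |s.re| ≤ B →
    ‖Wc y s‖ ≤ C * y ^ A := by
  refine ⟨Real.exp ((B + |A|) ^ 2 / 4), Real.exp_pos _, fun y s hy hs => ?_⟩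
  rw [norm_Wc, Real.rpow_def_of_pos hy, ← Real.exp_add]
  refine Real.exp_le_exp.2 ?_
  have h1 : |s.re - A| ≤ B + |A| := (abs_sub _ _).trans (by linarith)
  have h2 : (s.re - A) ^ 2 ≤ (B + |A|) ^ 2 := by
    rw [← sq_abs (s.re - A)]
    exact pow_le_pow_left₀ (abs_nonneg _) h1 2
  nlinarith [sq_nonneg (Real.log y - (s.re - A) / 2)]

theorem cpow_half {x : ℝ} (hx : 0 ≤ x) : (x : ℂ) ^ (1 / 2 : ℂ) = (Real.sqrt x : ℂ) := by
  rw [Real.sqrt_eq_rpow, Complex.ofReal_cpow hx]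
  norm_num

theorem gauss_one (c d : ℂ) : ∫ x : ℝ, Complex.exp (-1 * (x : ℂ) ^ 2 + c * x + d) =
    (Real.sqrt Real.pi : ℂ) * Complex.exp (d + c ^ 2 / 4) := by
  rw [integral_cexp_quadratic (by simp), neg_neg, div_one, cpow_half Real.pi_pos.le]
  congr 2
  ring

theorem mellin_Wc (s t : ℂ) :
    ∫ y in Set.Ioi (0 : ℝ), Wc y t * (y : ℂ) ^ (s - 1) = Wm (s + t) := by
  rw [← Real.range_exp, ← Set.image_univ, integral_image_eq_integral_abs_deriv_smul
    MeasurableSet.univ (fun x _ => (Real.hasDerivAt_exp x).hasDerivWithinAt)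
    Real.exp_injective.injOn, Measure.restrict_univ]
  have h : ∀ x : ℝ, |Real.exp x| • (Wc (Real.exp x) t * ((Real.exp x : ℝ) : ℂ) ^ (s - 1)) =
      Complex.exp (-1 * (x : ℂ) ^ 2 + (s + t) * x + 0) := by
    intro x
    rw [abs_of_pos (Real.exp_pos x), cpow_eq (Real.exp_pos x), Wc, Real.log_exp,
      Complex.real_smul, Complex.ofReal_exp, ← Complex.exp_add, ← Complex.exp_add]
    congr 1
    ring
  simp_rw [h]
  rw [gauss_one, zero_add, Wm]



theorem Wm_ne_zero (s : ℂ) : Wm s ≠ 0 :=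
  mul_ne_zero (by exact_mod_cast (Real.sqrt_pos.2 Real.pi_pos).ne') (Complex.exp_ne_zero _)

theorem differentiable_Wm : Differentiable ℂ Wm := by
  unfold Wm
  fun_prop







end WA

/-- Super-polynomial decay at `0` and at `∞`. -/
theorem norm_Wc_le_rpow (A B : ℝ) : ∃ C : ℝ, 0 < C ∧ ∀ (y : ℝ) (s : ℂ), 0 < y → |s.re| ≤ B →
    ‖Wc y s‖ ≤ C * y ^ A :=
  WA.norm_Wc_le_rpow A B
/-- Mellin transform and Mellin inversion. -/
theorem mellin_Wc (s t : ℂ) :
    ∫ y in Set.Ioi (0 : ℝ), Wc y t * (y : ℂ) ^ (s - 1) = Wm (s + t) :=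
  WA.mellin_Wc s t
theorem Wm_ne_zero (s : ℂ) : Wm s ≠ 0 :=
  WA.Wm_ne_zero s
theorem differentiable_Wm : Differentiable ℂ Wm :=
  WA.differentiable_Wm


variable [Fr0]

/-- Smooth sums. -/
def Sm (b : O → ℂ) (X : ℝ) (s : ℂ) : ℂ := ∑' n : O, b n * Wc (nr n / X) s

/-- `b` vanishes at `0` and off the rows, and is bounded by `H · N(n)^B`. -/
structure PolyB (b : O → ℂ) (H B : ℝ) : Prop where
  left : b 0 = 0
  right : ∀ n, ‖b n‖ ≤ H * nr n ^ B
  supp : ∀ n, ¬ Rep n → b n = 0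

namespace WeightB

theorem H_nonneg {b : O → ℂ} {H B : ℝ} (hb : PolyB b H B) : 0 ≤ H := by
  have := (norm_nonneg _).trans (hb.2 1)
  simpa [nr] using this

open Classical in
/-- the majorant -/
def g (X : ℝ) (n : O) : ℝ := if n = 0 ∨ ¬ Rep n then 0 else min 1 ((nr n / X) ^ (-2 : ℝ))

theorem g_nonneg {X : ℝ} (hX : 0 < X) (n : O) : 0 ≤ g X n := by
  unfold g
  split_ifs
  · exact le_rfl
  · exact le_min zero_le_one (by positivity)

theorem g_le_one (X : ℝ) (n : O) : g X n ≤ 1 := by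
  unfold g
  split_ifs
  · exact zero_le_one
  · exact min_le_left _ _

theorem g_le {X : ℝ} (hX : 0 < X) (n : O) : g X n ≤ X ^ 2 * PW.rp 2 n := by
  unfold g
  split_ifs with h
  · exact mul_nonneg (by positivity) (PW.rp_nonneg _ _)
  · refine (min_le_right _ _).trans_eq ?_
    rw [PW.rp_of_rep (not_not.1 (not_or.1 h).2), Real.div_rpow (by positivity) hX.le, Real.rpow_neg hX.le, div_inv_eq_mul, mul_comm,
      Real.rpow_two]

theorem summable_g {X : ℝ} (hX : 0 < X) : Summable (g X) :=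
  Summable.of_nonneg_of_le (g_nonneg hX) (g_le hX)
    ((PW.summable_rp one_lt_two).mul_left _)

theorem tsum_g_le : ∃ C : ℝ, 0 < C ∧ ∀ X : ℝ, 0 < X → ∑' n, g X n ≤ C * X := by
  classical
  obtain ⟨C, hC, h⟩ := PW.sum_rp_tail one_lt_two
  have hZ : 0 ≤ ∑' n : O, PW.rp 2 n := tsum_nonneg fun n => PW.rp_nonneg _ _
  have h7 := c7_pos
  refine ⟨c7 + C + ∑' n : O, PW.rp 2 n, by positivity, fun X hX => ?_⟩
  rcases le_total X 1 with h1 | h1
  · refine ((summable_g hX).tsum_le_tsum (g_le hX)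
      ((PW.summable_rp one_lt_two).mul_left _)).trans ?_
    rw [tsum_mul_left]
    nlinarith [mul_nonneg hZ hX.le, mul_nonneg (mul_nonneg hZ hX.le) (sub_nonneg.2 h1),
      mul_pos h7 hX, mul_pos hC hX]
  · refine Real.tsum_le_of_sum_le (g_nonneg hX) fun S => ?_
    rw [← Finset.sum_filter_add_sum_filter_not S fun n => X ≤ nr n]
    have h2 : ∑ n ∈ S.filter fun n => X ≤ nr n, g X n ≤ C * X := by
      refine (Finset.sum_le_sum fun n _ => g_le hX n).trans ?_
      rw [← Finset.mul_sum]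
      refine (mul_le_mul_of_nonneg_left (h X _ h1 fun n hn => (Finset.mem_filter.1 hn).2)
        (by positivity)).trans_eq ?_
      rw [show (1 : ℝ) - 2 = -1 by norm_num, Real.rpow_neg_one]
      field_simp
    have h3 : ∑ n ∈ S.filter fun n => ¬ X ≤ nr n, g X n ≤ c7 * X := by
      have h4 : ∑ n ∈ S.filter fun n => ¬ X ≤ nr n, g X n ≤ ∑ n ∈ (ball ⌊X⌋₊).erase 0, g X n := by
        rw [← Finset.sum_filter_ne_zero]
        refine Finset.sum_le_sum_of_subset_of_nonneg (fun n hn' => ?_)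
          fun n _ _ => g_nonneg hX n
        obtain ⟨hn, h0⟩ := Finset.mem_filter.1 hn'
        have h5 : ¬ (n = 0 ∨ ¬ Rep n) := fun h => h0 (if_pos h)
        exact PW.mem_erase_ball.2 ⟨⟨(not_or.1 h5).1, not_not.1 (not_or.1 h5).2⟩,
          Nat.le_floor (not_le.1 (Finset.mem_filter.1 hn).2).le⟩
      refine h4.trans ((Finset.sum_le_card_nsmul _ _ 1 fun n _ => g_le_one X n).trans ?_)
      rw [nsmul_eq_mul, mul_one]
      exact (PW.card_erase_le _).trans (mul_le_mul_of_nonneg_left (Nat.floor_le hX.le) h7.le)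
    nlinarith [mul_nonneg hZ hX.le]

theorem pt (A B σ : ℝ) (hA : 0 ≤ A) : ∃ C : ℝ, 0 < C ∧ ∀ (y L : ℝ) (s : ℂ), 0 < y → 1 ≤ L →
    |s.re| ≤ σ → (L ≤ y ∨ y ≤ L⁻¹) →
      y ^ B * ‖Wc y s‖ ≤ C * L ^ (-A) * min 1 (y ^ (-2 : ℝ)) := by
  obtain ⟨C₁, h₁, H₁⟩ := norm_Wc_le_rpow (-(B + 2 + A)) σ
  obtain ⟨C₂, h₂, H₂⟩ := norm_Wc_le_rpow (A - B) σ
  refine ⟨C₁ + C₂, by positivity, fun y L s hy hL hs h => ?_⟩
  have hL0 : 0 < L := by linarith
  have hLA : 0 < L ^ (-A) := by positivity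
  rcases h with h | h
  · have h3 : y ^ (-A) ≤ L ^ (-A) := Real.rpow_le_rpow_of_nonpos hL0 h (by linarith)
    rw [min_eq_right (Real.rpow_le_one_of_one_le_of_nonpos (hL.trans h) (by norm_num))]
    calc y ^ B * ‖Wc y s‖ ≤ y ^ B * (C₁ * y ^ (-(B + 2 + A))) := by gcongr; exact H₁ y s hy hs
      _ = C₁ * y ^ (-A) * y ^ (-2 : ℝ) := by
        rw [mul_left_comm, mul_assoc, ← Real.rpow_add hy, ← Real.rpow_add hy]
        congr 2
        ring
      _ ≤ (C₁ + C₂) * L ^ (-A) * y ^ (-2 : ℝ) := by gcongr; linarith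
  · have h3 : y ^ A ≤ L ^ (-A) := by
      rw [Real.rpow_neg hL0.le, ← Real.inv_rpow hL0.le]
      exact Real.rpow_le_rpow hy.le h hA
    rw [min_eq_left (Real.one_le_rpow_of_pos_of_le_one_of_nonpos hy
      (h.trans (inv_le_one_of_one_le₀ hL)) (by norm_num)), mul_one]
    calc y ^ B * ‖Wc y s‖ ≤ y ^ B * (C₂ * y ^ (A - B)) := by gcongr; exact H₂ y s hy hs
      _ = C₂ * y ^ A := by
        rw [mul_left_comm, ← Real.rpow_add hy]
        congr 2
        ring
      _ ≤ (C₁ + C₂) * L ^ (-A) := by gcongr; linarith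

theorem term_le (A B σ : ℝ) (hA : 0 ≤ A) : ∃ C : ℝ, 0 < C ∧
    ∀ (b : O → ℂ) (H X L : ℝ) (s : ℂ), PolyB b H B → 0 < X → 1 ≤ L → |s.re| ≤ σ → ∀ n : O,
      (n ≠ 0 → L ≤ nr n / X ∨ nr n / X ≤ L⁻¹) →
      ‖b n * Wc (nr n / X) s‖ ≤ C * H * X ^ B * L ^ (-A) * g X n := by
  obtain ⟨C, hC, h⟩ := pt A B σ hA
  refine ⟨C, hC, fun b H X L s hb hX hL hs n hn => ?_⟩
  by_cases h0 : n = 0
  · simp [h0, hb.1, g]
  by_cases hr : Rep n
  swap
  · simp [hr, hb.supp n hr, g]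
  have hH := H_nonneg hb
  have hy : 0 < nr n / X := div_pos (nr_pos h0) hX
  have h1 := h _ L s hy hL hs (hn h0)
  rw [norm_mul, g, if_neg (not_or.2 ⟨h0, not_not.2 hr⟩)]
  calc ‖b n‖ * ‖Wc (nr n / X) s‖ ≤ H * nr n ^ B * ‖Wc (nr n / X) s‖ := by gcongr; exact hb.2 n
    _ = H * X ^ B * ((nr n / X) ^ B * ‖Wc (nr n / X) s‖) := by
      rw [Real.div_rpow (by positivity) hX.le]
      field_simp
    _ ≤ H * X ^ B * (C * L ^ (-A) * min 1 ((nr n / X) ^ (-2 : ℝ))) := by gcongr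
    _ = _ := by ring

theorem tsum_le : ∃ C : ℝ, 0 < C ∧ ∀ (f : O → ℝ) (K X : ℝ), 0 < X → 0 ≤ K → (∀ n, 0 ≤ f n) →
    (∀ n, f n ≤ K * g X n) → ∑' n, f n ≤ K * (C * X) := by
  obtain ⟨C, hC, h⟩ := tsum_g_le
  refine ⟨C, hC, fun f K X hX hK h0 h1 => ?_⟩
  have h2 := (summable_g hX).mul_left K
  refine ((Summable.of_nonneg_of_le h0 h1 h2).tsum_le_tsum h1 h2).trans ?_
  rw [tsum_mul_left]
  exact mul_le_mul_of_nonneg_left (h X hX) hK

theorem one_or (y : ℝ) : 1 ≤ y ∨ y ≤ (1 : ℝ)⁻¹ := by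
  rw [inv_one]
  exact le_total _ _

end WeightB

open WeightB

theorem summable_Sm {b : O → ℂ} {H B : ℝ} (hb : PolyB b H B) {X : ℝ} (hX : 0 < X) (s : ℂ) :
    Summable (fun n : O => ‖b n * Wc (nr n / X) s‖) := by
  obtain ⟨C, -, h⟩ := term_le 0 B |s.re| le_rfl
  exact Summable.of_nonneg_of_le (fun _ => norm_nonneg _)
    (fun n => h b H X 1 s hb hX le_rfl le_rfl n fun _ => one_or _) ((summable_g hX).mul_left _)


/-- Truncation to the window `[X/L, X L]` costs a negligible error. -/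
theorem tsum_norm_Sm_tail_le (A B σ : ℝ) (hB : 0 ≤ B) : ∃ C : ℝ, 0 < C ∧
    ∀ (b : O → ℂ) (H X L : ℝ) (s : ℂ), PolyB b H B → 0 < X → 1 ≤ L → |s.re| ≤ σ →
      ∑' n : O, (if X / L ≤ nr n ∧ nr n ≤ X * L then 0 else ‖b n * Wc (nr n / X) s‖)
        ≤ C * H * X ^ (B + 1) * L ^ (-A) := by
  have _ := hB
  obtain ⟨C, hC, h⟩ := term_le |A| B σ (abs_nonneg A)
  obtain ⟨C', hC', h'⟩ := tsum_le
  refine ⟨C * C', by positivity, fun b H X L s hb hX hL hs => ?_⟩
  have hH := H_nonneg hb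
  have hL0 : 0 < L := by linarith
  refine (h' _ (C * H * X ^ B * L ^ (-|A|)) X hX (by positivity) (fun n => ?_) fun n => ?_).trans ?_
  · split_ifs
    exacts [le_rfl, norm_nonneg _]
  · split_ifs with h1
    · have := g_nonneg hX n
      positivity
    · refine h b H X L s hb hX hL hs n fun _ => ?_
      rcases not_and_or.1 h1 with h2 | h2
      · right
        rw [div_le_iff₀ hX, inv_mul_eq_div]
        exact (not_le.1 h2).le
      · left
        rw [le_div_iff₀ hX, mul_comm]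
        exact (not_le.1 h2).le
  · have h1 : L ^ (-|A|) ≤ L ^ (-A) :=
      Real.rpow_le_rpow_of_exponent_le hL (neg_le_neg (le_abs_self A))
    rw [Real.rpow_add_one hX.ne']
    calc _ = C * C' * H * (X ^ B * X) * L ^ (-|A|) := by ring
      _ ≤ _ := by gcongr



namespace WeightB














instance probIoc : IsProbabilityMeasure (volume.restrict (Set.Ioc (0 : ℝ) 1)) := ⟨by simp⟩


end WeightB



end Crest.Agent.T27
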