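import Crest.Agent.T27.VorDefs_59
import Crest.Agent.T27.Gauss_55
import Crest.Agent.T27.Recip_55
import Crest.Agent.T27.Weight_23
import Crest.Agent.T27.ReflDefs_56
import Crest.Agent.T27.MelA_71

-- ▼ part T27/RfA_59
section

/-!
# Row 27 (helper59): local computations for the reflection (port of `PVc/R17/ReflAux.lean`)
-/

set_option autoImplicit false
set_option linter.unusedSectionVars false

noncomputable section

namespace Crest.Agent.T27.Rf

open scoped ComplexConjugate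

variable [Fr0]

theorem IsChr.dual {D : O} (hD : Primary D) {ψ : O → ℂ} (h : IsChr D ψ) :
    IsChr D (dualChr D ψ) := by
  refine ⟨fun x y => ?_, fun x y hxy => ?_, fun x hx => ?_, fun x hx => ?_⟩
  · unfold dualChr
    rw [h.mul, map_mul, cub_mul_right]
    ring
  · unfold dualChr
    rw [h.per x y hxy, cub_congr ((rad_dvd D).trans hxy)]
  · unfold dualChr
    rw [h.zero x hx, map_zero, zero_mul]
  · unfold dualChr
    rw [norm_mul, Complex.norm_conj, h.norm x hx, norm_cub hD hx.symm, one_mul]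
theorem IsChr.mul_mul {D E : O} {ψ χ : O → ℂ} (h : IsChr D ψ) (h' : IsChr E χ) :
    IsChr (D * E) fun x => ψ x * χ x := by
  refine ⟨fun x y => ?_, fun x y hxy => ?_, fun x hx => ?_, fun x hx => ?_⟩
  · rw [h.mul, h'.mul]
    ring
  · rw [h.per x y ((dvd_mul_right D E).trans hxy), h'.per x y ((dvd_mul_left E D).trans hxy)]
  · rw [IsCoprime.mul_right_iff, not_and_or] at hx
    rcases hx with hx | hx
    · rw [h.zero x hx, zero_mul]
    · rw [h'.zero x hx, mul_zero]
  · rw [IsCoprime.mul_right_iff] at hx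
    rw [norm_mul, h.norm x hx.1, h'.norm x hx.2, one_mul]
theorem IsChr.ft_mul {D E : O} (hD : D ≠ 0) (hE : E ≠ 0) (hDE : IsCoprime D E) {ψ χ : O → ℂ}
    (h : IsChr D ψ) (h' : IsChr E χ) (k : O) :
    ft (D * E) (fun x => ψ x * χ x) k = ψ E * χ D * ft D ψ k * ft E χ k :=
  Gauss_crt hD hE hDE h.per h'.per h.mul h'.mul k

/-- The character `∏_{p ∣ r} conj χ_p^{v_p(h)}` modulo `r`. -/
def psiH (h r x : O) : ℂ := ∏ p ∈ pf r, sym p x ^ (5 * vp p h + 6)

theorem isChr_sym_pow {n : O} (hn : PO n) {j : ℕ} (hj : j ≠ 0) : IsChr n fun x => sym n x ^ j :=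
  ⟨fun x y => by rw [sym_mul_right hn, mul_pow], Gauss_sym_per n j,
    fun x hx => by rw [(sym_eq_zero_iff hn.1).2 fun h => hx h.symm, zero_pow hj],
    fun x hx => by rw [norm_pow, norm_sym hn.1 hx.symm, one_pow]⟩

theorem O2_po {r p : O} (hr : PO r) (hp : p ∈ pf r) : PO p :=
  hr.of_dvd (BasicB.of_mem_pf hp).2.1 (BasicB.of_mem_pf hp).2.2

theorem isChr_psiH (h : O) {r : O} (hr : PO r) : IsChr r (psiH h r) := by
  refine ⟨fun x y => ?_, fun x y hxy => ?_, fun x hx => ?_, fun x hx => ?_⟩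
  · rw [psiH, psiH, psiH, ← Finset.prod_mul_distrib]
    exact Finset.prod_congr rfl fun p hp => by rw [sym_mul_right (O2_po hr hp), mul_pow]
  · exact Finset.prod_congr rfl fun p hp =>
      Gauss_sym_per p _ x y ((BasicB.of_mem_pf hp).2.2.trans hxy)
  · have h0 := (sym_eq_zero_iff hr.1).2 fun h' => hx h'.symm
    rw [sym_eq_prod] at h0
    obtain ⟨p, hp, h1⟩ := Finset.prod_eq_zero_iff.1 h0
    exact Finset.prod_eq_zero hp (by rw [eq_zero_of_pow_eq_zero h1, zero_pow (by omega)])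
  · rw [psiH, norm_prod]
    exact Finset.prod_eq_one fun p hp => by
      rw [norm_pow, norm_sym (O2_po hr hp).1
        (hx.symm.of_isCoprime_of_dvd_left (BasicB.of_mem_pf hp).2.2), one_pow]

theorem O2_ft_gs {n : O} {f : O → ℂ} {j : ℕ} (hf : ∀ x, f x = sym n x ^ (j + 6)) (k : O) :
    ft n f k = gs j n k := Finset.sum_congr rfl fun x _ => by rw [hf]

theorem sym_eq_ft {n : O} (hn : PO n) (hs : Squarefree n) (x : O) :
    sym n x * gs 5 n 1 = ft n (fun a => sym n a ^ 5) x := by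
  rw [O2_ft_gs (j := 5) fun a => (sym_pow_add_six hn.1 a (by omega)).symm,
    gs_sqfree (by omega) hn hs x, map_pow, conj_sym hn.1, ← pow_mul,
    Gauss_sym_pow hn.1 x one_ne_zero 4, pow_one]
theorem ft_dual_five {n : O} (hn : PO n) (hs : Squarefree n) (ν : O) :
    ft n (dualChr n fun a => sym n a ^ 5) (-ν) = quad n (-1) * gs 3 n 1 * quad n ν := by
  rw [O2_ft_gs (j := 3) fun a => ?_, gs_sqfree (by omega) hn hs, sym_pow_three hn.1, conj_quad,
    ← neg_one_mul ν, quad_mul_right hn]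
  · ring
  · rw [dualChr, map_pow, conj_sym hn.1, ← sym_sq hn.1, ← pow_mul, ← pow_add]
    exact Gauss_sym_pow hn.1 a (j := 3 + 6) (by omega) 3

theorem O2_sum_pdiv {z : O} (hz : Primary z) (hs : Squarefree z) (F : O → ℂ) :
    ∑ d ∈ pdiv z, F d = ∑ S ∈ (pf z).powerset, F (∏ q ∈ S, q) := by
  have hn := hz.ne_zero
  refine Finset.sum_nbij' pf (fun s => ∏ q ∈ s, q) (fun d hd => ?_) (fun s hs => ?_)
    (fun d hd => ?_) (fun s hs => ?_) fun d hd => ?_
  · refine Finset.mem_powerset.2 fun p hp => ?_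
    obtain ⟨h3, h4, h5⟩ := BasicB.of_mem_pf hp
    exact (mem_pf hn).2 ⟨h3, h4, h5.trans ((mem_pdiv hn).1 hd).2⟩
  · have hs' := Finset.mem_powerset.1 hs
    have h2 := squarefree_prod_primes (s := s) fun q hq => BasicB.pf_sub (hs' hq)
    exact (mem_pdiv hn).2 ⟨h2.2.1, BasicB.prod_dvd_of_subset hn hs'⟩
  · exact ((mem_pdiv hn).1 hd).1.eq_rad (hs.squarefree_of_dvd ((mem_pdiv hn).1 hd).2)
  · exact (squarefree_prod_primes fun q hq => BasicB.pf_sub (Finset.mem_powerset.1 hs hq)).2.2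
  · exact congrArg F (((mem_pdiv hn).1 hd).1.eq_rad
      (hs.squarefree_of_dvd ((mem_pdiv hn).1 hd).2)).symm

theorem O2_coprime {S : Finset O} (hS : ∀ p ∈ S, Prime p ∧ PO p) {q : O} (hq : Prime q)
    (hq' : PO q) (h : q ∉ S) : IsCoprime q (∏ p ∈ S, p) :=
  IsCoprime.prod_right fun p hp => hq.coprime_iff_not_dvd.2 fun hd =>
    h (BasicB.eq_of_dvd hq (hS p hp).1 hq'.1 (hS p hp).2.1 hd ▸ hp)

theorem O2_po_prod {S : Finset O} (hS : ∀ p ∈ S, Prime p ∧ PO p) : PO (∏ p ∈ S, p) :=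
  (Primary.prod fun p hp => (hS p hp).2.1).po

/-- Gauss sums of a product of local characters factor up to a unimodular constant. -/
theorem O2_ft_prod (e : O → ℕ) (S : Finset O) : ∃ u : ℂ, (∀ p ∈ S, Prime p ∧ PO p) →
    ‖u‖ = 1 ∧ ∀ k, ft (∏ p ∈ S, p) (fun x => ∏ p ∈ S, sym p x ^ (e p + 6)) k =
      u * ∏ p ∈ S, gs (e p) p k := by
  classical
  induction S using Finset.induction_on with
  | empty =>
    refine ⟨1, fun _ => ⟨norm_one, fun k => ?_⟩⟩
    simpa [ft] using sum_res_eq_char one_ne_zero k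
  | insert q S hq ih =>
    obtain ⟨u, hu⟩ := ih
    refine ⟨sym q (∏ p ∈ S, p) ^ (e q + 6) * (∏ p ∈ S, sym p q ^ (e p + 6)) * u, fun hS => ?_⟩
    have hS' : ∀ p ∈ S, Prime p ∧ PO p := fun p hp => hS p (Finset.mem_insert_of_mem hp)
    obtain ⟨h1, h2⟩ := hS q (Finset.mem_insert_self _ _)
    obtain ⟨hu1, hu2⟩ := hu hS'
    have hc := O2_coprime hS' h1 h2 hq
    refine ⟨?_, fun k => ?_⟩
    · rw [norm_mul, norm_mul, norm_pow, norm_sym h2.1 hc, hu1, norm_prod,
        Finset.prod_eq_one fun p hp => ?_]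
      · simp
      · rw [norm_pow, norm_sym (hS' p hp).2.1
          (hc.symm.of_isCoprime_of_dvd_left (Finset.dvd_prod_of_mem _ hp)), one_pow]
    · simp only [Finset.prod_insert hq]
      have h3 := Gauss_crt (f := fun x => sym q x ^ (e q + 6))
        (g := fun x => ∏ p ∈ S, sym p x ^ (e p + 6)) h1.ne_zero (O2_po_prod hS').1.ne_zero hc
        (Gauss_sym_per q _)
        (fun x y hxy => Finset.prod_congr rfl fun p hp =>
          Gauss_sym_per p _ x y ((Finset.dvd_prod_of_mem _ hp).trans hxy))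
        (fun x y => by rw [sym_mul_right h2, mul_pow])
        (fun x y => by
          rw [← Finset.prod_mul_distrib]
          exact Finset.prod_congr rfl fun p hp => by rw [sym_mul_right (hS' p hp).2, mul_pow]) k
      refine h3.trans ?_
      have h4 : Gauss_G (fun x => ∏ p ∈ S, sym p x ^ (e p + 6)) (∏ p ∈ S, p) k = _ := hu2 k
      rw [h4, show Gauss_G (fun x => sym q x ^ (e q + 6)) q k = gs (e q) q k from rfl]
      ring

/-- The local expansion at one prime. -/
theorem O2_local (p : O) (v : ℕ) : ∃ c0 c1 : ℂ, Prime p → PO p → v ≠ 0 →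
    ‖c0‖ ≤ 1 ∧ ‖c1‖ ≤ (Real.sqrt (nr p))⁻¹ ∧ ∀ x, sym p x ^ v = c1 * gs (5 * v) p x + c0 := by
  classical
  by_cases h6 : 6 ∣ v
  · refine ⟨((1 - (nr p)⁻¹ : ℝ) : ℂ), ((-(nr p)⁻¹ : ℝ) : ℂ), fun hp hp' hv => ?_⟩
    have h1 := one_le_nr hp.ne_zero
    have h2 : (nr p)⁻¹ ≤ 1 := inv_le_one_of_one_le₀ h1
    have h3 : 0 < (nr p)⁻¹ := by positivity
    refine ⟨?_, ?_, fun x => ?_⟩
    · rw [Complex.norm_real, Real.norm_of_nonneg (by linarith)]; linarith
    · rw [Complex.norm_real, norm_neg, Real.norm_of_nonneg h3.le]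
      exact inv_anti₀ (by positivity) (Real.sqrt_le_iff.2 ⟨by linarith, by nlinarith⟩)
    · have h4 : (nm p : ℂ) = ((nr p : ℝ) : ℂ) := by simp [nr]
      have h5 : ((nr p : ℝ) : ℂ) ≠ 0 := by exact_mod_cast (by linarith : nr p ≠ 0)
      rw [gs_prime_zero (h6.mul_left 5) hp hp', h4]
      generalize nr p = N at h5
      push_cast
      split_ifs with hx
      · rw [(sym_eq_zero_iff hp'.1).2 fun hc => hp.not_isUnit (hc.isUnit_of_dvd' dvd_rfl hx),
          zero_pow hv]
        field_simp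
        ring
      · obtain ⟨v, rfl⟩ := h6
        rw [pow_mul, sym_pow_six hp'.1 (hp.coprime_iff_not_dvd.2 hx), one_pow]
        ring
  · refine ⟨0, (gs (5 * v) p 1)⁻¹, fun hp hp' hv => ?_⟩
    have h1 := Gauss_norm_gs (j := 5 * v) (by omega) hp' hp.squarefree
    have h2 : gs (5 * v) p 1 ≠ 0 := by
      rw [← norm_ne_zero_iff, h1]
      exact (Real.sqrt_pos.2 (nr_pos hp.ne_zero)).ne'
    refine ⟨by simp, by rw [norm_inv, h1], fun x => ?_⟩
    rw [gs_sqfree (by omega) hp' hp.squarefree x, map_pow, conj_sym hp'.1, ← pow_mul,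
      show 5 * (5 * v) = v + 6 * (4 * v) by ring, Gauss_sym_pow hp'.1 x hv]
    field_simp
    ring

open Classical in
theorem O2_local_bound {p : O} (hp : Prime p) (hp' : PO p) (v : ℕ) (ν : O) :
    (Real.sqrt (nr p))⁻¹ * ‖gs (v + 2) p (-ν)‖ ≤ if v % 6 = 4 then
      (Real.sqrt (nr p))⁻¹ + if p ∣ ν then Real.sqrt (nr p) else 0 else 1 := by
  have h0 := nr_pos hp.ne_zero
  have h1 : 0 < Real.sqrt (nr p) := Real.sqrt_pos.2 h0
  by_cases h4 : v % 6 = 4
  · rw [if_pos h4, gs_prime_zero (by omega) hp hp']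
    simp only [dvd_neg]
    split_ifs with hx
    · have h2 : ‖(nm p : ℂ) - 1‖ ≤ 1 + nr p := by
        refine (norm_sub_le _ _).trans ?_
        simp [nr, add_comm]
      have h3 : (Real.sqrt (nr p))⁻¹ * nr p = Real.sqrt (nr p) := by
        rw [inv_mul_eq_iff_eq_mul₀ h1.ne', Real.mul_self_sqrt h0.le]
      calc _ ≤ (Real.sqrt (nr p))⁻¹ * (1 + nr p) := by gcongr
        _ = _ := by rw [mul_add, mul_one, h3]
    · simp
  · rw [if_neg h4, gs_sqfree (by omega) hp' hp.squarefree, norm_mul,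
      Gauss_norm_gs (by omega) hp' hp.squarefree, Complex.norm_conj, norm_pow,
      mul_left_comm, inv_mul_cancel₀ h1.ne', mul_one]
    exact pow_le_one₀ (norm_nonneg _) (norm_sym_le _ _)

open Classical in
theorem sym_eq_sum {h : O} (hh : PO h) : ∃ coef : O → ℂ,
    (∀ x, sym h x = ∑ r ∈ pdiv (rad h), coef r * ft r (psiH h r) x) ∧
    ∀ r ∈ pdiv (rad h), ∀ ν : O, ‖coef r * ft r (dualChr r (psiH h r)) (-ν)‖ ≤
      ∏ p ∈ (pf r).filter (fun p => vp p h % 6 = 4),
        ((Real.sqrt (nr p))⁻¹ + if p ∣ ν then Real.sqrt (nr p) else 0) := by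
  choose c0 c1 hc using fun p => O2_local p (vp p h)
  choose u hu using O2_ft_prod fun p => 5 * vp p h
  have hP : ∀ p ∈ pf h, Prime p ∧ PO p := fun p hp => ⟨(BasicB.pf_sub hp).1, O2_po hh hp⟩
  have hc' := fun p hp => hc p (hP p hp).1 (hP p hp).2 (BasicB.vp_ne_zero hp)
  refine ⟨fun r => (u (pf r))⁻¹ * (∏ p ∈ pf r, c1 p) * ∏ p ∈ pf h \ pf r, c0 p, fun x => ?_,
    fun r hr ν => ?_⟩
  · rw [O2_sum_pdiv (primary_rad h) (squarefree_rad h), pf_rad, sym_eq_prod,
      Finset.prod_congr rfl fun p hp => (hc' p hp).2.2 x, Finset.prod_add]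
    refine Finset.sum_congr rfl fun S hS => ?_
    have hS' : ∀ p ∈ S, Prime p ∧ PO p := fun p hp => hP p (Finset.mem_powerset.1 hS hp)
    have h1 := (squarefree_prod_primes (s := S) fun q hq => ⟨(hS' q hq).1, (hS' q hq).2.1⟩).2.2
    obtain ⟨h2, h3⟩ := hu S hS'
    have h4 : u S ≠ 0 := by rw [← norm_ne_zero_iff, h2]; exact one_ne_zero
    have h5 : psiH h (∏ q ∈ S, q) = fun x => ∏ p ∈ S, sym p x ^ (5 * vp p h + 6) := by
      funext y; rw [psiH, h1]
    simp only [h5, h3, h1, Finset.prod_mul_distrib]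
    field_simp
  · obtain ⟨hr1, hr2⟩ := (mem_pdiv (primary_rad h).ne_zero).1 hr
    have hsq := (squarefree_rad h).squarefree_of_dvd hr2
    have hsub : pf r ⊆ pf h := fun p hp => by
      obtain ⟨h3, h4, h5⟩ := BasicB.of_mem_pf hp
      exact (mem_pf hh.1.ne_zero).2 ⟨h3, h4, h5.trans (hr2.trans (rad_dvd h))⟩
    have hS' : ∀ p ∈ pf r, Prime p ∧ PO p := fun p hp => hP p (hsub hp)
    have hrr : ∏ p ∈ pf r, p = r := hr1.eq_rad hsq
    obtain ⟨w, hw⟩ := O2_ft_prod (fun p => vp p h + 2) (pf r)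
    obtain ⟨hw1, hw2⟩ := hw hS'
    have h5 : dualChr r (psiH h r) = fun x => ∏ p ∈ pf r, sym p x ^ (vp p h + 2 + 6) := by
      funext y
      rw [dualChr, psiH, map_prod, ← sym_sq hr1, sym_eq_prod, ← Finset.prod_pow,
        ← Finset.prod_mul_distrib]
      refine Finset.prod_congr rfl fun p hp => ?_
      have h6 : vp p r = 1 := le_antisymm (BasicB.vp_le_one hsq (hS' p hp).1)
        (Nat.one_le_iff_ne_zero.2 (BasicB.vp_ne_zero hp))
      rw [h6, pow_one, map_pow, conj_sym (hS' p hp).2.1, ← pow_mul, ← pow_add,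
        ← Gauss_sym_pow (hS' p hp).2.1 y (j := vp p h + 2 + 6) (by omega) (4 * vp p h + 4)]
      congr 1
      ring
    rw [hrr] at hw2
    rw [h5, hw2, Finset.prod_filter]
    simp only [norm_mul, norm_inv, (hu _ hS').1, hw1, norm_prod, inv_one, one_mul]
    have h7 : ∏ p ∈ pf h \ pf r, ‖c0 p‖ ≤ 1 :=
      Finset.prod_le_one (fun _ _ => norm_nonneg _) fun p hp => (hc' p (Finset.mem_sdiff.1 hp).1).1
    calc _ ≤ (∏ p ∈ pf r, ‖c1 p‖) * 1 * ∏ p ∈ pf r, ‖gs (vp p h + 2) p (-ν)‖ := by gcongr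
      _ = ∏ p ∈ pf r, ‖c1 p‖ * ‖gs (vp p h + 2) p (-ν)‖ := by
        rw [mul_one, Finset.prod_mul_distrib]
      _ ≤ _ := Finset.prod_le_prod (fun _ _ => by positivity) fun p hp =>
        (mul_le_mul_of_nonneg_right (hc' p (hsub hp)).2.1 (norm_nonneg _)).trans
          (O2_local_bound (hS' p hp).1 (hS' p hp).2 _ ν)

/-! ## part O3: separation of the variables -/

theorem O3_norm_le {D : O} {ψ : O → ℂ} (h : IsChr D ψ) (x : O) : ‖ψ x‖ ≤ 1 := by
  by_cases hx : IsCoprime x D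
  · exact (h.norm x hx).le
  · simp [h.zero x hx]

theorem O3_dual_mul {D E : O} (hD : D ≠ 0) (hE : E ≠ 0) (ψ χ : O → ℂ) :
    dualChr (D * E) (fun x => ψ x * χ x) = fun x => dualChr D ψ x * dualChr E χ x := by
  funext x
  simp only [dualChr, map_mul, cub_mul_left hD hE]
  ring

theorem O3_mul_le {x y : ℂ} (hx : ‖x‖ ≤ 1) (hy : ‖y‖ ≤ 1) : ‖x * y‖ ≤ 1 := by
  rw [norm_mul]
  exact mul_le_one₀ hx (norm_nonneg _) hy

theorem O3_div_le {x y : ℂ} (hx : ‖x‖ ≤ 1) (hy : ‖y‖ = 1) : ‖x / y‖ ≤ 1 := by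
  rwa [norm_div, hy, div_one]

end Crest.Agent.T27.Rf
end
end

-- ▼ part T27/Refl_59
section

/-!
# Row 27 (helper59): the reflection formula on the frame, `refl_59 : Rf.VorFr → ReflStmt`
-/

set_option autoImplicit false
set_option linter.unusedSectionVars false

noncomputable section

namespace Crest.Agent.T27.Rf

open scoped ComplexConjugate

section A

variable [Fr0]

theorem th_of_not {n : O} (hn : ¬ Primary n) : th n = 0 := if_neg fun h => hn h.1

theorem norm_th_le (n : O) : ‖th n‖ ≤ nr n ^ (1 / 2 : ℝ) := by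
  by_cases h : Primary n ∧ ∀ p ∈ pf n, vp p n % 3 ≠ 2
  · obtain ⟨e, h1, h2, h3⟩ := eq_sq1_mul_cu h.1 h.2
    have hd : cu n ∣ n := ⟨sq1 n * cu n ^ 2, by
      conv_lhs => rw [e]
      ring⟩
    rw [show th n = _ from if_pos h, norm_mul, norm_mul, norm_div, norm_gc h1 h2, Complex.norm_real,
      Complex.norm_real, Real.norm_of_nonneg (Real.sqrt_nonneg _),
      Real.norm_of_nonneg (Real.sqrt_nonneg _), div_self (Real.sqrt_pos.2 (nr_pos h1.ne_zero)).ne',
      Complex.norm_conj, norm_arg h.1.ne_zero, one_mul, mul_one, ← Real.sqrt_eq_rpow]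
    exact Real.sqrt_le_sqrt (by exact_mod_cast nm_le_of_dvd hd h.1.ne_zero)
  · rw [show th n = 0 from if_neg h, norm_zero]
    positivity

theorem summable_th {f : O → ℂ} {B : ℝ} (hf : ∀ x, ‖f x‖ ≤ B) {X : ℝ} (hX : 0 < X) (s : ℂ) :
    Summable fun x : O => th x * f x * Wc (nr x / X) s := by
  have hB : 0 ≤ B := (norm_nonneg _).trans (hf 0)
  have : PolyB (fun x => th x * f x) B (1 / 2) := by
    refine ⟨?_, fun n => ?_, fun n hn => ?_⟩
    · rw [th_of_not fun h => h.ne_zero rfl, zero_mul]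
    · rw [norm_mul, mul_comm]
      exact mul_le_mul (hf n) (norm_th_le n) (norm_nonneg _) hB
    · rw [th_of_not fun h => hn h.rep, zero_mul]
  exact (summable_Sm this hX s).of_norm

theorem norm_ft_le (q : O) {f : O → ℂ} (hf : ∀ x, ‖f x‖ ≤ 1) (k : O) :
    ‖ft q f k‖ ≤ (res q).card := by
  unfold ft
  refine (norm_sum_le _ _).trans ?_
  calc ∑ x ∈ res q, ‖f x * eq (k * x) q‖ ≤ ∑ _x ∈ res q, (1 : ℝ) :=
        Finset.sum_le_sum fun x _ => by rw [norm_mul, norm_eq, mul_one]; exact hf _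
    _ = _ := by simp


open Classical in
/-- Separation of the generic modulus `k` from the active modulus `r`. -/
theorem core {I : Type} {a : I → ℝ} {t : I → O} {V : ℝ → ℂ → ℂ} {B : I → O → ℂ} {w : ℂ}
    {c : WithZero Cl} {k r h : O} (hk : Primary k) (hks : Squarefree k) (hr : Primary r)
    (hkr : IsCoprime k r) {X : ℝ} {s : ℂ}
    (hV : (∑' n : O, if cls n = c then
        th n * ft (k * r) (fun x => sym k x ^ 5 * psiH h r x) n * Wc (nr n / X) s else 0) =
      w * ((X / nr (k * r) : ℝ) : ℂ) * ∑' p : I × O, B p.1 p.2 *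
        ft (k * r) (dualChr (k * r) fun x => sym k x ^ 5 * psiH h r x) (-(t p.1 * p.2)) *
          V (a p.1 * nr p.2 * X / nr (k * r) ^ 2) s) :
    ∃ ρ : ℂ, ‖ρ‖ ≤ 1 ∧
      (∑' n : O, if cls n = c then th n * (sym k n * ft r (psiH h r) n) * Wc (nr n / X) s else 0) =
        ρ * w * ((X / (nr k * nr r) : ℝ) : ℂ) * ∑' p : I × O,
          B p.1 p.2 * ft r (dualChr r (psiH h r)) (-(t p.1 * p.2)) * quad k (t p.1) * quad k p.2 *
            V (a p.1 * nr p.2 * X / (nr k * nr r) ^ 2) s := by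
  have hk0 := hk.ne_zero
  have hr0 := hr.ne_zero
  have h1 := isChr_sym_pow hk.po (j := 5) (by norm_num)
  have h2 := isChr_psiH h hr.po
  have d1 := h1.dual hk
  have d2 := h2.dual hr
  have n1 : ‖sym k r ^ 5‖ = 1 := h1.norm r hkr.symm
  have n2 : ‖psiH h r k‖ = 1 := h2.norm k hkr
  have sa : 0 < Real.sqrt (nr k) := Real.sqrt_pos.2 (nr_pos hk0)
  have g3 := Gauss_norm_gs (j := 3) (by norm_num) hk.po hks
  have g5 := Gauss_norm_gs (j := 5) (by norm_num) hk.po hks
  have ne : ∀ {z : ℂ}, ‖z‖ = 1 → z ≠ 0 := fun hw => norm_ne_zero_iff.1 (hw ▸ one_ne_zero)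
  have e1 := ne n1
  have e2 := ne n2
  have e5 : gs 5 k 1 ≠ 0 := norm_ne_zero_iff.1 (g5 ▸ sa.ne')
  refine ⟨dualChr k (fun x => sym k x ^ 5) r / sym k r ^ 5 * (dualChr r (psiH h r) k / psiH h r k) *
    quad k (-1) * (gs 3 k 1 / gs 5 k 1), O3_mul_le (O3_mul_le (O3_mul_le
      (O3_div_le (O3_norm_le d1 _) n1) (O3_div_le (O3_norm_le d2 _) n2)) (norm_quad_le _ _))
      (by rw [norm_div, g3, g5, div_self sa.ne']), ?_⟩
  rw [O3_dual_mul hk0 hr0] at hV
  simp only [h1.ft_mul hk0 hr0 hkr h2, d1.ft_mul hk0 hr0 hkr d2, ← sym_eq_ft hk.po hks,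
    ft_dual_five hk.po hks, nr_mul, quad_mul_right' k (t _)] at hV
  have a1 : (∑' n : O, if cls n = c then th n * (sym k r ^ 5 * psiH h r k * (sym k n * gs 5 k 1) *
      ft r (psiH h r) n) * Wc (nr n / X) s else 0) = sym k r ^ 5 * psiH h r k * gs 5 k 1 *
      ∑' n : O, if cls n = c then th n * (sym k n * ft r (psiH h r) n) * Wc (nr n / X) s else 0 := by
    rw [← tsum_mul_left]
    refine tsum_congr fun n => ?_
    split_ifs
    · ring
    · rw [mul_zero]
  have a2 : (∑' p : I × O, B p.1 p.2 * (dualChr k (fun x => sym k x ^ 5) r * dualChr r (psiH h r) k *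
      (quad k (-1) * gs 3 k 1 * (quad k (t p.1) * quad k p.2)) *
        ft r (dualChr r (psiH h r)) (-(t p.1 * p.2))) *
          V (a p.1 * nr p.2 * X / (nr k * nr r) ^ 2) s) =
      dualChr k (fun x => sym k x ^ 5) r * dualChr r (psiH h r) k * quad k (-1) * gs 3 k 1 *
        ∑' p : I × O, B p.1 p.2 * ft r (dualChr r (psiH h r)) (-(t p.1 * p.2)) * quad k (t p.1) *
          quad k p.2 * V (a p.1 * nr p.2 * X / (nr k * nr r) ^ 2) s := by
    rw [← tsum_mul_left]
    exact tsum_congr fun p => by ring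
  rw [a1, a2] at hV
  refine mul_left_cancel₀ (mul_ne_zero (mul_ne_zero e1 e2) e5) (hV.trans ?_)
  generalize sym k r ^ 5 = y at e1 ⊢
  field_simp

end A

section B

variable [Fr]

open Classical in
/-- Splitting into classes of columns and active parts. -/
theorem split [Fintype Cl] {rep : Cl → O} (hrep : ∀ c, cls (rep c) = (c : WithZero Cl)) {φ : O → ℂ}
    (hφ : ClsB φ) {k h : O} (hk : Primary k) (hh : Primary h) {coef : O → ℂ}
    (hcoef : ∀ x, sym h x = ∑ r ∈ pdiv (rad h), coef r * ft r (psiH h r) x) {X : ℝ} (hX : 0 < X)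
    (s : ℂ) : TT φ X s (k * h) = ∑ c : Cl, ∑ r ∈ pdiv (rad h),
      φ (rep c) * Rs (rep c) (k * h) * coef r * ∑' n : O, if cls n = (c : WithZero Cl) then
        th n * (sym k n * ft r (psiH h r) n) * Wc (nr n / X) s else 0 := by
  have hsum : ∀ c : Cl, ∀ r ∈ pdiv (rad h), Summable fun n : O =>
      φ (rep c) * Rs (rep c) (k * h) * coef r * if cls n = (c : WithZero Cl) then
        th n * (sym k n * ft r (psiH h r) n) * Wc (nr n / X) s else 0 := by
    intro c r hr
    refine Summable.mul_left _ ?_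
    have hr' := (mem_pdiv (primary_rad h).ne_zero).1 hr
    have := summable_th (f := fun n => if cls n = (c : WithZero Cl) then
      sym k n * ft r (psiH h r) n else 0) (B := 1 * (res r).card) (fun n => by
        split_ifs
        · rw [norm_mul]
          have a1 := norm_sym_le k n
          have a2 := norm_ft_le r (O3_norm_le (isChr_psiH h hr'.1.po)) n
          gcongr
        · rw [norm_zero]
          positivity) hX s
    refine this.congr fun n => ?_
    split_ifs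
    · rfl
    · rw [mul_zero, zero_mul]
  simp_rw [← tsum_mul_left]
  rw [Finset.sum_congr rfl fun c _ => (Summable.tsum_finsetSum (hsum c)).symm,
    ← Summable.tsum_finsetSum fun c _ => summable_sum (hsum c)]
  refine tsum_congr fun n => ?_
  by_cases hn : Primary n
  · obtain ⟨c₀, hc₀⟩ := WithZero.ne_zero_iff_exists.1 (cls_ne_zero hn.ne_zero)
    rw [Finset.sum_eq_single c₀]
    · simp only [if_pos hc₀.symm]
      have e : cls n = cls (rep c₀) := by rw [hrep, hc₀]
      rw [hφ.2 n _ e, sym_recip' hn.ne_zero (hk.mul hh).ne_zero, Rs_congr e rfl,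
        sym_mul_left hk.ne_zero hh.ne_zero, hcoef n]
      simp only [Finset.mul_sum, Finset.sum_mul]
      exact Finset.sum_congr rfl fun r _ => by ring
    · intro c _ hc
      refine Finset.sum_eq_zero fun r _ => ?_
      rw [if_neg, mul_zero]
      intro e
      exact hc (WithZero.coe_inj.1 (e.symm.trans hc₀.symm))
    · simp
  · simp [th_of_not hn]


end B

end Crest.Agent.T27.Rf
end
end

-- ▼ part T27/Refl2_59

/-!
# Row 27 (helper59): a weaker form of the twisted Voronoi formula which still gives `ReflStmt`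
-/

set_option autoImplicit false
set_option linter.unusedSectionVars false

noncomputable section

namespace Crest.Agent.T27.Rf

open scoped ComplexConjugate

open Classical in
/-- **Twisted Voronoi formula, weak form.**  All data may depend on the class `c`; the right-hand
side is a finite combination of double series, the coefficients `ω` may depend on everything. -/
def VorFr2 [Fr0] : Prop :=
  ∃ (Kr : ℂ → ℂ → ℂ) (V : ℝ → ℂ → ℂ), R17.KernelOK Kr V ∧ ∀ c : Cl,
    ∃ (Γ : Type) (_ : Fintype Γ) (I : Γ → Type) (a : ∀ g, I g → ℝ) (t : ∀ g, I g → O) (C : ℝ)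
      (B : ∀ g, I g × O → ℂ), (∀ g, IdxOK (a g)) ∧ (∀ g i, IsUnit (t g i)) ∧
      (∀ g i, DualA (C * Real.sqrt (a g i)) fun ν => B g (i, ν)) ∧
      ∀ (D : O) (ψ : O → ℂ), Primary D → IsChr D ψ → (∀ v, IsUnit v → cls v = 1 → ψ v = 1) →
        ∀ X : ℝ, 0 < X → ∀ s : ℂ, ∃ ω : Γ → ℂ, (∀ g, ‖ω g‖ ≤ 1) ∧
          (∑' n : O, if cls n = (c : WithZero Cl) then th n * ft D ψ n * Wc (nr n / X) s else 0) =
            ∑ g, ω g * ((X / nr D : ℝ) : ℂ) * ∑' p : I g × O,
              B g p * ft D (dualChr D ψ) (-(t g p.1 * p.2)) * V (a g p.1 * nr p.2 * X / nr D ^ 2) s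

section A

variable [Fr0]

open Classical in
/-- Separation of the generic modulus `k` from the active modulus `r`. -/
theorem core2 {Γ : Type} [Fintype Γ] {I : Γ → Type} {a : ∀ g, I g → ℝ} {t : ∀ g, I g → O}
    {V : ℝ → ℂ → ℂ} {B : ∀ g, I g × O → ℂ} {w : Γ → ℂ}
    {c : WithZero Cl} {k r h : O} (hk : Primary k) (hks : Squarefree k) (hr : Primary r)
    (hkr : IsCoprime k r) {X : ℝ} {s : ℂ}
    (hV : (∑' n : O, if cls n = c then
        th n * ft (k * r) (fun x => sym k x ^ 5 * psiH h r x) n * Wc (nr n / X) s else 0) =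
      ∑ g, w g * ((X / nr (k * r) : ℝ) : ℂ) * ∑' p : I g × O, B g p *
        ft (k * r) (dualChr (k * r) fun x => sym k x ^ 5 * psiH h r x) (-(t g p.1 * p.2)) *
          V (a g p.1 * nr p.2 * X / nr (k * r) ^ 2) s) :
    ∃ ρ : ℂ, ‖ρ‖ ≤ 1 ∧
      (∑' n : O, if cls n = c then th n * (sym k n * ft r (psiH h r) n) * Wc (nr n / X) s else 0) =
        ∑ g, ρ * w g * ((X / (nr k * nr r) : ℝ) : ℂ) * ∑' p : I g × O,
          B g p * ft r (dualChr r (psiH h r)) (-(t g p.1 * p.2)) * quad k (t g p.1) * quad k p.2 *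
            V (a g p.1 * nr p.2 * X / (nr k * nr r) ^ 2) s := by
  have hk0 := hk.ne_zero
  have hr0 := hr.ne_zero
  have h1 := isChr_sym_pow hk.po (j := 5) (by norm_num)
  have h2 := isChr_psiH h hr.po
  have d1 := h1.dual hk
  have d2 := h2.dual hr
  have n1 : ‖sym k r ^ 5‖ = 1 := h1.norm r hkr.symm
  have n2 : ‖psiH h r k‖ = 1 := h2.norm k hkr
  have sa : 0 < Real.sqrt (nr k) := Real.sqrt_pos.2 (nr_pos hk0)
  have g3 := Gauss_norm_gs (j := 3) (by norm_num) hk.po hks
  have g5 := Gauss_norm_gs (j := 5) (by norm_num) hk.po hks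
  have ne : ∀ {z : ℂ}, ‖z‖ = 1 → z ≠ 0 := fun hw => norm_ne_zero_iff.1 (hw ▸ one_ne_zero)
  have e1 := ne n1
  have e2 := ne n2
  have e5 : gs 5 k 1 ≠ 0 := norm_ne_zero_iff.1 (g5 ▸ sa.ne')
  refine ⟨dualChr k (fun x => sym k x ^ 5) r / sym k r ^ 5 * (dualChr r (psiH h r) k / psiH h r k) *
    quad k (-1) * (gs 3 k 1 / gs 5 k 1), O3_mul_le (O3_mul_le (O3_mul_le
      (O3_div_le (O3_norm_le d1 _) n1) (O3_div_le (O3_norm_le d2 _) n2)) (norm_quad_le _ _))
      (by rw [norm_div, g3, g5, div_self sa.ne']), ?_⟩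
  rw [O3_dual_mul hk0 hr0] at hV
  simp only [h1.ft_mul hk0 hr0 hkr h2, d1.ft_mul hk0 hr0 hkr d2, ← sym_eq_ft hk.po hks,
    ft_dual_five hk.po hks, nr_mul, quad_mul_right' k (t _ _)] at hV
  have a1 : (∑' n : O, if cls n = c then th n * (sym k r ^ 5 * psiH h r k * (sym k n * gs 5 k 1) *
      ft r (psiH h r) n) * Wc (nr n / X) s else 0) = sym k r ^ 5 * psiH h r k * gs 5 k 1 *
      ∑' n : O, if cls n = c then th n * (sym k n * ft r (psiH h r) n) * Wc (nr n / X) s else 0 := by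
    rw [← tsum_mul_left]
    refine tsum_congr fun n => ?_
    split_ifs
    · ring
    · rw [mul_zero]
  have a2 : ∀ g, (∑' p : I g × O, B g p *
      (dualChr k (fun x => sym k x ^ 5) r * dualChr r (psiH h r) k *
      (quad k (-1) * gs 3 k 1 * (quad k (t g p.1) * quad k p.2)) *
        ft r (dualChr r (psiH h r)) (-(t g p.1 * p.2))) *
          V (a g p.1 * nr p.2 * X / (nr k * nr r) ^ 2) s) =
      dualChr k (fun x => sym k x ^ 5) r * dualChr r (psiH h r) k * quad k (-1) * gs 3 k 1 *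
        ∑' p : I g × O, B g p * ft r (dualChr r (psiH h r)) (-(t g p.1 * p.2)) * quad k (t g p.1) *
          quad k p.2 * V (a g p.1 * nr p.2 * X / (nr k * nr r) ^ 2) s := fun g => by
    rw [← tsum_mul_left]
    exact tsum_congr fun p => by ring
  simp only [a1, a2] at hV
  refine mul_left_cancel₀ (mul_ne_zero (mul_ne_zero e1 e2) e5) (hV.trans ?_)
  rw [Finset.mul_sum]
  refine Finset.sum_congr rfl fun g _ => ?_
  generalize sym k r ^ 5 = y at e1 ⊢
  field_simp

end A

section B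

variable [Fr]

/-- **Reflection** from the weak form. -/
theorem refl2_59 (hV : VorFr2) : ReflStmt := by
  classical
  obtain ⟨Kr, V, hK, hV⟩ := hV
  choose Γ hΓ I a t C B hI ht hB hV using hV
  let _ : Fintype Cl := Fintype.ofFinite _
  choose rep hrep using fun c : Cl => cls_surjective (c : WithZero Cl)
  have hrep0 : ∀ c, rep c ≠ 0 := fun c h0 => by
    have := hrep c
    rw [h0, map_zero] at this
    exact WithZero.zero_ne_coe this
  have hC : ∀ c, C c ≤ ∑ c', |C c'| := fun c =>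
    (le_abs_self _).trans (Finset.single_le_sum (f := fun c' => |C c'|)
      (fun _ _ => abs_nonneg _) (Finset.mem_univ c))
  refine ⟨Σ c : Cl, Γ c × Cl, inferInstance, fun i => I i.1 i.2.1, fun i => a i.1 i.2.1,
    ∑ c', |C c'|, Kr, V, fun i => hI _ _, hK, ?_⟩
  intro φ hφ h hh
  obtain ⟨coef, hcoef, hcb⟩ := sym_eq_sum hh.po
  refine ⟨fun i r p => B i.1 i.2.1 p *
    (coef r * ft r (dualChr r (psiH h r)) (-(t i.1 i.2.1 p.1 * p.2))) *
      quad (rep i.2.2) (t i.1 i.2.1 p.1), ?_, ?_⟩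
  · intro i r hr j ν hν
    beta_reduce at hν ⊢
    obtain ⟨n, d, hn, hns, hd, e, hbd⟩ :=
      hB _ _ j ν (left_ne_zero_of_mul (left_ne_zero_of_mul hν))
    refine ⟨n, d, hn, hns, hd, e, ?_⟩
    have a1 := hcb r hr (t _ _ j * ν)
    simp only [(ht _ _ j).dvd_mul_left] at a1
    have a2 := norm_quad_le (rep i.2.2) (t _ _ j)
    have a4 := (norm_nonneg _).trans a1
    have a5 : ‖B i.1 i.2.1 (j, ν)‖ ≤ (∑ c', |C c'|) * Real.sqrt (a i.1 i.2.1 j) * Real.sqrt (nr d) :=
      hbd.trans (by have := hC i.1; gcongr)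
    have a3 := (norm_nonneg _).trans a5
    rw [norm_mul, norm_mul]
    calc _ ≤ ((∑ c', |C c'|) * Real.sqrt (a i.1 i.2.1 j) * Real.sqrt (nr d)) *
          (∏ p ∈ (pf r).filter (fun p => vp p h % 6 = 4),
          ((Real.sqrt (nr p))⁻¹ + if p ∣ ν then Real.sqrt (nr p) else 0)) * 1 := by gcongr
      _ = _ := mul_one _
  intro k hk X hX s
  obtain ⟨hk1, hks, hkh⟩ := hk
  have hcore : ∀ (c : Cl) (r : O), ∃ ρ : Γ c → ℂ, (∀ g, ‖ρ g‖ ≤ 1) ∧ (r ∈ pdiv (rad h) →
      (∑' n : O, if cls n = (c : WithZero Cl) then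
        th n * (sym k n * ft r (psiH h r) n) * Wc (nr n / X) s else 0) =
        ∑ g, ρ g * ((X / (nr k * nr r) : ℝ) : ℂ) * ∑' p : I c g × O,
          B c g p * ft r (dualChr r (psiH h r)) (-(t c g p.1 * p.2)) * quad k (t c g p.1) *
            quad k p.2 * V (a c g p.1 * nr p.2 * X / (nr k * nr r) ^ 2) s) := by
    intro c r
    by_cases hr : r ∈ pdiv (rad h)
    swap
    · exact ⟨0, by simp, fun h' => absurd h' hr⟩
    have hr' := (mem_pdiv (primary_rad h).ne_zero).1 hr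
    have hkr : IsCoprime k r := hkh.of_isCoprime_of_dvd_right (hr'.2.trans (rad_dvd h))
    have hD := hk1.mul hr'.1
    have hψ := (isChr_sym_pow hk1.po (j := 5) (by norm_num)).mul_mul (isChr_psiH h hr'.1.po)
    obtain ⟨ω, hω, h1⟩ := hV c (k * r) _ hD hψ (fun v hv hv1 => by
      rw [psiH, sym_of_cls_one hv hv1, one_pow, one_mul]
      exact Finset.prod_eq_one fun p _ => by rw [sym_of_cls_one hv hv1, one_pow]) X hX s
    obtain ⟨ρ, hρ, h3⟩ := core2 (c := (c : WithZero Cl)) (h := h) (a := a c) (t := t c) (V := V)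
      (B := B c) (w := ω) (X := X) (s := s) hk1 hks hr'.1 hkr (by convert h1)
    exact ⟨fun g => ρ * ω g, fun g => O3_mul_le hρ (hω g), fun _ => h3⟩
  choose ρ hρ hcore using hcore
  obtain ⟨ck, hck⟩ := WithZero.ne_zero_iff_exists.1 (cls_ne_zero hk1.ne_zero)
  refine ⟨fun i r => if i.2.2 = ck then
    φ (rep i.1) * Rs (rep i.1) (k * h) * ρ i.1 r i.2.1 else 0, fun i r => ?_, ?_⟩
  · beta_reduce
    split_ifs
    · exact O3_mul_le (O3_mul_le (hφ.1 _) (norm_Rs (hrep0 _) (hk1.mul hh).ne_zero).le) (hρ _ _ _)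
    · simp
  rw [split hrep hφ hk1 hh hcoef hX s, Fintype.sum_sigma]
  refine Finset.sum_congr rfl fun c _ => ?_
  rw [Fintype.sum_prod_type, Finset.sum_congr rfl fun r hr => by rw [hcore c r hr, Finset.mul_sum],
    Finset.sum_comm]
  refine Finset.sum_congr rfl fun g _ => ?_
  rw [Finset.sum_eq_single ck]
  · refine Finset.sum_congr rfl fun r hr => ?_
    have hq : ∀ j, quad (rep ck) (t c g j) = quad k (t c g j) := fun j =>
      quad_unit_congr (hrep0 ck) ((hrep ck).trans hck) (ht c g j)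
    simp only [if_true, hq]
    have : (∑' p : I c g × O, B c g p *
        (coef r * ft r (dualChr r (psiH h r)) (-(t c g p.1 * p.2))) * quad k (t c g p.1) *
          quad k p.2 * V (a c g p.1 * nr p.2 * X / (nr k * nr r) ^ 2) s) =
        coef r * ∑' p : I c g × O,
        B c g p * ft r (dualChr r (psiH h r)) (-(t c g p.1 * p.2)) * quad k (t c g p.1) *
          quad k p.2 * V (a c g p.1 * nr p.2 * X / (nr k * nr r) ^ 2) s := by
      rw [← tsum_mul_left]
      exact tsum_congr fun p => by ring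
    rw [this]
    ring
  · intro x _ hx
    exact Finset.sum_eq_zero fun r _ => by simp [if_neg hx]
  · simp

end B

end Crest.Agent.T27.Rf
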