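import Crest.Agent.T27.ThA_54
import Crest.Agent.PVc.R17.ThetaDens

-- ▼ part T27/Row_93
section

/-!
# Row 27, leaf R: row functions (`RowStmt`)
-/

set_option autoImplicit false

noncomputable section

namespace Crest.Agent.T27.TH

open scoped ComplexConjugate ENNReal Topology
open MeasureTheory Filter NumberField

variable {F : Type} [Field F] [NumberField F] [Emb F]

namespace Row93

omit [Emb F] in
theorem exists_den (x : F) : ∃ D : ℕ, D ≠ 0 ∧ IsIntegral ℤ ((D : F) * x) := by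
  have hx : IsAlgebraic ℤ x :=
    (IsFractionRing.isAlgebraic_iff ℤ ℚ F).2 (Algebra.IsAlgebraic.isAlgebraic x)
  obtain ⟨m, s, hm, h⟩ := hx.exists_nsmul_eq (𝓞 F)
  refine ⟨m, hm, ?_⟩
  rw [← nsmul_eq_mul, h]
  exact s.isIntegral_coe

omit [NumberField F] [Emb F] in
theorem int_nat (n : ℕ) : IsIntegral ℤ (n : F) := by
  have : (n : F) = algebraMap ℤ F (n : ℤ) := by simp
  rw [this]; exact isIntegral_algebraMap

omit [NumberField F] [Emb F] in
theorem int_mul_left {M : ℕ} (K : ℕ) {x : F} (h : IsIntegral ℤ ((M : F) * x)) :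
    IsIntegral ℤ (((K * M : ℕ) : F) * x) := by
  have : ((K * M : ℕ) : F) * x = (K : F) * ((M : F) * x) := by push_cast; ring
  rw [this]; exact (int_nat K).mul h

omit [NumberField F] [Emb F] in
theorem int_mul_right {M : ℕ} (K : ℕ) {x : F} (h : IsIntegral ℤ ((M : F) * x)) :
    IsIntegral ℤ (((M * K : ℕ) : F) * x) := by
  rw [Nat.mul_comm]; exact int_mul_left K h

omit [Emb F] in
theorem exists_den_mat (g : Mat F) : ∃ D : ℕ, D ≠ 0 ∧ ∀ i j, IsIntegral ℤ ((D : F) * g i j) := by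
  choose D hD hI using fun p : Fin 2 × Fin 2 => exists_den (g p.1 p.2)
  refine ⟨∏ p, D p, Finset.prod_ne_zero_iff.2 fun p _ => hD p, fun i j => ?_⟩
  rw [← Finset.mul_prod_erase _ _ (Finset.mem_univ (i, j))]
  exact int_mul_right _ (hI (i, j))

theorem eF_add (x y : F) : eF (x + y) = eF x * eF y := by
  simp only [eF, eV, em, map_add, Complex.add_re, Finset.sum_add_distrib]
  rw [← Complex.exp_add]
  congr 1
  push_cast
  ring


theorem norm_eF (x : F) : ‖eF x‖ = 1 := by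
  have : (4 * Real.pi * Complex.I * ((∑ j, (em x j).re : ℝ) : ℂ) : ℂ) =
      ((4 * Real.pi * (∑ j, (em x j).re) : ℝ) : ℂ) * Complex.I := by
    push_cast; ring
  rw [eF, eV, this, Complex.norm_exp_ofReal_mul_I]

omit [NumberField F] [Emb F] in
theorem mem_Stab {ξ : F × F → ℂ} {g : SL F} : g ∈ Stab ξ ↔ tr ξ (g : Mat F) = ξ := Iff.rfl

omit [NumberField F] [Emb F] in
theorem mem_Gam0 {g : SL F} : g ∈ Gam0 F ↔ ∀ i j, IsIntegral ℤ (g i j) := Iff.rfl


omit [NumberField F] [Emb F] in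
theorem adm_add (ξ ξ' : F × F → ℂ) (h : Adm ξ) (h' : Adm ξ') : Adm (ξ + ξ') := by
  obtain ⟨B, hB⟩ := h.bdd
  obtain ⟨B', hB'⟩ := h'.bdd
  obtain ⟨M, hM, hs⟩ := h.supp
  obtain ⟨M', hM', hs'⟩ := h'.supp
  refine ⟨⟨B + B', fun u => (norm_add_le _ _).trans (add_le_add (hB u) (hB' u))⟩,
    ⟨M * M', mul_ne_zero hM hM', fun u hu => ?_⟩, ?_⟩
  · by_cases h0 : ξ u = 0
    · have h1 : ξ' u ≠ 0 := by
        intro h1; apply hu; simp [h0, h1]
      obtain ⟨h2, h3, a, b, ha, hb, hab⟩ := hs' u h1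
      refine ⟨int_mul_left _ h2, int_mul_left _ h3, M * a, M * b, (int_nat M).mul ha,
        (int_nat M).mul hb, ?_⟩
      push_cast
      rw [← hab]; ring
    · obtain ⟨h2, h3, a, b, ha, hb, hab⟩ := hs u h0
      refine ⟨int_mul_right _ h2, int_mul_right _ h3, M' * a, M' * b, (int_nat M').mul ha,
        (int_nat M').mul hb, ?_⟩
      push_cast
      rw [← hab]; ring
  · have h1 := Subgroup.relIndex_inf_ne_zero h.fin h'.fin
    intro h2
    refine h1 (Subgroup.relIndex_eq_zero_of_le_left ?_ h2)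
    intro g hg
    rw [mem_Stab]
    funext u
    have e1 := congrFun (mem_Stab.1 hg.1) u
    have e2 := congrFun (mem_Stab.1 hg.2) u
    simp only [tr, Pi.add_apply] at e1 e2 ⊢
    rw [e1, e2]

omit [NumberField F] [Emb F] in
theorem adm_smul (a : ℂ) (ξ : F × F → ℂ) (h : Adm ξ) : Adm (fun u => a * ξ u) := by
  obtain ⟨B, hB⟩ := h.bdd
  obtain ⟨M, hM, hs⟩ := h.supp
  refine ⟨⟨‖a‖ * B, fun u => ?_⟩, ⟨M, hM, fun u hu => hs u (right_ne_zero_of_mul hu)⟩, ?_⟩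
  · rw [norm_mul]; exact mul_le_mul_of_nonneg_left (hB u) (norm_nonneg _)
  · intro h2
    refine h.fin (Subgroup.relIndex_eq_zero_of_le_left ?_ h2)
    intro g hg
    rw [mem_Stab]
    funext u
    have e1 := congrFun (mem_Stab.1 hg) u
    simp only [tr] at e1 ⊢
    rw [e1]

omit [NumberField F] [Emb F] in
theorem latt_mul {N : ℕ} {x y : F} (hx : IsIntegral ℤ x) (hy : y ∈ latt F N) :
    x * y ∈ latt F N := by
  obtain ⟨z, hz, rfl⟩ := hy
  exact ⟨x * z, hx.mul hz, by ring⟩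

theorem cong (hM : MeanStmt F) (N : ℕ) (Δ : Subgroup (SL F)) (hN : N ≠ 0)
    (h : ∀ g ∈ Gam0 F, (∀ i j, g i j - (1 : Mat F) i j ∈ latt F N) → g ∈ Δ) :
    Δ.relIndex (Gam0 F) ≠ 0 := by
  obtain ⟨S, -, -, -, hS⟩ := hM.reps N hN
  have hex : ∀ (g : Gam0 F) (p : Fin 2 × Fin 2), ∃ y : S, (g : SL F) p.1 p.2 - y ∈ latt F N := by
    intro g p
    obtain ⟨y, hy, hy'⟩ := hS ((g : SL F) p.1 p.2) ((int_nat N).mul (g.2 p.1 p.2))
    exact ⟨⟨y, hy⟩, hy'⟩
  choose f hf using hex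
  have key : ∀ g g' : Gam0 F, f g = f g' → g⁻¹ * g' ∈ Δ.subgroupOf (Gam0 F) := by
    intro g g' hgg
    rw [Subgroup.mem_subgroupOf]
    refine h _ (g⁻¹ * g').2 fun i j => ?_
    have hd : ∀ i j, (g' : SL F) i j - (g : SL F) i j ∈ latt F N := by
      intro i j
      have h1 := hf g (i, j)
      have h2 := hf g' (i, j)
      rw [← hgg] at h2
      have := (latt F N).sub_mem h2 h1
      simpa using this
    have e1 : (1 : Mat F) = ((g⁻¹ : Gam0 F) : SL F).1 * (g : SL F).1 := by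
      rw [← Matrix.SpecialLinearGroup.coe_mul, ← Subgroup.coe_mul, inv_mul_cancel]
      rfl
    have e2 : ((g⁻¹ * g' : Gam0 F) : SL F).1 = ((g⁻¹ : Gam0 F) : SL F).1 * (g' : SL F).1 := by
      rw [← Matrix.SpecialLinearGroup.coe_mul, ← Subgroup.coe_mul]
    have e3 : ((g⁻¹ * g' : Gam0 F) : SL F) i j - (1 : Mat F) i j =
        ((g⁻¹ : Gam0 F) : SL F) i 0 * ((g' : SL F) 0 j - (g : SL F) 0 j) +
        ((g⁻¹ : Gam0 F) : SL F) i 1 * ((g' : SL F) 1 j - (g : SL F) 1 j) := by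
      show ((g⁻¹ * g' : Gam0 F) : SL F).1 i j - (1 : Mat F) i j = _
      rw [e1, e2, Matrix.mul_apply, Matrix.mul_apply, Fin.sum_univ_two, Fin.sum_univ_two]
      ring
    rw [e3]
    exact (latt F N).add_mem (latt_mul ((g⁻¹).2 _ _) (hd _ _)) (latt_mul ((g⁻¹).2 _ _) (hd _ _))
  have : Finite (Gam0 F ⧸ Δ.subgroupOf (Gam0 F)) := by
    refine Finite.of_injective (fun q : Gam0 F ⧸ Δ.subgroupOf (Gam0 F) => f q.out) ?_
    intro q q' hq
    rw [← QuotientGroup.out_eq' q, ← QuotientGroup.out_eq' q']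
    exact QuotientGroup.eq.2 (key _ _ hq)
  exact Subgroup.index_ne_zero_of_finite

omit [NumberField F] [Emb F] in
/-- Conjugation `h ↦ g⁻¹ h g`. -/
def conjSL (g : Mat F) (hg : g.det ≠ 0) : SL F →* SL F where
  toFun h := ⟨g⁻¹ * (h : Mat F) * g, by
    rw [Matrix.det_mul, Matrix.det_mul, h.det_coe, Matrix.det_nonsing_inv, mul_one,
      Ring.inverse_eq_inv', inv_mul_cancel₀ hg]⟩
  map_one' := by
    apply Subtype.ext
    show g⁻¹ * ((1 : SL F) : Mat F) * g = ((1 : SL F) : Mat F)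
    rw [Matrix.SpecialLinearGroup.coe_one, Matrix.mul_one,
      Matrix.nonsing_inv_mul _ (Ne.isUnit hg)]
  map_mul' h k := by
    apply Subtype.ext
    show g⁻¹ * ((h * k : SL F) : Mat F) * g = (g⁻¹ * (h : Mat F) * g) * (g⁻¹ * (k : Mat F) * g)
    rw [Matrix.SpecialLinearGroup.coe_mul]
    have : g * g⁻¹ = 1 := Matrix.mul_nonsing_inv _ (Ne.isUnit hg)
    calc g⁻¹ * ((h : Mat F) * (k : Mat F)) * g
        = g⁻¹ * (h : Mat F) * (g * g⁻¹) * (k : Mat F) * g := by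
          rw [this]; simp only [Matrix.mul_assoc, Matrix.one_mul]
      _ = _ := by simp only [Matrix.mul_assoc]

omit [NumberField F] [Emb F] in
theorem conjSL_coe (g : Mat F) (hg : g.det ≠ 0) (h : SL F) :
    ((conjSL g hg h : SL F) : Mat F) = g⁻¹ * (h : Mat F) * g := rfl

theorem adm_tr (hM : MeanStmt F) (ξ : F × F → ℂ) (g : Mat F) (h : Adm ξ) (hg : g.det ≠ 0) :
    Adm (tr ξ g) := by
  obtain ⟨B, hB⟩ := h.bdd
  obtain ⟨M, hM0, hs⟩ := h.supp
  obtain ⟨D, hD, hDg⟩ := exists_den_mat g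
  obtain ⟨E, hE, hEg⟩ := exists_den_mat g⁻¹
  have hgg : g * g⁻¹ = 1 := Matrix.mul_nonsing_inv _ (Ne.isUnit hg)
  refine ⟨⟨B, fun u => hB _⟩, ⟨M * (D * E), mul_ne_zero hM0 (mul_ne_zero hD hE), fun u hu => ?_⟩, ?_⟩
  · obtain ⟨h1, h2, a, b, ha, hb, hab⟩ := hs _ hu
    have hu' : u = rmul (rmul u g) g⁻¹ := by rw [← rmul_mul, hgg, rmul_one]
    have e1 : ((M * (D * E) : ℕ) : F) * u.1 = (D : F) * (((M : F) * (rmul u g).1) * (E * g⁻¹ 0 0) +
        ((M : F) * (rmul u g).2) * (E * g⁻¹ 1 0)) := by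
      conv_lhs => rw [hu']
      simp only [rmul]
      push_cast; ring
    have e2 : ((M * (D * E) : ℕ) : F) * u.2 = (D : F) * (((M : F) * (rmul u g).1) * (E * g⁻¹ 0 1) +
        ((M : F) * (rmul u g).2) * (E * g⁻¹ 1 1)) := by
      conv_lhs => rw [hu']
      simp only [rmul]
      push_cast; ring
    refine ⟨?_, ?_, E * (a * (D * g 0 0) + b * (D * g 0 1)), E * (a * (D * g 1 0) + b * (D * g 1 1)),
      ?_, ?_, ?_⟩
    · rw [e1]; exact (int_nat D).mul ((h1.mul (hEg _ _)).add (h2.mul (hEg _ _)))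
    · rw [e2]; exact (int_nat D).mul ((h1.mul (hEg _ _)).add (h2.mul (hEg _ _)))
    · exact (int_nat E).mul ((ha.mul (hDg _ _)).add (hb.mul (hDg _ _)))
    · exact (int_nat E).mul ((ha.mul (hDg _ _)).add (hb.mul (hDg _ _)))
    · simp only [rmul] at hab
      push_cast
      rw [← hab]; ring
  · have h1 : ((Gam0 F).comap (conjSL g hg)).relIndex (Gam0 F) ≠ 0 := by
      refine cong hM (D * E) _ (mul_ne_zero hD hE) fun k hk hk1 => ?_
      rw [Subgroup.mem_comap, mem_Gam0]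
      intro i j
      choose Y hY hY' using hk1
      have e : (k : Mat F) = 1 + ((D : F) * E) • Matrix.of Y := by
        ext i j
        have := hY' i j
        simp only [Matrix.add_apply, Matrix.smul_apply, Matrix.of_apply, smul_eq_mul]
        push_cast at this
        rw [← this]; ring
      have e' : ((conjSL g hg k : SL F) : Mat F) =
          1 + ((E : F) • g⁻¹) * Matrix.of Y * ((D : F) • g) := by
        rw [conjSL_coe, e, Matrix.mul_add, Matrix.add_mul, Matrix.mul_one,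
          Matrix.nonsing_inv_mul _ (Ne.isUnit hg)]
        simp only [Matrix.mul_smul, Matrix.smul_mul, smul_smul]
      show IsIntegral ℤ (((conjSL g hg k : SL F) : Mat F) i j)
      rw [e', Matrix.add_apply]
      refine ((Gam0 F).one_mem i j).add ?_
      simp only [Matrix.mul_apply, Fin.sum_univ_two, Matrix.smul_apply, smul_eq_mul,
        Matrix.of_apply]
      exact ((((hEg _ _).mul (hY _ _)).add ((hEg _ _).mul (hY _ _))).mul (hDg _ _)).add
        ((((hEg _ _).mul (hY _ _)).add ((hEg _ _).mul (hY _ _))).mul (hDg _ _))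
    rw [Subgroup.relIndex_comap] at h1
    have h2 := Subgroup.relIndex_ne_zero_trans h.fin h1
    rw [← Subgroup.relIndex_comap] at h2
    intro h3
    refine h2 (Subgroup.relIndex_eq_zero_of_le_left ?_ h3)
    intro k hk
    rw [Subgroup.mem_comap, mem_Stab, conjSL_coe] at hk
    rw [mem_Stab, ← tr_mul]
    have : (k : Mat F) * g = g * (g⁻¹ * (k : Mat F) * g) := by
      rw [← Matrix.mul_assoc, ← Matrix.mul_assoc, hgg, Matrix.one_mul]
    rw [this, tr_mul, hk]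

omit [NumberField F] [Emb F] in
theorem nT_coe (t : F) : ((nT t : SL F) : Mat F) = !![1, t; 0, 1] := rfl

omit [NumberField F] [Emb F] in
theorem nT_add (s t : F) : nT (s + t) = nT s * nT t := by
  apply Subtype.ext
  show ((nT (s + t) : SL F) : Mat F) = ((nT s * nT t : SL F) : Mat F)
  rw [Matrix.SpecialLinearGroup.coe_mul, nT_coe, nT_coe, nT_coe, Matrix.mul_fin_two]
  simp [add_comm]

omit [NumberField F] [Emb F] in
theorem nT_zero : nT (0 : F) = 1 := by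
  apply Subtype.ext
  show ((nT (0 : F) : SL F) : Mat F) = ((1 : SL F) : Mat F)
  rw [nT_coe, Matrix.SpecialLinearGroup.coe_one, Matrix.one_fin_two]

omit [NumberField F] [Emb F] in
theorem nT_pow (t : F) (n : ℕ) : nT t ^ n = nT ((n : F) * t) := by
  induction n with
  | zero => simp [nT_zero]
  | succ n ih => rw [pow_succ, ih, ← nT_add]; congr 1; push_cast; ring

omit [NumberField F] [Emb F] in
theorem nT_mem {t : F} (ht : IsIntegral ℤ t) : nT t ∈ Gam0 F := by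
  intro i j
  show IsIntegral ℤ ((!![1, t; 0, 1] : Mat F) i j)
  fin_cases i <;> fin_cases j <;> simp [isIntegral_one, isIntegral_zero, ht]

omit [NumberField F] [Emb F] in
theorem transl (ξ : F × F → ℂ) (h : Adm ξ) : ∃ N : ℕ, N ≠ 0 ∧ ∀ t ∈ latt F N, nT t ∈ Del ξ := by
  refine ⟨((Stab ξ).relIndex (Gam0 F)).factorial, Nat.factorial_ne_zero _, ?_⟩
  rintro _ ⟨y, hy, rfl⟩
  rw [← nT_pow]
  exact Subgroup.pow_mem_of_relIndex_ne_zero_of_dvd h.fin (nT_mem hy)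
    fun m hm hm' => Nat.dvd_factorial hm hm'

omit [NumberField F] [Emb F] in
theorem xi_shift {ξ : F × F → ℂ} {t : F} (h : nT t ∈ Del ξ) (c d : F) :
    ξ (c, d + c * t) = ξ (c, d) := by
  have e := congrFun (mem_Stab.1 h.1) (c, d)
  rw [← e, tr, nT_coe]
  congr 1
  simp [rmul, add_comm]

omit [Emb F] in
theorem per (ξ : F × F → ℂ) (h : Adm ξ) (c : F) (hc : c ≠ 0) : Per fun d => ξ (c, d) := by
  obtain ⟨N, hN, hT⟩ := transl ξ h
  obtain ⟨M, hM, hs⟩ := h.supp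
  obtain ⟨D, hD, hDc⟩ := exists_den c⁻¹
  refine ⟨M * (N * D), mul_ne_zero hM (mul_ne_zero hN hD), ?_, fun x hx => ?_⟩
  · rintro x _ ⟨y, hy, rfl⟩
    have e : ((M * (N * D) : ℕ) : F) * y = c * ((N : F) * ((M : F) * ((D : F) * c⁻¹) * y)) := by
      push_cast; field_simp
    rw [e]
    exact xi_shift (hT _ ⟨_, ((int_nat M).mul hDc).mul hy, rfl⟩) c x
  · exact int_mul_right _ (hs _ hx).2.1

theorem per_char (hM : MeanStmt F) (ξ : F × F → ℂ) (h : Adm ξ) (r c : F) (hc : c ≠ 0) :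
    Per fun d => ξ (c, d) * eF (r * d / c) := by
  have := hM.char _ (r / c) (per ξ h c hc)
  simpa only [div_mul_eq_mul_div] using this

theorem bddL (hM : MeanStmt F) (ξ : F × F → ℂ) (h : Adm ξ) :
    ∃ (M : ℕ) (B : ℝ), M ≠ 0 ∧ ∀ r, (∀ c, ‖mf ξ r c‖ ≤ B) ∧
      ∀ c, mf ξ r c ≠ 0 → c ≠ 0 ∧ IsIntegral ℤ ((M : F) * c) ∧ IsIntegral ℤ ((M : F) * r) := by
  obtain ⟨N, hN, hT⟩ := transl ξ h
  obtain ⟨B, hB⟩ := h.bdd
  obtain ⟨M, hM0, hs⟩ := h.supp
  obtain ⟨D, hD, hdual⟩ := hM.dual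
  have hB0 : 0 ≤ B := (norm_nonneg _).trans (hB 0)
  refine ⟨M * (D * N), B * (M : ℝ) ^ Module.finrank ℚ F, mul_ne_zero hM0 (mul_ne_zero hD hN),
    fun r => ⟨fun c => ?_, fun c hc => ?_⟩⟩
  · unfold mf
    split_ifs with hc
    · rw [norm_zero]; positivity
    · refine hM.norm_le _ M B hM0 (fun x => ?_) fun x hx => (hs _ (left_ne_zero_of_mul hx)).2.1
      rw [norm_mul, norm_eF, mul_one]; exact hB _
  · have hc0 : c ≠ 0 := by
      rintro rfl
      exact hc (by simp [mf])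
    rw [mf, if_neg hc0] at hc
    refine ⟨hc0, ?_, ?_⟩
    · by_contra hcon
      apply hc
      have hz : ∀ d, ξ (c, d) = 0 := by
        intro d
        by_contra hd
        exact hcon (int_mul_right _ (hs _ hd).1)
      have := hM.norm_le (fun d => ξ (c, d) * eF (r * d / c)) 1 0 one_ne_zero
        (fun x => by simp [hz]) (fun x hx => absurd (by simp [hz]) hx)
      rw [zero_mul] at this
      exact norm_le_zero_iff.1 this
    · have h1 : IsIntegral ℤ ((D : F) * (r * N)) := by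
        refine hdual _ fun t ht => ?_
        by_contra hne
        apply hc
        have := hM.char_zero (fun d => ξ (c, d)) (r / c) (c * ((N : F) * t)) (per ξ h c hc0)
          (fun x => xi_shift (hT _ ⟨t, ht, rfl⟩) c x) (by
            have e : r / c * (c * ((N : F) * t)) = r * N * t := by field_simp
            rw [e]; exact hne)
        simpa only [div_mul_eq_mul_div] using this
      have e : ((M * (D * N) : ℕ) : F) * r = (M : F) * ((D : F) * (r * N)) := by push_cast; ring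
      rw [e]; exact (int_nat M).mul h1

theorem mf_add (hM : MeanStmt F) (ξ ξ' : F × F → ℂ) (h : Adm ξ) (h' : Adm ξ') (r : F) :
    mf (ξ + ξ') r = mf ξ r + mf ξ' r := by
  funext c
  simp only [mf, Pi.add_apply]
  split_ifs with hc
  · simp
  · rw [← (hM.add _ _ (per_char hM ξ h r c hc) (per_char hM ξ' h' r c hc)).2]
    congr 1
    funext d
    simp only [Pi.add_apply]; ring

theorem mf_smul (hM : MeanStmt F) (a : ℂ) (ξ : F × F → ℂ) (h : Adm ξ) (r c : F) :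
    mf (fun u => a * ξ u) r c = a * mf ξ r c := by
  simp only [mf]
  split_ifs with hc
  · simp
  · rw [← (hM.smul a _ (per_char hM ξ h r c hc)).2]
    congr 1
    funext d
    ring

theorem mf_tri (hM : MeanStmt F) (ξ : F × F → ℂ) (h : Adm ξ) (ρ b e r c : F) (hρ : ρ ≠ 0)
    (he : e ≠ 0) :
    mf (tr ξ !![ρ, b; 0, e]) r c = (nF e : ℂ) * eF (-(r * b / e)) * mf ξ (r * ρ / e) (c * ρ) := by
  by_cases hc : c = 0
  · simp [mf, hc]
  have hcρ : c * ρ ≠ 0 := mul_ne_zero hc hρ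
  rw [mf, mf, if_neg hc, if_neg hcρ]
  have hψ := per_char hM ξ h (r * ρ / e) (c * ρ) hcρ
  obtain ⟨h1, h1'⟩ := hM.shift _ (c * b) hψ
  obtain ⟨h2, h2'⟩ := hM.scale _ e h1 he
  have h3 := (hM.smul (eF (-(r * b / e))) _ h2).2
  rw [h2', h1'] at h3
  rw [mul_comm (nF e : ℂ), mul_assoc, ← h3]
  congr 1
  funext d
  have e1 : rmul (c, d) (!![ρ, b; 0, e] : Mat F) = (c * ρ, e * d + c * b) := by
    simp only [rmul, Matrix.of_apply, Matrix.cons_val', Matrix.cons_val_zero, Matrix.cons_val_one,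
      Matrix.cons_val_fin_one]
    congr 1 <;> ring
  have e2 : r * d / c = -(r * b / e) + r * ρ / e * (e * d + c * b) / (c * ρ) := by
    field_simp; ring
  rw [tr, e1, e2, eF_add]; ring

end Row93

open Row93 in
/-- **Leaf R.** -/
theorem row_93 (F : Type) [Field F] [NumberField F] [Emb F] (hM : MeanStmt F) : RowStmt F where
  adm_add := adm_add
  adm_smul := adm_smul
  adm_tr := adm_tr hM
  cong := cong hM
  transl := transl
  per := per
  bddL := bddL hM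
  mf_add := mf_add hM
  mf_smul := mf_smul hM
  mf_tri := fun ξ h ρ b e r c hρ he => mf_tri hM ξ h ρ b e r c hρ he

end Crest.Agent.T27.TH
end
end

-- ▼ part T27/Dens_92
section

/-!
# Row 27, theta module A4: weak densities on `ℝ₊^r` (real analysis only, logarithmic coordinates)

A family of points `ℓ c ∈ ι → ℝ` (`ℓ c j = log |c_j|²`) carries weights `G c`.  For a kernel `κ` on
`ι → ℝ` put `SS G ℓ κ η = ∑ G c κ(η + ℓ c)`.  `G` has weak density `t` if for some admissible kernel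
`SS` is bounded on `∑ η ≤ 0` and tends to `t ∫ κ` along every ray `η₀ + x (1, …, 1)`, `x → -∞`.
Admissible kernels are stable under convolution, which is commutative: this gives uniqueness and
the shape of the limit of the Fourier coefficients.
-/

set_option autoImplicit false
set_option linter.unusedSectionVars false

noncomputable section

namespace Crest.Agent.T27.D92

open scoped ComplexConjugate ENNReal Topology
open MeasureTheory Filter

variable {ι : Type} [Fintype ι] {α : Type}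

/-- The point `η₀ + x (1, …, 1)`. -/
def ray (η₀ : ι → ℝ) (x : ℝ) : ι → ℝ := fun j => η₀ j + x

/-- Admissible kernels. -/
structure KC (κ : (ι → ℝ) → ℝ) : Prop where
  meas : Measurable κ
  nonneg : ∀ u, 0 ≤ κ u
  pos : 0 < ∫ u, κ u
  bound : ∀ β : ι → ℝ, (∀ j, -(1 / 3) < β j) → ∃ C : ℝ, ∀ u, κ u ≤ C * Real.exp (-∑ j, β j * u j)

/-- The smoothed sum. -/
def SS (G : α → ℂ) (ℓ : α → ι → ℝ) (κ : (ι → ℝ) → ℝ) (η : ι → ℝ) : ℂ :=
  ∑' c, G c * (κ (η + ℓ c) : ℂ)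

/-- The comparison function `exp (-β ∑ u_j - ∑ |u_j| / 6)`. -/
def Ew (β : ℝ) (u : ι → ℝ) : ℝ := Real.exp (-(β * ∑ j, u j) - (∑ j, |u j|) / 6)

/-- Polynomial growth of the weights (uniformly in the shape). -/
def TB (G : α → ℂ) (ℓ : α → ι → ℝ) : Prop :=
  ∃ β H : ℝ, 0 ≤ β ∧ ∀ η : ι → ℝ, (Summable fun c => ‖G c‖ * Ew β (η + ℓ c)) ∧
    ∑' c, ‖G c‖ * Ew β (η + ℓ c) ≤ H * Real.exp (-(β * ∑ j, η j))

/-- Weak density. -/
def WD (G : α → ℂ) (ℓ : α → ι → ℝ) (t : ℂ) : Prop :=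
  ∃ κ : (ι → ℝ) → ℝ, KC κ ∧ (∃ M : ℝ, ∀ η : ι → ℝ, ∑ j, η j ≤ 0 → ‖SS G ℓ κ η‖ ≤ M) ∧
    ∀ η₀, Tendsto (fun x => SS G ℓ κ (ray η₀ x)) atBot (𝓝 (t * ((∫ u, κ u : ℝ) : ℂ)))

/-- Convolution. -/
def kconv (κ κ' : (ι → ℝ) → ℝ) (u : ι → ℝ) : ℝ := ∫ s, κ s * κ' (u - s)

theorem Ew_pos (β : ℝ) (u : ι → ℝ) : 0 < Ew β u := Real.exp_pos _

theorem kconv_comm (κ κ' : (ι → ℝ) → ℝ) (u : ι → ℝ) : kconv κ κ' u = kconv κ' κ u := by
  unfold kconv
  rw [← integral_sub_left_eq_self (fun s => κ s * κ' (u - s)) volume u]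
  simp only [sub_sub_cancel, mul_comm]

/-- A bound valid for all exponent vectors gives a two-sided bound. -/
theorem two_sided {P : Type} {κ : P → (ι → ℝ) → ℝ}
    (h : ∀ β : ι → ℝ, (∀ j, -(1 / 3) < β j) → ∃ C : ℝ, ∀ y u,
      κ y u ≤ C * Real.exp (-∑ j, β j * u j))
    (β : ι → ℝ) {ε : ℝ} (hε : 0 ≤ ε) (hβ : ∀ j, -(1 / 3) < β j - ε) :
    ∃ C : ℝ, 0 ≤ C ∧ ∀ y u, κ y u ≤ C * Real.exp (-(∑ j, β j * u j) - ε * ∑ j, |u j|) := by
  classical
  have h1 : ∀ s : ι → Bool, ∃ C : ℝ, ∀ y u,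
      κ y u ≤ C * Real.exp (-∑ j, (β j + if s j then ε else -ε) * u j) := fun s =>
    h _ fun j => by
      have := hβ j
      split_ifs <;> linarith
  choose C hC using h1
  refine ⟨∑ s, |C s|, Finset.sum_nonneg fun _ _ => abs_nonneg _, fun y u => ?_⟩
  have h2 := hC (fun j => decide (0 ≤ u j)) y u
  have e : -∑ j, (β j + if (decide (0 ≤ u j) : Bool) then ε else -ε) * u j =
      -(∑ j, β j * u j) - ε * ∑ j, |u j| := by
    rw [Finset.mul_sum, ← neg_add', ← Finset.sum_add_distrib]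
    congr 1
    refine Finset.sum_congr rfl fun j _ => ?_
    by_cases hj : 0 ≤ u j
    · simp only [hj, decide_true, if_true, abs_of_nonneg hj]; ring
    · simp only [hj, decide_false, Bool.false_eq_true, if_false, abs_of_neg (not_le.1 hj)]; ring
  rw [e] at h2
  refine h2.trans (mul_le_mul_of_nonneg_right ?_ (Real.exp_pos _).le)
  exact (le_abs_self _).trans
    (Finset.single_le_sum (f := fun s => |C s|) (fun _ _ => abs_nonneg _) (Finset.mem_univ _))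

theorem KC.two_sided {κ : (ι → ℝ) → ℝ} (h : KC κ) (β : ι → ℝ) {ε : ℝ} (hε : 0 ≤ ε)
    (hβ : ∀ j, -(1 / 3) < β j - ε) :
    ∃ C : ℝ, 0 ≤ C ∧ ∀ u, κ u ≤ C * Real.exp (-(∑ j, β j * u j) - ε * ∑ j, |u j|) := by
  obtain ⟨C, h0, hC⟩ := D92.two_sided (P := Unit) (κ := fun _ => κ)
    (fun β hβ => (h.bound β hβ).imp fun _ hC _ => hC) β hε hβ
  exact ⟨C, h0, hC ()⟩

theorem Ew_bound {P : Type} {κ : P → (ι → ℝ) → ℝ}
    (h : ∀ β : ι → ℝ, (∀ j, -(1 / 3) < β j) → ∃ C : ℝ, ∀ y u,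
      κ y u ≤ C * Real.exp (-∑ j, β j * u j)) {β : ℝ} (hβ : 0 ≤ β) :
    ∃ C : ℝ, 0 ≤ C ∧ ∀ y u, κ y u ≤ C * Ew β u := by
  obtain ⟨C, h0, hC⟩ := two_sided h (fun _ => β) (ε := 1 / 6) (by norm_num) fun _ => by linarith
  refine ⟨C, h0, fun y u => (hC y u).trans_eq ?_⟩
  unfold Ew
  rw [← Finset.mul_sum]
  congr 2
  ring


theorem integrable_exp_neg_abs {ε : ℝ} (hε : 0 < ε) :
    Integrable fun x : ℝ => Real.exp (-(ε * |x|)) := by
  have h1 : IntegrableOn (fun x : ℝ => Real.exp (-(ε * |x|))) (Set.Ioi 0) :=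
    (exp_neg_integrableOn_Ioi 0 hε).congr_fun (fun x (hx : 0 < x) => by
      simp only [abs_of_pos hx, neg_mul]) measurableSet_Ioi
  have h2 : IntegrableOn (fun x : ℝ => Real.exp (-(ε * |x|))) (Set.Iic 0) := by
    refine (integrableOn_exp_mul_Iic hε 0).congr_fun (fun x (hx : x ≤ 0) => ?_) measurableSet_Iic
    simp only [abs_of_nonpos hx, mul_neg, neg_neg]
  rw [← integrableOn_univ, ← Set.Iic_union_Ioi (a := (0 : ℝ))]
  exact h2.union h1

theorem integrable_exp_neg_sum_abs {ε : ℝ} (hε : 0 < ε) :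
    Integrable fun u : ι → ℝ => Real.exp (-(ε * ∑ j, |u j|)) := by
  have h := Integrable.fintype_prod (f := fun (_ : ι) (x : ℝ) => Real.exp (-(ε * |x|)))
    (μ := fun _ => volume) fun _ => integrable_exp_neg_abs hε
  refine h.congr (Eventually.of_forall fun u => ?_)
  simp only [← Real.exp_sum, Finset.mul_sum, Finset.sum_neg_distrib]

theorem KC.integrable_mul_exp {κ : (ι → ℝ) → ℝ} (h : KC κ) {β : ι → ℝ}
    (hβ : ∀ j, -(1 / 3) < β j) : Integrable fun s => κ s * Real.exp (∑ j, β j * s j) := by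
  obtain ⟨ε, hε, hε'⟩ : ∃ ε : ℝ, 0 < ε ∧ ∀ j, -(1 / 3) < β j - ε := by
    have : ∀ᶠ ε in 𝓝[>] (0 : ℝ), ∀ j, -(1 / 3) < β j - ε := by
      refine eventually_all.2 fun j => ?_
      have h1 : Tendsto (fun ε : ℝ => β j - ε) (𝓝 0) (𝓝 (β j - 0)) :=
        tendsto_const_nhds.sub tendsto_id
      rw [sub_zero] at h1
      exact (h1.eventually (lt_mem_nhds (hβ j))).filter_mono nhdsWithin_le_nhds
    obtain ⟨ε, h1, h2⟩ := (this.and self_mem_nhdsWithin).exists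
    exact ⟨ε, h2, h1⟩
  obtain ⟨C, h0, hC⟩ := h.two_sided β hε.le hε'
  have hm := h.meas
  refine ((integrable_exp_neg_sum_abs hε).const_mul C).mono'
    (Measurable.aestronglyMeasurable (by fun_prop)) (Eventually.of_forall fun s => ?_)
  rw [Real.norm_of_nonneg (mul_nonneg (h.nonneg s) (Real.exp_pos _).le)]
  refine (mul_le_mul_of_nonneg_right (hC s) (Real.exp_pos _).le).trans_eq ?_
  rw [mul_assoc, ← Real.exp_add]
  congr 2
  ring

theorem KC.integrable {κ : (ι → ℝ) → ℝ} (h : KC κ) : Integrable κ :=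
  Integrable.of_integral_ne_zero h.pos.ne'

theorem conv_le {κ κ' : (ι → ℝ) → ℝ} (h : KC κ) {β : ι → ℝ} {C : ℝ}
    (hC : ∀ u, κ' u ≤ C * Real.exp (-∑ j, β j * u j)) (u s : ι → ℝ) :
    κ s * κ' (u - s) ≤ C * Real.exp (-∑ j, β j * u j) * (κ s * Real.exp (∑ j, β j * s j)) := by
  refine (mul_le_mul_of_nonneg_left (hC (u - s)) (h.nonneg s)).trans_eq ?_
  have e : -∑ j, β j * (u - s) j = (-∑ j, β j * u j) + ∑ j, β j * s j := by
    simp only [Pi.sub_apply, mul_sub, Finset.sum_sub_distrib]; ring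
  rw [e, Real.exp_add]; ring

theorem integrable_conv {κ κ' : (ι → ℝ) → ℝ} (h : KC κ) (h' : KC κ') (u : ι → ℝ) :
    Integrable fun s => κ s * κ' (u - s) := by
  obtain ⟨C, hC⟩ := h'.bound 0 fun _ => by norm_num
  have h1 := h.meas
  have h2 := h'.meas
  refine ((h.integrable_mul_exp (β := 0) fun _ => by norm_num).const_mul
    (C * Real.exp (-∑ j, (0 : ι → ℝ) j * u j))).mono' (Measurable.aestronglyMeasurable (by fun_prop)) (Eventually.of_forall fun s => ?_)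
  rw [Real.norm_of_nonneg (mul_nonneg (h.nonneg s) (h'.nonneg _))]
  exact conv_le h hC u s

theorem integral_kconv {κ κ' : (ι → ℝ) → ℝ} (h : KC κ) (h' : KC κ') :
    ∫ u, kconv κ κ' u = (∫ u, κ u) * ∫ u, κ' u := by
  have := integral_convolution (L := ContinuousLinearMap.mul ℝ ℝ) (μ := volume) (ν := volume)
    h.integrable h'.integrable
  simpa [convolution, kconv] using this

theorem KC.conv {κ κ' : (ι → ℝ) → ℝ} (h : KC κ) (h' : KC κ') : KC (kconv κ κ') := by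
  have h1 := h.meas
  have h2 := h'.meas
  refine ⟨?_, fun u => integral_nonneg fun s => mul_nonneg (h.nonneg s) (h'.nonneg _), ?_, ?_⟩
  · have hm : Measurable fun p : (ι → ℝ) × (ι → ℝ) => κ p.2 * κ' (p.1 - p.2) := by fun_prop
    exact (hm.stronglyMeasurable.integral_prod_right' (ν := volume)).measurable
  · rw [integral_kconv h h']; exact mul_pos h.pos h'.pos
  · intro β hβ
    obtain ⟨C, hC⟩ := h'.bound β hβ
    refine ⟨C * ∫ s, κ s * Real.exp (∑ j, β j * s j), fun u => ?_⟩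
    calc kconv κ κ' u ≤ ∫ s, C * Real.exp (-∑ j, β j * u j) * (κ s * Real.exp (∑ j, β j * s j)) :=
          integral_mono (integrable_conv h h' u) ((h.integrable_mul_exp hβ).const_mul _)
            fun s => conv_le h hC u s
      _ = _ := by rw [integral_const_mul]; ring

variable {G G' : α → ℂ} {ℓ : α → ι → ℝ}

/-- Summability and a bound, uniformly in a family of kernels. -/
theorem TB.family (hG : TB G ℓ) {P : Type} {κ : P → (ι → ℝ) → ℝ} (h0 : ∀ y u, 0 ≤ κ y u)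
    (h : ∀ β : ι → ℝ, (∀ j, -(1 / 3) < β j) → ∃ C : ℝ, ∀ y u,
      κ y u ≤ C * Real.exp (-∑ j, β j * u j)) :
    ∃ (β H : ℝ) (B : (ι → ℝ) → α → ℝ), 0 ≤ β ∧ 0 ≤ H ∧ ∀ η, Summable (B η) ∧
      ∑' c, B η c ≤ H * Real.exp (-(β * ∑ j, η j)) ∧
      ∀ y c, ‖G c * (κ y (η + ℓ c) : ℂ)‖ ≤ B η c := by
  obtain ⟨β, H, hβ, hH⟩ := hG
  obtain ⟨C, hC0, hC⟩ := Ew_bound h hβ
  have hH0 : 0 ≤ H := by
    have h1 := (tsum_nonneg fun c => mul_nonneg (norm_nonneg (G c)) (Ew_pos β _).le).trans (hH 0).2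
    exact nonneg_of_mul_nonneg_left h1 (Real.exp_pos _)
  refine ⟨β, C * H, fun η c => C * (‖G c‖ * Ew β (η + ℓ c)), hβ, mul_nonneg hC0 hH0, fun η =>
    ⟨(hH η).1.mul_left C, ?_, fun y c => ?_⟩⟩
  · rw [tsum_mul_left, mul_assoc]
    exact mul_le_mul_of_nonneg_left (hH η).2 hC0
  · rw [norm_mul, Complex.norm_real, Real.norm_of_nonneg (h0 _ _)]
    exact (mul_le_mul_of_nonneg_left (hC y _) (norm_nonneg _)).trans_eq (mul_left_comm _ _ _)

theorem TB.single (hG : TB G ℓ) {κ : (ι → ℝ) → ℝ} (h : KC κ) :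
    ∃ β H : ℝ, 0 ≤ β ∧ 0 ≤ H ∧ ∀ η, (Summable fun c => ‖G c * (κ (η + ℓ c) : ℂ)‖) ∧
      ‖SS G ℓ κ η‖ ≤ H * Real.exp (-(β * ∑ j, η j)) := by
  obtain ⟨β, H, B, hβ, hH, hB⟩ := hG.family (P := Unit) (κ := fun _ => κ) (fun _ => h.nonneg)
    (fun β hβ => (h.bound β hβ).imp fun _ hC _ => hC)
  refine ⟨β, H, hβ, hH, fun η => ⟨Summable.of_nonneg_of_le (fun _ => norm_nonneg _)
    ((hB η).2.2 ()) (hB η).1, ?_⟩⟩
  exact (tsum_of_norm_bounded (hB η).1.hasSum ((hB η).2.2 ())).trans (hB η).2.1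

theorem summable_SS (hG : TB G ℓ) {κ : (ι → ℝ) → ℝ} (h : KC κ) (η : ι → ℝ) :
    Summable fun c => ‖G c * (κ (η + ℓ c) : ℂ)‖ := by
  obtain ⟨β, H, -, -, hB⟩ := hG.single h
  exact (hB η).1

theorem norm_SS_le (hG : TB G ℓ) {κ : (ι → ℝ) → ℝ} (h : KC κ) :
    ∃ H : ℝ, ∀ η : ι → ℝ, 0 ≤ ∑ j, η j → ‖SS G ℓ κ η‖ ≤ H := by
  obtain ⟨β, H, hβ, hH, hB⟩ := hG.single h
  refine ⟨H, fun η hη => (hB η).2.trans (mul_le_of_le_one_right hH ?_)⟩
  exact Real.exp_le_one_iff.2 (neg_nonpos.2 (mul_nonneg hβ hη))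

theorem measurable_SS [Countable α] (G : α → ℂ) (ℓ : α → ι → ℝ) {κ : (ι → ℝ) → ℝ}
    (h : Measurable κ) : Measurable (SS G ℓ κ) := by
  unfold SS
  refine Measurable.tsum fun c => ?_
  fun_prop

theorem SS_kconv [Countable α] (hG : TB G ℓ) {κ κ' : (ι → ℝ) → ℝ} (h : KC κ) (h' : KC κ')
    (η : ι → ℝ) : SS G ℓ (kconv κ κ') η = ∫ s, (κ s : ℂ) * SS G ℓ κ' (η - s) := by
  set F : α → (ι → ℝ) → ℂ := fun c s => G c * ((κ s * κ' (η + ℓ c - s) : ℝ) : ℂ) with hF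
  have hFi : ∀ c, Integrable (F c) := fun c => (integrable_conv h h' _).ofReal.const_mul _
  have hFs : Summable fun c => ∫ s, ‖F c s‖ := by
    refine (summable_SS hG (h.conv h') η).congr fun c => ?_
    rw [norm_mul, Complex.norm_real, Real.norm_of_nonneg ((h.conv h').nonneg _), kconv,
      ← integral_const_mul]
    refine integral_congr_ae (Eventually.of_forall fun s => ?_)
    simp only [hF]
    rw [norm_mul, Complex.norm_real, Real.norm_of_nonneg (mul_nonneg (h.nonneg s) (h'.nonneg _))]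
  have h1 : SS G ℓ (kconv κ κ') η = ∑' c, ∫ s, F c s := by
    refine tsum_congr fun c => ?_
    simp only [hF]
    rw [integral_const_mul, integral_complex_ofReal]
    rfl
  rw [h1, integral_tsum_of_summable_integral_norm hFi hFs]
  refine integral_congr_ae (Eventually.of_forall fun s => ?_)
  simp only [hF, SS]
  rw [← tsum_mul_left]
  refine tsum_congr fun c => ?_
  rw [sub_add_eq_add_sub]
  push_cast
  ring

theorem ray_sub (η₀ s : ι → ℝ) (x : ℝ) : ray η₀ x - s = ray (η₀ - s) x := by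
  funext j; simp only [ray, Pi.sub_apply]; ring


/-- The data of a weak limit for a fixed kernel. -/
def WL (G : α → ℂ) (ℓ : α → ι → ℝ) (κ : (ι → ℝ) → ℝ) (l : ℂ) : Prop :=
  (∃ M : ℝ, ∀ η : ι → ℝ, ∑ j, η j ≤ 0 → ‖SS G ℓ κ η‖ ≤ M) ∧
    ∀ η₀, Tendsto (fun x => SS G ℓ κ (ray η₀ x)) atBot (𝓝 l)

theorem WL.conv_right [Countable α] (hG : TB G ℓ) {κ κ' : (ι → ℝ) → ℝ} (h : KC κ) (h' : KC κ')
    {l : ℂ} (hl : WL G ℓ κ' l) : WL G ℓ (kconv κ κ') (((∫ u, κ u : ℝ) : ℂ) * l) := by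
  obtain ⟨⟨M₁, hM₁⟩, hl⟩ := hl
  obtain ⟨M₂, hM₂⟩ := norm_SS_le hG h'
  have hM : ∀ η, ‖SS G ℓ κ' η‖ ≤ max M₁ M₂ := fun η => by
    rcases le_total (∑ j, η j) 0 with h1 | h1
    · exact (hM₁ η h1).trans (le_max_left _ _)
    · exact (hM₂ η h1).trans (le_max_right _ _)
  have hb : ∀ η s, ‖(κ s : ℂ) * SS G ℓ κ' (η - s)‖ ≤ κ s * max M₁ M₂ := fun η s => by
    rw [norm_mul, Complex.norm_real, Real.norm_of_nonneg (h.nonneg s)]
    exact mul_le_mul_of_nonneg_left (hM _) (h.nonneg s)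
  refine ⟨⟨∫ s, κ s * max M₁ M₂, fun η _ => ?_⟩, fun η₀ => ?_⟩
  · rw [SS_kconv hG h h']
    exact norm_integral_le_of_norm_le (h.integrable.mul_const _) (Eventually.of_forall (hb η))
  · have hlim : Tendsto (fun x : ℝ => ∫ s, (κ s : ℂ) * SS G ℓ κ' (ray η₀ x - s)) atBot
        (𝓝 (∫ s, (κ s : ℂ) * l)) := by
      refine tendsto_integral_filter_of_dominated_convergence (fun s => κ s * max M₁ M₂) ?_ ?_
        (h.integrable.mul_const _) ?_
      · refine Eventually.of_forall fun x => Measurable.aestronglyMeasurable ?_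
        exact (Complex.measurable_ofReal.comp h.meas).mul
          ((measurable_SS G ℓ h'.meas).comp (measurable_const.sub measurable_id))
      · exact Eventually.of_forall fun x => Eventually.of_forall (hb _)
      · refine Eventually.of_forall fun s => Tendsto.const_mul _ ?_
        simp only [ray_sub]
        exact hl _
    rw [integral_mul_const, integral_complex_ofReal] at hlim
    exact hlim.congr fun x => (SS_kconv hG h h' _).symm

theorem WL.conv_left [Countable α] (hG : TB G ℓ) {κ κ' : (ι → ℝ) → ℝ} (h : KC κ) (h' : KC κ')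
    {l : ℂ} (hl : WL G ℓ κ l) : WL G ℓ (kconv κ κ') (((∫ u, κ' u : ℝ) : ℂ) * l) := by
  have e : kconv κ κ' = kconv κ' κ := funext (kconv_comm κ κ')
  rw [e]
  exact hl.conv_right hG h' h

theorem WD.unique [Countable α] (hG : TB G ℓ) {t t' : ℂ} (h : WD G ℓ t) (h' : WD G ℓ t') :
    t = t' := by
  obtain ⟨κ, hκ, h⟩ := h
  obtain ⟨κ', hκ', h'⟩ := h'
  have e := tendsto_nhds_unique ((WL.conv_left hG hκ hκ' h).2 0) ((WL.conv_right hG hκ hκ' h').2 0)
  have h1 : ((∫ u, κ u : ℝ) : ℂ) ≠ 0 := by exact_mod_cast hκ.pos.ne'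
  have h2 : ((∫ u, κ' u : ℝ) : ℂ) ≠ 0 := by exact_mod_cast hκ'.pos.ne'
  apply mul_left_cancel₀ (mul_ne_zero h1 h2)
  linear_combination e

/-! ## the shape of the limit -/

section
variable {P : Type} [MeasurableSpace P] {ν : Measure P} [IsFiniteMeasure ν]
  {κ : P → (ι → ℝ) → ℝ}

/-- A family of kernels with uniform bounds. -/
structure KF {P : Type} [MeasurableSpace P] (κ : P → (ι → ℝ) → ℝ) : Prop where
  meas : Measurable fun p : P × (ι → ℝ) => κ p.1 p.2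
  nonneg : ∀ y u, 0 ≤ κ y u
  pos : ∀ y, 0 < ∫ u, κ y u
  bound : ∀ β : ι → ℝ, (∀ j, -(1 / 3) < β j) → ∃ C : ℝ, ∀ y u,
    κ y u ≤ C * Real.exp (-∑ j, β j * u j)


theorem KF.integrable_prod (h : KF κ) (ν : Measure P) [IsFiniteMeasure ν] :
    Integrable (Function.uncurry κ) (ν.prod volume) := by
  obtain ⟨C, h0, hC⟩ := two_sided h.bound 0 (ε := 1 / 6) (by norm_num) fun _ => by norm_num
  have h1 : Integrable (fun p : P × (ι → ℝ) => (1 : ℝ) * (C * Real.exp (-(1 / 6 * ∑ j, |p.2 j|))))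
      (ν.prod volume) :=
    Integrable.mul_prod (integrable_const _)
      ((integrable_exp_neg_sum_abs (by norm_num)).const_mul C)
  refine h1.mono' h.meas.aestronglyMeasurable (Eventually.of_forall fun p => ?_)
  rw [Function.uncurry, Real.norm_of_nonneg (h.nonneg _ _), one_mul]
  simpa using hC p.1 p.2

theorem KF.integrable_Mo (h : KF κ) (ν : Measure P) [IsFiniteMeasure ν] :
    Integrable (fun y => ∫ u, κ y u) ν := (h.integrable_prod ν).integral_prod_left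

theorem KF.avg_pos (h : KF κ) (ν : Measure P) [IsFiniteMeasure ν] (h0 : ν ≠ 0) :
    0 < ∫ y, (∫ u, κ y u) ∂ν := by
  rw [integral_pos_iff_support_of_nonneg (fun y => (h.pos y).le) (h.integrable_Mo ν)]
  have : (Function.support fun y => ∫ u, κ y u) = Set.univ :=
    Set.eq_univ_of_forall fun y => (h.pos y).ne'
  rw [this]
  exact Measure.measure_univ_pos.2 h0

theorem KF.avg_int (h : KF κ) (ν : Measure P) [IsFiniteMeasure ν] :
    ∫ u, ∫ y, κ y u ∂ν = ∫ y, (∫ u, κ y u) ∂ν :=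
  (integral_integral_swap (h.integrable_prod ν)).symm

theorem KF.avg (h : KF κ) (ν : Measure P) [IsFiniteMeasure ν] (h0 : ν ≠ 0) :
    KC fun u => ∫ y, κ y u ∂ν := by
  refine ⟨(h.meas.stronglyMeasurable.integral_prod_left' (μ := ν)).measurable,
    fun u => integral_nonneg fun y => h.nonneg y u, ?_, fun β hβ => ?_⟩
  · rw [h.avg_int ν]; exact h.avg_pos ν h0
  · obtain ⟨C, hC⟩ := h.bound β hβ
    refine ⟨C * ν.real Set.univ, fun u => ?_⟩
    have h1 : ‖∫ y, κ y u ∂ν‖ ≤ C * Real.exp (-∑ j, β j * u j) * ν.real Set.univ :=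
      norm_integral_le_of_norm_le_const (Eventually.of_forall fun y => by
        rw [Real.norm_of_nonneg (h.nonneg _ _)]; exact hC y u)
    exact (le_abs_self _).trans (h1.trans_eq (by ring))

theorem measurable_SS_fam [Countable α] (G : α → ℂ) (ℓ : α → ι → ℝ) (h : KF κ) (η : ι → ℝ) :
    Measurable fun y => SS G ℓ (κ y) η := by
  unfold SS
  refine Measurable.tsum fun c => measurable_const.mul (Complex.measurable_ofReal.comp ?_)
  exact h.meas.comp measurable_prodMk_right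

theorem SS_avg [Countable α] (hG : TB G ℓ) (h : KF κ) (ν : Measure P) [IsFiniteMeasure ν]
    (η : ι → ℝ) : SS G ℓ (fun u => ∫ y, κ y u ∂ν) η = ∫ y, SS G ℓ (κ y) η ∂ν := by
  obtain ⟨β, H, B, -, -, hB⟩ := hG.family h.nonneg h.bound
  obtain ⟨h1, -, h2⟩ := hB η
  have hint : ∀ c, Integrable (fun y => G c * (κ y (η + ℓ c) : ℂ)) ν := fun c =>
    Integrable.of_bound (Measurable.aestronglyMeasurable (measurable_const.mul
      (Complex.measurable_ofReal.comp (h.meas.comp measurable_prodMk_right)))) _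
      (Eventually.of_forall fun y => h2 y c)
  unfold SS
  rw [← integral_tsum_of_summable_integral_norm hint]
  · refine tsum_congr fun c => ?_
    rw [integral_const_mul, integral_complex_ofReal]
  · refine Summable.of_nonneg_of_le (fun c => integral_nonneg fun y => norm_nonneg _) (fun c => ?_)
      (h1.mul_right (ν.real Set.univ))
    refine le_trans (Real.le_norm_self _) (norm_integral_le_of_norm_le_const ?_)
    exact Eventually.of_forall fun y => by rw [norm_norm]; exact h2 y c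

theorem memLp_SS [Countable α] (hG : TB G ℓ) (h : KF κ) (ν : Measure P) [IsFiniteMeasure ν]
    (η : ι → ℝ) : MemLp (fun y => SS G ℓ (κ y) η) 2 ν := by
  obtain ⟨β, H, B, -, -, hB⟩ := hG.family h.nonneg h.bound
  exact MemLp.of_bound (measurable_SS_fam G ℓ h η).aestronglyMeasurable (∑' c, B η c)
    (Eventually.of_forall fun y => tsum_of_norm_bounded (hB η).1.hasSum ((hB η).2.2 y))

theorem lint_sq {P : Type} [MeasurableSpace P] (f : P → ℂ) (μ : Measure P) :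
    ∫⁻ y, ‖f y‖ₑ ^ 2 ∂μ = eLpNorm f 2 μ ^ 2 := by
  have := eLpNorm_nnreal_pow_eq_lintegral (f := f) (μ := μ) (p := 2) two_ne_zero
  simpa using this.symm

/-- Completeness along all the rays. -/
theorem exists_lim_rays {X : Type*} [EMetricSpace X] [CompleteSpace X] (V : (ι → ℝ) → X)
    (hd : ∀ η₀ η₁ : ι → ℝ, Tendsto (fun p : ℝ × ℝ => edist (V (ray η₀ p.1)) (V (ray η₁ p.2)))
      (atBot ×ˢ atBot) (𝓝 0)) : ∃ F, ∀ η₀, Tendsto (fun x => V (ray η₀ x)) atBot (𝓝 F) := by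
  have hc : Cauchy (Filter.map (fun x => V (ray 0 x)) atBot) := by
    refine (cauchy_map_iff' ).2 ?_
    rw [uniformity_pseudoedist]
    refine tendsto_iInf.2 fun ε => tendsto_iInf.2 fun hε => tendsto_principal.2 ?_
    exact (hd 0 0).eventually (gt_mem_nhds hε)
  obtain ⟨F, hF⟩ := cauchy_map_iff_exists_tendsto.1 hc
  refine ⟨F, fun η₀ => tendsto_iff_edist_tendsto_0.2 ?_⟩
  have h1 : Tendsto (fun x => edist (V (ray η₀ x)) (V (ray 0 x))) atBot (𝓝 0) :=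
    (hd η₀ 0).comp (tendsto_id.prodMk tendsto_id)
  have h2 := h1.add (tendsto_iff_edist_tendsto_0.1 hF)
  rw [add_zero] at h2
  exact tendsto_of_tendsto_of_tendsto_of_le_of_le tendsto_const_nhds h2 (fun _ => zero_le)
    fun x => edist_triangle _ _ _

theorem tendsto_of_sq {β : Type*} {l : Filter β} {u : β → ℝ≥0∞}
    (h : Tendsto (fun x => u x ^ 2) l (𝓝 0)) : Tendsto u l (𝓝 0) := by
  have h2 : ContinuousAt (fun a : ℝ≥0∞ => a ^ (1 / 2 : ℝ)) 0 :=
    ENNReal.continuous_rpow_const.continuousAt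
  have h3 := h2.tendsto.comp h
  rw [ENNReal.zero_rpow_of_pos (by norm_num)] at h3
  refine h3.congr fun p => ?_
  simp only [Function.comp]
  rw [← ENNReal.rpow_natCast, ← ENNReal.rpow_mul]
  norm_num

/-- An abstract form of the limit in `L²`. -/
theorem l2_limit_abs {S : (ι → ℝ) → P → ℂ} (hS : ∀ η, MemLp (S η) 2 ν)
    (hB : ∃ M : ℝ≥0∞, M ≠ ⊤ ∧ ∀ η : ι → ℝ, ∑ j, η j ≤ 0 → ∫⁻ y, ‖S η y‖ₑ ^ 2 ∂ν ≤ M)
    (hC : ∀ η₀ η₁ : ι → ℝ, Tendsto (fun p : ℝ × ℝ =>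
      ∫⁻ y, ‖S (ray η₀ p.1) y - S (ray η₁ p.2) y‖ₑ ^ 2 ∂ν) (atBot ×ˢ atBot) (𝓝 0)) :
    ∃ f : P → ℂ, MemLp f 2 ν ∧
      (∀ η₀, Tendsto (fun x => eLpNorm (S (ray η₀ x) - f) 2 ν) atBot (𝓝 0)) ∧
      ∀ E : Set P, MeasurableSet E →
        (∃ M : ℝ, ∀ η : ι → ℝ, ∑ j, η j ≤ 0 → ‖∫ y in E, S η y ∂ν‖ ≤ M) ∧
        ∀ η₀, Tendsto (fun x => ∫ y in E, S (ray η₀ x) y ∂ν) atBot (𝓝 (∫ y in E, f y ∂ν)) := by
  obtain ⟨V, hV⟩ : ∃ V : (ι → ℝ) → Lp ℂ 2 ν, ∀ η, V η = (hS η).toLp _ := ⟨_, fun _ => rfl⟩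
  have hV' : ∀ η, V η =ᵐ[ν] S η := fun η => by rw [hV]; exact MemLp.coeFn_toLp _
  obtain ⟨F, hF⟩ := exists_lim_rays V fun η₀ η₁ => by
    refine tendsto_of_sq ((hC η₀ η₁).congr fun p => ?_)
    rw [lint_sq (fun y => S (ray η₀ p.1) y - S (ray η₁ p.2) y), Lp.edist_def]
    congr 1
    exact eLpNorm_congr_ae ((hV' _).sub (hV' _)).symm
  refine ⟨F, Lp.memLp F, fun η₀ => ?_, fun E hE => ?_⟩
  · refine (tendsto_iff_edist_tendsto_0.1 (hF η₀)).congr fun x => ?_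
    rw [Lp.edist_def]
    exact eLpNorm_congr_ae ((hV' _).sub EventuallyEq.rfl)
  have hEν : ν E ≠ ∞ := measure_ne_top _ _
  obtain ⟨I, hI⟩ : ∃ I : Lp ℂ 2 ν, ∀ W : Lp ℂ 2 ν, inner ℂ I W = ∫ y in E, W y ∂ν :=
    ⟨indicatorConstLp 2 hE hEν (1 : ℂ), fun W => L2.inner_indicatorConstLp_one hE hEν W⟩
  have key : ∀ η, ∫ y in E, S η y ∂ν = inner ℂ I (V η) := fun η => by
    rw [hI]
    exact (integral_congr_ae (ae_restrict_of_ae (hV' η))).symm
  refine ⟨?_, fun η₀ => ?_⟩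
  · obtain ⟨M, hM, hB⟩ := hB
    refine ⟨‖I‖ * (1 + M.toReal), fun η hη => ?_⟩
    rw [key]
    refine (norm_inner_le_norm _ _).trans (mul_le_mul_of_nonneg_left ?_ (norm_nonneg _))
    have h1 := hB η hη
    rw [lint_sq (S η)] at h1
    have h2 := ENNReal.toReal_mono hM h1
    rw [ENNReal.toReal_pow] at h2
    have h3 : ‖V η‖ = (eLpNorm (S η) 2 ν).toReal := by rw [hV]; exact Lp.norm_toLp _ _
    rw [h3]
    nlinarith [sq_nonneg ((eLpNorm (S η) 2 ν).toReal - 1), ENNReal.toReal_nonneg (a := M)]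
  · have h3 := (tendsto_const_nhds (x := I)).inner (𝕜 := ℂ) (hF η₀)
    rw [hI] at h3
    exact h3.congr fun x => (key _).symm

/-- The limit in `L²`. -/
theorem l2_limit [Countable α] (hG : TB G ℓ) (h : KF κ)
    (hB : ∃ M : ℝ≥0∞, M ≠ ⊤ ∧ ∀ η : ι → ℝ, ∑ j, η j ≤ 0 → ∫⁻ y, ‖SS G ℓ (κ y) η‖ₑ ^ 2 ∂ν ≤ M)
    (hC : ∀ η₀ η₁ : ι → ℝ, Tendsto (fun p : ℝ × ℝ =>
      ∫⁻ y, ‖SS G ℓ (κ y) (ray η₀ p.1) - SS G ℓ (κ y) (ray η₁ p.2)‖ₑ ^ 2 ∂ν)
      (atBot ×ˢ atBot) (𝓝 0)) :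
    ∃ f : P → ℂ, MemLp f 2 ν ∧
      (∀ η₀, Tendsto (fun x => eLpNorm ((fun y => SS G ℓ (κ y) (ray η₀ x)) - f) 2 ν)
        atBot (𝓝 0)) ∧
      ∀ E : Set P, MeasurableSet E →
        WL G ℓ (fun u => ∫ y in E, κ y u ∂ν) (∫ y in E, f y ∂ν) := by
  obtain ⟨f, h1, h2, h3⟩ := l2_limit_abs (S := fun η y => SS G ℓ (κ y) η)
    (memLp_SS hG h ν) hB hC
  refine ⟨f, h1, h2, fun E hE => ?_⟩
  unfold WL
  simp only [SS_avg hG h]
  exact h3 E hE

theorem WL.wd_avg (h : KF κ) {ν : Measure P} [IsFiniteMeasure ν] (h0 : ν ≠ 0) {l : ℂ}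
    (hl : WL G ℓ (fun u => ∫ y, κ y u ∂ν) l) :
    WD G ℓ (l / ((∫ y, (∫ u, κ y u) ∂ν : ℝ) : ℂ)) := by
  refine ⟨_, h.avg ν h0, ?_⟩
  rw [h.avg_int ν, div_mul_cancel₀ _ (Complex.ofReal_ne_zero.2 (h.avg_pos ν h0).ne')]
  exact hl

/-- If the functions `y ↦ SS G ℓ (κ y) η` are bounded and Cauchy in `L²(ν)`, then `G` has a weak
density. -/
theorem exists_wd [Countable α] (hG : TB G ℓ) (h : KF κ) (h0 : ν ≠ 0)
    (hB : ∃ M : ℝ≥0∞, M ≠ ⊤ ∧ ∀ η : ι → ℝ, ∑ j, η j ≤ 0 → ∫⁻ y, ‖SS G ℓ (κ y) η‖ₑ ^ 2 ∂ν ≤ M)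
    (hC : ∀ η₀ η₁ : ι → ℝ, Tendsto (fun p : ℝ × ℝ =>
      ∫⁻ y, ‖SS G ℓ (κ y) (ray η₀ p.1) - SS G ℓ (κ y) (ray η₁ p.2)‖ₑ ^ 2 ∂ν)
      (atBot ×ˢ atBot) (𝓝 0)) : ∃ t, WD G ℓ t := by
  obtain ⟨f, -, -, h3⟩ := l2_limit hG h hB hC
  have := h3 Set.univ MeasurableSet.univ
  rw [Measure.restrict_univ] at this
  exact ⟨_, WL.wd_avg h h0 this⟩

/-- … and the limit is `t ∫ κ y`. -/
theorem tendsto_of_wd [Countable α] (hG : TB G ℓ) (h : KF κ)
    (hB : ∃ M : ℝ≥0∞, M ≠ ⊤ ∧ ∀ η : ι → ℝ, ∑ j, η j ≤ 0 → ∫⁻ y, ‖SS G ℓ (κ y) η‖ₑ ^ 2 ∂ν ≤ M)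
    (hC : ∀ η₀ η₁ : ι → ℝ, Tendsto (fun p : ℝ × ℝ =>
      ∫⁻ y, ‖SS G ℓ (κ y) (ray η₀ p.1) - SS G ℓ (κ y) (ray η₁ p.2)‖ₑ ^ 2 ∂ν)
      (atBot ×ˢ atBot) (𝓝 0)) {t : ℂ} (ht : WD G ℓ t) (η₀ : ι → ℝ) :
    Tendsto (fun x => ∫⁻ y, ‖SS G ℓ (κ y) (ray η₀ x) - t * ((∫ u, κ y u : ℝ) : ℂ)‖ₑ ^ 2 ∂ν)
      atBot (𝓝 0) := by
  obtain ⟨f, hf, h1, h2⟩ := l2_limit hG h hB hC
  have hM : Integrable (fun y => t * ((∫ u, κ y u : ℝ) : ℂ)) ν :=
    (h.integrable_Mo ν).ofReal.const_mul t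
  have he : f =ᵐ[ν] fun y => t * ((∫ u, κ y u : ℝ) : ℂ) := by
    refine ae_eq_of_forall_setIntegral_eq_of_sigmaFinite
      (fun s _ _ => (hf.integrable one_le_two).integrableOn) (fun s _ _ => hM.integrableOn)
      fun s hs _ => ?_
    by_cases h0 : ν.restrict s = 0
    · rw [h0]; simp
    · have h3 := WD.unique hG (WL.wd_avg h h0 (h2 s hs)) ht
      rw [div_eq_iff (Complex.ofReal_ne_zero.2 (h.avg_pos _ h0).ne')] at h3
      rw [h3, integral_const_mul, integral_complex_ofReal]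
  have h4 := ENNReal.Tendsto.pow (n := 2) (h1 η₀)
  rw [zero_pow two_ne_zero] at h4
  refine h4.congr fun x => ?_
  rw [lint_sq (fun y => SS G ℓ (κ y) (ray η₀ x) - t * ((∫ u, κ y u : ℝ) : ℂ))]
  congr 1
  exact eLpNorm_congr_ae (EventuallyEq.rfl.sub he)

end

end Crest.Agent.T27.D92
end
end

-- ▼ part T27/DensB_92

/-!
# Row 27, theta leaf A4: `DensStmt`
-/

set_option autoImplicit false
set_option linter.unusedSectionVars false

noncomputable section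

namespace Crest.Agent.T27.TH

open scoped ComplexConjugate ENNReal Topology
open MeasureTheory Filter NumberField

variable {F : Type} [Field F] [NumberField F] [Emb F]

/-- The normalised kernel. -/
def d92nk (k : (Pl F → ℝ) → ℝ) (x : Pl F → ℝ) : ℝ := k x * Real.exp ((∑ j, x j) / 3)

/-- The normalised weights. -/
def d92ng (g : F → ℂ) (c : F) : ℂ := g c * (Real.exp (-((∑ j, lg c j) / 3)) : ℂ)

theorem d92_Sk (g : F → ℂ) (k : (Pl F → ℝ) → ℝ) (v : Pl F → ℝ) :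
    Sk g k v = D92.SS (d92ng g) lg (d92nk k) v := by
  unfold Sk D92.SS d92ng d92nk
  rw [← tsum_mul_left]
  refine tsum_congr fun c => ?_
  have e : Real.exp ((∑ j, v j) / 3) =
      Real.exp (-((∑ j, lg c j) / 3)) * Real.exp ((∑ j, (v + lg c) j) / 3) := by
    rw [← Real.exp_add]
    congr 1
    simp only [Pi.add_apply, Finset.sum_add_distrib]
    ring
  rw [e]
  push_cast
  ring

theorem d92_Mo (k : (Pl F → ℝ) → ℝ) : Mo k = ∫ x, d92nk k x := rfl

theorem d92_exp (β x : Pl F → ℝ) : Real.exp (-∑ j, (β j + 1 / 3) * x j) *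
    Real.exp ((∑ j, x j) / 3) = Real.exp (-∑ j, β j * x j) := by
  rw [← Real.exp_add]
  congr 1
  simp only [add_mul, Finset.sum_add_distrib, ← Finset.mul_sum]
  ring

theorem d92_kc {k : (Pl F → ℝ) → ℝ} (h : KC k) : D92.KC (d92nk k) := by
  obtain ⟨h1, h2, h3, h4⟩ := h
  refine ⟨by unfold d92nk; fun_prop, fun u => mul_nonneg (h2 u) (Real.exp_pos _).le, h3,
    fun β hβ => ?_⟩
  obtain ⟨C, hC⟩ := h4 (fun j => β j + 1 / 3) fun j => by have := hβ j; linarith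
  refine ⟨C, fun u => (mul_le_mul_of_nonneg_right (hC u) (Real.exp_pos _).le).trans_eq ?_⟩
  rw [mul_assoc, d92_exp]

theorem d92_kc' {κ : (Pl F → ℝ) → ℝ} (h : D92.KC κ) : ∃ k : (Pl F → ℝ) → ℝ, KC k ∧ d92nk k = κ := by
  have e : d92nk (fun x => κ x * Real.exp (-((∑ j, x j) / 3))) = κ := by
    funext x
    unfold d92nk
    rw [mul_assoc, ← Real.exp_add, neg_add_cancel, Real.exp_zero, mul_one]
  have h1 := h.meas
  refine ⟨_, ⟨by fun_prop, fun u => mul_nonneg (h.nonneg u) (Real.exp_pos _).le, ?_, fun A hA => ?_⟩,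
    e⟩
  · rw [d92_Mo, e]; exact h.pos
  · obtain ⟨C, hC⟩ := h.bound (fun j => A j - 1 / 3) fun j => by have := hA j; linarith
    refine ⟨C, fun u => (mul_le_mul_of_nonneg_right (hC u) (Real.exp_pos _).le).trans_eq ?_⟩
    rw [mul_assoc, ← d92_exp, mul_assoc, ← Real.exp_add, add_neg_cancel, Real.exp_zero, mul_one]
    simp only [sub_add_cancel]

theorem d92_min (u : ℝ) : Real.exp (-u - |u| / 6) =
    min (Real.exp (-(5 / 6) * u)) (Real.exp (-(7 / 6) * u)) := by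
  rcases le_total 0 u with h | h
  · rw [abs_of_nonneg h, min_eq_right (Real.exp_le_exp.2 (by linarith))]
    congr 1; ring
  · rw [abs_of_nonpos h, min_eq_left (Real.exp_le_exp.2 (by linarith))]
    congr 1; ring

theorem d92_tb (hL : LatStmt F) {g : F → ℂ} (hg : BddL g) : D92.TB (d92ng g) (lg : F → Pl F → ℝ) := by
  classical
  obtain ⟨M, B, hM, hB, hs⟩ := hg
  have hB0 : 0 ≤ B := (norm_nonneg _).trans (hB 0)
  obtain ⟨C, hC⟩ := hL.lsum M hM (5 / 6) (7 / 6) (by norm_num) (by norm_num)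
  refine ⟨2 / 3, B * C, by norm_num, fun v => ?_⟩
  have key : ∀ S : Finset F, ∑ c ∈ S, ‖d92ng g c‖ * D92.Ew (2 / 3) (v + lg c) ≤
      B * C * Real.exp (-(2 / 3 * ∑ j, v j)) := fun S => by
    have h1 := hC v (S.filter fun c => g c ≠ 0) fun c hc => hs c (Finset.mem_filter.1 hc).2
    have h2 : ∑ c ∈ S, ‖d92ng g c‖ * D92.Ew (2 / 3) (v + lg c) =
        ∑ c ∈ S.filter (fun c => g c ≠ 0), ‖d92ng g c‖ * D92.Ew (2 / 3) (v + lg c) := by
      refine (Finset.sum_filter_of_ne (p := fun c => g c ≠ 0) fun c _ hc h0 => hc ?_).symm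
      simp [d92ng, h0]
    rw [h2]
    calc _ ≤ ∑ c ∈ S.filter (fun c => g c ≠ 0), B * Real.exp ((∑ j, v j) / 3) *
          ∏ j, min (Real.exp (-(5 / 6) * (v j + lg c j))) (Real.exp (-(7 / 6) * (v j + lg c j))) := by
          refine Finset.sum_le_sum fun c _ => ?_
          simp only [← d92_min]
          rw [← Real.exp_sum, mul_assoc, ← Real.exp_add, d92ng, norm_mul, Complex.norm_real,
            Real.norm_of_nonneg (Real.exp_pos _).le, D92.Ew, mul_assoc, ← Real.exp_add]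
          refine mul_le_mul (hB c) (le_of_eq ?_) (Real.exp_pos _).le hB0
          congr 1
          simp only [Pi.add_apply, Finset.sum_sub_distrib, Finset.sum_neg_distrib,
            Finset.sum_add_distrib, ← Finset.sum_div]
          ring
      _ ≤ B * Real.exp ((∑ j, v j) / 3) * (C * Real.exp (-∑ j, v j)) := by
          rw [← Finset.mul_sum]
          exact mul_le_mul_of_nonneg_left h1 (mul_nonneg hB0 (Real.exp_pos _).le)
      _ = _ := by
          rw [mul_mul_mul_comm, ← Real.exp_add]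
          congr 2; ring
  have h0 : ∀ c, 0 ≤ ‖d92ng g c‖ * D92.Ew (2 / 3) (v + lg c) := fun c =>
    mul_nonneg (norm_nonneg _) (D92.Ew_pos _ _).le
  exact ⟨summable_of_sum_le h0 key, Real.tsum_le_of_sum_le h0 key⟩

theorem d92_ray (v : Pl F → ℝ) (s : ℝ) : ray v s = D92.ray v (-s) := by
  funext j; simp only [ray, D92.ray, sub_eq_add_neg]

theorem d92_ray' (v : Pl F → ℝ) (s : ℝ) : D92.ray v s = ray v (-s) := by
  rw [d92_ray, neg_neg]

theorem d92_wl {g : F → ℂ} {k : (Pl F → ℝ) → ℝ} {t : ℂ} (h : WDk g k t) :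
    D92.WL (d92ng g) lg (d92nk k) (t * (Mo k : ℂ)) := by
  obtain ⟨⟨C, hC⟩, h⟩ := h
  refine ⟨⟨C, fun v _ => by rw [← d92_Sk]; exact hC v⟩, fun v => ?_⟩
  refine ((h v).comp tendsto_neg_atBot_atTop).congr fun x => ?_
  simp only [Function.comp, d92_Sk, d92_ray']

theorem d92_wl' (hL : LatStmt F) {g : F → ℂ} (hg : BddL g) {k : (Pl F → ℝ) → ℝ} (hk : KC k) {t : ℂ}
    (h : D92.WL (d92ng g) lg (d92nk k) (t * (Mo k : ℂ))) : WDk g k t := by
  obtain ⟨⟨C, hC⟩, h⟩ := h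
  obtain ⟨C', hC'⟩ := D92.norm_SS_le (d92_tb hL hg) (d92_kc hk)
  refine ⟨⟨max C C', fun v => ?_⟩, fun v => ?_⟩
  · rw [d92_Sk]
    rcases le_total (∑ j, v j) 0 with h1 | h1
    · exact (hC v h1).trans (le_max_left _ _)
    · exact (hC' v h1).trans (le_max_right _ _)
  · refine ((h v).comp tendsto_neg_atTop_atBot).congr fun x => ?_
    simp only [Function.comp, d92_Sk, d92_ray]

theorem d92_wd {g : F → ℂ} {t : ℂ} (h : WD g t) : D92.WD (d92ng g) (lg : F → Pl F → ℝ) t := by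
  obtain ⟨k, hk, h⟩ := h
  exact ⟨_, d92_kc hk, d92_wl h⟩

theorem d92_wd' (hL : LatStmt F) {g : F → ℂ} (hg : BddL g) {t : ℂ}
    (h : D92.WD (d92ng g) (lg : F → Pl F → ℝ) t) : WD g t := by
  obtain ⟨κ, hκ, h⟩ := h
  obtain ⟨k, hk, rfl⟩ := d92_kc' hκ
  exact ⟨k, hk, d92_wl' hL hg hk h⟩

theorem d92_countable : Countable F := by
  have b := Module.finBasis ℚ F
  exact b.equivFun.toEquiv.countable_iff.2 inferInstance

theorem d92_summable (hL : LatStmt F) {g : F → ℂ} (hg : BddL g) {k : (Pl F → ℝ) → ℝ} (hk : KC k)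
    (v : Pl F → ℝ) : Summable fun c : F => g c * (k (v + lg c) : ℂ) := by
  have h := (D92.summable_SS (d92_tb hL hg) (d92_kc hk) v).of_norm.mul_left
    (Real.exp (-((∑ j, v j) / 3)) : ℂ)
  refine h.congr fun c => ?_
  have e : Real.exp (-((∑ j, v j) / 3)) * (Real.exp (-((∑ j, lg c j) / 3)) *
      Real.exp ((∑ j, (v + lg c) j) / 3)) = 1 := by
    rw [← Real.exp_add, ← Real.exp_add, ← Real.exp_zero]
    congr 1
    simp only [Pi.add_apply, Finset.sum_add_distrib]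
    ring
  have e' := congrArg (fun x : ℝ => (x : ℂ)) e
  simp only [d92ng, d92nk, Complex.ofReal_mul, Complex.ofReal_one] at e' ⊢
  linear_combination g c * (k (v + lg c) : ℂ) * e'

theorem d92_addk (hL : LatStmt F) {g g' : F → ℂ} {k : (Pl F → ℝ) → ℝ} {t t' : ℂ} (hg : BddL g)
    (hg' : BddL g') (hk : KC k) (h : WDk g k t) (h' : WDk g' k t') : WDk (g + g') k (t + t') := by
  have e : ∀ v, Sk (g + g') k v = Sk g k v + Sk g' k v := fun v => by
    unfold Sk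
    rw [← mul_add, ← (d92_summable hL hg hk v).tsum_add (d92_summable hL hg' hk v)]
    simp only [Pi.add_apply, add_mul]
  obtain ⟨⟨C, hC⟩, h⟩ := h
  obtain ⟨⟨C', hC'⟩, h'⟩ := h'
  refine ⟨⟨C + C', fun v => ?_⟩, fun v => ?_⟩
  · rw [e]; exact norm_add_le_of_le (hC v) (hC' v)
  · simp only [e, add_mul]; exact (h v).add (h' v)

theorem d92_smulk (a : ℂ) {g : F → ℂ} {k : (Pl F → ℝ) → ℝ} {t : ℂ} (h : WDk g k t) :
    WDk (fun c => a * g c) k (a * t) := by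
  have e : ∀ v, Sk (fun c => a * g c) k v = a * Sk g k v := fun v => by
    unfold Sk
    simp only [mul_assoc, tsum_mul_left]
    ring
  obtain ⟨⟨C, hC⟩, h⟩ := h
  refine ⟨⟨‖a‖ * C, fun v => ?_⟩, fun v => ?_⟩
  · rw [e, norm_mul]; exact mul_le_mul_of_nonneg_left (hC v) (norm_nonneg _)
  · simp only [e, mul_assoc]; exact (h v).const_mul a

theorem d92_add (hL : LatStmt F) {g g' : F → ℂ} {t t' : ℂ} (hg : BddL g) (hg' : BddL g')
    (h : WD g t) (h' : WD g' t') : WD (g + g') (t + t') := by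
  have := d92_countable (F := F)
  obtain ⟨k, hk, h⟩ := h
  obtain ⟨k', hk', h'⟩ := h'
  obtain ⟨k'', hk'', e⟩ := d92_kc' ((d92_kc hk).conv (d92_kc hk'))
  have hM : Mo k'' = Mo k * Mo k' := by
    rw [d92_Mo, e, D92.integral_kconv (d92_kc hk) (d92_kc hk')]; rfl
  have h1 := (d92_wl h).conv_left (d92_tb hL hg) (d92_kc hk) (d92_kc hk')
  have h2 := (d92_wl h').conv_right (d92_tb hL hg') (d92_kc hk) (d92_kc hk')
  rw [← e, ← d92_Mo] at h1 h2
  refine ⟨k'', hk'', d92_addk hL hg hg' hk'' (d92_wl' hL hg hk'' ?_) (d92_wl' hL hg' hk'' ?_)⟩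
  · convert h1 using 1; rw [hM]; push_cast; ring
  · convert h2 using 1; rw [hM]; push_cast; ring

theorem d92_em_ne {x : F} (hx : x ≠ 0) (j : Pl F) : ‖em x j‖ ≠ 0 :=
  norm_ne_zero_iff.2 ((map_ne_zero _).2 hx)

theorem d92_lg_mul {x y : F} (hx : x ≠ 0) (hy : y ≠ 0) : lg (x * y) = lg x + lg y := by
  funext j
  simp only [lg, em, map_mul, norm_mul, mul_pow, Pi.add_apply]
  exact Real.log_mul (pow_ne_zero _ (d92_em_ne hx j)) (pow_ne_zero _ (d92_em_ne hy j))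

theorem d92_exp_lg {x : F} (hx : x ≠ 0) : Real.exp (∑ j, lg x j) = nF x := by
  rw [Real.exp_sum, nF]
  refine Finset.prod_congr rfl fun j _ => Real.exp_log ?_
  have := d92_em_ne hx j
  positivity

theorem d92_scalek {g : F → ℂ} {k : (Pl F → ℝ) → ℝ} {t : ℂ} {ρ : F} (hρ : ρ ≠ 0)
    (hg : ∀ c, g c ≠ 0 → c ≠ 0) (h : WDk g k t) :
    WDk (fun c => g (c * ρ)) k (((nF ρ ^ (1 / 3 : ℝ) : ℝ) : ℂ) * t) := by
  have e : ∀ v, Sk (fun c => g (c * ρ)) k v =
      ((nF ρ ^ (1 / 3 : ℝ) : ℝ) : ℂ) * Sk g k (v - lg ρ) := fun v => by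
    unfold Sk
    have e1 : ∑' c : F, g (c * ρ) * (k (v + lg c) : ℂ) =
        ∑' c : F, g c * (k (v - lg ρ + lg c) : ℂ) := by
      rw [← (Equiv.mulRight₀ ρ hρ).tsum_eq fun c => g c * (k (v - lg ρ + lg c) : ℂ)]
      refine tsum_congr fun c => ?_
      simp only [Equiv.mulRight₀_apply]
      by_cases h0 : g (c * ρ) = 0
      · rw [h0, zero_mul, zero_mul]
      · rw [d92_lg_mul (left_ne_zero_of_mul (hg _ h0)) hρ]
        congr 3
        abel
    have e2 : Real.exp ((∑ j, v j) / 3) =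
        nF ρ ^ (1 / 3 : ℝ) * Real.exp ((∑ j, (v - lg ρ) j) / 3) := by
      rw [← d92_exp_lg hρ, ← Real.exp_mul, ← Real.exp_add]
      congr 1
      simp only [Pi.sub_apply, Finset.sum_sub_distrib]
      ring
    rw [e1, e2]
    push_cast
    ring
  obtain ⟨⟨C, hC⟩, h⟩ := h
  refine ⟨⟨‖((nF ρ ^ (1 / 3 : ℝ) : ℝ) : ℂ)‖ * C, fun v => ?_⟩, fun v => ?_⟩
  · rw [e, norm_mul]; exact mul_le_mul_of_nonneg_left (hC _) (norm_nonneg _)
  · rw [mul_assoc]
    refine ((h (v - lg ρ)).const_mul _).congr fun s => ?_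
    rw [e]
    congr 2
    funext j
    simp only [ray, Pi.sub_apply]
    ring

/-! ## the kernels -/

theorem d92_integral_exp (f : ℝ → ℝ) :
    ∫ X in Set.Ioi (0 : ℝ), f X = ∫ x : ℝ, Real.exp x * f (Real.exp x) := by
  have h := integral_image_eq_integral_abs_deriv_smul MeasurableSet.univ
    (fun x _ => (Real.hasDerivAt_exp x).hasDerivWithinAt) Real.exp_injective.injOn f
  rw [Set.image_univ, Real.range_exp, Measure.restrict_univ] at h
  rw [h]
  simp only [abs_of_pos (Real.exp_pos _), smul_eq_mul]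

theorem d92_int1 (l : ℝ) {b : ℝ} (hb : 0 ≤ b) :
    ∫ x : ℝ, Real.exp l * Real.exp (-Real.exp l * (Real.exp x + b * Real.exp (-x))) *
      Real.exp (x / 3) = R17.Mk (Real.exp l) b := by
  rw [← R17.Mo_Fk (Real.exp_pos l) hb, R17.Mo, d92_integral_exp]
  refine integral_congr_ae (Eventually.of_forall fun x => ?_)
  simp only [R17.Fk]
  rw [← Real.exp_mul, Real.exp_neg x, ← div_eq_mul_inv, mul_one_div]
  have := Real.exp_pos x
  field_simp

theorem d92_Mo_Fk (l : Pl F → ℝ) {b : Pl F → ℝ} (hb : ∀ j, 0 ≤ b j) : Mo (Fk l b) = MkV l b := by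
  unfold Mo MkV Fk
  simp only [Finset.sum_div, Real.exp_sum, ← Finset.prod_mul_distrib]
  rw [integral_fintype_prod_volume_eq_prod fun j (x : ℝ) => Real.exp (l j) *
    Real.exp (-Real.exp (l j) * (Real.exp x + b j * Real.exp (-x))) * Real.exp (x / 3)]
  exact Finset.prod_congr rfl fun j _ => d92_int1 _ (hb j)

theorem d92_MkV_pos (l : Pl F → ℝ) {b : Pl F → ℝ} (hb : ∀ j, 0 ≤ b j) : 0 < MkV l b :=
  Finset.prod_pos fun j _ => R17.Mk_pos (Real.exp_pos _) (hb j)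

theorem d92_Fk_nonneg (l b x : Pl F → ℝ) : 0 ≤ Fk l b x :=
  Finset.prod_nonneg fun _ _ => by positivity

theorem d92_Fk_le (a a' : Pl F → ℝ) {A : Pl F → ℝ} (hA : ∀ j, 0 < A j) : ∃ C : ℝ,
    ∀ l b x : Pl F → ℝ, (∀ j, a j ≤ l j ∧ l j ≤ a' j) → (∀ j, 0 ≤ b j) →
      Fk l b x ≤ C * Real.exp (-∑ j, A j * x j) := by
  choose C hC0 hC using fun j => R17.G1_exp_le (hA j).le
  refine ⟨∏ j, Real.exp (a' j) * (C j * Real.exp (-(A j * a j))), fun l b x hl hb => ?_⟩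
  rw [← Finset.sum_neg_distrib, Real.exp_sum, ← Finset.prod_mul_distrib]
  refine Finset.prod_le_prod (fun _ _ => by positivity) fun j _ => ?_
  have h1 := hC j (Real.exp (a j + x j)) (Real.exp_pos _)
  rw [← Real.exp_mul] at h1
  have h2 : Real.exp (-Real.exp (l j) * (Real.exp (x j) + b j * Real.exp (-x j))) ≤
      Real.exp (-Real.exp (a j + x j)) := by
    refine Real.exp_le_exp.2 ?_
    have h3 : Real.exp (a j) ≤ Real.exp (l j) := Real.exp_le_exp.2 (hl j).1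
    have h4 : 0 ≤ Real.exp (l j) * (b j * Real.exp (-x j)) := by have := hb j; positivity
    have h5 := mul_le_mul_of_nonneg_right h3 (Real.exp_pos (x j)).le
    rw [Real.exp_add]
    linarith
  have h6 := hC0 j
  calc _ ≤ Real.exp (a' j) * (C j * Real.exp ((a j + x j) * -A j)) :=
        mul_le_mul (Real.exp_le_exp.2 (hl j).2) (h2.trans h1) (Real.exp_pos _).le
          (Real.exp_pos _).le
    _ = _ := by
        rw [mul_assoc, mul_assoc, ← Real.exp_add]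
        congr 3; ring

theorem d92_kc_Fk (l : Pl F → ℝ) {b : Pl F → ℝ} (hb : ∀ j, 0 ≤ b j) : KC (Fk l b) := by
  refine ⟨by unfold Fk; fun_prop, d92_Fk_nonneg l b, by rw [d92_Mo_Fk l hb]; exact d92_MkV_pos l hb,
    fun A hA => ?_⟩
  obtain ⟨C, hC⟩ := d92_Fk_le l l hA
  exact ⟨C, fun x => hC l b x (fun _ => ⟨le_rfl, le_rfl⟩) hb⟩

theorem d92_Fk_zero : Fk (0 : Pl F → ℝ) 0 = k0 := by
  funext x
  simp [Fk, k0, Real.exp_neg, Real.exp_sum]

theorem d92_kc0 : KC (k0 : (Pl F → ℝ) → ℝ) := by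
  rw [← d92_Fk_zero]; exact d92_kc_Fk 0 fun _ => le_rfl

/-- Projection on a box. -/
def d92cl (a : Pl F → ℝ) (L : ℝ) (l : Pl F → ℝ) : Pl F → ℝ :=
  fun j => max (a j) (min (l j) (a j + L))

theorem d92_cl_eq {a : Pl F → ℝ} {L : ℝ} {l : Pl F → ℝ} (h : l ∈ box a L) : d92cl a L l = l := by
  funext j
  have := h j (Set.mem_univ j)
  rw [d92cl, min_eq_left this.2, max_eq_right this.1]

theorem d92_kf (a : Pl F → ℝ) (L : ℝ) {b : Pl F → ℝ} (hb : ∀ j, 0 ≤ b j) :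
    D92.KF fun l => d92nk (Fk (d92cl a L l) b) := by
  refine ⟨by unfold d92nk Fk d92cl; fun_prop, fun l => (d92_kc (d92_kc_Fk _ hb)).nonneg,
    fun l => (d92_kc (d92_kc_Fk _ hb)).pos, fun β hβ => ?_⟩
  obtain ⟨C, hC⟩ := d92_Fk_le a (fun j => max (a j) (a j + L)) (A := fun j => β j + 1 / 3)
    fun j => by have := hβ j; linarith
  refine ⟨C, fun l u => (mul_le_mul_of_nonneg_right (hC _ b u (fun j => ⟨le_max_left _ _,
    max_le_max le_rfl (min_le_right _ _)⟩) hb) (Real.exp_pos _).le).trans_eq ?_⟩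
  rw [mul_assoc, d92_exp]

theorem d92_meas_box (a : Pl F → ℝ) (L : ℝ) : MeasurableSet (box a L) :=
  MeasurableSet.univ_pi fun _ => measurableSet_Icc

theorem d92_compact_box (a : Pl F → ℝ) (L : ℝ) : IsCompact (box a L) :=
  isCompact_univ_pi fun _ => isCompact_Icc

theorem d92_fin_box (a : Pl F → ℝ) (L : ℝ) : IsFiniteMeasure (volume.restrict (box a L)) :=
  ⟨by rw [Measure.restrict_apply_univ]; exact (d92_compact_box a L).measure_lt_top⟩

theorem d92_box_ne (a : Pl F → ℝ) {L : ℝ} (hL : 0 < L) : volume.restrict (box a L) ≠ 0 := by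
  rw [Ne, Measure.restrict_eq_zero, box, volume_pi_pi]
  refine Finset.prod_ne_zero_iff.2 fun j _ => ?_
  simp [hL]

theorem d92_limit (hL : LatStmt F) {g : F → ℂ} {b : Pl F → ℝ} (hg : BddL g) (hb : ∀ j, 0 ≤ b j)
    (hB : ∀ (a : Pl F → ℝ) (L : ℝ), ∃ C : ℝ≥0∞, C ≠ ⊤ ∧ ∀ v : Pl F → ℝ, ∑ j, v j ≤ 0 →
      ∫⁻ l in box a L, ‖Sk g (Fk l b) v‖ₑ ^ 2 ≤ C)
    (hC : ∀ (a : Pl F → ℝ) (L : ℝ) (v v' : Pl F → ℝ) (ε : ℝ≥0∞), 0 < ε → ∃ s₀ : ℝ, ∀ s ≥ s₀,
      ∀ s' ≥ s₀,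
      ∫⁻ l in box a L, ‖Sk g (Fk l b) (ray v s) - Sk g (Fk l b) (ray v' s')‖ₑ ^ 2 ≤ ε) :
    ∃ t : ℂ, WD g t ∧ ∀ (a : Pl F → ℝ) (L : ℝ) (v : Pl F → ℝ),
      Tendsto (fun s : ℝ => ∫⁻ l in box a L, ‖Sk g (Fk l b) (ray v s) - t * (MkV l b : ℂ)‖ₑ ^ 2)
        atTop (𝓝 0) := by
  have := d92_countable (F := F)
  have hB' : ∀ (a : Pl F → ℝ) (L : ℝ), ∃ M : ℝ≥0∞, M ≠ ⊤ ∧ ∀ v : Pl F → ℝ, ∑ j, v j ≤ 0 →
      ∫⁻ l in box a L, ‖D92.SS (d92ng g) lg (d92nk (Fk (d92cl a L l) b)) v‖ₑ ^ 2 ≤ M := by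
    intro a L
    obtain ⟨M, hM, h⟩ := hB a L
    refine ⟨M, hM, fun v hv => le_of_eq_of_le ?_ (h v hv)⟩
    refine setLIntegral_congr_fun (d92_meas_box a L) fun l hl => ?_
    simp only [d92_cl_eq hl, d92_Sk]
  have hC' : ∀ (a : Pl F → ℝ) (L : ℝ) (v v' : Pl F → ℝ), Tendsto (fun p : ℝ × ℝ =>
      ∫⁻ l in box a L, ‖D92.SS (d92ng g) lg (d92nk (Fk (d92cl a L l) b)) (D92.ray v p.1) -
        D92.SS (d92ng g) lg (d92nk (Fk (d92cl a L l) b)) (D92.ray v' p.2)‖ₑ ^ 2)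
      (atBot ×ˢ atBot) (𝓝 0) := by
    intro a L v v'
    refine ENNReal.tendsto_nhds_zero.2 fun ε hε => ?_
    obtain ⟨s₀, h⟩ := hC a L v v' ε hε
    filter_upwards [prod_mem_prod (Iic_mem_atBot (-s₀)) (Iic_mem_atBot (-s₀))] with p hp
    refine le_of_eq_of_le ?_ (h (-p.1) (le_neg.1 hp.1) (-p.2) (le_neg.1 hp.2))
    refine setLIntegral_congr_fun (d92_meas_box a L) fun l hl => ?_
    simp only [d92_cl_eq hl, d92_Sk, d92_ray']
  have := d92_fin_box (F := F)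
  obtain ⟨t, ht⟩ := D92.exists_wd (d92_tb hL hg) (d92_kf 0 1 hb) (d92_box_ne 0 one_pos)
    (hB' 0 1) (hC' 0 1)
  refine ⟨t, d92_wd' hL hg ht, fun a L v => ?_⟩
  have h1 := (D92.tendsto_of_wd (d92_tb hL hg) (d92_kf a L hb) (hB' a L) (hC' a L) ht v).comp
    tendsto_neg_atTop_atBot
  refine h1.congr fun s => setLIntegral_congr_fun (d92_meas_box a L) fun l hl => ?_
  simp only [d92_cl_eq hl, d92_Sk, d92_ray, ← d92_Mo, d92_Mo_Fk l hb]

/-- **Leaf A4.** -/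
theorem dens_92 (F : Type) [Field F] [NumberField F] [Emb F] (hL : LatStmt F) : DensStmt F where
  kc0 := d92_kc0
  unique _ _ _ hg h h' :=
    have := d92_countable (F := F)
    (d92_wd h).unique (d92_tb hL hg) (d92_wd h')
  add _ _ _ _ hg hg' h h' := d92_add hL hg hg' h h'
  smul a _ _ h := h.imp fun _ h => ⟨h.1, d92_smulk a h.2⟩
  addk _ _ _ _ _ hg hg' hk h h' := d92_addk hL hg hg' hk h h'
  smulk a _ _ _ h := d92_smulk a h
  scalek _ _ _ _ hρ hg h := d92_scalek hρ hg h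
  limit _ _ hg hb hB hC := d92_limit hL hg hb hB hC

end Crest.Agent.T27.TH
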