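import Crest.Agent.T27.ThG1_80

-- ▼ part T27/ThL_80
section

/-!
# Row 27, theta module L: lattice point counts uniform in the shape (`LatStmt`)
-/

set_option autoImplicit false

noncomputable section

namespace Crest.Agent.T27.TH.G

open scoped ComplexConjugate ENNReal NumberField
open MeasureTheory NumberField

/-- The cell of a point of the disc of radius `√T` cut in `K` pieces in both directions. -/
def cell (K : ℕ) (T : ℝ) (u : ℂ) : ℤ × ℤ := (⌊K * (u.re / √T)⌋, ⌊K * (u.im / √T)⌋)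

theorem floor_mem_Icc (K : ℕ) {x : ℝ} (hx : |x| ≤ 1) :
    ⌊K * x⌋ ∈ Finset.Icc (-(K : ℤ)) K := by
  obtain ⟨h1, h2⟩ := abs_le.1 hx
  have hK : (0 : ℝ) ≤ K := Nat.cast_nonneg K
  rw [Finset.mem_Icc, Int.le_floor]
  constructor
  · push_cast
    nlinarith
  · have h4 := Int.floor_le (K * x)
    have : (⌊K * x⌋ : ℝ) ≤ (K : ℤ) := by push_cast; nlinarith
    exact_mod_cast this

theorem cell_mem (K : ℕ) {T : ℝ} {u : ℂ} (hu : ‖u‖ ^ 2 ≤ T) :
    cell K T u ∈ Finset.Icc (-(K : ℤ)) K ×ˢ Finset.Icc (-(K : ℤ)) K := by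
  have h : ‖u‖ ≤ √T := Real.le_sqrt_of_sq_le hu
  have key : ∀ t : ℝ, |t| ≤ ‖u‖ → |t / √T| ≤ 1 := fun t ht => by
    rw [abs_div, abs_of_nonneg (Real.sqrt_nonneg T)]
    exact div_le_one_of_le₀ (ht.trans h) (Real.sqrt_nonneg T)
  exact Finset.mem_product.2 ⟨floor_mem_Icc K (key _ (Complex.abs_re_le_norm u)),
    floor_mem_Icc K (key _ (Complex.abs_im_le_norm u))⟩

theorem cell_close {K : ℕ} {T : ℝ} {u u' : ℂ} (hu : ‖u‖ ^ 2 ≤ T) (hu' : ‖u'‖ ^ 2 ≤ T)
    (h : cell K T u = cell K T u') : (K : ℝ) ^ 2 * ‖u - u'‖ ^ 2 ≤ 2 * T := by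
  have hT : 0 ≤ T := (sq_nonneg _).trans hu
  rcases hT.eq_or_lt with rfl | hT
  · have h1 : u = 0 := by simpa using hu
    have h2 : u' = 0 := by simpa using hu'
    simp [h1, h2]
  have hs := Real.sqrt_pos.2 hT
  obtain ⟨e1, e2⟩ := Prod.mk.inj h
  have key : ∀ s t : ℝ, ⌊K * (s / √T)⌋ = ⌊K * (t / √T)⌋ → (K : ℝ) ^ 2 * (s - t) ^ 2 ≤ T := by
    intro s t e
    have a1 := Int.abs_sub_lt_one_of_floor_eq_floor e
    rw [← mul_sub, ← sub_div, ← mul_div_assoc, abs_div, abs_of_pos hs, div_lt_one hs] at a1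
    rw [← mul_pow, ← sq_abs, ← Real.sq_sqrt hT.le]
    exact pow_le_pow_left₀ (abs_nonneg _) a1.le 2
  have a1 := key _ _ e1
  have a2 := key _ _ e2
  rw [Complex.sq_norm, Complex.normSq_apply, Complex.sub_re, Complex.sub_im]
  nlinarith

variable {F : Type} [Field F] [NumberField F] [Emb F]

theorem card_pos : 0 < Fintype.card (Pl F) := by
  have := two_mul_card (F := F)
  have := Module.finrank_pos (R := ℚ) (M := F)
  omega

/-- Lattice points in an arbitrary box. -/
theorem count {M : ℕ} (hM : M ≠ 0) : ∃ C : ℝ, 0 < C ∧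
    ∀ (z : Pl F → ℂ) (T : Pl F → ℝ) (S : Finset F), (∀ j, 0 ≤ T j) →
      (∀ x ∈ S, Den M x ∧ ∀ j, ‖em x j - z j‖ ^ 2 ≤ T j) → (S.card : ℝ) ≤ C * (1 + ∏ j, T j) := by
  classical
  set r := Fintype.card (Pl F) with hr
  set n := Module.finrank ℚ F with hn
  have hrn : 2 * r = n := two_mul_card
  have hn0 : n ≠ 0 := by have := card_pos (F := F); omega
  set D : ℝ := (M : ℝ) ^ n * 2 ^ r with hD
  have hD0 : 0 < D := by have : (0 : ℝ) < M := by exact_mod_cast Nat.pos_of_ne_zero hM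
                         positivity
  refine ⟨2 ^ n * (3 ^ n + 2 ^ n * D), by positivity, fun z T S hT hS => ?_⟩
  set P := ∏ j, T j with hP
  have hP0 : 0 ≤ P := Finset.prod_nonneg fun j _ => hT j
  set t : ℝ := (D * P) ^ ((n : ℝ)⁻¹) with ht
  have ht0 : 0 ≤ t := Real.rpow_nonneg (by positivity) _
  have htn : t ^ n = D * P := Real.rpow_inv_natCast_pow (by positivity) hn0
  set K : ℕ := ⌊t⌋₊ + 1 with hK
  have hKt : t < K := by rw [hK]; push_cast; exact Nat.lt_floor_add_one t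
  have hKt' : (K : ℝ) ≤ t + 1 := by rw [hK]; push_cast; linarith [Nat.floor_le ht0]
  have hinj : Set.InjOn (fun (x : F) (j : Pl F) => cell K (T j) (em x j - z j)) S := by
    intro x hx y hy e
    by_contra hne
    have h1 := one_le_mul_nF hM (sub_ne_zero.2 hne) (Den.sub (hS x hx).1 (hS y hy).1)
    have h2 : ∀ j, (K : ℝ) ^ 2 * ‖em (x - y) j‖ ^ 2 ≤ 2 * T j := fun j => by
      have := cell_close ((hS x hx).2 j) ((hS y hy).2 j) (congrFun e j)
      rwa [sub_sub_sub_cancel_right, ← Pi.sub_apply, ← em_sub] at this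
    have h3 := Finset.prod_le_prod (s := Finset.univ) (fun j _ => by positivity) fun j _ => h2 j
    rw [Finset.prod_mul_distrib, Finset.prod_mul_distrib, Finset.prod_const, Finset.prod_const,
      Finset.card_univ, ← hr, ← pow_mul, hrn, ← hP] at h3
    have h4 : t ^ n < (K : ℝ) ^ n := pow_lt_pow_left₀ hKt ht0 hn0
    have h5 : (K : ℝ) ^ n ≤ (K : ℝ) ^ n * ((M : ℝ) ^ n * nF (x - y)) :=
      le_mul_of_one_le_right (by positivity) h1
    have h6 : (K : ℝ) ^ n * ((M : ℝ) ^ n * nF (x - y)) ≤ (M : ℝ) ^ n * (2 ^ r * P) := by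
      rw [mul_left_comm]
      exact mul_le_mul_of_nonneg_left h3 (by positivity)
    rw [htn, hD] at h4
    nlinarith
  have hc := Finset.card_le_card_of_injOn (t := Fintype.piFinset fun _ : Pl F =>
      Finset.Icc (-(K : ℤ)) K ×ˢ Finset.Icc (-(K : ℤ)) K) _
    (fun x hx => Finset.mem_coe.2 (Fintype.mem_piFinset.2 fun j => cell_mem K ((hS x hx).2 j))) hinj
  rw [Fintype.card_piFinset, Finset.prod_const, Finset.card_univ, ← hr, Finset.card_product,
    ← sq, ← pow_mul, hrn, Int.card_Icc] at hc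
  have h7 : ((K : ℤ) + 1 - -(K : ℤ)).toNat = 2 * K + 1 := by omega
  rw [h7] at hc
  have h8 : (S.card : ℝ) ≤ (2 * K + 1) ^ n := by exact_mod_cast hc
  have h9 : (2 * K + 1 : ℝ) ^ n ≤ (2 * t + 3) ^ n :=
    pow_le_pow_left₀ (by positivity) (by linarith) n
  have h10 := add_pow_le (a := 2 * t) (b := 3) (by positivity) (by norm_num) n
  have h11 : (2 : ℝ) ^ (n - 1) ≤ 2 ^ n := pow_le_pow_right₀ (by norm_num) (Nat.sub_le _ _)
  rw [mul_pow, htn] at h10
  calc (S.card : ℝ) ≤ 2 ^ (n - 1) * (2 ^ n * (D * P) + 3 ^ n) := h8.trans (h9.trans h10)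
    _ ≤ 2 ^ n * (2 ^ n * (D * P) + 3 ^ n) := by gcongr
    _ ≤ _ := by
      rw [mul_assoc (2 ^ n)]
      gcongr
      have : 0 ≤ 3 ^ n * P + 2 ^ n * D := by positivity
      nlinarith

/-- Non-zero lattice points in a box centred at `0`. -/
theorem count0 {M : ℕ} (hM : M ≠ 0) : ∃ C : ℝ, 0 < C ∧
    ∀ (T : Pl F → ℝ) (S : Finset F), (∀ j, 0 ≤ T j) →
      (∀ x ∈ S, x ≠ 0 ∧ Den M x ∧ ∀ j, ‖em x j‖ ^ 2 ≤ T j) → (S.card : ℝ) ≤ C * ∏ j, T j := by
  obtain ⟨C, hC, h⟩ := count (F := F) hM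
  refine ⟨C * ((M : ℝ) ^ Module.finrank ℚ F + 1), by positivity, fun T S hT hS => ?_⟩
  have hP0 : 0 ≤ ∏ j, T j := Finset.prod_nonneg fun j _ => hT j
  rcases S.eq_empty_or_nonempty with rfl | ⟨x, hx⟩
  · simp only [Finset.card_empty, Nat.cast_zero]
    positivity
  have h1 := one_le_mul_nF hM (hS x hx).1 (hS x hx).2.1
  have h2 : nF x ≤ ∏ j, T j :=
    Finset.prod_le_prod (fun j _ => sq_nonneg _) fun j _ => (hS x hx).2.2 j
  have h3 := h1.trans (mul_le_mul_of_nonneg_left h2 (by positivity))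
  refine (h 0 T S hT fun y hy => ⟨(hS y hy).2.1, fun j => by simpa using (hS y hy).2.2 j⟩).trans ?_
  rw [mul_assoc]
  gcongr
  linarith

theorem summable_min {a b : ℝ} (ha : 0 < a) (hb : 0 < b) :
    Summable fun k : ℤ => min (Real.exp (a * k)) (Real.exp (-b * k)) := by
  have h0 : ∀ k : ℤ, 0 ≤ min (Real.exp (a * k)) (Real.exp (-b * k)) := fun k =>
    le_min (Real.exp_pos _).le (Real.exp_pos _).le
  have g : ∀ c : ℝ, 0 < c → Summable fun n : ℕ => Real.exp (-c * n) := fun c hc => by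
    have := summable_geometric_of_lt_one (Real.exp_pos (-c)).le (Real.exp_lt_one_iff.2 (by linarith))
    refine this.congr fun n => ?_
    rw [← Real.exp_nat_mul, mul_comm]
  refine Summable.of_nat_of_neg ?_ ?_
  · exact (g b hb).of_nonneg_of_le (fun n => h0 n) fun n => by simp
  · refine (g a ha).of_nonneg_of_le (fun n => h0 _) fun n => ?_
    refine (min_le_left _ _).trans (le_of_eq ?_)
    push_cast
    ring_nf

/-- A sum over lattice points of a product of functions of `log |x_j|²` dominated on unit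
intervals. -/
theorem sum_prod_le {M : ℕ} (hM : M ≠ 0) : ∃ C : ℝ, 0 < C ∧ ∀ (φ : Pl F → ℝ → ℝ)
    (ψ : Pl F → ℤ → ℝ) (v : Pl F → ℝ) (S : Finset F), (∀ j t, 0 ≤ φ j t) →
    (∀ j t, φ j t * Real.exp (⌈t⌉ : ℤ) ≤ ψ j ⌈t⌉) → (∀ j k, 0 ≤ ψ j k) → (∀ j, Summable (ψ j)) →
    (∀ x ∈ S, x ≠ 0 ∧ Den M x) →
      ∑ x ∈ S, ∏ j, φ j (v j + lg x j) ≤ C * (∏ j, ∑' k, ψ j k) * Real.exp (-∑ j, v j) := by
  classical
  obtain ⟨C, hC, h⟩ := count0 (F := F) hM
  refine ⟨C, hC, fun φ ψ v S h0 h1 h2 h3 hS => ?_⟩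
  let κ : F → Pl F → ℤ := fun x j => ⌈v j + lg x j⌉
  let K : Finset ℤ := Finset.univ.biUnion fun j => S.image fun x => κ x j
  have hK : ∀ x ∈ S, κ x ∈ Fintype.piFinset fun _ : Pl F => K := fun x hx =>
    Fintype.mem_piFinset.2 fun j => Finset.mem_biUnion.2
      ⟨j, Finset.mem_univ _, Finset.mem_image_of_mem _ hx⟩
  rw [← Finset.sum_fiberwise_of_maps_to hK]
  have e : ∀ k ∈ Fintype.piFinset fun _ : Pl F => K,
      ∑ x ∈ S with κ x = k, ∏ j, φ j (v j + lg x j) ≤
        C * Real.exp (-∑ j, v j) * ∏ j, ψ j (k j) := by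
    intro k _
    have a1 : ∀ x ∈ S.filter fun x => κ x = k, ∏ j, φ j (v j + lg x j) ≤
        ∏ j, ψ j (k j) * Real.exp (-(k j : ℝ)) := fun x hx => by
      refine Finset.prod_le_prod (fun j _ => h0 _ _) fun j _ => ?_
      have := h1 j (v j + lg x j)
      rw [show ⌈v j + lg x j⌉ = k j from congrFun (Finset.mem_filter.1 hx).2 j] at this
      rw [Real.exp_neg, ← div_eq_mul_inv, le_div_iff₀ (Real.exp_pos _)]
      exact this
    have a2 := h (fun j => Real.exp (k j - v j)) (S.filter fun x => κ x = k)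
      (fun j => (Real.exp_pos _).le) fun x hx => by
        obtain ⟨hx, e⟩ := Finset.mem_filter.1 hx
        refine ⟨(hS x hx).1, (hS x hx).2, fun j => ?_⟩
        rw [← exp_lg (hS x hx).1, Real.exp_le_exp, ← congrFun e j]
        linarith [Int.le_ceil (v j + lg x j)]
    refine (Finset.sum_le_card_nsmul _ _ _ a1).trans ?_
    rw [nsmul_eq_mul]
    refine (mul_le_mul_of_nonneg_right a2 (Finset.prod_nonneg fun j _ =>
      mul_nonneg (h2 _ _) (Real.exp_pos _).le)).trans (le_of_eq ?_)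
    rw [mul_assoc, mul_assoc, ← Finset.prod_mul_distrib, ← Finset.sum_neg_distrib, Real.exp_sum,
      ← Finset.prod_mul_distrib]
    congr 1
    refine Finset.prod_congr rfl fun j _ => ?_
    rw [mul_left_comm, ← Real.exp_add, mul_comm]
    congr 2
    ring
  refine (Finset.sum_le_sum e).trans ?_
  rw [← Finset.mul_sum, ← Finset.prod_univ_sum, mul_right_comm]
  gcongr with j
  · exact fun j _ => Finset.sum_nonneg fun k _ => h2 _ _
  · exact (h3 j).sum_le_tsum _ fun k _ => h2 _ _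

/-- The basic lattice sum, uniformly in the shape. -/
theorem lsum {M : ℕ} (hM : M ≠ 0) {a b : ℝ} (ha : a < 1) (hb : 1 < b) : ∃ C : ℝ, 0 ≤ C ∧
    ∀ (v : Pl F → ℝ) (S : Finset F), (∀ x ∈ S, x ≠ 0 ∧ Den M x) →
      ∑ x ∈ S, ∏ j, min (Real.exp (-a * (v j + lg x j))) (Real.exp (-b * (v j + lg x j))) ≤
        C * Real.exp (-∑ j, v j) := by
  obtain ⟨C, hC, h⟩ := sum_prod_le (F := F) hM
  let ψ : ℤ → ℝ := fun k => Real.exp (|a| + |b|) *
    min (Real.exp ((1 - a) * k)) (Real.exp (-(b - 1) * k))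
  have hψ : ∀ k, 0 ≤ ψ k := fun k =>
    mul_nonneg (Real.exp_pos _).le (le_min (Real.exp_pos _).le (Real.exp_pos _).le)
  refine ⟨C * ∏ _j : Pl F, ∑' k, ψ k,
    mul_nonneg hC.le (Finset.prod_nonneg fun _ _ => tsum_nonneg hψ), fun v S hS => ?_⟩
  refine h (fun _ t => min (Real.exp (-a * t)) (Real.exp (-b * t))) (fun _ => ψ) v S
    (fun _ _ => le_min (Real.exp_pos _).le (Real.exp_pos _).le) (fun _ t => ?_) (fun _ => hψ)
    (fun _ => (summable_min (by linarith) (by linarith)).mul_left _) hS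
  have h1 := Int.le_ceil t
  have h2 := Int.ceil_lt_add_one t
  have key : ∀ c : ℝ, |c| ≤ |a| + |b| → Real.exp (-c * t) * Real.exp (⌈t⌉ : ℤ) ≤
      Real.exp (|a| + |b|) * Real.exp ((1 - c) * (⌈t⌉ : ℤ)) := fun c hc => by
    rw [← Real.exp_add, ← Real.exp_add, Real.exp_le_exp]
    have : c * (⌈t⌉ - t) ≤ |c| * 1 :=
      mul_le_mul (le_abs_self c) (by linarith) (by linarith) (abs_nonneg c)
    linarith
  simp only [ψ]
  rw [mul_min_of_nonneg _ _ (Real.exp_pos _).le]
  refine le_min ?_ ?_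
  · exact (mul_le_mul_of_nonneg_right (min_le_left _ _) (Real.exp_pos _).le).trans
      (key a (by linarith [abs_nonneg b]))
  · refine (mul_le_mul_of_nonneg_right (min_le_right _ _) (Real.exp_pos _).le).trans ?_
    rw [neg_sub]
    exact key b (by linarith [abs_nonneg a])

end Crest.Agent.T27.TH.G

namespace Crest.Agent.T27.TH

/-- **Leaf L**. -/
theorem latStmt_80 (F : Type) [Field F] [NumberField F] [Emb F] : LatStmt F where
  nF_eq := G.nF_eq
  eF_eq := G.eF_eq
  one_le _ := G.one_le_nF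
  count _ hM := (G.count hM).imp fun _ h => h.2
  count0 _ hM := (G.count0 hM).imp fun _ h => h.2
  lsum _ hM _ _ ha hb := (G.lsum hM ha hb).imp fun _ h => h.2

end Crest.Agent.T27.TH
end
end

-- ▼ part T27/ThW_80

/-!
# Row 27, theta module A2: lattice weights on `ℂ^r`, mean values of series, Parseval

For a lattice `L ⊆ F` the function `wt L` is a positive continuous integrable weight:
`∑_{t ∈ L} wt L (z + t) = 1`; `vol L = ∫ wt L` is the covolume.
-/

set_option autoImplicit false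

noncomputable section

namespace Crest.Agent.T27.TH.G

open scoped ComplexConjugate ENNReal NumberField
open MeasureTheory NumberField
open Crest.Agent.R17 (IsWt)

variable {F : Type} [Field F]

/-- Lattices of `F`: additive subgroups between `M 𝒪` and `M⁻¹ 𝒪`. -/
def IsLat (L : AddSubgroup F) : Prop := ∃ M : ℕ, M ≠ 0 ∧ latt F M ≤ L ∧ ∀ x ∈ L, Den M x

theorem latt_le_latt {M N : ℕ} (h : M ∣ N) : latt F N ≤ latt F M := by
  obtain ⟨k, rfl⟩ := h
  rintro _ ⟨y, hy, rfl⟩
  exact ⟨k * y, (isIntegral_natCast k).mul hy, by push_cast; ring⟩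

theorem isIntegral_of_mem_latt {N : ℕ} {x : F} (hx : x ∈ latt F N) : IsIntegral ℤ x := by
  obtain ⟨y, hy, rfl⟩ := hx
  exact (isIntegral_natCast N).mul hy

theorem isLat_latt {N : ℕ} (hN : N ≠ 0) : IsLat (latt F N) :=
  ⟨N, hN, le_rfl, fun _ hx => Den.of_isIntegral N (isIntegral_of_mem_latt hx)⟩


theorem IsLat.of_le {L : AddSubgroup F} {M N : ℕ} (hM : M ≠ 0) (hN : N ≠ 0) (h1 : latt F M ≤ L)
    (h2 : ∀ x ∈ L, Den N x) : IsLat L :=
  ⟨M * N, mul_ne_zero hM hN, (latt_le_latt (dvd_mul_right M N)).trans h1,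
    fun x hx => Den.of_dvd (dvd_mul_left N M) (h2 x hx)⟩

theorem IsLat.inf {L L' : AddSubgroup F} (h : IsLat L) (h' : IsLat L') : IsLat (L ⊓ L') := by
  obtain ⟨M, hM, h1, h2⟩ := h
  obtain ⟨M', hM', h1', -⟩ := h'
  exact IsLat.of_le (mul_ne_zero hM hM') hM (le_inf ((latt_le_latt (dvd_mul_right M M')).trans h1)
    ((latt_le_latt (dvd_mul_left M' M)).trans h1')) fun x hx => h2 x hx.1

variable [NumberField F] [Emb F]

/-! ### Gaussian sums over lattices -/

/-- Shifted Gaussian sums, uniformly in the shift and in the shape. -/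
theorem gauss_sum_le {M : ℕ} (hM : M ≠ 0) : ∃ C : ℝ, 0 < C ∧
    ∀ (z : Pl F → ℂ) (t : Pl F → ℝ) (S : Finset F), (∀ j, 0 < t j) → (∀ x ∈ S, Den M x) →
      ∑ x ∈ S, Real.exp (-∑ j, t j * ‖em x j - z j‖ ^ 2) ≤ C * (1 + ∏ j, (t j)⁻¹) := by
  classical
  obtain ⟨C, hC, h⟩ := count (F := F) hM
  set r := Fintype.card (Pl F) with hr
  let ψ : ℕ → ℝ := fun k => (1 + (k : ℝ) ^ r) * Real.exp (-1 * k)
  have hψ : Summable ψ := by
    have h0 := Real.summable_pow_mul_exp_neg_nat_mul 0 one_pos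
    have h1 := Real.summable_pow_mul_exp_neg_nat_mul r one_pos
    refine (h0.add h1).congr fun k => ?_
    simp only [ψ]
    ring
  have hψ0 : ∀ k, 0 ≤ ψ k := fun k => by positivity
  have hψ1 : 0 ≤ ∑' k, ψ k := tsum_nonneg hψ0
  refine ⟨C * Real.exp 1 * (∑' k, ψ k + 1), by positivity, fun z t S ht hS => ?_⟩
  set P := ∏ j, (t j)⁻¹ with hP
  have hP0 : 0 ≤ P := Finset.prod_nonneg fun j _ => (inv_pos.2 (ht j)).le
  let q : F → ℝ := fun x => ∑ j, t j * ‖em x j - z j‖ ^ 2
  have hq : ∀ x j, 0 ≤ t j * ‖em x j - z j‖ ^ 2 := fun x j => mul_nonneg (ht j).le (sq_nonneg _)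
  let κ : F → ℕ := fun x => ⌈q x⌉₊
  rw [← Finset.sum_fiberwise_of_maps_to (g := κ) (t := S.image κ)
    fun x hx => Finset.mem_image_of_mem _ hx]
  have e : ∀ k ∈ S.image κ, ∑ x ∈ S with κ x = k, Real.exp (-q x) ≤
      C * Real.exp 1 * (1 + P) * ψ k := by
    intro k _
    have a1 : ∀ x ∈ S.filter fun x => κ x = k, Real.exp (-q x) ≤ Real.exp 1 * Real.exp (-1 * k) := by
      intro x hx
      rw [← Real.exp_add, Real.exp_le_exp, ← (Finset.mem_filter.1 hx).2]
      have := Nat.ceil_lt_add_one (Finset.sum_nonneg fun j (_ : j ∈ Finset.univ) => hq x j)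
      simp only [κ, q]
      linarith
    have a2 := h z (fun j => k * (t j)⁻¹) (S.filter fun x => κ x = k)
      (fun j => mul_nonneg (Nat.cast_nonneg _) (inv_pos.2 (ht j)).le) fun x hx => by
        obtain ⟨hx, e⟩ := Finset.mem_filter.1 hx
        refine ⟨hS x hx, fun j => ?_⟩
        rw [← div_eq_mul_inv, le_div_iff₀ (ht j), mul_comm, ← e]
        exact (Finset.single_le_sum (fun j _ => hq x j) (Finset.mem_univ j)).trans (Nat.le_ceil _)
    rw [Finset.prod_mul_distrib, Finset.prod_const, Finset.card_univ, ← hr, ← hP] at a2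
    refine (Finset.sum_le_card_nsmul _ _ _ a1).trans ?_
    rw [nsmul_eq_mul]
    refine (mul_le_mul_of_nonneg_right a2 (by positivity)).trans ?_
    have a3 : 1 + (k : ℝ) ^ r * P ≤ (1 + P) * (1 + (k : ℝ) ^ r) := by
      have : (0 : ℝ) ≤ (k : ℝ) ^ r := by positivity
      nlinarith
    calc C * (1 + (k : ℝ) ^ r * P) * (Real.exp 1 * Real.exp (-1 * k))
        ≤ C * ((1 + P) * (1 + (k : ℝ) ^ r)) * (Real.exp 1 * Real.exp (-1 * k)) := by gcongr
      _ = _ := by simp only [ψ]; ring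
  refine (Finset.sum_le_sum e).trans ?_
  rw [← Finset.mul_sum]
  have a4 : ∑ k ∈ S.image κ, ψ k ≤ ∑' k, ψ k + 1 :=
    (hψ.sum_le_tsum _ fun k _ => hψ0 k).trans (by linarith)
  calc C * Real.exp 1 * (1 + P) * ∑ k ∈ S.image κ, ψ k
      ≤ C * Real.exp 1 * (1 + P) * (∑' k, ψ k + 1) := by gcongr
    _ = _ := by ring

/-- Gaussian sums over an additive subgroup with bounded denominators. -/
theorem gauss_tsum_le {M : ℕ} (hM : M ≠ 0) : ∃ C : ℝ, 0 < C ∧
    ∀ (L : Set F) (z : Pl F → ℂ) (t : Pl F → ℝ), (∀ j, 0 < t j) → (∀ x ∈ L, Den M x) →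
      (Summable fun x : L => Real.exp (-∑ j, t j * ‖em (x : F) j - z j‖ ^ 2)) ∧
      ∑' x : L, Real.exp (-∑ j, t j * ‖em (x : F) j - z j‖ ^ 2) ≤ C * (1 + ∏ j, (t j)⁻¹) := by
  obtain ⟨C, hC, h⟩ := gauss_sum_le (F := F) hM
  refine ⟨C, hC, fun L z t ht hL => ?_⟩
  have key : ∀ S : Finset L, ∑ x ∈ S, Real.exp (-∑ j, t j * ‖em (x : F) j - z j‖ ^ 2) ≤
      C * (1 + ∏ j, (t j)⁻¹) := fun S => by
    have := h z t (S.map (Function.Embedding.subtype _)) ht fun x hx => by
      obtain ⟨y, -, rfl⟩ := Finset.mem_map.1 hx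
      exact hL _ y.2
    rwa [Finset.sum_map] at this
  have hs := summable_of_sum_le (fun _ => (Real.exp_pos _).le) key
  exact ⟨hs, hs.tsum_le_of_sum_le key⟩

/-- `𝒪_F` is cocompact in `ℂ^r`. -/
theorem exists_near : ∃ R : ℝ, ∀ z : Pl F → ℂ, ∃ t : F, IsIntegral ℤ t ∧ ‖z + em t‖ ≤ R := by
  classical
  have hli : LinearIndependent ℝ fun i => (em (integralBasis F i) : Pl F → ℂ) := by
    rw [Fintype.linearIndependent_iff]
    intro c hc i
    have h1 := Fintype.linearIndependent_iff.1 (canonicalEmbedding.latticeBasis F).linearIndependent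
      (fun i => (c i : ℂ)) (by
        funext φ
        have h2 := congrFun hc (InfinitePlace.mk φ)
        simp only [Finset.sum_apply, Pi.smul_apply, em_apply, Pi.zero_apply,
          Complex.real_smul] at h2
        simp only [Finset.sum_apply, Pi.smul_apply, canonicalEmbedding.latticeBasis_apply,
          canonicalEmbedding.apply_at, smul_eq_mul, Pi.zero_apply]
        rcases InfinitePlace.mk_eq_iff.1 (Emb.mk_σ (InfinitePlace.mk φ)) with h | h
        · rwa [h] at h2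
        · have h3 := congrArg conj h2
          rw [map_sum, map_zero] at h3
          rw [← h3]
          refine Finset.sum_congr rfl fun i _ => ?_
          rw [map_mul, Complex.conj_ofReal]
          congr 1
          conv_lhs => rw [← h]
          rfl) i
    exact_mod_cast h1
  have hcard : Fintype.card (Module.Free.ChooseBasisIndex ℤ (𝓞 F)) =
      Module.finrank ℝ (Pl F → ℂ) := by
    rw [← Module.finrank_eq_card_basis (integralBasis F), ← two_mul_card, Module.finrank_pi_fintype]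
    simp [mul_comm]
  have : Nonempty (Module.Free.ChooseBasisIndex ℤ (𝓞 F)) := by
    rw [← Fintype.card_pos_iff, ← Module.finrank_eq_card_basis (integralBasis F)]
    exact Module.finrank_pos
  let b := basisOfLinearIndependentOfCardEqFinrank hli hcard
  refine ⟨∑ i, ‖b i‖, fun z => ?_⟩
  have key : ∀ y ∈ Submodule.span ℤ (Set.range b), ∃ t : F, IsIntegral ℤ t ∧ em t = y := by
    intro y hy
    induction hy using Submodule.span_induction with
    | mem x hx =>
      obtain ⟨i, rfl⟩ := hx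
      refine ⟨integralBasis F i, ?_, by simp [b]⟩
      rw [integralBasis_apply]
      exact RingOfIntegers.isIntegral_coe _
    | zero => exact ⟨0, isIntegral_zero, em_zero⟩
    | add x y _ _ hx hy =>
      obtain ⟨s, hs, rfl⟩ := hx
      obtain ⟨t, ht, rfl⟩ := hy
      exact ⟨s + t, hs.add ht, em_add _ _⟩
    | smul a x _ hx =>
      obtain ⟨s, hs, rfl⟩ := hx
      exact ⟨a • s, hs.smul a, map_zsmul emR a s⟩
  obtain ⟨t, ht, e⟩ := key _ (ZSpan.floor b z).2
  refine ⟨-t, ht.neg, ?_⟩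
  rw [em_neg, e, ← sub_eq_add_neg]
  exact ZSpan.norm_fract_le b z

theorem IsLat.exists_near {L : AddSubgroup F} (hL : IsLat L) :
    ∃ R : ℝ, ∀ z : Pl F → ℂ, ∃ t ∈ L, ‖z + em t‖ ≤ R := by
  obtain ⟨M, hM, h1, -⟩ := hL
  obtain ⟨R, hR⟩ := G.exists_near (F := F)
  refine ⟨M * R, fun z => ?_⟩
  obtain ⟨t, ht, h⟩ := hR ((M : ℝ)⁻¹ • z)
  refine ⟨M * t, h1 ⟨t, ht, rfl⟩, ?_⟩
  have hM' : (M : ℝ) ≠ 0 := Nat.cast_ne_zero.2 hM
  have e : z + em (M * t : F) = (M : ℝ) • ((M : ℝ)⁻¹ • z + em t) := by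
    rw [smul_add, smul_inv_smul₀ hM', ← nsmul_eq_mul, Nat.cast_smul_eq_nsmul]
    exact congrArg _ (map_nsmul emR M t)
  rw [e, norm_smul, Real.norm_natCast]
  exact mul_le_mul_of_nonneg_left h (Nat.cast_nonneg _)

/-! ### the weight -/

/-- An additive subgroup of `F` acting on `ℂ^r` by translations. -/
def Tr (L : AddSubgroup F) : Type := Multiplicative L

instance (L : AddSubgroup F) : Group (Tr L) := inferInstanceAs (Group (Multiplicative L))

instance (L : AddSubgroup F) : Countable (Tr L) := inferInstanceAs (Countable L)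

instance (L : AddSubgroup F) : MulAction (Tr L) (Pl F → ℂ) where
  smul t z := z + em ((Multiplicative.toAdd t : L) : F)
  one_smul z := by
    show z + em (0 : F) = z
    simp
  mul_smul s t z := by
    show z + em (((Multiplicative.toAdd s : L) : F) + ((Multiplicative.toAdd t : L) : F)) =
      z + em ((Multiplicative.toAdd t : L) : F) + em ((Multiplicative.toAdd s : L) : F)
    rw [em_add]
    abel

theorem Tr_mp (L : AddSubgroup F) (t : Tr L) :
    MeasurePreserving (fun z : Pl F → ℂ => t • z) volume volume :=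
  measurePreserving_add_right volume _

/-- Weights for the translations by `L`. -/
structure IsW (L : AddSubgroup F) (ϖ : (Pl F → ℂ) → ℝ) : Prop where
  meas : Measurable ϖ
  nonneg : ∀ z, 0 ≤ ϖ z
  sum : ∀ z, HasSum (fun t : L => ϖ (z + em (t : F))) 1

theorem IsW.isWt {L : AddSubgroup F} {ϖ : (Pl F → ℂ) → ℝ} (h : IsW L ϖ) : IsWt (Tr L) ϖ :=
  ⟨h.meas, h.nonneg, h.sum⟩

theorem IsW.lintegral_unfold {L : AddSubgroup F} {ϖ : (Pl F → ℂ) → ℝ} (h : IsW L ϖ)
    {φ : (Pl F → ℂ) → ℝ≥0∞} (hφ : Measurable φ) :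
    ∫⁻ z, ENNReal.ofReal (ϖ z) * ∑' t : L, φ (z + em (t : F)) = ∫⁻ z, φ z :=
  h.isWt.lintegral_unfold (Tr_mp L) hφ

theorem IsW.integral_unfold {L : AddSubgroup F} {ϖ : (Pl F → ℂ) → ℝ} (h : IsW L ϖ)
    {φ : (Pl F → ℂ) → ℂ} (hφm : Measurable φ) (hφ : Integrable φ) :
    Integrable (fun z => (ϖ z : ℂ) * ∑' t : L, φ (z + em (t : F))) ∧
      ∫ z, (ϖ z : ℂ) * ∑' t : L, φ (z + em (t : F)) = ∫ z, φ z :=
  h.isWt.integral_unfold (Tr_mp L) hφm hφ


theorem IsW.tsum_ofReal {L : AddSubgroup F} {ϖ : (Pl F → ℂ) → ℝ} (h : IsW L ϖ) (z : Pl F → ℂ) :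
    ∑' t : L, ENNReal.ofReal (ϖ (z + em (t : F))) = 1 := by
  rw [← ENNReal.ofReal_tsum_of_nonneg (fun _ => h.nonneg _) (h.sum z).summable,
    (h.sum z).tsum_eq, ENNReal.ofReal_one]

theorem IsW.shift {L : AddSubgroup F} {ϖ : (Pl F → ℂ) → ℝ} (h : IsW L ϖ) (s : Pl F → ℂ) :
    IsW L fun z => ϖ (z - s) :=
  ⟨h.meas.comp (measurable_sub_const s), fun _ => h.nonneg _, fun z => by
    simpa only [add_sub_right_comm] using h.sum (z - s)⟩

/-- If `∑_t ϖ'(z + t) = k`, then `∫ ϖ' φ = k ∫ ϖ φ` for periodic `φ`. -/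
theorem IsW.lintegral_compare {L : AddSubgroup F} {ϖ ϖ' : (Pl F → ℂ) → ℝ} (h : IsW L ϖ)
    (hm : Measurable ϖ') {k : ℝ≥0∞} (hk : ∀ z, ∑' t : L, ENNReal.ofReal (ϖ' (z + em (t : F))) = k)
    {φ : (Pl F → ℂ) → ℝ≥0∞} (hφ : Measurable φ) (hp : ∀ t ∈ L, ∀ z, φ (z + em t) = φ z) :
    ∫⁻ z, ENNReal.ofReal (ϖ' z) * φ z = k * ∫⁻ z, ENNReal.ofReal (ϖ z) * φ z := by
  have h1 : Measurable fun z => ENNReal.ofReal (ϖ' z) * φ z := hm.ennreal_ofReal.mul hφ
  have h2 : Measurable fun z => ENNReal.ofReal (ϖ z) * φ z := h.meas.ennreal_ofReal.mul hφ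
  rw [← h.lintegral_unfold h1, ← lintegral_const_mul _ h2]
  refine lintegral_congr fun z => ?_
  simp only [hp _ (Subtype.mem _), ENNReal.tsum_mul_right, hk]
  exact mul_left_comm _ _ _

theorem IsW.integral_compare {L : AddSubgroup F} {ϖ ϖ' : (Pl F → ℂ) → ℝ} (h : IsW L ϖ)
    (hm : Measurable ϖ') {k : ℝ} (hk : ∀ z, HasSum (fun t : L => ϖ' (z + em (t : F))) k)
    {φ : (Pl F → ℂ) → ℂ} (hφ : Measurable φ) (hp : ∀ t ∈ L, ∀ z, φ (z + em t) = φ z)
    (hi : Integrable fun z => (ϖ' z : ℂ) * φ z) :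
    ∫ z, (ϖ' z : ℂ) * φ z = k * ∫ z, (ϖ z : ℂ) * φ z := by
  have h1 : Measurable fun z => (ϖ' z : ℂ) * φ z := (Complex.measurable_ofReal.comp hm).mul hφ
  rw [← (h.integral_unfold h1 hi).2, ← integral_const_mul]
  refine integral_congr_ae (Filter.Eventually.of_forall fun z => ?_)
  simp only [hp _ (Subtype.mem _), tsum_mul_right, ← Complex.ofReal_tsum, (hk z).tsum_eq]
  exact mul_left_comm _ _ _

/-- The standard Gaussian. -/
def gau (z : Pl F → ℂ) : ℝ := Real.exp (-∑ j, ‖z j‖ ^ 2)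

omit [Emb F] in
theorem gau_pos (z : Pl F → ℂ) : 0 < gau z := Real.exp_pos _

omit [Emb F] in
theorem continuous_gau : Continuous (gau : (Pl F → ℂ) → ℝ) := by unfold gau; fun_prop

omit [Emb F] in
theorem integrable_gau : Integrable (gau : (Pl F → ℂ) → ℝ) := by
  have h1 : Integrable fun u : ℂ => Real.exp (-‖u‖ ^ 2) := by
    have := (GaussianFourier.integrable_cexp_neg_mul_sq_norm_add (V := ℂ) (b := 1)
      (by simp) 0 0).norm
    refine this.congr (Filter.Eventually.of_forall fun u => ?_)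
    simp [Complex.norm_exp, ← Complex.ofReal_pow]
  have h2 := Integrable.fintype_prod (μ := fun _ : Pl F => (volume : Measure ℂ))
    (f := fun _ u => Real.exp (-‖u‖ ^ 2)) fun _ => h1
  refine h2.congr (Filter.Eventually.of_forall fun z => ?_)
  simp only [gau]
  rw [← Real.exp_sum, Finset.sum_neg_distrib]

theorem IsLat.summable_gau {L : AddSubgroup F} (hL : IsLat L) (z : Pl F → ℂ) :
    Summable fun t : L => gau (z + em (t : F)) := by
  obtain ⟨M, hM, -, h2⟩ := hL
  obtain ⟨C, -, h⟩ := gauss_tsum_le (F := F) hM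
  refine (h L (-z) (fun _ => 1) (fun _ => one_pos) h2).1.congr fun t => ?_
  simp only [gau, one_mul, Pi.neg_apply, sub_neg_eq_add, Pi.add_apply, add_comm]

theorem IsLat.continuous_tsum_gau {L : AddSubgroup F} (hL : IsLat L) :
    Continuous fun z : Pl F → ℂ => ∑' t : L, gau (z + em (t : F)) := by
  obtain ⟨M, hM, -, h2⟩ := hL
  obtain ⟨C, -, h⟩ := gauss_tsum_le (F := F) hM
  have hs := ((h L 0 (fun _ => 1 / 2) (fun _ => by norm_num) h2).1)
  refine continuous_iff_continuousAt.2 fun z₀ => ?_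
  set R := ‖z₀‖ + 1 with hR
  refine (continuousOn_tsum (s := Metric.ball 0 R) (fun t => ?_)
    (hs.mul_left (Real.exp (∑ _j : Pl F, R ^ 2))) fun t z hz => ?_).continuousAt
    (Metric.isOpen_ball.mem_nhds (by simp [hR]))
  · exact (continuous_gau.comp (continuous_add_const _)).continuousOn
  rw [Real.norm_of_nonneg (gau_pos _).le, gau, ← Real.exp_add, Real.exp_le_exp,
    ← Finset.sum_neg_distrib, ← Finset.sum_neg_distrib, ← Finset.sum_add_distrib]
  refine Finset.sum_le_sum fun j _ => ?_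
  have h3 : ‖z j‖ ≤ R := (norm_le_pi_norm z j).trans (mem_ball_zero_iff.1 hz).le
  have h4 : ‖em (t : F) j‖ ≤ ‖z j + em (t : F) j‖ + ‖z j‖ := by
    simpa using norm_sub_le (z j + em (t : F) j) (z j)
  have h5 := pow_le_pow_left₀ (norm_nonneg _) h4 2
  have h6 := pow_le_pow_left₀ (norm_nonneg _) h3 2
  simp only [Pi.zero_apply, sub_zero, Pi.add_apply]
  nlinarith [sq_nonneg (‖z j + em (t : F) j‖ - ‖z j‖)]

theorem IsLat.tsum_gau_pos {L : AddSubgroup F} (hL : IsLat L) (z : Pl F → ℂ) :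
    0 < ∑' t : L, gau (z + em (t : F)) :=
  (hL.summable_gau z).tsum_pos (fun _ => (gau_pos _).le) 0 (gau_pos _)

/-- The weight of the lattice `L`. -/
def wt (L : AddSubgroup F) (z : Pl F → ℂ) : ℝ := gau z / ∑' t : L, gau (z + em (t : F))

/-- The covolume of the lattice `L`. -/
def vol (L : AddSubgroup F) : ℝ := ∫ z, wt L z

theorem continuous_wt {L : AddSubgroup F} (hL : IsLat L) : Continuous (wt L) :=
  continuous_gau.div hL.continuous_tsum_gau fun z => (hL.tsum_gau_pos z).ne'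

theorem wt_pos {L : AddSubgroup F} (hL : IsLat L) (z : Pl F → ℂ) : 0 < wt L z :=
  div_pos (gau_pos z) (hL.tsum_gau_pos z)

theorem hasSum_wt {L : AddSubgroup F} (hL : IsLat L) (z : Pl F → ℂ) :
    HasSum (fun t : L => wt L (z + em (t : F))) 1 := by
  have h1 := (hL.summable_gau z).hasSum.div_const (∑' t : L, gau (z + em (t : F)))
  rw [div_self (hL.tsum_gau_pos z).ne'] at h1
  refine (funext fun s => ?_ : _ = fun t : L => wt L (z + em (t : F))) ▸ h1
  unfold wt
  congr 1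
  symm
  simp only [add_assoc, ← em_add, ← AddSubgroup.coe_add]
  exact (Equiv.addLeft s).tsum_eq fun t : L => gau (z + em (t : F))

theorem isW_wt {L : AddSubgroup F} (hL : IsLat L) : IsW L (wt L) :=
  ⟨(continuous_wt hL).measurable, fun z => (wt_pos hL z).le, hasSum_wt hL⟩


theorem wt_le_gau {L : AddSubgroup F} (hL : IsLat L) : ∃ C : ℝ, ∀ z, wt L z ≤ C * gau z := by
  obtain ⟨R, hR⟩ := hL.exists_near
  refine ⟨Real.exp (∑ _j : Pl F, R ^ 2), fun z => ?_⟩
  obtain ⟨t, ht, h⟩ := hR z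
  have h1 : gau (z + em t) ≤ ∑' t : L, gau (z + em (t : F)) :=
    (hL.summable_gau z).le_tsum ⟨t, ht⟩ fun _ _ => (gau_pos _).le
  have h2 : Real.exp (-∑ _j : Pl F, R ^ 2) ≤ gau (z + em t) := by
    rw [gau, Real.exp_le_exp, neg_le_neg_iff]
    exact Finset.sum_le_sum fun j _ =>
      pow_le_pow_left₀ (norm_nonneg _) ((norm_le_pi_norm _ j).trans h) 2
  rw [wt, div_le_iff₀ (hL.tsum_gau_pos z), mul_right_comm]
  refine le_mul_of_one_le_left (gau_pos z).le ?_
  refine le_trans ?_ (mul_le_mul_of_nonneg_left (h2.trans h1) (Real.exp_pos _).le)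
  rw [← Real.exp_add, add_neg_cancel, Real.exp_zero]

theorem integrable_wt {L : AddSubgroup F} (hL : IsLat L) : Integrable (wt L) := by
  obtain ⟨C, hC⟩ := wt_le_gau hL
  exact (integrable_gau.const_mul C).mono' (continuous_wt hL).aestronglyMeasurable
    (Filter.Eventually.of_forall fun z => by
      rw [Real.norm_of_nonneg (wt_pos hL z).le]; exact hC z)

theorem vol_pos {L : AddSubgroup F} (hL : IsLat L) : 0 < vol L := by
  rw [vol, integral_pos_iff_support_of_nonneg (fun z => (wt_pos hL z).le) (integrable_wt hL)]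
  rw [show Function.support (wt L) = Set.univ from
    Set.eq_univ_of_forall fun z => (wt_pos hL z).ne']
  exact isOpen_univ.measure_pos _ Set.univ_nonempty

theorem lintegral_wt {L : AddSubgroup F} (hL : IsLat L) :
    ∫⁻ z, ENNReal.ofReal (wt L z) = ENNReal.ofReal (vol L) :=
  (ofReal_integral_eq_lintegral_ofReal (integrable_wt hL)
    (Filter.Eventually.of_forall fun z => (wt_pos hL z).le)).symm



/-- Every weight has integral `vol L`. -/
theorem IsW.lintegral_eq {L : AddSubgroup F} (hL : IsLat L) {ϖ : (Pl F → ℂ) → ℝ} (h : IsW L ϖ) :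
    ∫⁻ z, ENNReal.ofReal (ϖ z) = ENNReal.ofReal (vol L) := by
  have := (isW_wt hL).lintegral_compare h.meas h.tsum_ofReal (φ := fun _ => 1) measurable_const
    fun _ _ _ => rfl
  simpa only [mul_one, one_mul, lintegral_wt hL] using this

theorem IsW.integrable {L : AddSubgroup F} (hL : IsLat L) {ϖ : (Pl F → ℂ) → ℝ} (h : IsW L ϖ) :
    Integrable ϖ := by
  refine ⟨h.meas.aestronglyMeasurable, ?_⟩
  rw [hasFiniteIntegral_iff_ofReal (Filter.Eventually.of_forall h.nonneg), h.lintegral_eq hL]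
  exact ENNReal.ofReal_lt_top



/-- Sum of the weight of a sublattice over the translations by a lattice. -/
theorem exists_index {L L' : AddSubgroup F} (hL : IsLat L) (hL' : IsLat L') (hle : L' ≤ L) :
    ∀ z, HasSum (fun t : L => wt L' (z + em (t : F))) (vol L' / vol L) := by
  let Q := L ⧸ L'.addSubgroupOf L
  let e : Q × L' ≃ L := Equiv.ofBijective (fun p => p.1.out + ⟨p.2, hle p.2.2⟩) ⟨by
    rintro ⟨q, s⟩ ⟨q', s'⟩ h
    have key : ∀ (q : Q) (s : L'), ((q.out + ⟨s, hle s.2⟩ : L) : Q) = q := fun q s => by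
      conv_rhs => rw [← QuotientAddGroup.out_eq' q]
      rw [eq_comm, QuotientAddGroup.eq, neg_add_cancel_left]
      exact s.2
    have h1 : q = q' := by
      rw [← key q s, ← key q' s']
      exact congrArg _ h
    subst h1
    exact Prod.ext rfl (Subtype.ext (congrArg Subtype.val (add_left_cancel h) :)), fun t => by
    have h := QuotientAddGroup.eq.1 (QuotientAddGroup.out_eq' (t : Q))
    exact ⟨((t : Q), ⟨_, h⟩), add_neg_cancel_left _ _⟩⟩
  have hk : ∀ z, ∑' t : L, ENNReal.ofReal (wt L' (z + em (t : F))) = ∑' _ : Q, 1 := fun z => by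
    rw [← e.tsum_eq, ENNReal.tsum_prod']
    refine tsum_congr fun q => ?_
    rw [← (isW_wt hL').tsum_ofReal (z + em ((q.out : L) : F))]
    refine tsum_congr fun s => ?_
    rw [add_assoc, ← em_add]
    rfl
  have h1 := (isW_wt hL).lintegral_compare (continuous_wt hL').measurable hk (φ := fun _ => 1)
    measurable_const fun _ _ _ => rfl
  simp only [mul_one, lintegral_wt hL, lintegral_wt hL'] at h1
  have h2 : (∑' _ : Q, (1 : ℝ≥0∞)) = ENNReal.ofReal (vol L' / vol L) := by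
    rw [ENNReal.ofReal_div_of_pos (vol_pos hL), h1, ENNReal.mul_div_cancel_right
      (ENNReal.ofReal_pos.2 (vol_pos hL)).ne' ENNReal.ofReal_ne_top]
  intro z
  have h3 := ENNReal.hasSum_toReal ((hk z).trans h2 ▸ ENNReal.ofReal_ne_top :
    ∑' t : L, ENNReal.ofReal (wt L' (z + em (t : F))) ≠ ∞)
  rw [← ENNReal.tsum_toReal_eq fun _ => ENNReal.ofReal_ne_top, hk, h2,
    ENNReal.toReal_ofReal (div_pos (vol_pos hL') (vol_pos hL)).le] at h3
  simpa only [ENNReal.toReal_ofReal (wt_pos hL' _).le] using h3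

/-- Mean values of a periodic function over two lattices. -/
theorem integral_wt_compare {L L' : AddSubgroup F} (hL : IsLat L) (hL' : IsLat L') (hle : L' ≤ L)
    {φ : (Pl F → ℂ) → ℂ} (hφ : Measurable φ) (hp : ∀ t ∈ L, ∀ z, φ (z + em t) = φ z)
    (hi : Integrable fun z => (wt L' z : ℂ) * φ z) :
    ∫ z, (wt L' z : ℂ) * φ z = (vol L' / vol L : ℝ) * ∫ z, (wt L z : ℂ) * φ z :=
  (isW_wt hL).integral_compare (continuous_wt hL').measurable (exists_index hL hL' hle) hφ hp hi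

theorem integrable_wt_mul {L : AddSubgroup F} (hL : IsLat L) {φ : (Pl F → ℂ) → ℂ}
    (hφ : Measurable φ) {C : ℝ} (hC : ∀ z, ‖φ z‖ ≤ C) : Integrable fun z => (wt L z : ℂ) * φ z :=
  (integrable_wt hL).ofReal.mul_bdd hφ.aestronglyMeasurable (Filter.Eventually.of_forall hC)

/-! ### trigonometric series -/

/-- The character `z ↦ e(Tr (r z))`. -/
def ch (r : F) (z : Pl F → ℂ) : ℂ := eV fun j => em r j * z j

theorem ch_add (r : F) (z z' : Pl F → ℂ) : ch r (z + z') = ch r z * ch r z' := by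
  rw [ch, ch, ch, ← eV_add]
  congr 1
  funext j
  simp [mul_add]

theorem ch_add_left (r s : F) (z : Pl F → ℂ) : ch (r + s) z = ch r z * ch s z := by
  rw [ch, ch, ch, ← eV_add]
  congr 1
  funext j
  simp [em_add, add_mul]

theorem ch_neg_left (r : F) (z : Pl F → ℂ) : ch (-r) z = conj (ch r z) := by
  rw [ch, ch, ← eV_neg]
  congr 1
  funext j
  simp [em_neg]

theorem ch_zero_left (z : Pl F → ℂ) : ch 0 z = 1 := by
  rw [ch, ← eV_zero (F := F)]
  congr 1
  funext j
  simp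

theorem norm_ch (r : F) (z : Pl F → ℂ) : ‖ch r z‖ = 1 := norm_eV _

theorem ch_em (r t : F) : ch r (em t) = eF (r * t) := by rw [eF, em_mul]; rfl

theorem continuous_ch (r : F) : Continuous (ch r) :=
  continuous_eV.comp (continuous_pi fun j => continuous_const.mul (continuous_apply j))

theorem ch_latt {N : ℕ} {r t : F} (hr : Den N r) (ht : t ∈ latt F N) : ch r (em t) = 1 := by
  obtain ⟨y, hy, rfl⟩ := ht
  rw [ch_em, eF_of_isIntegral]
  rw [← mul_assoc, mul_comm r]
  exact IsIntegral.mul hr hy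

theorem exists_ch_eq {r : F} (hr : r ≠ 0) : ∃ s, ch r s = -1 := by
  classical
  obtain ⟨j₀⟩ : Nonempty (Pl F) := Fintype.card_pos_iff.1 card_pos
  refine ⟨Pi.single j₀ ((em r j₀)⁻¹ / 4), ?_⟩
  rw [ch, eV, Finset.sum_eq_single j₀ (fun j _ hj => by simp [hj]) (by simp), Pi.single_eq_same,
    ← mul_div_assoc, mul_inv_cancel₀ (em_ne_zero hr j₀), ← Complex.exp_pi_mul_I]
  congr 1
  norm_num
  ring

/-- Orthogonality. -/
theorem integral_wt_ch {L : AddSubgroup F} (hL : IsLat L) {r : F} (hr : r ≠ 0)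
    (hp : ∀ t ∈ L, ch r (em t) = 1) : ∫ z, (wt L z : ℂ) * ch r z = 0 := by
  obtain ⟨s, hs⟩ := exists_ch_eq hr
  have h := (isW_wt hL).shift s
  have h1 := (isW_wt hL).integral_compare h.meas h.sum (continuous_ch r).measurable
    (fun t ht z => by rw [ch_add, hp t ht, mul_one])
    ((h.integrable hL).ofReal.mul_bdd (continuous_ch r).aestronglyMeasurable
      (Filter.Eventually.of_forall fun z => (norm_ch r z).le))
  rw [← integral_add_right_eq_self _ s] at h1
  simp only [add_sub_cancel_right, ch_add, hs, mul_neg, mul_one, integral_neg, Complex.ofReal_one,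
    one_mul] at h1
  linear_combination (-1 / 2 : ℂ) * h1

/-- Mean value of a trigonometric series, general index set. -/
theorem integral_wt_gen {κ : Type} [Countable κ] {L : AddSubgroup F} (hL : IsLat L) {ξ : κ → F}
    [∀ r, Decidable (ξ r = 0)] {a : κ → ℂ} (ha : Summable fun r => ‖a r‖)
    (hξ : ∀ r, a r ≠ 0 → ∀ t ∈ L, ch (ξ r) (em t) = 1) :
    ∫ z, (wt L z : ℂ) * ∑' r, a r * ch (ξ r) z = vol L * ∑' r, if ξ r = 0 then a r else 0 := by
  have hi : ∀ r, Integrable fun z => (wt L z : ℂ) * (a r * ch (ξ r) z) := fun r =>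
    integrable_wt_mul hL (continuous_const.mul (continuous_ch _)).measurable (C := ‖a r‖)
      fun z => by rw [norm_mul, norm_ch, mul_one]
  have hs : Summable fun r => ∫ z, ‖(wt L z : ℂ) * (a r * ch (ξ r) z)‖ := by
    simp only [norm_mul, norm_ch, mul_one, integral_mul_const]
    exact ha.mul_left _
  simp only [← tsum_mul_left]
  rw [← integral_tsum_of_summable_integral_norm hi hs]
  refine tsum_congr fun r => ?_
  simp only [mul_left_comm _ (a r)]
  rw [integral_const_mul]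
  split_ifs with h
  · simp only [h, ch_zero_left, mul_one]
    rw [integral_complex_ofReal, mul_comm, vol]
  · by_cases h0 : a r = 0
    · simp [h0]
    · rw [integral_wt_ch hL h (hξ r h0)]
      simp

/-- The trigonometric series with coefficients `a`. -/
def ser (a : F → ℂ) (z : Pl F → ℂ) : ℂ := ∑' r : F, a r * eV fun j => em r j * z j

theorem ser_eq (a : F → ℂ) (z : Pl F → ℂ) : ser a z = ∑' r : F, a r * ch r z := rfl

theorem continuous_ser {a : F → ℂ} (ha : Summable fun r => ‖a r‖) : Continuous (ser a) :=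
  continuous_tsum (fun r => continuous_const.mul (continuous_ch r)) ha
    fun r z => by rw [norm_mul, norm_eV, mul_one]

theorem norm_ser_le {a : F → ℂ} (ha : Summable fun r => ‖a r‖) (z : Pl F → ℂ) :
    ‖ser a z‖ ≤ ∑' r, ‖a r‖ :=
  tsum_of_norm_bounded ha.hasSum fun r => by rw [norm_mul, norm_eV, mul_one]

theorem ser_periodic {N : ℕ} {a : F → ℂ} (hs : ∀ r, a r ≠ 0 → Den N r) {t : F}
    (ht : t ∈ latt F N) (z : Pl F → ℂ) : ser a (z + em t) = ser a z := by
  refine tsum_congr fun r => ?_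
  by_cases h : a r = 0
  · simp [h]
  · have := ch_add r z (em t)
    rw [ch_latt (hs r h) ht, mul_one] at this
    exact congrArg _ this


theorem normSq_ser {a : F → ℂ} (ha : Summable fun r => ‖a r‖) (z : Pl F → ℂ) :
    ∑' p : F × F, a p.1 * conj (a p.2) * ch (p.1 - p.2) z = ((‖ser a z‖ ^ 2 : ℝ) : ℂ) := by
  have s1 : Summable fun r => ‖a r * ch r z‖ := by
    simpa only [norm_mul, norm_ch, mul_one] using ha
  have s2 : Summable fun r => ‖conj (a r * ch r z)‖ := by
    simpa only [Complex.norm_conj] using s1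
  rw [Complex.ofReal_pow, ← Complex.mul_conj', ser_eq, Complex.conj_tsum,
    tsum_mul_tsum_of_summable_norm s1 s2]
  refine tsum_congr fun p => ?_
  rw [map_mul, ← ch_neg_left, mul_mul_mul_comm, ← ch_add_left, sub_eq_add_neg]

open Classical in
omit [NumberField F] [Emb F] in
theorem tsum_diag (a : F → ℂ) :
    (∑' p : F × F, if p.1 - p.2 = 0 then a p.1 * conj (a p.2) else 0) =
      ((∑' r, ‖a r‖ ^ 2 : ℝ) : ℂ) := by
  have hinj : Function.Injective fun r : F => (r, r) := fun r s h => (Prod.mk.inj h).1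
  rw [← hinj.tsum_eq, Complex.ofReal_tsum]
  · refine tsum_congr fun r => ?_
    simp [Complex.mul_conj']
  · intro p hp
    by_contra hn
    exact hp (if_neg fun h => hn ⟨p.1, Prod.ext rfl (sub_eq_zero.1 h)⟩)

theorem parseval_real {L : AddSubgroup F} (hL : IsLat L) {N : ℕ} (hN : N ≠ 0) {a : F → ℂ}
    (ha : Summable fun r => ‖a r‖) (hs : ∀ r, a r ≠ 0 → Den N r)
    (hp : ∀ t ∈ L, ∀ z, ‖ser a (z + em t)‖ = ‖ser a z‖) :
    ∫ z, wt L z * ‖ser a z‖ ^ 2 = vol L * ∑' r, ‖a r‖ ^ 2 := by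
  classical
  have hL' := hL.inf (isLat_latt hN)
  have ha' : Summable fun r => ‖conj (a r)‖ := by simpa only [Complex.norm_conj] using ha
  have hb : Summable fun p : F × F => ‖a p.1 * conj (a p.2)‖ :=
    Summable.mul_norm (f := a) (g := fun r => conj (a r)) ha ha'
  have h1 := integral_wt_gen hL' (κ := F × F) (ξ := fun p => p.1 - p.2)
    (a := fun p => a p.1 * conj (a p.2)) hb fun p h t ht =>
      ch_latt (Den.sub (hs _ (left_ne_zero_of_mul h))
        (hs _ fun h0 => right_ne_zero_of_mul h (by simp [h0]))) ht.2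
  rw [tsum_diag a] at h1
  simp only [normSq_ser ha] at h1
  have hm : Measurable fun z => ((‖ser a z‖ ^ 2 : ℝ) : ℂ) :=
    (Complex.continuous_ofReal.comp ((continuous_ser ha).norm.pow 2)).measurable
  have h2 := integral_wt_compare hL hL' inf_le_left hm (fun t ht z => by rw [hp t ht])
    (integrable_wt_mul hL' hm (C := (∑' r, ‖a r‖) ^ 2) fun z => by
      rw [Complex.norm_real, norm_pow, norm_norm]
      exact pow_le_pow_left₀ (norm_nonneg _) (norm_ser_le ha z) 2)
  have h5 := h1.symm.trans h2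
  simp only [← Complex.ofReal_mul] at h5
  rw [integral_complex_ofReal, ← Complex.ofReal_mul, Complex.ofReal_inj] at h5
  have h3 := (vol_pos hL').ne'
  have h4 := (vol_pos hL).ne'
  field_simp at h5
  exact h5.symm.trans (mul_comm _ _)

/-- Parseval. -/
theorem parseval {L : AddSubgroup F} (hL : IsLat L) {N : ℕ} (hN : N ≠ 0) {a : F → ℂ}
    (ha : Summable fun r => ‖a r‖) (hs : ∀ r, a r ≠ 0 → Den N r)
    (hp : ∀ t ∈ L, ∀ z, ‖ser a (z + em t)‖ = ‖ser a z‖) :
    ∫⁻ z, ENNReal.ofReal (wt L z) * ‖ser a z‖ₑ ^ 2 =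
      ENNReal.ofReal (vol L) * ∑' r, ‖a r‖ₑ ^ 2 := by
  have hi : Integrable fun z => wt L z * ‖ser a z‖ ^ 2 := by
    refine (integrable_wt hL).mul_bdd (c := (∑' r, ‖a r‖) ^ 2)
      ((continuous_ser ha).norm.pow 2).aestronglyMeasurable
      (Filter.Eventually.of_forall fun z => ?_)
    rw [norm_pow, norm_norm]
    exact pow_le_pow_left₀ (norm_nonneg _) (norm_ser_le ha z) 2
  have hs2 : Summable fun r => ‖a r‖ ^ 2 := by
    refine (ha.mul_left (∑' r, ‖a r‖)).of_nonneg_of_le (fun _ => by positivity) fun r => ?_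
    rw [sq]
    exact mul_le_mul_of_nonneg_right (ha.le_tsum r fun _ _ => norm_nonneg _) (norm_nonneg _)
  simp only [← ofReal_norm, ← ENNReal.ofReal_pow (norm_nonneg _),
    ← ENNReal.ofReal_mul (wt_pos hL _).le]
  rw [← ofReal_integral_eq_lintegral_ofReal hi (Filter.Eventually.of_forall fun z =>
    mul_nonneg (wt_pos hL _).le (by positivity)), parseval_real hL hN ha hs hp,
    ENNReal.ofReal_mul (vol_pos hL).le, ENNReal.ofReal_tsum_of_nonneg (fun _ => by positivity) hs2]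

/-- Parseval for the lattice `N 𝒪`. -/
theorem parseval_latt {N : ℕ} (hN : N ≠ 0) {a : F → ℂ} (ha : Summable fun r => ‖a r‖)
    (hs : ∀ r, a r ≠ 0 → Den N r) :
    ∫⁻ z, ENNReal.ofReal (wt (latt F N) z) * ‖ser a z‖ₑ ^ 2 =
      ENNReal.ofReal (vol (latt F N)) * ∑' r, ‖a r‖ₑ ^ 2 :=
  parseval (isLat_latt hN) hN ha hs fun t ht z => by rw [ser_periodic hs ht]



end Crest.Agent.T27.TH.G
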