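import Crest.Agent.T27.FourA_78
import Crest.Agent.T27.ThG1_80
import Crest.Agent.T27.ThW_80
import Crest.Agent.T27.ThA_54
import Crest.Agent.T27.ThB_54
import Crest.Agent.T27.Mean_82

-- ▼ part T27/FourB_78
section

/-!
# Row 27, theta leaf A3, part 2 (helper78): the Fourier expansion of `thY ξ v`
-/

set_option autoImplicit false
set_option linter.unusedSectionVars false

noncomputable section

namespace Crest.Agent.T27.TH.Four78

open scoped ComplexConjugate ENNReal Topology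
open MeasureTheory Filter NumberField

variable {F : Type} [Field F] [NumberField F] [Emb F]

theorem exp_lg {c : F} (hc : c ≠ 0) (j : Pl F) : Real.exp (lg c j) = ‖em c j‖ ^ 2 :=
  Real.exp_log (pow_pos (norm_pos_iff.2 (em_ne hc j)) 2)

theorem Fk_nonneg (l b x : Pl F → ℝ) : 0 ≤ Fk l b x :=
  Finset.prod_nonneg fun _ _ => (mul_pos (Real.exp_pos _) (Real.exp_pos _)).le

theorem exp_Qv (v l : Pl F → ℝ) (z : Pl F → ℂ) (c d : F) :
    Real.exp (-Qv v (pt z l) (c, d)) =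
      Real.exp (-∑ j, Real.exp (v j + l j) * ‖em c j‖ ^ 2) *
        gau (fun j => Real.exp (v j - l j)) (fun j => em c j * z j) d := by
  rw [gau, ← Real.exp_add, Qv, ← neg_add, ← Finset.sum_add_distrib]
  congr 2
  refine Finset.sum_congr rfl fun j _ => ?_
  simp only [pt, R17.Qf, R17.hy, Real.exp_add, Real.exp_sub]
  have := Real.exp_pos (l j)
  field_simp
  ring

theorem Fk_eq (v l : Pl F → ℝ) {c : F} (hc : c ≠ 0) (r : F) :
    Real.exp (4 / 3 * ∑ j, v j) * (Real.exp (-∑ j, Real.exp (v j + l j) * ‖em c j‖ ^ 2) *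
      gft (fun j => Real.exp (v j - l j)) (r / c)) =
      Real.exp ((∑ j, v j) / 3) * Fk l (bb r) (v + lg c) := by
  rw [show 4 / 3 * ∑ j, v j = (∑ j, v j) / 3 + ∑ j, v j by ring, Real.exp_add, mul_assoc]
  congr 1
  rw [← Finset.sum_neg_distrib, Real.exp_sum, Real.exp_sum, gft, Fk, ← Finset.prod_mul_distrib,
    ← Finset.prod_mul_distrib]
  refine Finset.prod_congr rfl fun j _ => ?_
  have h1 := Real.exp_pos (l j)
  have h2 := Real.exp_pos (v j)
  have h3 : 0 < ‖em c j‖ := norm_pos_iff.2 (em_ne hc j)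
  have e1 : -Real.exp (l j) * (Real.exp ((v + lg c) j) + bb r j * Real.exp (-(v + lg c) j)) =
      -(Real.exp (v j + l j) * ‖em c j‖ ^ 2) + -(bb (r / c) j / Real.exp (v j - l j)) := by
    simp only [Pi.add_apply, Real.exp_neg, Real.exp_add, Real.exp_sub, exp_lg hc, bb, em_div,
      norm_div]
    field_simp
    ring
  rw [e1, Real.exp_add (-_), Real.exp_sub]
  field_simp

/-- The inner sum for a fixed `c ≠ 0`. -/
theorem inner_ne (hM : MeanStmt F) (hR : RowStmt F) {ξ : F × F → ℂ} (h : Adm ξ) (v l : Pl F → ℝ)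
    (z : Pl F → ℂ) {c : F} (hc : c ≠ 0) :
    (Real.exp (4 / 3 * ∑ j, v j) : ℂ) * ∑' d : F, ξ (c, d) * (Real.exp (-Qv v (pt z l) (c, d)) : ℂ) =
      ∑' r : F, (kap F : ℂ) * ((Real.exp ((∑ j, v j) / 3) : ℂ) *
        (mf ξ r c * (Fk l (bb r) (v + lg c) : ℂ))) * eV (fun j => em r j * z j) := by
  have H := (poisson_per hM (hR.per ξ h c hc) (a := fun j => Real.exp (v j - l j))
    (fun j => Real.exp_pos _) fun j => em c j * z j).2.tsum_eq
  simp only [exp_Qv, Complex.ofReal_mul, mul_left_comm (ξ _)]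
  rw [tsum_mul_left, ← H, ← tsum_mul_left, ← tsum_mul_left,
    ← (Equiv.divRight₀ c hc).tsum_eq]
  refine tsum_congr fun r => ?_
  have e1 := congrArg (fun t : ℝ => (t : ℂ)) (Fk_eq v l hc r)
  simp only [Complex.ofReal_mul] at e1
  have e2 : mf ξ r c = mean fun d => ξ (c, d) * eF (r / c * d) := by
    rw [mf, if_neg hc]
    simp only [div_mul_eq_mul_div]
  have e3 : (fun j => em (r / c) j * (em c j * z j)) = fun j => em r j * z j := by
    funext j
    rw [← mul_assoc, ← em_mul, div_mul_cancel₀ _ hc]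
  simp only [Equiv.divRight₀_apply]
  rw [e3, e2, mul_left_comm (Real.exp ((∑ j, v j) / 3) : ℂ), ← e1]
  ring

theorem inner_zero (ξ : F × F → ℂ) (v l : Pl F → ℝ) (z : Pl F → ℂ) :
    (Real.exp (4 / 3 * ∑ j, v j) : ℂ) * ∑' d : F, ξ (0, d) * (Real.exp (-Qv v (pt z l) (0, d)) : ℂ) =
      E0 ξ v l := by
  simp only [E0, exp_Qv, gau, em_zero, norm_zero, zero_mul, zero_add]
  simp

/-- Lattice sums of functions which decay like `∏ min(1, |x_j|⁻⁴)`. -/
theorem summable_latt (hL : LatStmt F) {M : ℕ} (hM : M ≠ 0) {g : F → ℝ} (h0 : ∀ x, 0 ≤ g x)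
    (hs : ∀ x, g x ≠ 0 → IsIntegral ℤ ((M : F) * x)) {C : ℝ}
    (hb : ∀ x, x ≠ 0 → g x ≤ C * ∏ j, min 1 ((‖em x j‖ ^ 4)⁻¹)) : Summable g := by
  classical
  obtain ⟨C', hC'⟩ := hL.lsum M hM 0 2 (by norm_num) (by norm_num)
  refine summable_of_sum_le (c := g 0 + |C| * C') h0 fun S => ?_
  have h1 := hC' 0 (S.filter fun x => x ≠ 0 ∧ IsIntegral ℤ ((M : F) * x))
    fun x hx => (Finset.mem_filter.1 hx).2
  simp only [Pi.zero_apply, Finset.sum_const_zero, neg_zero, Real.exp_zero, mul_one, zero_mul,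
    zero_add] at h1
  have h2 : ∀ x ∈ S, g x ≤ (if x = 0 then g 0 else 0) +
      |C| * if x ≠ 0 ∧ IsIntegral ℤ ((M : F) * x) then ∏ j, min 1 (Real.exp (-2 * lg x j))
        else 0 := by
    intro x _
    by_cases hx : x = 0
    · subst hx
      simp
    · by_cases hg : g x = 0
      · rw [hg, if_neg hx, zero_add]
        refine mul_nonneg (abs_nonneg _) ?_
        split_ifs
        · exact Finset.prod_nonneg fun j _ => le_min zero_le_one (Real.exp_pos _).le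
        · exact le_rfl
      · rw [if_neg hx, if_pos ⟨hx, hs x hg⟩, zero_add]
        have e : ∀ j, Real.exp (-2 * lg x j) = (‖em x j‖ ^ 4)⁻¹ := fun j => by
          rw [show -2 * lg x j = -(lg x j + lg x j) by ring, Real.exp_neg, Real.exp_add, exp_lg hx]
          ring
        simp only [e]
        exact (hb x hx).trans (mul_le_mul_of_nonneg_right (le_abs_self C)
          (Finset.prod_nonneg fun j _ => le_min zero_le_one (by positivity)))
  refine (Finset.sum_le_sum h2).trans ?_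
  rw [Finset.sum_add_distrib, ← Finset.mul_sum, ← Finset.sum_filter]
  refine add_le_add ?_ (mul_le_mul_of_nonneg_left ?_ (abs_nonneg C))
  · rw [Finset.sum_const, nsmul_eq_mul]
    refine mul_le_of_le_one_left (h0 0) ?_
    have : (S.filter fun x => x = 0).card ≤ 1 :=
      Finset.card_le_one.2 fun a ha b hb =>
        (Finset.mem_filter.1 ha).2.trans (Finset.mem_filter.1 hb).2.symm
    exact_mod_cast this
  · rw [← Finset.sum_filter]
    exact h1

theorem exp_neg_le {y : ℝ} (hy : 0 < y) {ρ : ℝ} (hρ : 0 < ρ) :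
    Real.exp (-(y * ρ)) ≤ (1 + 24 / y ^ 4) * min 1 (ρ ^ 4)⁻¹ := by
  have h1 : Real.exp (-(y * ρ)) ≤ 1 := Real.exp_le_one_iff.2 (by nlinarith [mul_pos hy hρ])
  have h2 : Real.exp (-(y * ρ)) ≤ 24 / y ^ 4 * (ρ ^ 4)⁻¹ := by
    have h := Real.pow_div_factorial_le_exp (y * ρ) (by positivity) 4
    have h3 : ((Nat.factorial 4 : ℕ) : ℝ) = 24 := by norm_num [Nat.factorial]
    rw [h3] at h
    rw [Real.exp_neg]
    refine (inv_anti₀ (by positivity) h).trans (le_of_eq ?_)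
    field_simp
  have h4 : 0 ≤ 24 / y ^ 4 := by positivity
  have h5 : 0 ≤ (ρ ^ 4)⁻¹ := by positivity
  rcases le_total 1 (ρ ^ 4)⁻¹ with h | h
  · rw [min_eq_left h]; linarith
  · rw [min_eq_right h]; nlinarith

open Classical in
theorem summable_exp (hL : LatStmt F) {M : ℕ} (hM : M ≠ 0) {y : Pl F → ℝ} (hy : ∀ j, 0 < y j) :
    Summable fun x : F => if IsIntegral ℤ ((M : F) * x) then
      ∏ j, Real.exp (-(y j * ‖em x j‖)) else 0 := by
  refine summable_latt hL hM (C := ∏ j, (1 + 24 / y j ^ 4)) (fun x => ?_) (fun x hx => ?_)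
    fun x hx => ?_
  · split_ifs
    · exact Finset.prod_nonneg fun j _ => (Real.exp_pos _).le
    · exact le_rfl
  · by_contra h
    exact hx (if_neg h)
  · rw [← Finset.prod_mul_distrib]
    have h1 := Finset.prod_le_prod (s := Finset.univ)
      (f := fun j => Real.exp (-(y j * ‖em x j‖))) (fun j _ => (Real.exp_pos _).le)
      fun j _ => exp_neg_le (hy j) (norm_pos_iff.2 (em_ne hx j))
    split_ifs
    · exact h1
    · exact (Finset.prod_nonneg fun j _ => (Real.exp_pos _).le).trans h1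

theorem Fk_le (v l : Pl F → ℝ) {c : F} (hc : c ≠ 0) (r : F) :
    Fk l (bb r) (v + lg c) ≤ (∏ j, Real.exp (l j) * Real.exp (Real.exp (v j + l j))) *
      ((∏ j, Real.exp (-(Real.exp (v j + l j) * ‖em c j‖))) *
        ∏ j, Real.exp (-(Real.exp (l j) * ‖em r j‖))) := by
  rw [Fk, ← Finset.prod_mul_distrib, ← Finset.prod_mul_distrib]
  refine Finset.prod_le_prod (fun j _ => (mul_pos (Real.exp_pos _) (Real.exp_pos _)).le)
    fun j _ => ?_
  rw [mul_assoc]
  refine mul_le_mul_of_nonneg_left ?_ (Real.exp_pos _).le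
  rw [← Real.exp_add, ← Real.exp_add]
  refine Real.exp_le_exp.2 ?_
  have h1 := Real.exp_pos (l j)
  have h2 := Real.exp_pos (v j)
  have h3 : 0 < ‖em c j‖ := norm_pos_iff.2 (em_ne hc j)
  have h4 : 0 ≤ ‖em r j‖ := norm_nonneg _
  simp only [Pi.add_apply, Real.exp_neg, Real.exp_add, exp_lg hc, bb]
  set y := Real.exp (l j)
  set Y := Real.exp (v j)
  set s := ‖em c j‖
  set ρ := ‖em r j‖
  have hX : 0 < Y * s ^ 2 := by positivity
  have h5 : ρ ≤ Y * s ^ 2 / 2 + 4 * Real.pi ^ 2 * ρ ^ 2 * (Y * s ^ 2)⁻¹ := by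
    have h6 : (1 : ℝ) ≤ Real.pi ^ 2 := by nlinarith [Real.pi_gt_three]
    have h7 : ρ ^ 2 / 2 * (Y * s ^ 2)⁻¹ ≤ 4 * Real.pi ^ 2 * ρ ^ 2 * (Y * s ^ 2)⁻¹ :=
      mul_le_mul_of_nonneg_right (by nlinarith [sq_nonneg ρ]) (by positivity)
    refine le_trans ?_ (add_le_add le_rfl h7)
    generalize Y * s ^ 2 = X at hX
    have h8 : X / 2 + ρ ^ 2 / 2 * X⁻¹ - ρ = (X - ρ) ^ 2 / (2 * X) := by
      field_simp
      ring
    have h9 : 0 ≤ (X - ρ) ^ 2 / (2 * X) := by positivity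
    linarith
  have h10 : s - 1 ≤ s ^ 2 / 2 := by nlinarith [sq_nonneg (s - 1)]
  have h11 : Y * y * (s - 1) ≤ Y * y * (s ^ 2 / 2) := mul_le_mul_of_nonneg_left h10 (by positivity)
  have h12 := mul_le_mul_of_nonneg_left h5 h1.le
  nlinarith

/-- Absolute convergence of the dual double series. -/
theorem summable_dual (hL : LatStmt F) (hR : RowStmt F) {ξ : F × F → ℂ} (h : Adm ξ)
    (v l : Pl F → ℝ) :
    Summable fun p : F × F => ‖mf ξ p.2 p.1 * (Fk l (bb p.2) (v + lg p.1) : ℂ)‖ := by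
  classical
  obtain ⟨M, B, hM, hB⟩ := hR.bddL ξ h
  have s1 := summable_exp hL hM (y := fun j => Real.exp (v j + l j)) fun j => Real.exp_pos _
  have s2 := summable_exp hL hM (y := fun j => Real.exp (l j)) fun j => Real.exp_pos _
  have n1 : ∀ (y : Pl F → ℝ) (x : F), 0 ≤ if IsIntegral ℤ ((M : F) * x) then
      ∏ j, Real.exp (-(y j * ‖em x j‖)) else 0 := fun y x => by
    split_ifs
    · exact Finset.prod_nonneg fun j _ => (Real.exp_pos _).le
    · exact le_rfl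
  have s3 := (s1.mul_of_nonneg s2 (n1 _) (n1 _)).mul_left
    (B * ∏ j, Real.exp (l j) * Real.exp (Real.exp (v j + l j)))
  have hB0 : 0 ≤ B := (norm_nonneg _).trans ((hB 0).1 0)
  have hP : 0 ≤ ∏ j, Real.exp (l j) * Real.exp (Real.exp (v j + l j)) :=
    Finset.prod_nonneg fun j _ => (mul_pos (Real.exp_pos _) (Real.exp_pos _)).le
  refine s3.of_nonneg_of_le (fun _ => norm_nonneg _) fun p => ?_
  by_cases h0 : mf ξ p.2 p.1 = 0
  · rw [h0, zero_mul, norm_zero]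
    exact mul_nonneg (mul_nonneg hB0 hP) (mul_nonneg (n1 _ _) (n1 _ _))
  · obtain ⟨h1, h2, h3⟩ := (hB p.2).2 p.1 h0
    rw [if_pos h2, if_pos h3, norm_mul, Complex.norm_real, Real.norm_of_nonneg (Fk_nonneg _ _ _),
      mul_assoc]
    exact mul_le_mul ((hB p.2).1 p.1) (Fk_le v l h1 p.2) (Fk_nonneg _ _ _) hB0

theorem summable_rows (hG : GeomStmt F) {ξ : F × F → ℂ} (h : Adm ξ) (v : Pl F → ℝ) (w : HH F) :
    Summable fun u : F × F => ξ u * (Real.exp (-Qv v w u) : ℂ) := by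
  obtain ⟨B, hB⟩ := h.bdd
  obtain ⟨M, hM, hS⟩ := h.supp
  refine Summable.of_norm_bounded ((hG.summ M v w hM).mul_left B) fun u => ?_
  have hB0 : 0 ≤ B := (norm_nonneg _).trans (hB u)
  by_cases h0 : ξ u = 0
  · rw [h0, zero_mul, norm_zero]
    exact mul_nonneg hB0 (Set.indicator_nonneg (fun _ _ => (Real.exp_pos _).le) _)
  · rw [Set.indicator_of_mem (show u ∈ {u : F × F | IsIntegral ℤ ((M : F) * u.1) ∧
      IsIntegral ℤ ((M : F) * u.2)} from ⟨(hS u h0).1, (hS u h0).2.1⟩), norm_mul,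
      Complex.norm_real, Real.norm_of_nonneg (Real.exp_pos _).le]
    exact mul_le_mul_of_nonneg_right (hB u) (Real.exp_pos _).le

theorem measurable_Acoef (κ : ℝ) (ξ : F × F → ℂ) (v : Pl F → ℝ) (r : F) :
    Measurable (Acoef κ ξ v r) := by
  have := countable F
  unfold Acoef
  refine Measurable.add ?_ (Measurable.const_mul ?_ _)
  · split_ifs
    · unfold E0
      refine Measurable.const_mul (Measurable.tsum fun d => ?_) _
      fun_prop
    · exact measurable_const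
  · unfold Sk
    refine Measurable.const_mul (Measurable.tsum fun c => ?_) _
    unfold Fk
    fun_prop

theorem thY_fourier (hL : LatStmt F) (hM : MeanStmt F) (hR : RowStmt F) (hG : GeomStmt F)
    {ξ : F × F → ℂ} (h : Adm ξ) (v l : Pl F → ℝ) :
    (Summable fun r => ‖Acoef (kap F) ξ v r l‖) ∧
      ∀ z, thY ξ v (pt z l) = ∑' r : F, Acoef (kap F) ξ v r l * eV (fun j => em r j * z j) := by
  classical
  set P : ℂ := (Real.exp ((∑ j, v j) / 3) : ℂ) with hP
  set T : F → F → ℂ := fun c r => (kap F : ℂ) * (P * (mf ξ r c * (Fk l (bb r) (v + lg c) : ℂ)))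
    with hT
  have hS : Summable fun p : F × F => T p.1 p.2 :=
    ((summable_dual hL hR h v l).of_norm.mul_left P).mul_left _
  set a : ℂ := E0 ξ v l with ha
  have hA : ∀ r, Acoef (kap F) ξ v r l = (if r = 0 then a else 0) + ∑' c : F, T c r := by
    intro r
    rw [Acoef, Sk, hT]
    simp only [tsum_mul_left]
    rfl
  have hite : ∀ b : ℂ, HasSum (fun r : F => if r = 0 then b else 0) b := fun b => hasSum_ite_eq 0 b
  constructor
  · simp only [hA]
    exact ((hite a).summable.add hS.prod_symm.prod).norm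
  · intro z
    have hS1 := summable_rows hG h v (pt z l)
    have hS2 : Summable fun p : F × F => T p.1 p.2 * eV (fun j => em p.2 j * z j) := by
      refine Summable.of_norm_bounded hS.norm fun p => ?_
      rw [norm_mul, norm_eV, mul_one]
    have hcomm := Summable.tsum_comm (f := fun c r : F => T c r * eV (fun j => em r j * z j)) hS2
    have inner : ∀ c : F, (Real.exp (4 / 3 * ∑ j, v j) : ℂ) *
        ∑' d : F, ξ (c, d) * (Real.exp (-Qv v (pt z l) (c, d)) : ℂ) =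
        (if c = 0 then a else 0) + ∑' r : F, T c r * eV (fun j => em r j * z j) := by
      intro c
      split_ifs with hc
      · subst hc
        rw [inner_zero]
        simp [hT, mf, ha]
      · rw [inner_ne hM hR h v l z hc, zero_add]
    rw [thY, hS1.tsum_prod, ← tsum_mul_left]
    simp only [inner, hA]
    rw [(hite a).summable.tsum_add hS2.prod, (hite a).tsum_eq, ← hcomm]
    have e1 : ∀ r : F, ((if r = 0 then a else 0) + ∑' c : F, T c r) * eV (fun j => em r j * z j) =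
        (if r = 0 then a else 0) + ∑' c : F, T c r * eV (fun j => em r j * z j) := by
      intro r
      rw [add_mul, tsum_mul_right]
      split_ifs with hr
      · subst hr
        simp only [em_zero, zero_mul, eV_zero, mul_one]
      · rw [zero_mul]
    simp only [e1]
    have hS3 : Summable fun r : F => ∑' c : F, T c r * eV (fun j => em r j * z j) :=
      hS2.prod_symm.prod
    rw [(hite a).summable.tsum_add hS3, (hite a).tsum_eq]

end Crest.Agent.T27.TH.Four78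

namespace Crest.Agent.T27.TH

open Four78

/-- **Leaf A3.** -/
theorem fourier_78 (F : Type) [Field F] [NumberField F] [Emb F] (hL : LatStmt F) (hM : MeanStmt F)
    (hR : RowStmt F) (hG : GeomStmt F) : FourierStmt F := by
  refine ⟨kap F, kap_pos F, fun ξ h => ?_⟩
  obtain ⟨M, B, hM0, hB⟩ := hR.bddL ξ h
  refine ⟨M, hM0, fun v => ⟨measurable_Acoef _ ξ v, fun r l hr => ?_,
    fun l => thY_fourier hL hM hR hG h v l⟩⟩
  by_cases h0 : r = 0
  · rw [h0, mul_zero]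
    exact isIntegral_zero
  · by_contra hc
    refine hr ?_
    have e : ∀ c, mf ξ r c = 0 := fun c => by
      by_contra h1
      exact hc ((hB r).2 c h1).2.2
    simp [Acoef, h0, Sk, e]

end Crest.Agent.T27.TH
end
end

-- ▼ part T27/BoxA_86
section

/-!
# Row 27, theta leaf A2b: multiplicity of boxes, Parseval on boxes

`BoxStmt F` from `LatStmt F`, `GeomStmt F` and a family of lattice weights with Parseval (`WPack`).
-/

set_option autoImplicit false

noncomputable section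

namespace Crest.Agent.T27.TH.Box86

open scoped ComplexConjugate ENNReal NumberField
open MeasureTheory NumberField
open Crest.Agent.T27.TH.G

variable {F : Type} [Field F] [NumberField F] [Emb F]

/-- Counting pairs `(c, d)` with `c` in a box and `c z + d` in a box of bounded size. -/
theorem count_pairs (hL : LatStmt F) (T' : ℝ) (hT' : 0 ≤ T') : ∃ C : ℝ, 0 < C ∧
    ∀ (z : Pl F → ℂ) (T : Pl F → ℝ) (S : Finset (F × F)), (∀ j, 0 ≤ T j) →
      (∀ u ∈ S, IsIntegral ℤ u.1 ∧ IsIntegral ℤ u.2 ∧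
        ∀ j, ‖em u.1 j‖ ^ 2 ≤ T j ∧ ‖em u.1 j * z j + em u.2 j‖ ^ 2 ≤ T') →
      (S.card : ℝ) ≤ C * (1 + ∏ j, T j) := by
  classical
  obtain ⟨C, hC⟩ := hL.count 1 one_ne_zero
  have hC0 : 0 ≤ C := by
    have h := hC 0 (fun _ => 0) {0} (fun _ => le_rfl) (by
      intro x hx
      rw [Finset.mem_singleton.1 hx]
      exact ⟨by simpa using isIntegral_zero, fun j => by simp⟩)
    have h2 : (0 : ℝ) < 1 + ∏ _j : Pl F, (0 : ℝ) := by positivity
    rw [Finset.card_singleton, Nat.cast_one] at h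
    by_contra hneg
    have := mul_neg_of_neg_of_pos (lt_of_not_ge hneg) h2
    linarith
  set K : ℝ := C * (1 + ∏ _j : Pl F, T') with hK
  have hK0 : 0 ≤ K := by positivity
  refine ⟨K * C + 1, by positivity, fun z T S hT hS => ?_⟩
  have hP : 0 ≤ ∏ j, T j := Finset.prod_nonneg fun j _ => hT j
  have h1 : ((S.image Prod.fst).card : ℝ) ≤ C * (1 + ∏ j, T j) := by
    refine hC 0 T _ hT fun x hx => ?_
    obtain ⟨u, hu, rfl⟩ := Finset.mem_image.1 hx
    exact ⟨by simpa using (hS u hu).1, fun j => by simpa using ((hS u hu).2.2 j).1⟩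
  have h2 : ∀ c ∈ S.image Prod.fst, ((S.filter fun u => u.1 = c).card : ℝ) ≤ K := by
    intro c _
    have hinj : Set.InjOn (Prod.snd : F × F → F) (S.filter fun u => u.1 = c : Finset (F × F)) := by
      intro u hu u' hu' h
      have h3 := (Finset.mem_filter.1 (Finset.mem_coe.1 hu)).2
      have h4 := (Finset.mem_filter.1 (Finset.mem_coe.1 hu')).2
      exact Prod.ext (h3.trans h4.symm) h
    rw [← Finset.card_image_of_injOn hinj]
    refine hC (fun j => -(em c j * z j)) (fun _ => T') _ (fun _ => hT') fun x hx => ?_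
    obtain ⟨u, hu, rfl⟩ := Finset.mem_image.1 hx
    obtain ⟨hu1, rfl⟩ := Finset.mem_filter.1 hu
    refine ⟨by simpa using (hS u hu1).2.1, fun j => ?_⟩
    rw [sub_neg_eq_add, add_comm]
    exact ((hS u hu1).2.2 j).2
  rw [Finset.card_eq_sum_card_image Prod.fst S, Nat.cast_sum]
  refine (Finset.sum_le_card_nsmul _ _ K h2).trans ?_
  rw [nsmul_eq_mul]
  calc ((S.image Prod.fst).card : ℝ) * K ≤ C * (1 + ∏ j, T j) * K := by gcongr
    _ ≤ (K * C + 1) * (1 + ∏ j, T j) := by nlinarith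

/-- The number of second rows of integral matrices that move `w` into a box. -/
theorem count_rows (hL : LatStmt F) (L : ℝ) : ∃ C : ℝ, 0 < C ∧
    ∀ (a : Pl F → ℝ) (w : HH F) (S : Finset (SL F)),
      (∀ g ∈ S, g ∈ Gam0 F ∧ lF (g • w) ∈ box a L) →
      Set.InjOn (fun g : SL F => row2 (g : Mat F)) S →
      (S.card : ℝ) ≤ C * (1 + Real.exp (-2 * ∑ j, a j)) := by
  classical
  obtain ⟨C, hC0, hC⟩ := count_pairs hL (Real.exp L) (Real.exp_pos _).le
  refine ⟨C, hC0, fun a w S hS hinj => ?_⟩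
  rcases S.eq_empty_or_nonempty with rfl | ⟨g0, hg0⟩
  · simp only [Finset.card_empty, Nat.cast_zero]
    positivity
  have hinj' : Set.InjOn (fun g : SL F => row2 ((g * g0⁻¹ : SL F) : Mat F)) S := by
    intro g hg g' hg' h
    refine hinj hg hg' ?_
    simp only [Matrix.SpecialLinearGroup.coe_mul, row2_mul] at h
    exact (rowEquiv g0⁻¹).injective h
  rw [← Finset.card_image_of_injOn hinj']
  have e : Real.exp (-2 * ∑ j, a j) = ∏ j, Real.exp (-2 * a j) := by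
    rw [Finset.mul_sum, Real.exp_sum]
  rw [e]
  refine hC (zF (g0 • w)) _ _ (fun _ => (Real.exp_pos _).le) fun u hu => ?_
  obtain ⟨g, hg, rfl⟩ := Finset.mem_image.1 hu
  have hm : g * g0⁻¹ ∈ Gam0 F := mul_mem (hS g hg).1 (inv_mem (hS g0 hg0).1)
  refine ⟨hm 1 0, hm 1 1, fun j => ?_⟩
  have h1 := QF_row2 (g * g0⁻¹) (g0 • w) j
  rw [← mul_smul, inv_mul_cancel_right, QF_eq] at h1
  have h2 := (hS g hg).2 j trivial
  have h3 := (hS g0 hg0).2 j trivial
  set c := ‖em (row2 ((g * g0⁻¹ : SL F) : Mat F)).1 j‖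
  set d := ‖em (row2 ((g * g0⁻¹ : SL F) : Mat F)).1 j * zF (g0 • w) j +
    em (row2 ((g * g0⁻¹ : SL F) : Mat F)).2 j‖
  set l := lF (g0 • w) j
  set l' := lF (g • w) j
  have hy := Real.exp_pos l
  rw [div_eq_iff hy.ne', ← Real.exp_add] at h1
  constructor
  · have h4 : c ^ 2 * Real.exp l ^ 2 ≤ Real.exp (-2 * a j) * Real.exp l ^ 2 := by
      refine le_trans (le_add_of_nonneg_left (sq_nonneg d)) (h1.le.trans ?_)
      rw [sq, ← Real.exp_add, ← Real.exp_add, Real.exp_le_exp]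
      linarith [h2.1, h3.1]
    exact le_of_mul_le_mul_right h4 (by positivity)
  · refine le_trans (le_add_of_nonneg_right (by positivity)) (h1.le.trans ?_)
    rw [Real.exp_le_exp]
    linarith [h2.1, h3.2]

/-- The test function `1_box(l) φ(z)`. -/
def tf (a : Pl F → ℝ) (L : ℝ) (φ : (Pl F → ℂ) → ℝ≥0∞) (w : HH F) : ℝ≥0∞ :=
  (box a L).indicator (fun _ => φ (zF w)) (lF w)

omit [NumberField F] [Emb F] in
theorem tf_of_mem {a : Pl F → ℝ} {L : ℝ} (φ : (Pl F → ℂ) → ℝ≥0∞) {w : HH F}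
    (h : lF w ∈ box a L) : tf a L φ w = φ (zF w) := Set.indicator_of_mem h _

omit [NumberField F] [Emb F] in
theorem tf_of_notMem {a : Pl F → ℝ} {L : ℝ} (φ : (Pl F → ℂ) → ℝ≥0∞) {w : HH F}
    (h : lF w ∉ box a L) : tf a L φ w = 0 := Set.indicator_of_notMem h _

omit [Emb F] in
theorem measurableSet_box (a : Pl F → ℝ) (L : ℝ) : MeasurableSet (box a L) :=
  MeasurableSet.univ_pi fun _ => measurableSet_Icc

omit [Emb F] in
theorem measurable_tf (a : Pl F → ℝ) (L : ℝ) {φ : (Pl F → ℂ) → ℝ≥0∞} (hφ : Measurable φ) :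
    Measurable (tf a L φ) := by
  have : tf a L φ = (lF ⁻¹' box a L).indicator fun w => φ (zF w) := by
    funext w
    by_cases h : lF w ∈ box a L
    · rw [tf_of_mem _ h, Set.indicator_of_mem (show w ∈ lF ⁻¹' box a L from h)]
    · rw [tf_of_notMem _ h, Set.indicator_of_notMem (show w ∉ lF ⁻¹' box a L from h)]
  rw [this]
  exact (hφ.comp continuous_zF.measurable).indicator
    (continuous_lF.measurable (measurableSet_box a L))

/-- Multiplicity with which a box covers `Δ \ HH`. -/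
theorem tsum_tf_le (hL : LatStmt F) (L : ℝ) : ∃ C : ℝ, 0 < C ∧
    ∀ (Δ : Subgroup (SL F)) (a : Pl F → ℝ) (φ : (Pl F → ℂ) → ℝ≥0∞) (w : HH F), Δ ≤ Gam0 F →
      (∀ z, ∑' t : latt F 1, φ (z + em (t : F)) ≤ 1) →
      ∑' δ : Δ, tf a L φ (δ • w) ≤ ENNReal.ofReal (C * (1 + Real.exp (-2 * ∑ j, a j))) := by
  classical
  obtain ⟨C, hC0, hC⟩ := count_rows hL L
  refine ⟨C, hC0, fun Δ a φ w hΔ hφ => ?_⟩
  let f : Gam0 F → ℝ≥0∞ := fun γ => tf a L φ ((γ : SL F) • w)
  have h1 : Function.Injective fun δ : Δ => (⟨δ, hΔ δ.2⟩ : Gam0 F) := fun δ δ' h =>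
    Subtype.ext (congrArg (fun g : Gam0 F => (g : SL F)) h)
  refine le_trans (ENNReal.tsum_comp_le_tsum_of_injective h1 f) ?_
  let R := {u : F × F // ∃ g ∈ Gam0 F, row2 (g : Mat F) = u}
  choose γ hγ hγ' using fun v : R => v.2
  have hlat : ∀ t : latt F 1, IsIntegral ℤ (t : F) := fun t => by
    obtain ⟨y, hy, h⟩ := t.2
    rw [h]
    simpa using hy
  have h3 : Function.Surjective fun p : R × latt F 1 =>
      (⟨nT (p.2 : F) * γ p.1, mul_mem (nT_mem_Gam0.2 (hlat p.2)) (hγ p.1)⟩ : Gam0 F) := by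
    intro τ
    let v : R := ⟨row2 ((τ : SL F) : Mat F), τ, τ.2, rfl⟩
    have h := eq_nT_mul_of_row2 (g := τ) (h := γ v) (hγ' v).symm
    have hi : IsIntegral ℤ ((τ : SL F) 0 1 * γ v 0 0 - (τ : SL F) 0 0 * γ v 0 1) :=
      ((τ.2 0 1).mul (hγ v 0 0)).sub ((τ.2 0 0).mul (hγ v 0 1))
    exact ⟨(v, ⟨_, mem_latt.2 ⟨_, hi, by rw [Nat.cast_one, one_mul]⟩⟩), Subtype.ext h.symm⟩
  refine (ENNReal.tsum_le_tsum_comp_of_surjective h3 f).trans ?_
  rw [ENNReal.tsum_prod']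
  have h4 : ∀ v : R, ∑' t : latt F 1, tf a L φ ((nT (t : F) * γ v) • w) ≤
      if lF (γ v • w) ∈ box a L then 1 else 0 := by
    intro v
    by_cases h : lF (γ v • w) ∈ box a L
    · rw [if_pos h]
      refine le_trans (le_of_eq (tsum_congr fun t => ?_)) (hφ (zF (γ v • w)))
      rw [mul_smul, tf_of_mem _ (by rwa [lF_nT_smul]), zF_nT_smul]
    · rw [if_neg h]
      refine le_of_eq (ENNReal.tsum_eq_zero.2 fun t => ?_)
      rw [mul_smul, tf_of_notMem _ (by rwa [lF_nT_smul])]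
  refine (ENNReal.tsum_le_tsum h4).trans (ENNReal.summable.tsum_le_of_sum_le fun S => ?_)
  rw [Finset.sum_boole, ← ENNReal.ofReal_natCast]
  refine ENNReal.ofReal_le_ofReal ?_
  have hγi : Function.Injective γ := fun v v' h =>
    Subtype.ext ((hγ' v).symm.trans (by rw [h]; exact hγ' v'))
  rw [← Finset.card_image_of_injective _ hγi]
  refine hC a w _ (fun g hg => ?_) fun g hg g' hg' h => ?_
  · obtain ⟨v, hv, rfl⟩ := Finset.mem_image.1 hg
    exact ⟨hγ v, (Finset.mem_filter.1 hv).2⟩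
  · obtain ⟨v, -, rfl⟩ := Finset.mem_image.1 (Finset.mem_coe.1 hg)
    obtain ⟨v', -, rfl⟩ := Finset.mem_image.1 (Finset.mem_coe.1 hg')
    simp only [hγ'] at h
    rw [Subtype.ext h]

variable (F) in
/-- Lattice weights with Parseval's identity, normalised with respect to `𝒪_F`. -/
def WPack : Prop :=
  ∃ V : ℝ, 0 < V ∧ ∀ N : ℕ, N ≠ 0 → ∃ W : (Pl F → ℂ) → ℝ, Continuous W ∧ (∀ z, 0 < W z) ∧
    (∀ z, ∑' t : latt F 1, ENNReal.ofReal (W (z + em (t : F))) ≤ 1) ∧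
    ∀ a : F → ℂ, (Summable fun r => ‖a r‖) → (∀ r, a r ≠ 0 → IsIntegral ℤ ((N : F) * r)) →
      ∫⁻ z, ENNReal.ofReal (W z) * ‖∑' r : F, a r * eV (fun j => em r j * z j)‖ₑ ^ 2 =
        ENNReal.ofReal V * ∑' r : F, ‖a r‖ₑ ^ 2

/-- The local norm in terms of the coefficients. -/
theorem lintegral_tf {V : ℝ} {N : ℕ} {W : (Pl F → ℂ) → ℝ} (hW : Continuous W)
    (hP : ∀ a : F → ℂ, (Summable fun r => ‖a r‖) → (∀ r, a r ≠ 0 → IsIntegral ℤ ((N : F) * r)) →
      ∫⁻ z, ENNReal.ofReal (W z) * ‖∑' r : F, a r * eV (fun j => em r j * z j)‖ₑ ^ 2 =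
        ENNReal.ofReal V * ∑' r : F, ‖a r‖ₑ ^ 2)
    {f : HH F → ℂ} {A : F → (Pl F → ℝ) → ℂ} (hf : Measurable f) (hA : HasExp N f A)
    (a : Pl F → ℝ) (L : ℝ) :
    ∫⁻ w, tf a L (fun z => ENNReal.ofReal (W z)) w * ‖f w‖ₑ ^ 2 ∂μHH F =
      ∫⁻ l in box a L, (ENNReal.ofReal V * ∑' r : F, ‖A r l‖ₑ ^ 2) *
        ENNReal.ofReal (Real.exp (-2 * ∑ j, l j)) := by
  have hm : Measurable fun w => tf a L (fun z => ENNReal.ofReal (W z)) w * ‖f w‖ₑ ^ 2 :=
    (measurable_tf a L hW.measurable.ennreal_ofReal).mul (hf.enorm.pow_const 2)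
  rw [lintegral_μHH hm, ← lintegral_indicator (measurableSet_box a L)]
  refine lintegral_congr fun l => ?_
  by_cases h : l ∈ box a L
  · rw [Set.indicator_of_mem h, ← hP (fun r => A r l) (hA.2.2 l).1 fun r hr => hA.2.1 r l hr]
    congr 1
    refine lintegral_congr fun z => ?_
    rw [tf_of_mem _ (show lF (pt z l) ∈ box a L from h), zF_pt, (hA.2.2 l).2 z]
  · rw [Set.indicator_of_notMem h]
    have : ∀ z, tf a L (fun z => ENNReal.ofReal (W z)) (pt z l) * ‖f (pt z l)‖ₑ ^ 2 = 0 := fun z => by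
      rw [tf_of_notMem _ (show lF (pt z l) ∉ box a L from h), zero_mul]
    simp only [this, lintegral_zero, zero_mul]

theorem tsum_lintegral {N : ℕ} {f : HH F → ℂ} {A : F → (Pl F → ℝ) → ℂ} (hA : HasExp N f A)
    (a : Pl F → ℝ) (L : ℝ) :
    ∑' r : F, ∫⁻ l in box a L, ‖A r l‖ₑ ^ 2 = ∫⁻ l in box a L, ∑' r : F, ‖A r l‖ₑ ^ 2 :=
  (lintegral_tsum fun r => ((hA.1 r).enorm.pow_const 2).aemeasurable).symm

theorem box_of_pack (hL : LatStmt F) (hG : GeomStmt F) (hW : WPack F) : BoxStmt F := by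
  obtain ⟨V, hV, hW⟩ := hW
  refine ⟨fun Δ L hΔ => ?_, fun K N hK hN => ?_⟩
  · obtain ⟨C, hC0, hC⟩ := tsum_tf_le hL L
    set E : ℝ := Real.exp (2 * ∑ _j : Pl F, L) with hE
    have hE0 : 0 < E := Real.exp_pos _
    refine ⟨V⁻¹ * E * C, by positivity, fun N f A a hN hf hinv hA => ?_⟩
    obtain ⟨W, hWc, hWp, hWs, hP⟩ := hW N hN
    have h1 := (hG.wt Δ hΔ).lintegral_le (μ := μHH F)
      (fun δ => measurePreserving_smul_SL (δ : SL F))
      (measurable_tf a L hWc.measurable.ennreal_ofReal) (hf.enorm.pow_const 2)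
      (fun δ w => by
        rw [← ofReal_norm, ← ofReal_norm (f w)]
        exact congrArg (fun t => ENNReal.ofReal t ^ 2) (hinv δ δ.2 w))
      (fun w => hC Δ a _ w hΔ hWs)
    rw [lintegral_tf hWc hP hf hA] at h1
    rw [tsum_lintegral hA]
    set c : ℝ := V⁻¹ * E * Real.exp (2 * ∑ j, a j) with hc
    have hc0 : 0 < c := by positivity
    have h2 : ∫⁻ l in box a L, ∑' r : F, ‖A r l‖ₑ ^ 2 ≤
        ENNReal.ofReal c * ∫⁻ l in box a L, (ENNReal.ofReal V * ∑' r : F, ‖A r l‖ₑ ^ 2) *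
          ENNReal.ofReal (Real.exp (-2 * ∑ j, l j)) := by
      rw [← lintegral_const_mul' _ _ ENNReal.ofReal_ne_top]
      refine setLIntegral_mono' (measurableSet_box a L) fun l hl => ?_
      have h3 : 1 ≤ c * (V * Real.exp (-2 * ∑ j, l j)) := by
        have h4 : ∑ j, l j ≤ ∑ j, a j + ∑ _j : Pl F, L := by
          rw [← Finset.sum_add_distrib]
          exact Finset.sum_le_sum fun j _ => (hl j trivial).2
        have h5 : c * (V * Real.exp (-2 * ∑ j, l j)) =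
            Real.exp (2 * ∑ _j : Pl F, L + 2 * ∑ j, a j + -2 * ∑ j, l j) := by
          rw [Real.exp_add, Real.exp_add, hc, hE]
          field_simp
        rw [h5]
        exact Real.one_le_exp (by linarith)
      calc ∑' r : F, ‖A r l‖ₑ ^ 2 = 1 * ∑' r : F, ‖A r l‖ₑ ^ 2 := (one_mul _).symm
        _ ≤ ENNReal.ofReal (c * (V * Real.exp (-2 * ∑ j, l j))) * ∑' r : F, ‖A r l‖ₑ ^ 2 := by
          gcongr
          rw [← ENNReal.ofReal_one]
          exact ENNReal.ofReal_le_ofReal h3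
        _ = _ := by
          rw [ENNReal.ofReal_mul hc0.le, ENNReal.ofReal_mul hV.le]
          ring
    refine h2.trans ((mul_le_mul_right h1 _).trans (le_of_eq ?_))
    rw [← mul_assoc, ← ENNReal.ofReal_mul hc0.le, N2]
    congr 2
    have h6 : Real.exp (2 * ∑ j, a j) * Real.exp (-2 * ∑ j, a j) = 1 := by
      rw [← Real.exp_add]
      simp
    rw [hc]
    linear_combination V⁻¹ * E * C * h6
  · obtain ⟨W, hWc, hWp, -, hP⟩ := hW N hN
    obtain ⟨R, hR⟩ := (hK.image continuous_lF).isBounded.exists_norm_le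
    have hbox : ∀ w ∈ K, lF w ∈ box (fun _ => -R) (2 * R) := fun w hw j _ => by
      have h := abs_le.1 ((norm_le_pi_norm (lF w) j).trans (hR _ ⟨w, hw, rfl⟩))
      exact ⟨h.1, by linarith [h.2]⟩
    obtain ⟨c, hc0, hc⟩ : ∃ c : ℝ, 0 < c ∧ ∀ w ∈ K, c ≤ W (zF w) := by
      rcases K.eq_empty_or_nonempty with rfl | hne
      · exact ⟨1, one_pos, fun _ h => h.elim⟩
      · obtain ⟨w0, -, h0⟩ := hK.exists_isMinOn hne (hWc.comp continuous_zF).continuousOn
        exact ⟨_, hWp (zF w0), fun w hw => h0 hw⟩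
    set E : ℝ := Real.exp (-2 * ∑ _j : Pl F, -R) with hE
    have hE0 : 0 < E := Real.exp_pos _
    refine ⟨c⁻¹ * (V * E), fun _ => -R, 2 * R, fun f A hf hA => ?_⟩
    have h1 : ∫⁻ w in K, ‖f w‖ₑ ^ 2 ∂μHH F ≤ ENNReal.ofReal c⁻¹ *
        ∫⁻ w, tf (fun _ => -R) (2 * R) (fun z => ENNReal.ofReal (W z)) w * ‖f w‖ₑ ^ 2 ∂μHH F := by
      rw [← lintegral_const_mul' _ _ ENNReal.ofReal_ne_top]
      refine le_trans (setLIntegral_mono' hK.measurableSet fun w hw => ?_)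
        (setLIntegral_le_lintegral K _)
      rw [tf_of_mem _ (hbox w hw), ← mul_assoc, ← ENNReal.ofReal_mul (inv_nonneg.2 hc0.le)]
      refine le_mul_of_one_le_left' ?_
      rw [← ENNReal.ofReal_one]
      refine ENNReal.ofReal_le_ofReal ?_
      rw [← div_eq_inv_mul, one_le_div hc0]
      exact hc w hw
    rw [lintegral_tf hWc hP hf hA] at h1
    rw [tsum_lintegral hA, ENNReal.ofReal_mul (inv_nonneg.2 hc0.le), mul_assoc]
    refine h1.trans (mul_le_mul_right ?_ _)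
    rw [← lintegral_const_mul' _ _ ENNReal.ofReal_ne_top]
    refine setLIntegral_mono' (measurableSet_box _ _) fun l hl => ?_
    rw [ENNReal.ofReal_mul hV.le, mul_right_comm]
    gcongr
    rw [hE, Real.exp_le_exp]
    have h4 : ∑ _j : Pl F, -R ≤ ∑ j, l j := Finset.sum_le_sum fun j _ => (hl j trivial).1
    linarith

end Crest.Agent.T27.TH.Box86
end
end

-- ▼ part T27/Box_86
section

/-!
# Row 27, theta leaf A2b: `BoxStmt`
-/

set_option autoImplicit false

noncomputable section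

namespace Crest.Agent.T27.TH

open scoped ENNReal
open MeasureTheory
open Crest.Agent.T27.TH.G

theorem Box86.wpack (F : Type) [Field F] [NumberField F] [Emb F] : Box86.WPack F := by
  have h1 := isLat_latt (F := F) one_ne_zero
  have hV := vol_pos h1
  refine ⟨vol (latt F 1), hV, fun N hN => ?_⟩
  have hL := isLat_latt (F := F) hN
  have hVN := vol_pos hL
  have hc : 0 < vol (latt F 1) / vol (latt F N) := div_pos hV hVN
  refine ⟨fun z => vol (latt F 1) / vol (latt F N) * wt (latt F N) z,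
    continuous_const.mul (continuous_wt hL), fun z => mul_pos hc (wt_pos hL z), fun z => ?_,
    fun a ha hs => ?_⟩
  · have h := (exists_index h1 hL (latt_le_latt (one_dvd N)) z).mul_left
      (vol (latt F 1) / vol (latt F N))
    rw [← ENNReal.ofReal_tsum_of_nonneg (fun _ => (mul_pos hc (wt_pos hL _)).le) h.summable,
      h.tsum_eq, show vol (latt F 1) / vol (latt F N) * (vol (latt F N) / vol (latt F 1)) = 1 by
        field_simp, ENNReal.ofReal_one]
  · have h := parseval_latt hN ha hs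
    simp only [ENNReal.ofReal_mul hc.le, mul_assoc]
    rw [lintegral_const_mul' _ _ ENNReal.ofReal_ne_top]
    refine (congrArg _ h).trans ?_
    rw [← mul_assoc, ← ENNReal.ofReal_mul hc.le, div_mul_cancel₀ _ hVN.ne']

/-- **Leaf A2b.** -/
theorem box_86 (F : Type) [Field F] [NumberField F] [Emb F] (hG : GeomStmt F) : BoxStmt F :=
  Box86.box_of_pack (latStmt_80 F) hG (Box86.wpack F)

end Crest.Agent.T27.TH
end
end

-- ▼ part T27/ThA5a_53
section

/-!
# Row 27, theta leaf A5, part a: elementary lemmas (lattice sums, the term `E0`, the kernel at `b = 0`)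
-/

set_option autoImplicit false
set_option linter.unusedSectionVars false

noncomputable section

namespace Crest.Agent.T27.TH.A5

open scoped ComplexConjugate ENNReal Topology
open MeasureTheory Filter NumberField

/-! ## measure theory -/

theorem enorm_add_sq (u v : ℂ) : ‖u + v‖ₑ ^ 2 ≤ 2 * ‖u‖ₑ ^ 2 + 2 * ‖v‖ₑ ^ 2 := by
  have h : ‖u + v‖₊ ^ 2 ≤ 2 * ‖u‖₊ ^ 2 + 2 * ‖v‖₊ ^ 2 := by
    rw [← NNReal.coe_le_coe]
    push_cast
    have h1 := norm_add_le u v
    have h2 := norm_nonneg (u + v)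
    nlinarith [sq_nonneg (‖u‖ - ‖v‖)]
  simp only [enorm_eq_nnnorm]
  exact_mod_cast h

theorem enorm_sq_le (x y z : ℂ) : ‖x - z‖ₑ ^ 2 ≤ 2 * ‖x - y‖ₑ ^ 2 + 2 * ‖y - z‖ₑ ^ 2 := by
  have := enorm_add_sq (x - y) (y - z)
  rwa [sub_add_sub_cancel] at this

theorem lint_tri {α : Type*} [MeasurableSpace α] (μ : Measure α)
    {f g : α → ℂ} (h : α → ℂ) (hf : Measurable f) (hg : Measurable g) :
    ∫⁻ x, ‖f x - h x‖ₑ ^ 2 ∂μ ≤
      2 * ∫⁻ x, ‖f x - g x‖ₑ ^ 2 ∂μ + 2 * ∫⁻ x, ‖g x - h x‖ₑ ^ 2 ∂μ := by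
  have hm : Measurable fun x => ‖f x - g x‖ₑ ^ 2 := (hf.sub hg).enorm.pow_const 2
  rw [← lintegral_const_mul' _ _ (by simp), ← lintegral_const_mul' _ _ (by simp),
    ← lintegral_add_left (hm.const_mul 2)]
  exact lintegral_mono fun x => enorm_sq_le _ _ _

theorem tendsto_two_mul {α : Type*} {l : Filter α} {f : α → ℝ≥0∞} (h : Tendsto f l (𝓝 0)) :
    Tendsto (fun x => 2 * f x) l (𝓝 0) := by
  simpa using ENNReal.Tendsto.const_mul (a := 2) h (Or.inr (by simp))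

/-- Splitting off a bounded term. -/
theorem lintegral_add_le {α : Type*} [MeasurableSpace α] {μ : Measure α} {u v w : α → ℂ}
    {S : Set α} (hS : MeasurableSet S) {c : ℂ} {e : ℝ}
    (h : ∀ y ∈ S, u y = v y + c * w y) (hv : ∀ y ∈ S, ‖v y‖ ≤ e) :
    ∫⁻ y in S, ‖u y‖ₑ ^ 2 ∂μ ≤
      2 * μ S * ENNReal.ofReal e ^ 2 + 2 * ‖c‖ₑ ^ 2 * ∫⁻ y in S, ‖w y‖ₑ ^ 2 ∂μ := by
  calc ∫⁻ y in S, ‖u y‖ₑ ^ 2 ∂μ
      ≤ ∫⁻ y in S, (2 * ENNReal.ofReal e ^ 2 + 2 * ‖c‖ₑ ^ 2 * ‖w y‖ₑ ^ 2) ∂μ := by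
        refine setLIntegral_mono' hS fun y hy => ?_
        rw [h y hy]
        refine (enorm_add_sq _ _).trans ?_
        rw [enorm_mul, mul_pow, ← mul_assoc]
        gcongr
        rw [← ofReal_norm]
        exact ENNReal.ofReal_le_ofReal (hv y hy)
    _ = _ := by
        rw [lintegral_add_left measurable_const, setLIntegral_const,
          lintegral_const_mul' _ _ (by finiteness)]
        ring

theorem tendsto_comb {α : Type*} {l : Filter α} {e : α → ℝ} {u : α → ℝ≥0∞} {c d : ℝ≥0∞}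
    (hc : c ≠ ⊤) (hd : d ≠ ⊤) (he : Tendsto e l (𝓝 0)) (hu : Tendsto u l (𝓝 0)) :
    Tendsto (fun x => c * ENNReal.ofReal (e x) ^ 2 + d * u x) l (𝓝 0) := by
  have h1 : Tendsto (fun x => ENNReal.ofReal (e x) ^ 2) l (𝓝 0) := by
    simpa using ENNReal.Tendsto.pow (n := 2) (ENNReal.tendsto_ofReal he)
  simpa using (ENNReal.Tendsto.const_mul h1 (Or.inr hc)).add
    (ENNReal.Tendsto.const_mul hu (Or.inr hd))

/-- Local `L²` limits which are continuous are unique. -/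
theorem eq_of_local {X : Type*} [PseudoMetricSpace X] [ProperSpace X] [MeasurableSpace X]
    [OpensMeasurableSpace X] {μ : Measure X} [μ.IsOpenPosMeasure]
    {Φ : ℝ → X → ℂ} {G G' : X → ℂ} (hF : ∀ s, Measurable (Φ s))
    (hG : Continuous G) (hG' : Continuous G')
    (h : ∀ K : Set X, IsCompact K →
      Tendsto (fun s => ∫⁻ w in K, ‖Φ s w - G w‖ₑ ^ 2 ∂μ) atTop (𝓝 0))
    (h' : ∀ K : Set X, IsCompact K →
      Tendsto (fun s => ∫⁻ w in K, ‖Φ s w - G' w‖ₑ ^ 2 ∂μ) atTop (𝓝 0)) (w : X) :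
    G w = G' w := by
  have hK : IsCompact (Metric.closedBall w 1) := isCompact_closedBall w 1
  have h0 : ∫⁻ x in Metric.closedBall w 1, ‖G x - G' x‖ₑ ^ 2 ∂μ = 0 := by
    have ht := (tendsto_two_mul (h _ hK)).add (tendsto_two_mul (h' _ hK))
    rw [add_zero] at ht
    refine le_antisymm (ge_of_tendsto ht (Eventually.of_forall fun s => ?_)) zero_le
    have := lint_tri (μ.restrict (Metric.closedBall w 1)) G' hG.measurable (hF s)
    refine this.trans (le_of_eq ?_)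
    congr 2
    refine lintegral_congr fun x => ?_
    rw [← enorm_neg, neg_sub]
  have hm : Measurable fun x => ‖G x - G' x‖ₑ ^ 2 :=
    (hG.measurable.sub hG'.measurable).enorm.pow_const 2
  rw [lintegral_eq_zero_iff hm] at h0
  have h1 : G =ᵐ[μ.restrict (Metric.ball w 1)] G' := by
    refine ae_restrict_of_ae_restrict_of_subset Metric.ball_subset_closedBall ?_
    filter_upwards [h0] with x hx
    have : ‖G x - G' x‖ₑ = 0 := by simpa using hx
    exact sub_eq_zero.1 (enorm_eq_zero.1 this)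
  exact Measure.eqOn_open_of_ae_eq h1 Metric.isOpen_ball hG.continuousOn hG'.continuousOn
    (Metric.mem_ball_self one_pos)

/-- The weighted `L²` norm as a Bochner integral. -/
theorem lint_eq_norm {α : Type*} [MeasurableSpace α] {μ : Measure α} {ϖ : α → ℝ} {f : α → ℂ}
    (h0 : ∀ w, 0 ≤ ϖ w) (hf : Integrable (fun w => (ϖ w : ℂ) * (f w * conj (f w))) μ) :
    ∫⁻ w, ENNReal.ofReal (ϖ w) * ‖f w‖ₑ ^ 2 ∂μ =
      ENNReal.ofReal ‖∫ w, (ϖ w : ℂ) * (f w * conj (f w)) ∂μ‖ := by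
  have e : ∀ w, (ϖ w : ℂ) * (f w * conj (f w)) = ((ϖ w * ‖f w‖ ^ 2 : ℝ) : ℂ) := by
    intro w
    rw [Complex.mul_conj, Complex.normSq_eq_norm_sq]
    push_cast
    ring
  simp only [e] at hf ⊢
  have hn : ∀ w, 0 ≤ ϖ w * ‖f w‖ ^ 2 := fun w => mul_nonneg (h0 w) (by positivity)
  have hf' : Integrable (fun w => ϖ w * ‖f w‖ ^ 2) μ := by
    refine hf.norm.congr (Eventually.of_forall fun w => ?_)
    simp only
    rw [Complex.norm_real, Real.norm_of_nonneg (hn w)]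
  rw [integral_complex_ofReal, Complex.norm_real, Real.norm_of_nonneg (integral_nonneg hn),
    ofReal_integral_eq_lintegral_ofReal hf' (Eventually.of_forall hn)]
  refine lintegral_congr fun w => ?_
  rw [ENNReal.ofReal_mul (h0 w), ENNReal.ofReal_pow (norm_nonneg _), ofReal_norm]

/-! ## one-dimensional estimates -/

theorem exp_neg_exp_le (t : ℝ) :
    Real.exp (-Real.exp t) ≤ 2 * min (Real.exp (-0 * t)) (Real.exp (-2 * t)) := by
  have h0 := Real.exp_pos t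
  rw [mul_min_of_nonneg _ _ (by norm_num : (0 : ℝ) ≤ 2)]
  refine le_min ?_ ?_
  · have : Real.exp (-Real.exp t) ≤ 1 := Real.exp_le_one_iff.2 (by linarith)
    simp only [neg_zero, zero_mul, Real.exp_zero]
    linarith
  · have h1 : Real.exp t ^ 2 / 2 ≤ Real.exp (Real.exp t) := by
      have := Real.pow_div_factorial_le_exp (Real.exp t) h0.le 2
      simpa using this
    have h2 : Real.exp (-2 * t) * Real.exp t ^ 2 = 1 := by
      rw [← Real.exp_nat_mul, ← Real.exp_add]; simp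
    have h3 := Real.exp_pos (-2 * t)
    rw [Real.exp_neg, inv_le_iff_one_le_mul₀ (Real.exp_pos _)]
    nlinarith

theorem integrable_exp_neg_abs : Integrable fun u : ℝ => Real.exp (-|u|) := by
  have h1 : IntegrableOn (fun u : ℝ => Real.exp (-|u|)) (Set.Iic 0) :=
    (integrableOn_exp_Iic 0).congr_fun (fun u hu => by
      have hu : u ≤ 0 := hu
      simp only [abs_of_nonpos hu, neg_neg]) measurableSet_Iic
  have h2 : IntegrableOn (fun u : ℝ => Real.exp (-|u|)) (Set.Ioi 0) :=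
    (integrableOn_exp_neg_Ioi 0).congr_fun (fun u hu => by
      have hu : 0 < u := hu
      simp only [abs_of_pos hu]) measurableSet_Ioi
  have := h1.union h2
  rwa [Set.Iic_union_Ioi, integrableOn_univ] at this

theorem integrable_gam {a : ℝ} (h1 : 1 ≤ a) (h2 : a ≤ 2) :
    Integrable fun u : ℝ => Real.exp (a * u - Real.exp u) := by
  refine Integrable.mono' (integrable_exp_neg_abs.const_mul 6) (by fun_prop)
    (Eventually.of_forall fun u => ?_)
  rw [Real.norm_of_nonneg (Real.exp_pos _).le]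
  have h0 := Real.exp_pos u
  rcases le_total u 0 with hu | hu
  · have : Real.exp (a * u - Real.exp u) ≤ Real.exp (-|u|) := by
      rw [abs_of_nonpos hu, neg_neg]
      exact Real.exp_le_exp.2 (by nlinarith)
    linarith [Real.exp_pos (-|u|)]
  · rw [abs_of_nonneg hu]
    have h3 : Real.exp u ^ 3 / 6 ≤ Real.exp (Real.exp u) := by
      have := Real.pow_div_factorial_le_exp (Real.exp u) h0.le 3
      norm_num [Nat.factorial] at this
      linarith
    have h4 : Real.exp (a * u - Real.exp u) ≤ Real.exp (2 * u - Real.exp u) :=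
      Real.exp_le_exp.2 (by nlinarith)
    refine h4.trans ?_
    rw [Real.exp_sub, div_le_iff₀ (Real.exp_pos _)]
    have h5 : Real.exp (-u) * Real.exp u ^ 3 = Real.exp (2 * u) := by
      rw [← Real.exp_nat_mul, ← Real.exp_add]; congr 1; push_cast; ring
    have h6 := Real.exp_pos (-u)
    nlinarith

/-- The profile `exp (a ∑ u - ∑ e^u)`. -/
def gam {ι : Type} [Fintype ι] (a : ℝ) (u : ι → ℝ) : ℝ := Real.exp (a * ∑ j, u j - ∑ j, Real.exp (u j))

theorem gam_pos {ι : Type} [Fintype ι] (a : ℝ) (u : ι → ℝ) : 0 < gam a u := Real.exp_pos _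

theorem integrable_gamV {ι : Type} [Fintype ι] {a : ℝ} (h1 : 1 ≤ a) (h2 : a ≤ 2) :
    Integrable (gam a : (ι → ℝ) → ℝ) := by
  have := Integrable.fintype_prod (μ := fun _ : ι => (volume : Measure ℝ))
    (f := fun _ u => Real.exp (a * u - Real.exp u)) fun _ => integrable_gam h1 h2
  refine this.congr (Eventually.of_forall fun u => ?_)
  simp only [gam]
  rw [← Real.exp_sum, Finset.sum_sub_distrib, Finset.mul_sum]

/-! ## the number field -/

instance countableF {F : Type} [Field F] [NumberField F] : Countable F :=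
  Finsupp.Countable.of_moduleFinite (R := ℚ) (M := F)

variable {F : Type} [Field F] [NumberField F] [Emb F]

theorem em_ne {x : F} (hx : x ≠ 0) (j : Pl F) : em x j ≠ 0 := (map_ne_zero _).2 hx

theorem exp_lg {x : F} (hx : x ≠ 0) (j : Pl F) : Real.exp (lg x j) = ‖em x j‖ ^ 2 :=
  Real.exp_log (pow_pos (norm_pos_iff.2 (em_ne hx j)) 2)

theorem exp_sum_lg {x : F} (hx : x ≠ 0) : Real.exp (∑ j, lg x j) = nF x := by
  rw [Real.exp_sum, nF]
  exact Finset.prod_congr rfl fun j _ => exp_lg hx j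

theorem nF_pos {x : F} (hx : x ≠ 0) : 0 < nF x := by
  rw [← exp_sum_lg hx]; exact Real.exp_pos _

theorem nF_mul (x y : F) : nF (x * y) = nF x * nF y := by
  simp only [nF, em, map_mul, norm_mul, mul_pow, Finset.prod_mul_distrib]

theorem norm_eV (z : Pl F → ℂ) : ‖eV z‖ = 1 := by
  have : 4 * (Real.pi : ℂ) * Complex.I * ((∑ j, (z j).re : ℝ) : ℂ) =
      ((4 * Real.pi * ∑ j, (z j).re : ℝ) : ℂ) * Complex.I := by push_cast; ring
  rw [eV, this, Complex.norm_exp_ofReal_mul_I]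

theorem continuous_eV : Continuous (eV : (Pl F → ℂ) → ℂ) := by
  unfold eV
  fun_prop

theorem summable_mul_eV {a : F → ℂ} (ha : Summable fun r => ‖a r‖) (z : F → Pl F → ℂ) :
    Summable fun r => a r * eV (z r) :=
  Summable.of_norm (by simpa only [norm_mul, norm_eV, mul_one] using ha)

theorem sum_ray (v : Pl F → ℝ) (s : ℝ) :
    ∑ j, ray v s j = ∑ j, v j - (Fintype.card (Pl F) : ℝ) * s := by
  simp [ray, Finset.sum_sub_distrib]

theorem tendsto_sum_ray (v : Pl F → ℝ) : Tendsto (fun s => ∑ j, ray v s j) atTop atBot := by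
  simp only [sum_ray]
  have h : (0 : ℝ) < Fintype.card (Pl F) := by exact_mod_cast Fintype.card_pos
  simp only [sub_eq_add_neg]
  exact tendsto_atBot_add_const_left _ _
    (tendsto_neg_atTop_atBot.comp (tendsto_id.const_mul_atTop h))

theorem tendsto_exp_ray (v : Pl F → ℝ) :
    Tendsto (fun s => Real.exp ((∑ j, ray v s j) / 3)) atTop (𝓝 0) :=
  Real.tendsto_exp_atBot.comp ((tendsto_sum_ray v).atBot_div_const (by norm_num))

theorem eventually_ray (v : Pl F → ℝ) : ∀ᶠ s in atTop, ∑ j, ray v s j ≤ 0 :=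
  (tendsto_sum_ray v).eventually (eventually_le_atBot 0)

theorem measurableSet_box (a : Pl F → ℝ) (L : ℝ) : MeasurableSet (box a L) :=
  MeasurableSet.univ_pi fun _ => measurableSet_Icc

theorem volume_box (a : Pl F → ℝ) (L : ℝ) :
    volume (box a L) = ENNReal.ofReal L ^ Fintype.card (Pl F) := by
  rw [box, volume_pi_pi]
  simp

theorem volume_box_ne_top (a : Pl F → ℝ) (L : ℝ) : volume (box a L) ≠ ⊤ := by
  rw [volume_box]; finiteness

theorem hasExp_mono {N N' : ℕ} (h : N ∣ N') {f : HH F → ℂ} {A : F → (Pl F → ℝ) → ℂ}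
    (hf : HasExp N f A) : HasExp N' f A := by
  obtain ⟨k, rfl⟩ := h
  refine ⟨hf.1, fun r l hr => ?_, hf.2.2⟩
  have h1 : IsIntegral ℤ ((k : ℕ) : F) := isIntegral_natCast k
  have := h1.mul (hf.2.1 r l hr)
  rwa [Nat.cast_mul, mul_comm (N : F), mul_assoc]

theorem hasExp_sub {N : ℕ} {f g : HH F → ℂ} {A B : F → (Pl F → ℝ) → ℂ}
    (hf : HasExp N f A) (hg : HasExp N g B) :
    HasExp N (fun w => f w - g w) (fun r l => A r l - B r l) := by
  refine ⟨fun r => (hf.1 r).sub (hg.1 r), fun r l hr => ?_, fun l => ?_⟩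
  · by_cases h : A r l = 0
    · refine hg.2.1 r l fun h' => hr ?_
      simp only [h, h', sub_self]
    · exact hf.2.1 r l h
  · obtain ⟨h1, h2⟩ := hf.2.2 l
    obtain ⟨h3, h4⟩ := hg.2.2 l
    refine ⟨(h1.add h3).of_nonneg_of_le (fun _ => norm_nonneg _) fun r => norm_sub_le _ _,
      fun z => ?_⟩
    simp only
    rw [h2, h4, ← (summable_mul_eV h1 _).tsum_sub (summable_mul_eV h3 _)]
    simp only [sub_mul]

/-- The basic lattice sum, as a `tsum`. -/
theorem lsum_tsum (hL : LatStmt F) {M : ℕ} (hM : M ≠ 0) : ∃ C : ℝ, 0 ≤ C ∧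
    ∀ (v : Pl F → ℝ) (f : F → ℂ) (B : ℝ), 0 ≤ B →
      (∀ x, f x ≠ 0 → x ≠ 0 ∧ IsIntegral ℤ ((M : F) * x) ∧ ‖f x‖ ≤
        B * ∏ j, min (Real.exp (-0 * (v j + lg x j))) (Real.exp (-2 * (v j + lg x j)))) →
      (Summable fun x => ‖f x‖) ∧ ∑' x, ‖f x‖ ≤ B * (C * Real.exp (-∑ j, v j)) := by
  classical
  obtain ⟨C, hC⟩ := hL.lsum M hM 0 2 (by norm_num) (by norm_num)
  have hC0 : 0 ≤ C := by
    have := hC 0 ∅ (by simp)
    simpa using this
  refine ⟨C, hC0, fun v f B hB hf => ?_⟩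
  have key : ∀ S : Finset F, ∑ x ∈ S, ‖f x‖ ≤ B * (C * Real.exp (-∑ j, v j)) := by
    intro S
    rw [← Finset.sum_filter_of_ne (p := fun x => f x ≠ 0) (fun x _ hx => by simpa using hx)]
    refine le_trans (Finset.sum_le_sum fun x hx => (hf x (Finset.mem_filter.1 hx).2).2.2) ?_
    rw [← Finset.mul_sum]
    refine mul_le_mul_of_nonneg_left (hC v _ fun x hx => ?_) hB
    have := hf x (Finset.mem_filter.1 hx).2
    exact ⟨this.1, this.2.1⟩
  exact ⟨summable_of_sum_le (fun _ => norm_nonneg _) key,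
    Real.tsum_le_of_sum_le (fun _ => norm_nonneg _) key⟩

theorem norm_E0_le (hL : LatStmt F) {ξ : F × F → ℂ} (hξ : Adm ξ) : ∃ C : ℝ, 0 ≤ C ∧
    ∀ v l : Pl F → ℝ, ‖E0 ξ v l‖ ≤ C * Real.exp ((∑ j, v j) / 3 + ∑ j, l j) := by
  obtain ⟨B, hB⟩ := hξ.bdd
  obtain ⟨M, hM, hs⟩ := hξ.supp
  obtain ⟨C, hC0, hC⟩ := lsum_tsum hL hM
  have hB0 : 0 ≤ B := (norm_nonneg _).trans (hB 0)
  refine ⟨B * 2 ^ Fintype.card (Pl F) * C, by positivity, fun v l => ?_⟩
  obtain ⟨h1, h2⟩ := hC (fun j => v j - l j)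
    (fun d => ξ (0, d) * (Real.exp (-∑ j, Real.exp (v j - l j) * ‖em d j‖ ^ 2) : ℂ))
    (B * 2 ^ Fintype.card (Pl F)) (by positivity) fun d hd => by
      obtain ⟨-, h2, a, b, -, -, hab⟩ := hs (0, d) (left_ne_zero_of_mul hd)
      have hd0 : d ≠ 0 := by
        rintro rfl
        simp only [mul_zero, add_zero] at hab
        exact hM (by exact_mod_cast hab.symm)
      refine ⟨hd0, h2, ?_⟩
      rw [norm_mul, Complex.norm_real, Real.norm_of_nonneg (Real.exp_pos _).le, mul_assoc]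
      refine mul_le_mul (hB _) ?_ (Real.exp_pos _).le hB0
      rw [← Finset.sum_neg_distrib, Real.exp_sum, ← Finset.card_univ, ← Finset.prod_const,
        ← Finset.prod_mul_distrib]
      refine Finset.prod_le_prod (fun _ _ => (Real.exp_pos _).le) fun j _ => ?_
      rw [← exp_lg hd0, ← Real.exp_add]
      exact exp_neg_exp_le _
  rw [E0, norm_mul, Complex.norm_real, Real.norm_of_nonneg (Real.exp_pos _).le]
  refine (mul_le_mul_of_nonneg_left ((norm_tsum_le_tsum_norm h1).trans h2)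
    (Real.exp_pos _).le).trans (le_of_eq ?_)
  have e : Real.exp ((∑ j, v j) / 3 + ∑ j, l j) =
      Real.exp (4 / 3 * ∑ j, v j) * Real.exp (-∑ j, (v j - l j)) := by
    rw [← Real.exp_add, Finset.sum_sub_distrib]
    congr 1
    ring
  rw [e]
  ring

theorem bb_zero : bb (0 : F) = fun _ => 0 := by
  funext j
  simp [bb, em]

theorem bb_nonneg (r : F) (j : Pl F) : 0 ≤ bb r j := by
  unfold bb
  positivity

theorem Sk_Fk_zero (g : F → ℂ) (l v : Pl F → ℝ) :
    Sk g (Fk l (bb (0 : F))) v = (Real.exp (2 / 3 * ∑ j, l j) : ℂ) * Sk g k0 (v + l) := by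
  have h : ∀ x : Pl F → ℝ, Fk l (bb (0 : F)) x = Real.exp (∑ j, l j) * k0 (x + l) := by
    intro x
    rw [bb_zero, Fk, k0, Finset.prod_mul_distrib, ← Real.exp_sum, ← Real.exp_sum,
      ← Finset.sum_neg_distrib]
    congr 2
    refine Finset.sum_congr rfl fun j _ => ?_
    rw [Pi.add_apply, Real.exp_add]
    ring
  simp only [Sk, h]
  have e : ∀ c : F, g c * ((Real.exp (∑ j, l j) * k0 (v + lg c + l) : ℝ) : ℂ) =
      (Real.exp (∑ j, l j) : ℂ) * (g c * (k0 (v + l + lg c) : ℂ)) := by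
    intro c
    rw [add_right_comm]
    push_cast
    ring
  simp only [e]
  rw [tsum_mul_left, ← mul_assoc, ← mul_assoc, ← Complex.ofReal_mul, ← Complex.ofReal_mul,
    ← Real.exp_add, ← Real.exp_add]
  congr 3
  simp only [Pi.add_apply, Finset.sum_add_distrib]
  ring

/-! ## the constant term against the seed -/

/-- The integral of the constant term of `thY η v'` against the seed of `thY ξ v`. -/
def J (κ : ℝ) (η : F × F → ℂ) (v' v : Pl F → ℝ) : ℂ :=
  ∫ l : Pl F → ℝ, Acoef κ η v' 0 l *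
    (Real.exp (4 / 3 * ∑ j, v j - ∑ j, Real.exp (v j - l j) - 2 * ∑ j, l j) : ℂ)

/-- The integrand of `J` after the substitution `u = v - l`. -/
def Jin (κ : ℝ) (η : F × F → ℂ) (v' v u : Pl F → ℝ) : ℂ :=
  Acoef κ η v' 0 (v - u) *
    (Real.exp (4 / 3 * ∑ j, v j - ∑ j, Real.exp (u j) - 2 * ∑ j, (v j - u j)) : ℂ)

theorem J_eq (κ : ℝ) (η : F × F → ℂ) (v' v : Pl F → ℝ) : J κ η v' v = ∫ u, Jin κ η v' v u := by
  rw [J, ← integral_sub_left_eq_self _ volume v]
  refine integral_congr_ae (Eventually.of_forall fun u => ?_)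
  simp only [Jin, Pi.sub_apply, sub_sub_cancel]

theorem Jin_eq (κ : ℝ) (η : F × F → ℂ) (v' v u : Pl F → ℝ) : Jin κ η v' v u =
    E0 η v' (v - u) *
      (Real.exp (4 / 3 * ∑ j, v j - ∑ j, Real.exp (u j) - 2 * ∑ j, (v j - u j)) : ℂ) +
    (κ : ℂ) * (Sk (mf η 0) k0 (v' + (v - u)) * (gam (4 / 3) u : ℂ)) := by
  have e : Real.exp (2 / 3 * ∑ j, (v - u) j) *
      Real.exp (4 / 3 * ∑ j, v j - ∑ j, Real.exp (u j) - 2 * ∑ j, (v j - u j)) =
      gam (4 / 3) u := by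
    rw [gam, ← Real.exp_add]
    congr 1
    simp only [Pi.sub_apply, Finset.sum_sub_distrib]
    ring
  rw [Jin, Acoef, if_pos rfl, Sk_Fk_zero, ← e]
  push_cast
  ring

theorem Jin_E0_le {η : F × F → ℂ} {C : ℝ}
    (hC : ∀ v l : Pl F → ℝ, ‖E0 η v l‖ ≤ C * Real.exp ((∑ j, v j) / 3 + ∑ j, l j))
    (v' v u : Pl F → ℝ) :
    ‖E0 η v' (v - u) *
      (Real.exp (4 / 3 * ∑ j, v j - ∑ j, Real.exp (u j) - 2 * ∑ j, (v j - u j)) : ℂ)‖ ≤
      C * (Real.exp ((∑ j, v' j) / 3) * Real.exp ((∑ j, v j) / 3)) * gam 1 u := by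
  rw [norm_mul, Complex.norm_real, Real.norm_of_nonneg (Real.exp_pos _).le]
  refine (mul_le_mul_of_nonneg_right (hC _ _) (Real.exp_pos _).le).trans (le_of_eq ?_)
  rw [gam, mul_assoc, mul_assoc, ← Real.exp_add, ← Real.exp_add, ← Real.exp_add]
  congr 2
  simp only [Pi.sub_apply, Finset.sum_sub_distrib]
  ring

theorem Jin_le {κ : ℝ} (hκ : 0 < κ) {η : F × F → ℂ} {C C' : ℝ} (hC0 : 0 ≤ C)
    (hC : ∀ v l : Pl F → ℝ, ‖E0 η v l‖ ≤ C * Real.exp ((∑ j, v j) / 3 + ∑ j, l j))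
    (hC' : ∀ v, ‖Sk (mf η 0) k0 v‖ ≤ C') {v' v : Pl F → ℝ} (hv' : ∑ j, v' j ≤ 0)
    (hv : ∑ j, v j ≤ 0) (u : Pl F → ℝ) :
    ‖Jin κ η v' v u‖ ≤ C * gam 1 u + κ * (C' * gam (4 / 3) u) := by
  rw [Jin_eq]
  refine (norm_add_le _ _).trans (add_le_add ((Jin_E0_le hC v' v u).trans ?_) ?_)
  · refine mul_le_mul_of_nonneg_right (mul_le_of_le_one_right hC0 ?_) (gam_pos _ _).le
    rw [← Real.exp_add, Real.exp_le_one_iff]
    linarith
  · rw [norm_mul, norm_mul, Complex.norm_real, Complex.norm_real, Real.norm_of_nonneg hκ.le,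
      Real.norm_of_nonneg (gam_pos _ _).le]
    exact mul_le_mul_of_nonneg_left (mul_le_mul_of_nonneg_right (hC' _) (gam_pos _ _).le) hκ.le

theorem integrable_dom (κ C C' : ℝ) :
    Integrable fun u : Pl F → ℝ => C * gam 1 u + κ * (C' * gam (4 / 3) u) :=
  ((integrable_gamV le_rfl (by norm_num)).const_mul C).add
    (((integrable_gamV (by norm_num) (by norm_num)).const_mul C').const_mul κ)

theorem J_bound (hL : LatStmt F) {κ : ℝ} (hκ : 0 < κ) {η : F × F → ℂ} (hη : Adm η) {t : ℂ}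
    (ht : WDk (mf η 0) k0 t) : ∃ D : ℝ, ∀ v' v : Pl F → ℝ, ∑ j, v' j ≤ 0 → ∑ j, v j ≤ 0 →
      ‖J κ η v' v‖ ≤ D := by
  obtain ⟨C, hC0, hC⟩ := norm_E0_le hL hη
  obtain ⟨C', hC'⟩ := ht.1
  refine ⟨∫ u : Pl F → ℝ, (C * gam 1 u + κ * (C' * gam (4 / 3) u)), fun v' v hv' hv => ?_⟩
  rw [J_eq]
  exact norm_integral_le_of_norm_le (integrable_dom κ C C')
    (Eventually.of_forall fun u => Jin_le hκ hC0 hC hC' hv' hv u)

theorem J_tendsto (hL : LatStmt F) {κ : ℝ} (hκ : 0 < κ) {η : F × F → ℂ} (hη : Adm η) {t : ℂ}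
    (ht : WDk (mf η 0) k0 t) (hm : ∀ v, Measurable (Acoef κ η v 0)) (w' w : Pl F → ℝ) :
    Tendsto (fun p : ℝ × ℝ => J κ η (ray w' p.1) (ray w p.2)) (atTop ×ˢ atTop)
      (𝓝 (t * ((κ : ℂ) * (Mo (k0 : (Pl F → ℝ) → ℝ) : ℂ) *
        ∫ u : Pl F → ℝ, (gam (4 / 3) u : ℂ)))) := by
  obtain ⟨C, hC0, hC⟩ := norm_E0_le hL hη
  obtain ⟨C', hC'⟩ := ht.1
  simp only [J_eq]
  rw [← integral_const_mul, ← integral_const_mul]
  refine tendsto_integral_filter_of_dominated_convergence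
    (fun u => C * gam 1 u + κ * (C' * gam (4 / 3) u)) (Eventually.of_forall fun p => ?_) ?_
    (integrable_dom κ C C') (Eventually.of_forall fun u => ?_)
  · refine Measurable.aestronglyMeasurable ?_
    unfold Jin
    refine Measurable.mul ((hm _).comp (measurable_const.sub measurable_id))
      (Complex.measurable_ofReal.comp ?_)
    fun_prop
  · filter_upwards [prod_mem_prod (eventually_ray w') (eventually_ray w)] with p hp
    exact Eventually.of_forall fun u => Jin_le hκ hC0 hC hC' hp.1 hp.2 u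
  · simp only [Jin_eq]
    rw [← zero_add (t * _)]
    refine Tendsto.add ?_ ?_
    · refine squeeze_zero_norm (fun p => Jin_E0_le hC _ _ u) ?_
      have := ((((tendsto_exp_ray w').comp tendsto_fst).mul
        ((tendsto_exp_ray w).comp (tendsto_snd (f := atTop)))).const_mul C).mul_const (gam 1 u)
      simpa using this
    · have e : ∀ p : ℝ × ℝ, ray w' p.1 + (ray w p.2 - u) = ray (w' + (w - u)) (p.1 + p.2) := by
        intro p
        funext j
        simp only [ray, Pi.add_apply, Pi.sub_apply]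
        ring
      simp only [e]
      have h1 : Tendsto (fun p : ℝ × ℝ => p.1 + p.2) (atTop ×ˢ atTop) atTop :=
        tendsto_fst.atTop_add_atTop tendsto_snd
      have h2 := (((ht.2 (w' + (w - u))).comp h1).mul_const (gam (4 / 3) u : ℂ)).const_mul (κ : ℂ)
      rw [show t * ((κ : ℂ) * (Mo (k0 : (Pl F → ℝ) → ℝ) : ℂ) * (gam (4 / 3) u : ℂ)) =
        κ * (t * (Mo (k0 : (Pl F → ℝ) → ℝ) : ℂ) * (gam (4 / 3) u : ℂ)) by ring]
      exact h2

/-! ## the norm formula -/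

/-- The leaves used in the construction of the theta function. -/
structure Hyp (F : Type) [Field F] [NumberField F] [Emb F] (κ : ℝ) : Prop where
  L : LatStmt F
  R : RowStmt F
  D : DensStmt F
  G : GeomStmt F
  U : UnfoldStmt F
  B : BoxStmt F
  pos : 0 < κ
  four : ∀ ξ : F × F → ℂ, Adm ξ → ∃ N : ℕ, N ≠ 0 ∧
    ∀ v : Pl F → ℝ, HasExp N (thY ξ v) (Acoef κ ξ v)

variable {κ : ℝ} {ξ : F × F → ℂ}

theorem det_ne (γ : SL F) : (γ : Mat F).det ≠ 0 := by
  rw [γ.det_coe]; exact one_ne_zero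

theorem Hyp.adm_tr (H : Hyp F κ) (hξ : Adm ξ) (γ : SL F) : Adm (tr ξ (γ : Mat F)) :=
  H.R.adm_tr ξ _ hξ (det_ne γ)

theorem Hyp.good_tr (H : Hyp F κ) (hξ : Good ξ) (γ : SL F) : Good (tr ξ (γ : Mat F)) := by
  refine ⟨H.adm_tr hξ.1 γ, fun γ' => ?_⟩
  rw [← tr_mul, ← Matrix.SpecialLinearGroup.coe_mul]
  exact hξ.2 _

theorem Hyp.thY_inv (H : Hyp F κ) (ξ : F × F → ℂ) (γ : SL F) (v : Pl F → ℝ) (w : HH F) :
    thY ξ v (γ⁻¹ • w) = thY (tr ξ (γ : Mat F)) v w := by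
  rw [← H.G.aut ξ γ, smul_inv_smul]

theorem Hyp.thY_del (H : Hyp F κ) {δ : SL F} (hδ : δ ∈ Del ξ) (v : Pl F → ℝ) (w : HH F) :
    thY ξ v (δ • w) = thY ξ v w := by
  have h : tr ξ (δ : Mat F) = ξ := hδ.1
  rw [← H.G.aut ξ δ v w, h]

theorem Hyp.meas_thY (H : Hyp F κ) (hξ : Adm ξ) (v : Pl F → ℝ) : Measurable (thY ξ v) :=
  (H.G.thY_cont ξ v hξ).measurable

theorem Hyp.meas_A (H : Hyp F κ) (hξ : Adm ξ) (v : Pl F → ℝ) (r : F) :
    Measurable (Acoef κ ξ v r) := by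
  obtain ⟨N, -, h⟩ := H.four ξ hξ
  exact (h v).1 r

theorem Hyp.bddL (H : Hyp F κ) (hξ : Adm ξ) (r : F) : BddL (mf ξ r) := by
  obtain ⟨M, B, hM, h⟩ := H.R.bddL ξ hξ
  exact ⟨M, B, hM, (h r).1, fun c hc => ⟨((h r).2 c hc).1, ((h r).2 c hc).2.1⟩⟩

theorem Hyp.tau_eq (H : Hyp F κ) (hξ : Adm ξ) {r : F} {t : ℂ} (ht : WD (mf ξ r) t) :
    tau ξ r = t :=
  H.D.unique _ _ _ (H.bddL hξ r) (Classical.epsilon_spec ⟨t, ht⟩) ht

/-- The inner product of two incomplete Eisenstein series. -/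
def Pin (ξ : F × F → ℂ) (v' v : Pl F → ℝ) : ℂ :=
  ∫ w, (wOf (Del ξ) w : ℂ) * (thY ξ v' w * conj (thY ξ v w)) ∂μHH F

theorem Hyp.pairing (H : Hyp F κ) (hξ : Adm ξ) : ∃ (I : Finset (SL F)) (a : SL F → ℂ),
    ∀ v' v : Pl F → ℝ,
      Integrable (fun w => (wOf (Del ξ) w : ℂ) * (thY ξ v' w * conj (thY ξ v w))) (μHH F) ∧
      Pin ξ v' v = ∑ γ ∈ I, a γ * J κ (tr ξ (γ : Mat F)) v' v := by
  obtain ⟨I, a, h⟩ := H.U ξ hξ
  choose N hN0 hN using fun γ : SL F => H.four _ (H.adm_tr hξ γ)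
  refine ⟨I, a, fun v' v => ?_⟩
  choose C hC using fun γ : SL F => H.G.thY_le _ v' (H.adm_tr hξ γ)
  obtain ⟨h1, -, h3⟩ := h (thY ξ v') (∏ γ ∈ I, N γ) (fun γ => Acoef κ (tr ξ (γ : Mat F)) v')
    (∑ γ ∈ I, |C γ|) (Finset.prod_ne_zero_iff.2 fun γ _ => hN0 γ) (H.meas_thY hξ v')
    (fun δ hδ w => H.thY_del hδ v' w)
    (fun γ hγ => by
      simp only [H.thY_inv]
      exact hasExp_mono (Finset.dvd_prod_of_mem N hγ) (hN γ v'))
    (fun γ hγ w => by
      rw [H.thY_inv]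
      refine (hC γ w).trans (mul_le_mul_of_nonneg_right ((le_abs_self _).trans
        (Finset.single_le_sum (f := fun γ => |C γ|) (fun _ _ => abs_nonneg _) hγ)) ?_)
      exact Finset.prod_nonneg fun _ _ => by positivity) v
  exact ⟨h1, h3⟩

theorem Hyp.wOf_nonneg (H : Hyp F κ) (ξ : F × F → ℂ) (w : HH F) : 0 ≤ wOf (Del ξ) w :=
  (H.G.wt (Del ξ) inf_le_right).nonneg w

theorem Hyp.N2_eq (H : Hyp F κ) (hξ : Adm ξ) (v : Pl F → ℝ) :
    N2 (Del ξ) (thY ξ v) = ENNReal.ofReal ‖Pin ξ v v‖ := by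
  obtain ⟨I, a, h⟩ := H.pairing hξ
  exact lint_eq_norm (H.wOf_nonneg ξ) (h v v).1

theorem Hyp.N2_sub_eq (H : Hyp F κ) (hξ : Adm ξ) (v v' : Pl F → ℝ) :
    N2 (Del ξ) (fun w => thY ξ v w - thY ξ v' w) =
      ENNReal.ofReal ‖(Pin ξ v v - Pin ξ v v') - (Pin ξ v' v - Pin ξ v' v')‖ := by
  obtain ⟨I, a, h⟩ := H.pairing hξ
  have i1 := (h v v).1
  have i2 := (h v v').1
  have i3 := (h v' v).1
  have i4 := (h v' v').1
  have e : ∀ w, (wOf (Del ξ) w : ℂ) * ((thY ξ v w - thY ξ v' w) * conj (thY ξ v w - thY ξ v' w)) =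
      ((wOf (Del ξ) w : ℂ) * (thY ξ v w * conj (thY ξ v w)) -
        (wOf (Del ξ) w : ℂ) * (thY ξ v w * conj (thY ξ v' w))) -
      ((wOf (Del ξ) w : ℂ) * (thY ξ v' w * conj (thY ξ v w)) -
        (wOf (Del ξ) w : ℂ) * (thY ξ v' w * conj (thY ξ v' w))) := by
    intro w
    simp only [map_sub]
    ring
  have i5 : Integrable (fun w => (wOf (Del ξ) w : ℂ) *
      ((thY ξ v w - thY ξ v' w) * conj (thY ξ v w - thY ξ v' w))) (μHH F) := by
    simp only [e]
    exact (i1.sub i2).sub (i3.sub i4)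
  rw [N2, lint_eq_norm (H.wOf_nonneg ξ) i5]
  simp only [e]
  have j := integral_sub (i1.sub i2) (i3.sub i4)
  simp only [Pi.sub_apply] at j
  rw [j, integral_sub i1 i2, integral_sub i3 i4]
  rfl

theorem Hyp.N2_bound (H : Hyp F κ) (hξ : Good ξ) : ∃ D : ℝ, ∀ v : Pl F → ℝ, ∑ j, v j ≤ 0 →
    N2 (Del ξ) (thY ξ v) ≤ ENNReal.ofReal D := by
  obtain ⟨I, a, h⟩ := H.pairing hξ.1
  choose t ht using hξ.2
  choose D hD using fun γ : SL F => J_bound H.L H.pos (H.adm_tr hξ.1 γ) (ht γ)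
  refine ⟨∑ γ ∈ I, ‖a γ‖ * D γ, fun v hv => ?_⟩
  rw [H.N2_eq hξ.1, (h v v).2]
  refine ENNReal.ofReal_le_ofReal ((norm_sum_le _ _).trans (Finset.sum_le_sum fun γ _ => ?_))
  rw [norm_mul]
  exact mul_le_mul_of_nonneg_left (hD γ v v hv hv) (norm_nonneg _)

theorem Hyp.Pin_tendsto (H : Hyp F κ) (hξ : Good ξ) : ∃ L : ℂ,
    ((∀ γ : SL F, tau (tr ξ (γ : Mat F)) 0 = 0) → L = 0) ∧ ∀ w' w : Pl F → ℝ,
      Tendsto (fun p : ℝ × ℝ => Pin ξ (ray w' p.1) (ray w p.2)) (atTop ×ˢ atTop) (𝓝 L) := by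
  obtain ⟨I, a, h⟩ := H.pairing hξ.1
  choose t ht using hξ.2
  refine ⟨∑ γ ∈ I, a γ * (t γ * ((κ : ℂ) * (Mo (k0 : (Pl F → ℝ) → ℝ) : ℂ) *
    ∫ u : Pl F → ℝ, (gam (4 / 3) u : ℂ))), fun h0 => ?_, fun w' w => ?_⟩
  · refine Finset.sum_eq_zero fun γ _ => ?_
    rw [← H.tau_eq (H.adm_tr hξ.1 γ) ⟨k0, H.D.kc0, ht γ⟩, h0, zero_mul, mul_zero]
  · simp only [fun v' v => (h v' v).2]
    exact tendsto_finsetSum _ fun γ _ => (J_tendsto H.L H.pos (H.adm_tr hξ.1 γ) (ht γ)
      (fun v => H.meas_A (H.adm_tr hξ.1 γ) v 0) w' w).const_mul _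

theorem Hyp.N2_cauchy (H : Hyp F κ) (hξ : Good ξ) (w w' : Pl F → ℝ) :
    Tendsto (fun p : ℝ × ℝ => N2 (Del ξ) fun x => thY ξ (ray w p.1) x - thY ξ (ray w' p.2) x)
      (atTop ×ˢ atTop) (𝓝 0) := by
  obtain ⟨L, -, h⟩ := H.Pin_tendsto hξ
  simp only [H.N2_sub_eq hξ.1]
  have a1 := (h w w).comp ((tendsto_fst (f := atTop) (g := (atTop : Filter ℝ))).prodMk tendsto_fst)
  have a2 := h w w'
  have a3 := (h w' w).comp ((tendsto_snd (f := (atTop : Filter ℝ)) (g := atTop)).prodMk tendsto_fst)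
  have a4 := (h w' w').comp ((tendsto_snd (f := (atTop : Filter ℝ)) (g := atTop)).prodMk tendsto_snd)
  have := ENNReal.tendsto_ofReal ((a1.sub a2).sub (a3.sub a4)).norm
  simpa using this

theorem Hyp.N2_zero (H : Hyp F κ) (hξ : Good ξ) (h0 : ∀ γ : SL F, tau (tr ξ (γ : Mat F)) 0 = 0)
    (w : Pl F → ℝ) : Tendsto (fun s : ℝ => N2 (Del ξ) (thY ξ (ray w s))) atTop (𝓝 0) := by
  obtain ⟨L, hL, h⟩ := H.Pin_tendsto hξ
  simp only [H.N2_eq hξ.1]
  have a1 := (h w w).comp ((tendsto_id (x := (atTop : Filter ℝ))).prodMk tendsto_id)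
  have := ENNReal.tendsto_ofReal a1.norm
  simpa [hL h0] using this

end Crest.Agent.T27.TH.A5
end
end

-- ▼ part T27/ThA5b_53
section

/-!
# Row 27, theta leaf A5, part b: the coefficients `tau`, the theta function `Th`, `ThetaStmt`
-/

set_option autoImplicit false
set_option linter.unusedSectionVars false

noncomputable section

namespace Crest.Agent.T27.TH.A5

open scoped ComplexConjugate ENNReal Topology
open MeasureTheory Filter NumberField

variable {F : Type} [Field F] [NumberField F] [Emb F] {κ : ℝ} {ξ : F × F → ℂ}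

/-! ## boxes -/

theorem Hyp.box_one (H : Hyp F κ) (hξ : Adm ξ) (L : ℝ) : ∃ C : ℝ, 0 < C ∧
    ∀ a v : Pl F → ℝ, ∑' r : F, ∫⁻ l in box a L, ‖Acoef κ ξ v r l‖ₑ ^ 2 ≤
      ENNReal.ofReal (C * (1 + Real.exp (2 * ∑ j, a j))) * N2 (Del ξ) (thY ξ v) := by
  obtain ⟨C, hC, h⟩ := H.B.box_le (Del ξ) L inf_le_right
  obtain ⟨N, hN, hf⟩ := H.four ξ hξ
  exact ⟨C, hC, fun a v => h N _ _ a hN (H.meas_thY hξ v)
    (fun δ hδ w => by rw [H.thY_del hδ]) (hf v)⟩

theorem Hyp.box_two (H : Hyp F κ) (hξ : Adm ξ) (L : ℝ) : ∃ C : ℝ, 0 < C ∧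
    ∀ a v v' : Pl F → ℝ, ∑' r : F, ∫⁻ l in box a L, ‖Acoef κ ξ v r l - Acoef κ ξ v' r l‖ₑ ^ 2 ≤
      ENNReal.ofReal (C * (1 + Real.exp (2 * ∑ j, a j))) *
        N2 (Del ξ) (fun w => thY ξ v w - thY ξ v' w) := by
  obtain ⟨C, hC, h⟩ := H.B.box_le (Del ξ) L inf_le_right
  obtain ⟨N, hN, hf⟩ := H.four ξ hξ
  exact ⟨C, hC, fun a v v' => h N _ (fun r l => Acoef κ ξ v r l - Acoef κ ξ v' r l) a hN
    ((H.meas_thY hξ v).sub (H.meas_thY hξ v'))
    (fun δ hδ w => by simp only [H.thY_del hδ]) (hasExp_sub (hf v) (hf v'))⟩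

/-- The coefficients are Cauchy in `ℓ²(L²(box))`. -/
theorem Hyp.strip_cauchy (H : Hyp F κ) (hξ : Good ξ) (a : Pl F → ℝ) (L : ℝ) (w w' : Pl F → ℝ) :
    Tendsto (fun p : ℝ × ℝ => ∑' r : F, ∫⁻ l in box a L,
      ‖Acoef κ ξ (ray w p.1) r l - Acoef κ ξ (ray w' p.2) r l‖ₑ ^ 2) (atTop ×ˢ atTop) (𝓝 0) := by
  obtain ⟨C, -, h⟩ := H.box_two hξ.1 L
  have h1 := ENNReal.Tendsto.const_mul (a := ENNReal.ofReal (C * (1 + Real.exp (2 * ∑ j, a j))))
    (H.N2_cauchy hξ w w') (Or.inr ENNReal.ofReal_ne_top)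
  rw [mul_zero] at h1
  exact tendsto_of_tendsto_of_tendsto_of_le_of_le tendsto_const_nhds h1 (fun _ => zero_le)
    fun p => h a _ _

theorem cauchy_of_tendsto {Φ : ℝ → ℝ → ℝ≥0∞}
    (h : Tendsto (fun p : ℝ × ℝ => Φ p.1 p.2) (atTop ×ˢ atTop) (𝓝 0)) {ε : ℝ≥0∞} (hε : 0 < ε) :
    ∃ s₀ : ℝ, ∀ s ≥ s₀, ∀ s' ≥ s₀, Φ s s' ≤ ε := by
  obtain ⟨S, hS, h1⟩ := Filter.mem_prod_self_iff.1 (ENNReal.tendsto_nhds_zero.1 h ε hε)
  obtain ⟨s₀, h2⟩ := mem_atTop_sets.1 hS
  exact ⟨s₀, fun s hs s' hs' => h1 (Set.mk_mem_prod (h2 s hs) (h2 s' hs'))⟩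

/-- The contribution of `c = 0`. -/
def Ez (κ : ℝ) (ξ : F × F → ℂ) (v : Pl F → ℝ) (r : F) (l : Pl F → ℝ) : ℂ :=
  Acoef κ ξ v r l - (κ : ℂ) * Sk (mf ξ r) (Fk l (bb r)) v

theorem Hyp.Ez_le (H : Hyp F κ) (hξ : Adm ξ) (a : Pl F → ℝ) (L : ℝ) : ∃ C : ℝ, 0 ≤ C ∧
    ∀ (v : Pl F → ℝ) (r : F), ∀ l ∈ box a L,
      ‖Ez κ ξ v r l‖ ≤ C * Real.exp ((∑ j, v j) / 3) := by
  obtain ⟨C, hC0, hC⟩ := norm_E0_le H.L hξ
  refine ⟨C * Real.exp (∑ j, (a j + L)), by positivity, fun v r l hl => ?_⟩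
  unfold Ez Acoef
  rw [add_sub_cancel_right]
  split_ifs
  · refine (hC v l).trans ?_
    rw [mul_assoc, ← Real.exp_add]
    refine mul_le_mul_of_nonneg_left (Real.exp_le_exp.2 ?_) hC0
    have : ∑ j, l j ≤ ∑ j, (a j + L) := Finset.sum_le_sum fun j _ => (hl j (Set.mem_univ j)).2
    linarith
  · rw [norm_zero]; positivity

theorem Hyp.κ_ne (H : Hyp F κ) : (κ : ℂ) ≠ 0 := Complex.ofReal_ne_zero.2 H.pos.ne'

theorem Hyp.Sk_bdd (H : Hyp F κ) (hξ : Good ξ) (r : F) (a : Pl F → ℝ) (L : ℝ) :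
    ∃ C : ℝ≥0∞, C ≠ ⊤ ∧ ∀ v : Pl F → ℝ, ∑ j, v j ≤ 0 →
      ∫⁻ l in box a L, ‖Sk (mf ξ r) (Fk l (bb r)) v‖ₑ ^ 2 ≤ C := by
  obtain ⟨C, -, h⟩ := H.box_one hξ.1 L
  obtain ⟨D, hD⟩ := H.N2_bound hξ
  obtain ⟨E, hE0, hE⟩ := H.Ez_le hξ.1 a L
  have hv := volume_box_ne_top a L
  refine ⟨2 * volume (box a L) * ENNReal.ofReal (κ⁻¹ * E) ^ 2 + 2 * ‖(κ : ℂ)⁻¹‖ₑ ^ 2 *
    (ENNReal.ofReal (C * (1 + Real.exp (2 * ∑ j, a j))) * ENNReal.ofReal D), by finiteness,
    fun v hv0 => ?_⟩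
  refine (lintegral_add_le (measurableSet_box a L) (c := (κ : ℂ)⁻¹)
    (v := fun l => (κ : ℂ)⁻¹ * -Ez κ ξ v r l) (w := fun l => Acoef κ ξ v r l) (e := κ⁻¹ * E)
    (fun l _ => ?_) (fun l hl => ?_)).trans ?_
  · have := H.κ_ne
    simp only [Ez]
    field_simp
    ring
  · rw [norm_mul, norm_inv, norm_neg, Complex.norm_real, Real.norm_of_nonneg H.pos.le]
    refine mul_le_mul_of_nonneg_left ((hE v r l hl).trans (mul_le_of_le_one_right hE0 ?_))
      (inv_pos.2 H.pos).le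
    rw [Real.exp_le_one_iff]
    linarith
  · refine add_le_add le_rfl (mul_le_mul_right ?_ _)
    exact (ENNReal.le_tsum (f := fun r => ∫⁻ l in box a L, ‖Acoef κ ξ v r l‖ₑ ^ 2) r).trans
      ((h a v).trans (mul_le_mul_right (hD v hv0) _))

theorem Hyp.Sk_cauchy (H : Hyp F κ) (hξ : Good ξ) (r : F) (a : Pl F → ℝ) (L : ℝ)
    (w w' : Pl F → ℝ) :
    Tendsto (fun p : ℝ × ℝ => ∫⁻ l in box a L, ‖Sk (mf ξ r) (Fk l (bb r)) (ray w p.1) -
      Sk (mf ξ r) (Fk l (bb r)) (ray w' p.2)‖ₑ ^ 2) (atTop ×ˢ atTop) (𝓝 0) := by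
  obtain ⟨E, hE0, hE⟩ := H.Ez_le hξ.1 a L
  have hv := volume_box_ne_top a L
  have he : Tendsto (fun p : ℝ × ℝ => κ⁻¹ * (E * Real.exp ((∑ j, ray w' p.2 j) / 3) +
      E * Real.exp ((∑ j, ray w p.1 j) / 3))) (atTop ×ˢ atTop) (𝓝 0) := by
    simpa using ((((tendsto_exp_ray w').comp tendsto_snd).const_mul E).add
      (((tendsto_exp_ray w).comp tendsto_fst).const_mul E)).const_mul κ⁻¹
  have h1 := tendsto_comb (c := 2 * volume (box a L)) (d := 2 * ‖(κ : ℂ)⁻¹‖ₑ ^ 2)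
    (by finiteness) (by finiteness) he (H.strip_cauchy hξ a L w w')
  refine tendsto_of_tendsto_of_tendsto_of_le_of_le tendsto_const_nhds h1 (fun _ => zero_le)
    fun p => ?_
  refine (lintegral_add_le (measurableSet_box a L) (c := (κ : ℂ)⁻¹)
    (v := fun l => (κ : ℂ)⁻¹ * (Ez κ ξ (ray w' p.2) r l - Ez κ ξ (ray w p.1) r l))
    (w := fun l => Acoef κ ξ (ray w p.1) r l - Acoef κ ξ (ray w' p.2) r l)
    (e := κ⁻¹ * (E * Real.exp ((∑ j, ray w' p.2 j) / 3) + E * Real.exp ((∑ j, ray w p.1 j) / 3)))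
    (fun l _ => ?_) (fun l hl => ?_)).trans ?_
  · have := H.κ_ne
    simp only [Ez]
    field_simp
    ring
  · rw [norm_mul, norm_inv, Complex.norm_real, Real.norm_of_nonneg H.pos.le]
    exact mul_le_mul_of_nonneg_left ((norm_sub_le _ _).trans
      (add_le_add (hE _ r l hl) (hE _ r l hl))) (inv_pos.2 H.pos).le
  · refine add_le_add le_rfl (mul_le_mul_right ?_ _)
    exact ENNReal.le_tsum (f := fun r => ∫⁻ l in box a L,
      ‖Acoef κ ξ (ray w p.1) r l - Acoef κ ξ (ray w' p.2) r l‖ₑ ^ 2) r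

/-- The limit coefficient. -/
def Bc (κ : ℝ) (ξ : F × F → ℂ) (r : F) (l : Pl F → ℝ) : ℂ :=
  (κ : ℂ) * (tau ξ r * (MkV l (bb r) : ℂ))

theorem Hyp.spec (H : Hyp F κ) (hξ : Good ξ) (r : F) : WD (mf ξ r) (tau ξ r) ∧
    ∀ (a : Pl F → ℝ) (L : ℝ) (w : Pl F → ℝ), Tendsto (fun s : ℝ => ∫⁻ l in box a L,
      ‖Acoef κ ξ (ray w s) r l - Bc κ ξ r l‖ₑ ^ 2) atTop (𝓝 0) := by
  obtain ⟨t, ht, h⟩ := H.D.limit (mf ξ r) (bb r) (H.bddL hξ.1 r) (bb_nonneg r)
    (H.Sk_bdd hξ r) fun a L w w' ε hε => cauchy_of_tendsto (H.Sk_cauchy hξ r a L w w') hε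
  have h1 : tau ξ r = t := H.tau_eq hξ.1 ht
  refine ⟨by rwa [h1], fun a L w => ?_⟩
  obtain ⟨E, hE0, hE⟩ := H.Ez_le hξ.1 a L
  have hv := volume_box_ne_top a L
  have he : Tendsto (fun s : ℝ => E * Real.exp ((∑ j, ray w s j) / 3)) atTop (𝓝 0) := by
    simpa using (tendsto_exp_ray w).const_mul E
  have h2 := tendsto_comb (c := 2 * volume (box a L)) (d := 2 * ‖(κ : ℂ)‖ₑ ^ 2)
    (by finiteness) (by finiteness) he (h a L w)
  refine tendsto_of_tendsto_of_tendsto_of_le_of_le tendsto_const_nhds h2 (fun _ => zero_le)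
    fun s => ?_
  refine lintegral_add_le (measurableSet_box a L) (v := Ez κ ξ (ray w s) r) (fun l _ => ?_)
    fun l hl => hE _ r l hl
  rw [Bc, h1, Ez]
  ring

/-- A lower bound `m` for `MkV` on a unit box bounds the coefficient. -/
theorem Hyp.coef_le (H : Hyp F κ) (hξ : Good ξ) : ∃ C : ℝ, 0 < C ∧
    ∀ (r : F) (a : Pl F → ℝ) (m D : ℝ), 0 ≤ m → 0 ≤ D → (∀ l ∈ box a 1, m ≤ MkV l (bb r)) →
      (∀ᶠ s in atTop, N2 (Del ξ) (thY ξ (ray 0 s)) ≤ ENNReal.ofReal D) →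
      (‖tau ξ r‖ * m) ^ 2 ≤ C * (1 + Real.exp (2 * ∑ j, a j)) * D := by
  obtain ⟨C, hC, h⟩ := H.box_one hξ.1 1
  have hκ := H.pos
  refine ⟨2 * C / κ ^ 2, by positivity, fun r a m D hm hD hlow hN => ?_⟩
  have key : ENNReal.ofReal ((κ * (‖tau ξ r‖ * m)) ^ 2) ≤
      ENNReal.ofReal (2 * (C * (1 + Real.exp (2 * ∑ j, a j)) * D)) := by
    have h1 := (tendsto_two_mul ((H.spec hξ r).2 a 1 0)).const_add
      (ENNReal.ofReal (2 * (C * (1 + Real.exp (2 * ∑ j, a j)) * D)))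
    rw [add_zero] at h1
    refine ge_of_tendsto h1 ?_
    filter_upwards [hN] with s hs
    have hmeas : Measurable fun l => 2 * ‖Acoef κ ξ (ray 0 s) r l‖ₑ ^ 2 :=
      ((H.meas_A hξ.1 _ r).enorm.pow_const 2).const_mul 2
    calc ENNReal.ofReal ((κ * (‖tau ξ r‖ * m)) ^ 2)
        = ∫⁻ _ in box a 1, ENNReal.ofReal ((κ * (‖tau ξ r‖ * m)) ^ 2) := by
          rw [setLIntegral_const, volume_box]
          simp
      _ ≤ ∫⁻ l in box a 1, (2 * ‖Acoef κ ξ (ray 0 s) r l‖ₑ ^ 2 +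
            2 * ‖Acoef κ ξ (ray 0 s) r l - Bc κ ξ r l‖ₑ ^ 2) := by
          refine setLIntegral_mono' (measurableSet_box a 1) fun l hl => ?_
          have h2 := enorm_add_sq (Acoef κ ξ (ray 0 s) r l)
            (-(Acoef κ ξ (ray 0 s) r l - Bc κ ξ r l))
          rw [enorm_neg, ← sub_eq_add_neg, sub_sub_cancel] at h2
          refine le_trans ?_ h2
          rw [← ofReal_norm, ← ENNReal.ofReal_pow (norm_nonneg _)]
          refine ENNReal.ofReal_le_ofReal (pow_le_pow_left₀ (by positivity) ?_ 2)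
          rw [Bc, norm_mul, norm_mul, Complex.norm_real, Complex.norm_real,
            Real.norm_of_nonneg hκ.le]
          exact mul_le_mul_of_nonneg_left (mul_le_mul_of_nonneg_left
            ((hlow l hl).trans (le_abs_self _)) (norm_nonneg _)) hκ.le
      _ = 2 * (∫⁻ l in box a 1, ‖Acoef κ ξ (ray 0 s) r l‖ₑ ^ 2) +
            2 * ∫⁻ l in box a 1, ‖Acoef κ ξ (ray 0 s) r l - Bc κ ξ r l‖ₑ ^ 2 := by
          rw [lintegral_add_left hmeas, lintegral_const_mul' _ _ (by simp),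
            lintegral_const_mul' _ _ (by simp)]
      _ ≤ _ := by
          refine add_le_add ?_ le_rfl
          have h2 := (ENNReal.le_tsum (f := fun r => ∫⁻ l in box a 1,
            ‖Acoef κ ξ (ray 0 s) r l‖ₑ ^ 2) r).trans ((h a _).trans (mul_le_mul_right hs _))
          refine (mul_le_mul_right h2 _).trans (le_of_eq ?_)
          rw [← ENNReal.ofReal_mul (by positivity), ENNReal.ofReal_mul (by norm_num : (0 : ℝ) ≤ 2),
            ENNReal.ofReal_ofNat]
  rw [ENNReal.ofReal_le_ofReal_iff (by positivity)] at key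
  rw [div_mul_eq_mul_div, div_mul_eq_mul_div, le_div_iff₀ (by positivity)]
  nlinarith

/-! ## the profile `MkV` -/

theorem Mk_exp (l b : ℝ) : R17.Mk (Real.exp l) b =
    Real.exp (2 / 3 * l) * R17.W0 (Real.exp (2 * l) * b) := by
  rw [R17.Mk, ← Real.exp_mul, mul_comm l, ← Real.exp_nat_mul]
  norm_num

theorem Mk_ge {a l L b : ℝ} (hb : 0 ≤ b) (h1 : a ≤ l) (h2 : l ≤ a + L) :
    Real.exp (2 / 3 * a) * R17.W0 (Real.exp (2 * (a + L)) * b) ≤ R17.Mk (Real.exp l) b := by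
  rw [Mk_exp]
  refine mul_le_mul (Real.exp_le_exp.2 (by linarith)) (R17.W0_antitoneOn
    (Set.mem_Ici.2 (by positivity)) (Set.mem_Ici.2 (by positivity)) ?_)
    (R17.W0_pos (by positivity)).le (Real.exp_pos _).le
  exact mul_le_mul_of_nonneg_right (Real.exp_le_exp.2 (by linarith)) hb

theorem Mk_le {a l L b : ℝ} (hb : 0 ≤ b) (h1 : a ≤ l) (h2 : l ≤ a + L) :
    R17.Mk (Real.exp l) b ≤ Real.exp (2 / 3 * L) * R17.Mk (Real.exp a) b := by
  rw [Mk_exp, Mk_exp, ← mul_assoc, ← Real.exp_add]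
  refine mul_le_mul (Real.exp_le_exp.2 (by linarith)) (R17.W0_antitoneOn
    (Set.mem_Ici.2 (by positivity)) (Set.mem_Ici.2 (by positivity)) ?_)
    (R17.W0_pos (by positivity)).le (Real.exp_pos _).le
  exact mul_le_mul_of_nonneg_right (Real.exp_le_exp.2 (by linarith)) hb

theorem MkV_pos (l : Pl F → ℝ) (r : F) : 0 < MkV l (bb r) :=
  Finset.prod_pos fun j _ => R17.Mk_pos (Real.exp_pos _) (bb_nonneg r j)

theorem continuous_MkV (r : F) : Continuous fun l : Pl F → ℝ => MkV l (bb r) := by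
  unfold MkV
  refine continuous_finsetProd _ fun j _ => ?_
  exact (R17.continuousOn_Mk (bb_nonneg r j)).comp_continuous
    (Real.continuous_exp.comp (continuous_apply j)) fun l => Real.exp_pos _

theorem Hyp.vanish (H : Hyp F κ) (hξ : Good ξ) (h0 : ∀ γ : SL F, tau (tr ξ (γ : Mat F)) 0 = 0)
    (r : F) : tau ξ r = 0 := by
  obtain ⟨C, hC, h⟩ := H.coef_le hξ
  set m : ℝ := ∏ j : Pl F, Real.exp (2 / 3 * 0) * R17.W0 (Real.exp (2 * (0 + 1)) * bb r j) with hm
  have hm0 : 0 < m := Finset.prod_pos fun j _ => mul_pos (Real.exp_pos _)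
    (R17.W0_pos (mul_nonneg (Real.exp_pos _).le (bb_nonneg r j)))
  have hlow : ∀ l ∈ box (0 : Pl F → ℝ) 1, m ≤ MkV l (bb r) := fun l hl =>
    Finset.prod_le_prod (fun j _ => (mul_pos (Real.exp_pos _)
      (R17.W0_pos (mul_nonneg (Real.exp_pos _).le (bb_nonneg r j)))).le)
      fun j _ => Mk_ge (bb_nonneg r j) (hl j (Set.mem_univ j)).1 (hl j (Set.mem_univ j)).2
  have key : (‖tau ξ r‖ * m) ^ 2 ≤ 0 := by
    refine le_of_forall_pos_le_add fun ε hε => ?_
    have hK : 0 < C * (1 + Real.exp (2 * ∑ j : Pl F, (0 : Pl F → ℝ) j)) := by positivity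
    have := h r 0 m (ε / (C * (1 + Real.exp (2 * ∑ j : Pl F, (0 : Pl F → ℝ) j)))) hm0.le
      (by positivity) hlow (ENNReal.tendsto_nhds_zero.1 (H.N2_zero hξ h0 0) _
        (ENNReal.ofReal_pos.2 (by positivity)))
    rwa [mul_div_cancel₀ _ hK.ne', ← zero_add ε] at this
  have h1 : ‖tau ξ r‖ * m = 0 := pow_eq_zero_iff (two_ne_zero) |>.1 (le_antisymm key (sq_nonneg _))
  exact norm_eq_zero.1 ((mul_eq_zero.1 h1).resolve_right hm0.ne')

theorem Hyp.bound (H : Hyp F κ) (hξ : Good ξ) : ∃ C : ℝ, 0 ≤ C ∧ ∀ r : F, r ≠ 0 →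
    ‖tau ξ r‖ ^ 2 * nF r ^ (1 / 3 : ℝ) ≤ C * (1 + nF r) := by
  obtain ⟨C, hC, h⟩ := H.coef_le hξ
  obtain ⟨D, hD⟩ := H.N2_bound hξ
  set W : ℝ := R17.W0 (Real.exp 2 * (4 * Real.pi ^ 2)) ^ Fintype.card (Pl F) with hW
  have hW0 : 0 < W := pow_pos (R17.W0_pos (by positivity)) _
  refine ⟨C * |D| / W ^ 2, by positivity, fun r hr => ?_⟩
  set S : ℝ := ∑ j, lg r j with hS
  have hn : nF r = Real.exp S := (exp_sum_lg hr).symm
  have hlow : ∀ l ∈ box (fun j => -lg r j / 2) 1, Real.exp (-S / 3) * W ≤ MkV l (bb r) := by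
    intro l hl
    have e : Real.exp (-S / 3) * W = ∏ j : Pl F, Real.exp (2 / 3 * (-lg r j / 2)) *
        R17.W0 (Real.exp (2 * (-lg r j / 2 + 1)) * bb r j) := by
      rw [Finset.prod_mul_distrib, ← Real.exp_sum, hW, ← Finset.card_univ, ← Finset.prod_const]
      congr 1
      · congr 1
        rw [hS, ← Finset.mul_sum, ← Finset.sum_div, Finset.sum_neg_distrib]
        ring
      · refine Finset.prod_congr rfl fun j _ => ?_
        rw [bb, ← exp_lg hr, mul_left_comm (Real.exp (2 * (-lg r j / 2 + 1))), ← Real.exp_add,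
          mul_comm (Real.exp 2)]
        congr 3
        ring
    rw [e]
    exact Finset.prod_le_prod (fun j _ => (mul_pos (Real.exp_pos _)
      (R17.W0_pos (mul_nonneg (Real.exp_pos _).le (bb_nonneg r j)))).le)
      fun j _ => Mk_ge (bb_nonneg r j) (hl j (Set.mem_univ j)).1 (hl j (Set.mem_univ j)).2
  have key := h r _ _ |D| (by positivity) (abs_nonneg D) hlow (by
    filter_upwards [eventually_ray (0 : Pl F → ℝ)] with s hs
    exact (hD _ hs).trans (ENNReal.ofReal_le_ofReal (le_abs_self D)))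
  have e1 : Real.exp (2 * ∑ j, -lg r j / 2) = Real.exp (-S) := by
    congr 1
    rw [hS, ← Finset.sum_div, Finset.sum_neg_distrib]
    ring
  rw [e1] at key
  rw [hn, ← Real.exp_mul, div_mul_eq_mul_div, le_div_iff₀ (by positivity)]
  have e2 : Real.exp (S * (1 / 3)) = Real.exp (-S / 3) ^ 2 * Real.exp S := by
    rw [← Real.exp_nat_mul, ← Real.exp_add]
    congr 1
    push_cast
    ring
  have e3 : Real.exp (-S) * Real.exp S = 1 := by rw [← Real.exp_add]; simp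
  have h4 := mul_le_mul_of_nonneg_right key (Real.exp_pos S).le
  calc ‖tau ξ r‖ ^ 2 * Real.exp (S * (1 / 3)) * W ^ 2
      = (‖tau ξ r‖ * (Real.exp (-S / 3) * W)) ^ 2 * Real.exp S := by rw [e2]; ring
    _ ≤ C * (1 + Real.exp (-S)) * |D| * Real.exp S := h4
    _ = C * |D| * (Real.exp S + Real.exp (-S) * Real.exp S) := by ring
    _ = _ := by rw [e3]; ring

theorem Hyp.supp (H : Hyp F κ) (hξ : Good ξ) : ∃ M : ℕ, M ≠ 0 ∧
    ∀ r, tau ξ r ≠ 0 → IsIntegral ℤ ((M : F) * r) := by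
  obtain ⟨M, B, hM, h⟩ := H.R.bddL ξ hξ.1
  refine ⟨M, hM, fun r hr => ?_⟩
  by_contra hn
  refine hr (H.tau_eq hξ.1 ⟨k0, H.D.kc0, ?_⟩)
  have h0 : ∀ c, mf ξ r c = 0 := fun c => by
    by_contra hc
    exact hn ((h r).2 c hc).2.2
  have h1 : ∀ v, Sk (mf ξ r) k0 v = 0 := fun v => by simp [Sk, h0]
  exact ⟨⟨0, fun v => by simp [h1]⟩, fun v => by simp [h1]⟩

theorem Hyp.norm_tau_le (H : Hyp F κ) (hξ : Good ξ) : ∃ C : ℝ, 0 ≤ C ∧ ∀ r : F, r ≠ 0 →
    ‖tau ξ r‖ ≤ C * Real.exp ((∑ j, lg r j) / 3) := by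
  obtain ⟨C, hC, h⟩ := H.bound hξ
  obtain ⟨M, hM, hs⟩ := H.supp hξ
  have hM0 : (M : F) ≠ 0 := Nat.cast_ne_zero.2 hM
  have hnM := nF_pos hM0
  refine ⟨Real.sqrt (C * (nF (M : F) + 1)), Real.sqrt_nonneg _, fun r hr => ?_⟩
  by_cases h0 : tau ξ r = 0
  · rw [h0, norm_zero]; positivity
  have h1 := H.L.one_le _ (mul_ne_zero hM0 hr) (hs r h0)
  have h2 := h r hr
  rw [nF_mul] at h1
  set S : ℝ := ∑ j, lg r j with hS
  have hn : nF r = Real.exp S := (exp_sum_lg hr).symm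
  have e1 : Real.exp S = Real.exp (S / 3) ^ 2 * Real.exp (S / 3) := by
    rw [← pow_succ, ← Real.exp_nat_mul]
    congr 1
    push_cast
    ring
  have h3 : 0 < Real.exp (S / 3) := Real.exp_pos _
  rw [hn, ← Real.exp_mul, mul_one_div] at h2
  rw [hn] at h1
  have h4 : ‖tau ξ r‖ ^ 2 ≤ C * (nF (M : F) + 1) * Real.exp (S / 3) ^ 2 := by
    refine le_of_mul_le_mul_right (h2.trans ?_) h3
    rw [mul_assoc, ← e1, mul_assoc]
    exact mul_le_mul_of_nonneg_left (by linarith) hC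
  refine le_trans (Real.le_sqrt_of_sq_le h4) (le_of_eq ?_)
  rw [Real.sqrt_mul (by positivity), Real.sqrt_sq h3.le]

theorem profile_le : ∃ C : ℝ, 0 ≤ C ∧ ∀ t : ℝ,
    Real.exp (t / 3) * R17.W0 (4 * Real.pi ^ 2 * Real.exp t) ≤
      C * min (Real.exp (-0 * t)) (Real.exp (-2 * t)) := by
  obtain ⟨C, hC, h⟩ := R17.U1_le_rpow (A := 0) (by norm_num)
  obtain ⟨C', hC', h'⟩ := R17.U1_le_rpow (A := 2) (by norm_num)
  refine ⟨max C C', (le_max_left _ _).trans' hC.le, fun t => ?_⟩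
  have h0 := Real.exp_pos t
  have h1 : Real.exp (t / 3) * R17.W0 (4 * Real.pi ^ 2 * Real.exp t) ≤ R17.U1 (Real.exp t) := by
    rw [R17.U1, ← Real.exp_mul, mul_one_div]
    refine mul_le_mul_of_nonneg_left (R17.W0_antitoneOn (Set.mem_Ici.2 h0.le)
      (Set.mem_Ici.2 (by positivity)) ?_) (Real.exp_pos _).le
    refine le_mul_of_one_le_left h0.le ?_
    nlinarith [Real.pi_gt_three]
  refine h1.trans ?_
  rw [mul_min_of_nonneg _ _ ((le_max_left _ _).trans' hC.le)]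
  refine le_min ((h _ h0).2.trans ?_) ((h' _ h0).2.trans ?_)
  · rw [← Real.exp_mul, mul_comm t]
    exact mul_le_mul_of_nonneg_right (le_max_left _ _) (Real.exp_pos _).le
  · rw [← Real.exp_mul, mul_comm t]
    exact mul_le_mul_of_nonneg_right (le_max_right _ _) (Real.exp_pos _).le

theorem Hyp.summable_Th (H : Hyp F κ) (hξ : Good ξ) (l : Pl F → ℝ) :
    Summable fun r : F => ‖tau ξ r * (MkV l (bb r) : ℂ)‖ := by
  classical
  obtain ⟨C, hC, h⟩ := H.norm_tau_le hξ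
  obtain ⟨M, hM, hs⟩ := H.supp hξ
  obtain ⟨C', hC', h'⟩ := profile_le
  obtain ⟨E, -, hE⟩ := lsum_tsum H.L hM
  have key := (hE (fun j => 2 * l j) (fun r => if r = 0 then 0 else tau ξ r * (MkV l (bb r) : ℂ))
    (C * C' ^ Fintype.card (Pl F)) (by positivity) fun r hr => by
      have hr0 : r ≠ 0 := fun h0 => hr (if_pos h0)
      rw [if_neg hr0] at hr ⊢
      refine ⟨hr0, hs r (left_ne_zero_of_mul hr), ?_⟩
      rw [norm_mul, Complex.norm_real, Real.norm_of_nonneg (MkV_pos l r).le]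
      refine (mul_le_mul_of_nonneg_right (h r hr0) (MkV_pos l r).le).trans ?_
      rw [mul_assoc, mul_assoc]
      refine mul_le_mul_of_nonneg_left ?_ hC
      rw [Finset.sum_div, Real.exp_sum, MkV, ← Finset.card_univ, ← Finset.prod_const,
        ← Finset.prod_mul_distrib, ← Finset.prod_mul_distrib]
      refine Finset.prod_le_prod (fun j _ => mul_nonneg (Real.exp_pos _).le
        (R17.Mk_pos (Real.exp_pos _) (bb_nonneg r j)).le) fun j _ => le_trans (le_of_eq ?_) (h' _)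
      rw [Mk_exp, bb, ← exp_lg hr0, ← mul_assoc, ← Real.exp_add, mul_left_comm, ← Real.exp_add]
      congr 2
      ring).1
  refine key.congr_cofinite ?_
  filter_upwards [eventually_cofinite_ne (0 : F)] with r hr
  rw [if_neg hr]

theorem Hyp.continuous_Th (H : Hyp F κ) (hξ : Good ξ) : Continuous (Th ξ) := by
  rw [continuous_iff_continuousAt]
  intro w₀
  set a : Pl F → ℝ := fun j => (w₀ j).2 - 1 with ha
  have hs : {w : HH F | ∀ j, (w j).2 ∈ Set.Ioo (a j) (a j + 2)} ∈ 𝓝 w₀ := by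
    refine IsOpen.mem_nhds ?_ fun j => ⟨by simp [ha], by simp only [ha]; linarith⟩
    rw [Set.ofPred_forall]
    exact isOpen_iInter_of_finite fun j =>
      isOpen_Ioo.preimage (continuous_snd.comp (continuous_apply j))
  refine ContinuousOn.continuousAt ?_ hs
  refine continuousOn_tsum
    (u := fun r => Real.exp (2 / 3 * 2) ^ Fintype.card (Pl F) * ‖tau ξ r * (MkV a (bb r) : ℂ)‖)
    (fun r => Continuous.continuousOn ?_) ((H.summable_Th hξ a).mul_left _) fun r w hw => ?_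
  · refine (continuous_const.mul (Complex.continuous_ofReal.comp
      ((continuous_MkV r).comp ?_))).mul (continuous_eV.comp ?_)
    · fun_prop
    · fun_prop
  · rw [norm_mul, norm_eV, mul_one, norm_mul, norm_mul, Complex.norm_real, Complex.norm_real,
      Real.norm_of_nonneg (MkV_pos _ r).le, Real.norm_of_nonneg (MkV_pos _ r).le, mul_left_comm]
    refine mul_le_mul_of_nonneg_left ?_ (norm_nonneg _)
    rw [MkV, MkV, ← Finset.card_univ, ← Finset.prod_const, ← Finset.prod_mul_distrib]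
    exact Finset.prod_le_prod (fun j _ => (R17.Mk_pos (Real.exp_pos _) (bb_nonneg r j)).le)
      fun j _ => Mk_le (bb_nonneg r j) (hw j).1.le (hw j).2.le

/-! ## convergence and automorphy -/

theorem Hyp.tendsto_strip (H : Hyp F κ) (hξ : Good ξ) (a : Pl F → ℝ) (L : ℝ) :
    Tendsto (fun s : ℝ => ∑' r : F, ∫⁻ l in box a L,
      ‖Acoef κ ξ (ray 0 s) r l - Bc κ ξ r l‖ₑ ^ 2) atTop (𝓝 0) := by
  rw [ENNReal.tendsto_nhds_zero]
  intro ε hε
  obtain ⟨s₀, hc⟩ := cauchy_of_tendsto (Φ := fun s s' => ∑' r : F, ∫⁻ l in box a L,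
      ‖Acoef κ ξ (ray 0 s) r l - Acoef κ ξ (ray 0 s') r l‖ₑ ^ 2)
    (H.strip_cauchy hξ a L 0 0) (ENNReal.half_pos hε.ne')
  filter_upwards [eventually_ge_atTop s₀] with s hs
  rw [ENNReal.tsum_eq_iSup_sum]
  refine iSup_le fun S => ?_
  have ht : Tendsto (fun s' : ℝ => ε + ∑ r ∈ S, 2 * ∫⁻ l in box a L,
      ‖Acoef κ ξ (ray 0 s') r l - Bc κ ξ r l‖ₑ ^ 2) atTop (𝓝 (ε + ∑ r ∈ S, 0)) :=
    tendsto_const_nhds.add (tendsto_finsetSum _ fun r _ => tendsto_two_mul ((H.spec hξ r).2 a L 0))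
  rw [Finset.sum_const_zero, add_zero] at ht
  refine ge_of_tendsto ht ?_
  filter_upwards [eventually_ge_atTop s₀] with s' hs'
  calc _ ≤ ∑ r ∈ S, (2 * (∫⁻ l in box a L,
          ‖Acoef κ ξ (ray 0 s) r l - Acoef κ ξ (ray 0 s') r l‖ₑ ^ 2) + 2 * ∫⁻ l in box a L,
          ‖Acoef κ ξ (ray 0 s') r l - Bc κ ξ r l‖ₑ ^ 2) :=
        Finset.sum_le_sum fun r _ => lint_tri _ _ (H.meas_A hξ.1 _ r) (H.meas_A hξ.1 _ r)
    _ ≤ _ := by
        rw [Finset.sum_add_distrib, ← Finset.mul_sum]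
        gcongr
        calc _ ≤ 2 * (ε / 2) := by
              gcongr
              exact (ENNReal.sum_le_tsum S).trans (hc s hs s' hs')
          _ ≤ ε := ENNReal.mul_div_le

theorem Hyp.hasExp_Th (H : Hyp F κ) (hξ : Good ξ) : ∃ M : ℕ, M ≠ 0 ∧
    HasExp M (fun w => (κ : ℂ) * Th ξ w) (Bc κ ξ) := by
  obtain ⟨M, hM, hs⟩ := H.supp hξ
  refine ⟨M, hM, fun r => ?_, fun r l hr => hs r (left_ne_zero_of_mul (right_ne_zero_of_mul hr)),
    fun l => ⟨?_, fun z => ?_⟩⟩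
  · exact (continuous_const.mul (continuous_const.mul
      (Complex.continuous_ofReal.comp (continuous_MkV r)))).measurable
  · simpa only [Bc, norm_mul (κ : ℂ)] using (H.summable_Th hξ l).mul_left ‖(κ : ℂ)‖
  · simp only [Th, Bc, pt]
    rw [← tsum_mul_left]
    exact tsum_congr fun r => by ring

theorem Hyp.tendsto_local (H : Hyp F κ) (hξ : Good ξ) {K : Set (HH F)} (hK : IsCompact K) :
    Tendsto (fun s : ℝ => ∫⁻ w in K, ‖thY ξ (ray 0 s) w - (κ : ℂ) * Th ξ w‖ₑ ^ 2 ∂μHH F)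
      atTop (𝓝 0) := by
  obtain ⟨N, hN, hf⟩ := H.four ξ hξ.1
  obtain ⟨M, hM, hg⟩ := H.hasExp_Th hξ
  obtain ⟨C, a, L, h⟩ := H.B.compact_le K (N * M) hK (mul_ne_zero hN hM)
  have ht := ENNReal.Tendsto.const_mul (a := ENNReal.ofReal C) (H.tendsto_strip hξ a L)
    (Or.inr ENNReal.ofReal_ne_top)
  rw [mul_zero] at ht
  refine tendsto_of_tendsto_of_tendsto_of_le_of_le tendsto_const_nhds ht (fun _ => zero_le)
    fun s => ?_
  exact h (fun w => thY ξ (ray 0 s) w - (κ : ℂ) * Th ξ w)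
    (fun r l => Acoef κ ξ (ray 0 s) r l - Bc κ ξ r l)
    ((H.meas_thY hξ.1 _).sub (continuous_const.mul (H.continuous_Th hξ)).measurable)
    (hasExp_sub (hasExp_mono (dvd_mul_right N M) (hf _)) (hasExp_mono (dvd_mul_left M N) hg))

instance isOpenPosMeasure_μHH : (μHH F).IsOpenPosMeasure := by
  unfold μHH
  infer_instance

theorem Hyp.aut (H : Hyp F κ) (hξ : Good ξ) (γ : SL F) (w : HH F) :
    Th (tr ξ (γ : Mat F)) (γ • w) = Th ξ w := by
  have hη := H.good_tr hξ γ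
  have hc : Continuous fun w : HH F => γ • w := H.G.cont _ (det_ne γ)
  have hm : MeasurePreserving (fun w : HH F => γ • w) (μHH F) (μHH F) := H.G.meas _ (det_ne γ)
  refine mul_left_cancel₀ H.κ_ne ?_
  refine eq_of_local (μ := μHH F) (Φ := fun s => thY ξ (ray 0 s))
    (G := fun w => (κ : ℂ) * Th (tr ξ (γ : Mat F)) (γ • w)) (G' := fun w => (κ : ℂ) * Th ξ w)
    (fun s => H.meas_thY hξ.1 _) (continuous_const.mul ((H.continuous_Th hη).comp hc))
    (continuous_const.mul (H.continuous_Th hξ)) (fun K hK => ?_)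
    (fun K hK => H.tendsto_local hξ hK) w
  have hK' := hK.image hc
  refine tendsto_of_tendsto_of_tendsto_of_le_of_le tendsto_const_nhds (H.tendsto_local hη hK')
    (fun _ => zero_le) fun s => ?_
  have hf : Measurable fun w : HH F =>
      ‖thY (tr ξ (γ : Mat F)) (ray 0 s) w - (κ : ℂ) * Th (tr ξ (γ : Mat F)) w‖ₑ ^ 2 :=
    ((H.meas_thY hη.1 _).sub
      (continuous_const.mul (H.continuous_Th hη)).measurable).enorm.pow_const 2
  simp only
  rw [← hm.setLIntegral_comp_preimage hK'.measurableSet hf]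
  simp only [H.G.aut]
  exact lintegral_mono_set (Set.subset_preimage_image _ _)

end Crest.Agent.T27.TH.A5

namespace Crest.Agent.T27.TH

/-- **Leaf A5**. -/
theorem theta_53 (F : Type) [Field F] [NumberField F] [Emb F] (hL : LatStmt F) (hR : RowStmt F)
    (hD : DensStmt F) (hG : GeomStmt F) (hU : UnfoldStmt F) (hB : BoxStmt F)
    (hF : FourierStmt F) : ThetaStmt F := by
  obtain ⟨κ, hκ, hf⟩ := hF
  have H : A5.Hyp F κ := ⟨hL, hR, hD, hG, hU, hB, hκ, hf⟩
  refine ⟨fun ξ hξ r => (H.spec hξ r).1, fun ξ hξ => ?_, fun ξ hξ => H.aut hξ,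
    fun ξ hξ => H.vanish hξ⟩
  obtain ⟨C, -, h⟩ := H.bound hξ
  exact ⟨C, h⟩

end Crest.Agent.T27.TH
end
end

-- ▼ part T27/ThInt_54
section

/-!
# Row 27, theta function, leaf B2 (part 1): the calculus of `S`-adic integrals
-/

set_option autoImplicit false

noncomputable section

namespace Crest.Agent.T27.TH

open scoped ComplexConjugate
open NumberField

namespace I54

variable {F : Type} [Field F] [NumberField F] [Emb F] [Ar F]

local notation "𝐍" => ((Ar.N F : ℕ) : F)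
local notation "𝐑" => (Ar.R : Subring F)
local notation "𝐋" => (Ar.L : Subring F)

theorem N_ne_nat : Ar.N F ≠ 0 := by have := Ar.two_le (F := F); omega

theorem N_ne : 𝐍 ≠ 0 := by exact_mod_cast N_ne_nat (F := F)

theorem R_of_int {x : F} (h : IsIntegral ℤ x) : x ∈ 𝐑 := (Ar.mem_R x).2 ⟨0, by simpa using h⟩

theorem L_of_int {x : F} (h : IsIntegral ℤ x) : x ∈ 𝐋 :=
  (Ar.mem_L x).2 ⟨1, Nat.coprime_one_left _, by simpa using h⟩

theorem Npow_L (j : ℕ) : 𝐍 ^ j ∈ 𝐋 := Subring.pow_mem _ (natCast_mem _ _) _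

theorem Npow_R (j : ℕ) : 𝐍 ^ j ∈ 𝐑 := Subring.pow_mem _ (natCast_mem _ _) _


theorem L_of_cube {z : F} (h : z ^ 3 ∈ 𝐋) : z ∈ 𝐋 := by
  obtain ⟨m, hm, hi⟩ := (Ar.mem_L _).1 h
  refine (Ar.mem_L _).2 ⟨m, hm, IsIntegral.of_pow (n := 3) (by norm_num) ?_⟩
  have : ((m : F) * z) ^ 3 = (m : F) ^ 2 * ((m : F) * z ^ 3) := by ring
  rw [this]
  exact ((M82.int_nat m).pow 2).mul hi

/-- boundedness is monotone in the level -/
theorem bd_mono {j J : ℕ} {x : F} (h : 𝐍 ^ j * x ∈ 𝐋) (hj : j ≤ J) : 𝐍 ^ J * x ∈ 𝐋 := by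
  obtain ⟨k, rfl⟩ := Nat.exists_eq_add_of_le hj
  have : 𝐍 ^ (j + k) * x = 𝐍 ^ k * (𝐍 ^ j * x) := by ring
  rw [this]
  exact Subring.mul_mem _ (Npow_L k) h

theorem deep_zero (j : ℕ) : Deep j (0 : F) := ⟨0, Subring.zero_mem _, by simp⟩

theorem deep_add {j : ℕ} {x y : F} (hx : Deep j x) (hy : Deep j y) : Deep j (x + y) := by
  obtain ⟨a, ha, rfl⟩ := hx
  obtain ⟨b, hb, rfl⟩ := hy
  exact ⟨a + b, Subring.add_mem _ ha hb, by ring⟩

theorem deep_neg {j : ℕ} {x : F} (hx : Deep j x) : Deep j (-x) := by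
  obtain ⟨a, ha, rfl⟩ := hx
  exact ⟨-a, Subring.neg_mem _ ha, by ring⟩

theorem deep_mul {j : ℕ} {x y : F} (hx : Deep j x) (hy : y ∈ 𝐋) : Deep j (x * y) := by
  obtain ⟨a, ha, rfl⟩ := hx
  exact ⟨a * y, Subring.mul_mem _ ha hy, by ring⟩

theorem deep_mono {j J : ℕ} {x : F} (hx : Deep J x) (hj : j ≤ J) : Deep j x := by
  obtain ⟨k, rfl⟩ := Nat.exists_eq_add_of_le hj
  obtain ⟨a, ha, rfl⟩ := hx
  exact ⟨𝐍 ^ k * a, Subring.mul_mem _ (Npow_L k) ha, by ring⟩

theorem deep_L {j : ℕ} {x : F} (hx : Deep j x) : x ∈ 𝐋 := by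
  obtain ⟨a, ha, rfl⟩ := hx
  exact Subring.mul_mem _ (Npow_L j) ha

/-- a deep element times a bounded element -/
theorem deep_mul_bd {j k : ℕ} {x y : F} (hx : Deep (j + k) x) (hy : 𝐍 ^ k * y ∈ 𝐋) :
    Deep j (x * y) := by
  obtain ⟨a, ha, rfl⟩ := hx
  exact ⟨a * (𝐍 ^ k * y), Subring.mul_mem _ ha hy, by ring⟩

theorem sb_mono {j J : ℕ} {φ : F → ℂ} (h : SB j φ) (hj : j ≤ J) : SB J φ :=
  ⟨fun x y hy => h.1 x y (deep_mono hy hj), fun x hx => bd_mono (h.2 x hx) hj⟩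


theorem sb_scale_aux {j k : ℕ} {φ : F → ℂ} (h : SB j φ) {m : F} (hm : m ≠ 0)
    (h1 : 𝐍 ^ k * m ∈ 𝐋) (h2 : 𝐍 ^ k * m⁻¹ ∈ 𝐋) : SB (j + k) fun x => φ (m * x) := by
  refine ⟨fun x y hy => ?_, fun x hx => ?_⟩
  · show φ (m * (x + y)) = φ (m * x)
    rw [mul_add, mul_comm m y]
    exact h.1 _ _ (deep_mul_bd hy h1)
  · have := Subring.mul_mem _ (h.2 _ hx) h2
    convert this using 1
    field_simp
    ring

theorem exists_bd2 (m : F) : ∃ k : ℕ, 𝐍 ^ k * m ∈ 𝐋 ∧ 𝐍 ^ k * m⁻¹ ∈ 𝐋 := by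
  obtain ⟨k, hk⟩ := Ar.pow_mem_L m
  obtain ⟨k', hk'⟩ := Ar.pow_mem_L m⁻¹
  exact ⟨k + k', bd_mono hk (by omega), bd_mono hk' (by omega)⟩

theorem sb_scale {j : ℕ} {φ : F → ℂ} (h : SB j φ) {m : F} (hm : m ≠ 0) :
    ∃ J, SB J fun x => φ (m * x) := by
  obtain ⟨k, h1, h2⟩ := exists_bd2 m
  exact ⟨j + k, sb_scale_aux h hm h1 h2⟩


theorem indR_mem {φ : F → ℂ} {x : F} (h : x ∈ 𝐑) : indR φ x = φ x :=
  Set.indicator_of_mem (by exact h) φ

theorem indR_not {φ : F → ℂ} {x : F} (h : x ∉ 𝐑) : indR φ x = 0 :=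
  Set.indicator_of_notMem (by exact h) φ

/-- The residue class `b + m R`. -/
def cl (m b : F) : Set F := {x | (x - b) / m ∈ 𝐑}

theorem cl_R {m b x : F} (hm0 : m ≠ 0) (hm : m ∈ 𝐑) (hb : b ∈ 𝐑) (hx : x ∈ cl m b) : x ∈ 𝐑 := by
  have := Subring.add_mem _ (Subring.mul_mem _ hm hx) hb
  convert this using 1
  field_simp
  ring

theorem per_cl {j : ℕ} {φ : F → ℂ} (h : SB j φ) {m b : F} (hm0 : m ≠ 0) (hm : m ∈ 𝐑)
    (hb : b ∈ 𝐑) : Per ((cl m b).indicator φ) := by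
  obtain ⟨D, hD, hDi⟩ := M82.exists_den m⁻¹
  refine ⟨Ar.N F ^ j * D, mul_ne_zero (pow_ne_zero _ N_ne_nat) hD, ?_, ?_⟩
  · rintro x _ ⟨y, hy, rfl⟩
    have e1 : φ (x + ((Ar.N F ^ j * D : ℕ) : F) * y) = φ x :=
      h.1 _ _ ⟨D * y, L_of_int ((M82.int_nat D).mul hy), by push_cast; ring⟩
    have e2 : ((Ar.N F ^ j * D : ℕ) : F) * y / m ∈ 𝐑 := by
      have := Subring.mul_mem _ (Npow_R j) (R_of_int (hDi.mul hy))
      convert this using 1
      push_cast
      field_simp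
    have e3 : x + ((Ar.N F ^ j * D : ℕ) : F) * y ∈ cl m b ↔ x ∈ cl m b := by
      simp only [cl, Set.mem_ofPred_eq]
      have : (x + ((Ar.N F ^ j * D : ℕ) : F) * y - b) / m =
          (x - b) / m + ((Ar.N F ^ j * D : ℕ) : F) * y / m := by ring
      rw [this]
      exact add_mem_cancel_right e2
    by_cases hx : x ∈ cl m b
    · rw [Set.indicator_of_mem hx, Set.indicator_of_mem (e3.2 hx), e1]
    · rw [Set.indicator_of_notMem hx, Set.indicator_of_notMem (fun h => hx (e3.1 h))]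
  · intro x hx
    have hx1 : x ∈ cl m b := Set.mem_of_indicator_ne_zero hx
    rw [Set.indicator_of_mem hx1] at hx
    have := (M82.int_nat D).mul
      (Ar.int_of _ (Subring.mul_mem _ (Npow_R j) (cl_R hm0 hm hb hx1)) (h.2 x hx))
    have e : ((Ar.N F ^ j * D : ℕ) : F) * x = (D : F) * (𝐍 ^ j * x) := by push_cast; ring
    rw [e]
    exact this

theorem cl_one : cl (1 : F) 0 = (𝐑 : Set F) := by ext x; simp [cl]

theorem per {j : ℕ} {φ : F → ℂ} (h : SB j φ) : Per (indR φ) := by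
  have := per_cl h one_ne_zero (Subring.one_mem _) (Subring.zero_mem _)
  rwa [cl_one] at this

omit [Emb F] [Ar F] in
theorem mean_zero : mean (fun _ : F => (0 : ℂ)) = 0 := by
  unfold mean
  split_ifs <;> simp [meanN]

theorem intS_zero : intS (fun _ : F => (0 : ℂ)) = 0 := by
  have : indR (fun _ : F => (0 : ℂ)) = fun _ => 0 := by
    funext x; by_cases hx : x ∈ 𝐑
    · rw [indR_mem hx]
    · rw [indR_not hx]
  rw [intS, this, mean_zero]

variable (hM : MeanStmt F)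
include hM

theorem intS_add {j : ℕ} {φ ψ : F → ℂ} (h : SB j φ) (h' : SB j ψ) :
    intS (fun x => φ x + ψ x) = intS φ + intS ψ := by
  have : indR (fun x => φ x + ψ x) = indR φ + indR ψ := by
    funext x; by_cases hx : x ∈ 𝐑
    · simp only [Pi.add_apply, indR_mem hx]
    · simp only [Pi.add_apply, indR_not hx, add_zero]
  rw [intS, this, (hM.add _ _ (per h) (per h')).2]
  rfl

theorem intS_smul {j : ℕ} {φ : F → ℂ} (h : SB j φ) (a : ℂ) :
    intS (fun x => a * φ x) = a * intS φ := by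
  have : indR (fun x => a * φ x) = fun x => a * indR φ x := by
    funext x; by_cases hx : x ∈ 𝐑
    · simp only [indR_mem hx]
    · simp only [indR_not hx, mul_zero]
  rw [intS, this, (hM.smul _ _ (per h)).2]
  rfl

theorem shift {j : ℕ} {φ : F → ℂ} (h : SB j φ) (b : F) : intS (fun x => φ (x + b)) = intS φ := by
  obtain ⟨r, hr, l, hl, rfl⟩ := Ar.approx b (𝐍 ^ j) (pow_ne_zero _ N_ne)
  have : indR (fun x => φ (x + (r + 𝐍 ^ j * l))) = fun x => indR φ (x + r) := by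
    funext x; by_cases hx : x ∈ 𝐑
    · rw [indR_mem hx, indR_mem (Subring.add_mem _ hx hr), ← add_assoc]
      exact h.1 _ _ ⟨l, hl, rfl⟩
    · rw [indR_not hx, indR_not (fun h => hx ((add_mem_cancel_right hr).1 h))]
  rw [intS, this, (hM.shift _ _ (per h)).2]
  rfl

theorem mean_cl_eq {j : ℕ} {φ : F → ℂ} (h : SB j φ) {m b : F} (hm0 : m ≠ 0) (hm : m ∈ 𝐑)
    (hb : b ∈ 𝐑) : mean ((cl m b).indicator φ) = mean ((cl m 0).indicator φ) := by
  obtain ⟨r, hr, l, hl, e⟩ := Ar.approx (b / m) (𝐍 ^ j / m) (div_ne_zero (pow_ne_zero _ N_ne) hm0)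
  rw [← (hM.shift _ (𝐍 ^ j * l) (per_cl h hm0 hm hb)).2]
  congr 1
  funext x
  have e1 : φ (x + 𝐍 ^ j * l) = φ x := h.1 _ _ ⟨l, hl, rfl⟩
  have e3 : x + 𝐍 ^ j * l ∈ cl m b ↔ x ∈ cl m 0 := by
    simp only [cl, Set.mem_ofPred_eq]
    have : (x + 𝐍 ^ j * l - b) / m = (x - 0) / m + -r := by
      rw [sub_div, e]; ring
    rw [this]
    exact add_mem_cancel_right (Subring.neg_mem _ hr)
  by_cases hx : x ∈ cl m 0
  · rw [Set.indicator_of_mem hx, Set.indicator_of_mem (e3.2 hx), e1]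
  · rw [Set.indicator_of_notMem hx, Set.indicator_of_notMem (fun h => hx (e3.1 h))]

theorem mean_sum {ι : Type} (s : Finset ι) (φ : ι → F → ℂ) (h : ∀ i ∈ s, Per (φ i)) :
    Per (∑ i ∈ s, φ i) ∧ mean (∑ i ∈ s, φ i) = ∑ i ∈ s, mean (φ i) := by
  classical
  induction s using Finset.induction_on with
  | empty =>
    simp only [Finset.sum_empty]
    exact ⟨⟨1, one_ne_zero, fun _ _ _ => rfl, fun _ h => absurd rfl h⟩, mean_zero⟩
  | insert i s hi ih =>
    have h1 := ih fun k hk => h k (Finset.mem_insert_of_mem hk)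
    have h2 := hM.add _ _ (h i (Finset.mem_insert_self _ _)) h1.1
    rw [Finset.sum_insert hi, Finset.sum_insert hi]
    exact ⟨h2.1, by rw [h2.2, h1.2]⟩

theorem coset {j : ℕ} {φ : F → ℂ} (h : SB j φ) {m b : F} (hm0 : m ≠ 0) (hm : m ∈ 𝐑)
    (hb : b ∈ 𝐑) : mean ((cl m b).indicator φ) = ((Ar.nm m)⁻¹ : ℝ) * intS φ := by
  classical
  let m' : RR F := ⟨m, hm⟩
  have hm' : m' ≠ 0 := fun h => hm0 (congrArg Subtype.val h)
  have := Ar.fin_quot m' hm'
  have := Fintype.ofFinite (RR F ⧸ Ideal.span {m'})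
  have key : ∀ (x : RR F) (q : RR F ⧸ Ideal.span {m'}),
      (x : F) ∈ cl m ((q.out : RR F) : F) ↔ q = Ideal.Quotient.mk _ x := by
    intro x q
    rw [eq_comm, ← Ideal.Quotient.mk_out q, Ideal.Quotient.eq, Ideal.mem_span_singleton,
      Ideal.Quotient.mk_out]
    constructor
    · intro hx
      refine ⟨⟨_, hx⟩, Subtype.ext ?_⟩
      show (x : F) - ((q.out : RR F) : F) = m * (((x : F) - ((q.out : RR F) : F)) / m)
      field_simp
    · rintro ⟨t, ht⟩
      have : (x : F) - ((q.out : RR F) : F) = m * (t : F) := congrArg Subtype.val ht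
      show ((x : F) - ((q.out : RR F) : F)) / m ∈ 𝐑
      rw [this, mul_div_cancel_left₀ _ hm0]
      exact t.2
  have hsum : indR φ = ∑ q : RR F ⧸ Ideal.span {m'}, (cl m ((q.out : RR F) : F)).indicator φ := by
    funext x
    rw [Finset.sum_apply]
    by_cases hx : x ∈ 𝐑
    · rw [indR_mem hx, Finset.sum_eq_single (Ideal.Quotient.mk _ ⟨x, hx⟩)]
      · exact (Set.indicator_of_mem ((key ⟨x, hx⟩ _).2 rfl) φ).symm
      · intro q _ hq
        exact Set.indicator_of_notMem (fun h => hq ((key ⟨x, hx⟩ q).1 h)) φ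
      · intro h; exact absurd (Finset.mem_univ _) h
    · rw [indR_not hx]
      exact (Finset.sum_eq_zero fun q _ =>
        Set.indicator_of_notMem (fun h => hx (cl_R hm0 hm (q.out : RR F).2 h)) φ).symm
  have h1 := (mean_sum hM Finset.univ
    (fun q : RR F ⧸ Ideal.span {m'} => (cl m ((q.out : RR F) : F)).indicator φ)
    (fun q _ => per_cl h hm0 hm (q.out : RR F).2)).2
  rw [← hsum, Finset.sum_congr rfl fun q _ => mean_cl_eq hM h hm0 hm (q.out : RR F).2,
    Finset.sum_const, nsmul_eq_mul, Finset.card_univ, ← Nat.card_eq_fintype_card] at h1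
  have h2 : Ar.nm m = (Nat.card (RR F ⧸ Ideal.span {m'}) : ℝ) := Ar.nm_eq m' hm'
  have h3 : (Ar.nm m : ℂ) ≠ 0 := by exact_mod_cast (Ar.nm_pos m hm0).ne'
  rw [mean_cl_eq hM h hm0 hm hb, intS, h1]
  have h4 : ((Nat.card (RR F ⧸ Ideal.span {m'}) : ℕ) : ℂ) = (Ar.nm m : ℂ) := by
    rw [h2]; simp
  rw [h4]
  push_cast
  field_simp

omit hM in
theorem absS_pos {m : F} (hm : m ≠ 0) : 0 < absS m :=
  div_pos (Ar.nm_pos m hm) (lt_of_le_of_ne (M82.nF_nonneg m) (M82.nF_ne hm).symm)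

omit hM in
theorem absS_mul (x y : F) : absS (x * y) = absS x * absS y := by
  simp only [absS, Ar.nm_mul, M82.nF_mul]; ring

omit hM in
theorem absS_one : absS (1 : F) = 1 := by
  have h := absS_mul (1 : F) 1
  have h1 := (absS_pos (one_ne_zero (α := F))).ne'
  rw [mul_one] at h
  exact (mul_left_cancel₀ h1 (by rw [mul_one]; exact h)).symm

omit hM in
theorem absS_inv {m : F} (hm : m ≠ 0) : absS m⁻¹ = (absS m)⁻¹ :=
  eq_inv_of_mul_eq_one_left (by rw [← absS_mul, inv_mul_cancel₀ hm, absS_one])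

omit hM in
theorem absS_pow (m : F) (n : ℕ) : absS (m ^ n) = absS m ^ n := by
  induction n with
  | zero => simpa using absS_one
  | succ n ih => rw [pow_succ, absS_mul, ih, pow_succ]

theorem scale_R {j : ℕ} {φ : F → ℂ} (h : SB j φ) {m : F} (hm0 : m ≠ 0) (hm : m ∈ 𝐑) :
    intS (fun x => φ (m * x)) = ((absS m)⁻¹ : ℝ) * intS φ := by
  have : indR (fun x => φ (m * x)) = fun x => (cl m 0).indicator φ (m * x) := by
    funext x
    have e : m * x ∈ cl m 0 ↔ x ∈ 𝐑 := by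
      simp only [cl, Set.mem_ofPred_eq, sub_zero, mul_div_cancel_left₀ _ hm0]
    by_cases hx : x ∈ 𝐑
    · rw [indR_mem hx, Set.indicator_of_mem (e.2 hx)]
    · rw [indR_not hx, Set.indicator_of_notMem (fun h => hx (e.1 h))]
  rw [intS, this, (hM.scale _ _ (per_cl h hm0 hm (Subring.zero_mem _)) hm0).2,
    coset hM h hm0 hm (Subring.zero_mem _), absS]
  push_cast
  rw [inv_div]
  ring

theorem scale {j : ℕ} {φ : F → ℂ} (h : SB j φ) {m : F} (hm0 : m ≠ 0) :
    intS (fun x => φ (m * x)) = ((absS m)⁻¹ : ℝ) * intS φ := by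
  obtain ⟨D, hD, hDi⟩ := M82.exists_den m
  have hD0 : (D : F) ≠ 0 := by exact_mod_cast hD
  obtain ⟨J, hJ⟩ := sb_scale h (inv_ne_zero hD0)
  have h1 := scale_R hM hJ hD0 (natCast_mem _ _)
  have h2 := scale_R hM hJ (mul_ne_zero hD0 hm0) (R_of_int hDi)
  simp only [inv_mul_cancel_left₀ hD0, mul_assoc] at h1 h2
  have h3 : (absS (D : F) : ℂ) ≠ 0 := by exact_mod_cast (absS_pos hD0).ne'
  have h4 : intS φ = intS fun x => φ x := rfl
  rw [h2, h4, h1, absS_mul]
  push_cast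
  rw [mul_inv]
  ring

/-- positivity -/
theorem intS_pos {j : ℕ} {A : Set F} (h : SB j (A.indicator fun _ => (1 : ℂ))) {x₀ : F}
    (h0 : x₀ ∈ A) (hR : x₀ ∈ 𝐑) : ∃ r : ℝ, 0 < r ∧ intS (A.indicator fun _ => (1 : ℂ)) = r := by
  classical
  obtain ⟨M, hP⟩ := per h
  obtain ⟨S, -, -, hS1, hS2⟩ := hM.reps M hP.1
  have e := hM.sum _ M S hP hS1 fun x hx => hS2 x (hP.2.2 x hx)
  have v0 : indR (A.indicator fun _ => (1 : ℂ)) x₀ = 1 := by
    rw [indR_mem hR, Set.indicator_of_mem h0]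
  obtain ⟨y, hy, hxy⟩ := hS2 x₀ (hP.2.2 x₀ (by rw [v0]; exact one_ne_zero))
  have v1 : indR (A.indicator fun _ => (1 : ℂ)) y = 1 := by
    rw [← hP.2.1 y _ hxy, add_sub_cancel, v0]
  have hval : ∀ x, indR (A.indicator fun _ => (1 : ℂ)) x =
      ((if x ∈ 𝐑 ∧ x ∈ A then (1 : ℝ) else 0 : ℝ) : ℂ) := by
    intro x
    by_cases hx : x ∈ 𝐑
    · by_cases hA : x ∈ A
      · rw [indR_mem hx, Set.indicator_of_mem hA, if_pos ⟨hx, hA⟩]; simp
      · rw [indR_mem hx, Set.indicator_of_notMem hA, if_neg fun h => hA h.2]; simp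
    · rw [indR_not hx, if_neg fun h => hx h.1]; simp
  refine ⟨((M : ℝ) ^ Module.finrank ℚ F)⁻¹ * ∑ x ∈ S, if x ∈ 𝐑 ∧ x ∈ A then (1 : ℝ) else 0, ?_, ?_⟩
  · have hM0 : (0 : ℝ) < M := by exact_mod_cast Nat.pos_of_ne_zero hP.1
    refine mul_pos (by positivity) (Finset.sum_pos' (fun x _ => by positivity) ⟨y, hy, ?_⟩)
    rw [hval y] at v1
    have : (if y ∈ 𝐑 ∧ y ∈ A then (1 : ℝ) else 0) = 1 := by exact_mod_cast v1
    rw [this]; exact one_pos
  · rw [intS, e]
    simp only [hval]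
    push_cast
    rfl

/-! ## double integrals -/

omit hM in
theorem sb_intS {J : ℕ} {Φ : F → F → ℂ} (h2 : ∀ d, SB J fun x => Φ x d) :
    SB J fun x => intS (Φ x) := by
  refine ⟨fun x y hy => ?_, fun x hx => ?_⟩
  · have : Φ (x + y) = Φ x := funext fun d => (h2 d).1 x y hy
    simp only [this]
  · by_contra hc
    have : Φ x = fun _ => 0 := funext fun d => by
      by_contra h0
      exact hc ((h2 d).2 x h0)
    exact hx (by simp only [this, intS_zero])

theorem I2_add {J : ℕ} {Φ Ψ : F → F → ℂ} (h1 : ∀ x, SB J (Φ x)) (h2 : ∀ d, SB J fun x => Φ x d)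
    (g1 : ∀ x, SB J (Ψ x)) (g2 : ∀ d, SB J fun x => Ψ x d) :
    intS (fun x => intS fun d => Φ x d + Ψ x d) =
      intS (fun x => intS (Φ x)) + intS fun x => intS (Ψ x) := by
  rw [← intS_add hM (sb_intS h2) (sb_intS g2)]
  congr 1
  funext x
  exact intS_add hM (h1 x) (g1 x)

theorem I2_smul {J : ℕ} {Φ : F → F → ℂ} (h1 : ∀ x, SB J (Φ x)) (h2 : ∀ d, SB J fun x => Φ x d)
    (a : ℂ) : intS (fun x => intS fun d => a * Φ x d) = a * intS fun x => intS (Φ x) := by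
  rw [← intS_smul hM (sb_intS h2)]
  congr 1
  funext x
  exact intS_smul hM (h1 x) a

theorem I2_scale {J : ℕ} {Φ : F → F → ℂ} (h1 : ∀ x, SB J (Φ x)) (h2 : ∀ d, SB J fun x => Φ x d)
    {a b : F} (ha : a ≠ 0) (hb : b ≠ 0) :
    intS (fun x => intS fun d => Φ (a * x) (b * d)) =
      (((absS a)⁻¹ * (absS b)⁻¹ : ℝ) : ℂ) * intS fun x => intS (Φ x) := by
  have e1 : (fun x => intS fun d => Φ (a * x) (b * d)) =
      fun x => (((absS b)⁻¹ : ℝ) : ℂ) * intS (Φ (a * x)) := funext fun x => scale hM (h1 _) hb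
  obtain ⟨J', hJ'⟩ := sb_scale (sb_intS h2) ha
  rw [e1, intS_smul hM hJ', scale hM (sb_intS h2) ha]
  push_cast
  ring

end I54

end Crest.Agent.T27.TH
end
end

-- ▼ part T27/ThInt2_54

/-!
# Row 27, theta function, leaf B2 (part 2): the constant-term function (`TH.IntStmt`)
-/

set_option autoImplicit false

noncomputable section

namespace Crest.Agent.T27.TH

open scoped ComplexConjugate
open NumberField

namespace I54

variable {F : Type} [Field F] [NumberField F] [Emb F] [Ar F]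

local notation "𝐍" => ((Ar.N F : ℕ) : F)
local notation "𝐑" => (Ar.R : Subring F)
local notation "𝐋" => (Ar.L : Subring F)

/-! ## the bicharacter -/

theorem cc_ne {x y : F} (hx : x ≠ 0) (hy : y ≠ 0) : Ar.cc x y ≠ 0 := fun h => by
  have := Ar.cc_cube x y hx hy
  rw [h] at this
  norm_num at this

theorem cc_swap_eq {x y : F} (hx : x ≠ 0) (hy : y ≠ 0) : Ar.cc y x = Ar.cc x y ^ 2 := by
  have h1 := Ar.cc_swap x y hx hy
  have h2 := Ar.cc_cube x y hx hy
  linear_combination (Ar.cc x y ^ 2) * h1 - Ar.cc y x * h2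

theorem cc_self {x : F} (hx : x ≠ 0) : Ar.cc x x = 1 := by
  have h1 := Ar.cc_swap x x hx hx
  have h2 := Ar.cc_cube x x hx hx
  linear_combination h2 - Ar.cc x x * h1

theorem conj_cc {x y : F} (hx : x ≠ 0) (hy : y ≠ 0) : conj (Ar.cc x y) = Ar.cc x y ^ 2 := by
  have h2 := Ar.cc_cube x y hx hy
  have h1 : ‖Ar.cc x y‖ = 1 := by
    have : ‖Ar.cc x y‖ ^ 3 = 1 := by rw [← norm_pow, h2, norm_one]
    exact (pow_eq_one_iff_of_nonneg (norm_nonneg _) (by norm_num)).1 this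
  have h3 : Ar.cc x y * conj (Ar.cc x y) = 1 := by
    rw [Complex.mul_conj, Complex.normSq_eq_norm_sq, h1]; simp
  linear_combination (Ar.cc x y ^ 2) * h3 - conj (Ar.cc x y) * h2

theorem cc_one_left {y : F} (hy : y ≠ 0) : Ar.cc 1 y = 1 := by
  have h := Ar.cc_mul_left 1 1 y one_ne_zero one_ne_zero hy
  rw [mul_one] at h
  exact (mul_left_cancel₀ (cc_ne one_ne_zero hy) (by rw [mul_one]; exact h)).symm

theorem cc_one_right {y : F} (hy : y ≠ 0) : Ar.cc y 1 = 1 := by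
  rw [cc_swap_eq one_ne_zero hy, cc_one_left hy, one_pow]

theorem cc_inv_left {x y : F} (hx : x ≠ 0) (hy : y ≠ 0) : Ar.cc x⁻¹ y = Ar.cc x y ^ 2 := by
  have h := Ar.cc_mul_left x x⁻¹ y hx (inv_ne_zero hx) hy
  rw [mul_inv_cancel₀ hx, cc_one_left hy] at h
  have h2 := Ar.cc_cube x y hx hy
  linear_combination (-Ar.cc x y ^ 2) * h - Ar.cc x⁻¹ y * h2

theorem cc_inv_right {x y : F} (hx : x ≠ 0) (hy : y ≠ 0) : Ar.cc x y⁻¹ = Ar.cc x y ^ 2 := by
  have h := Ar.cc_mul_right x y y⁻¹ hx hy (inv_ne_zero hy)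
  rw [mul_inv_cancel₀ hy, cc_one_right hx] at h
  have h2 := Ar.cc_cube x y hx hy
  linear_combination (-Ar.cc x y ^ 2) * h - Ar.cc x y⁻¹ * h2

theorem cc_cube_left {s y : F} (hs : s ≠ 0) (hy : y ≠ 0) : Ar.cc (s ^ 3) y = 1 := by
  rw [show s ^ 3 = s * s * s by ring, Ar.cc_mul_left _ _ _ (mul_ne_zero hs hs) hs hy,
    Ar.cc_mul_left _ _ _ hs hs hy, ← Ar.cc_cube s y hs hy]
  ring


/-- `x` acts trivially on both sides. -/
def Triv (x : F) : Prop := x ≠ 0 ∧ ∀ y, y ≠ 0 → Ar.cc x y = 1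

theorem Triv.right {x y : F} (h : Triv x) (hy : y ≠ 0) : Ar.cc y x = 1 := by
  rw [cc_swap_eq h.1 hy, h.2 y hy, one_pow]

theorem Triv.mul {x y : F} (h : Triv x) (h' : Triv y) : Triv (x * y) :=
  ⟨mul_ne_zero h.1 h'.1, fun z hz => by
    rw [Ar.cc_mul_left _ _ _ h.1 h'.1 hz, h.2 z hz, h'.2 z hz, one_mul]⟩

theorem Triv.inv {x : F} (h : Triv x) : Triv x⁻¹ :=
  ⟨inv_ne_zero h.1, fun z hz => by rw [cc_inv_left h.1 hz, h.2 z hz, one_pow]⟩

theorem triv_cube {s : F} (hs : s ≠ 0) : Triv (s ^ 3) :=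
  ⟨pow_ne_zero _ hs, fun _ hy => cc_cube_left hs hy⟩

theorem triv_one : Triv (1 : F) := by simpa using triv_cube (one_ne_zero (α := F))

theorem triv_neg_one : Triv (-1 : F) := by
  have := triv_cube (neg_ne_zero.2 (one_ne_zero (α := F)))
  rwa [show (-1 : F) ^ 3 = -1 by ring] at this

theorem PJ_unit {j : ℕ} (hj : 1 ≤ j) {t : F} (h : PJ j t) : t ≠ 0 ∧ t⁻¹ ∈ 𝐋 ∧ t ∈ 𝐋 := by
  obtain ⟨y, hy, e⟩ := deep_mono h hj
  have e' : t = 1 + 𝐍 * y := by rw [pow_one] at e; linear_combination e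
  have := Ar.unit_P y hy
  rw [← e'] at this
  refine ⟨this.1, this.2, ?_⟩
  rw [e']
  exact Subring.add_mem _ (Subring.one_mem _) (Subring.mul_mem _ (natCast_mem _ _) hy)

theorem triv_PJ {j : ℕ} (hj : Ar.kc F ≤ j) {t : F} (h : PJ j t) : Triv t := by
  refine ⟨(PJ_unit (Ar.one_le_kc.trans hj) h).1, fun y hy => ?_⟩
  obtain ⟨z, hz, e⟩ := deep_mono h hj
  have e' : t = 1 + 𝐍 ^ Ar.kc F * z := by linear_combination e
  rw [e']
  exact Ar.cc_P z hz y hy

/-- the value only depends on the arguments modulo trivial elements -/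
theorem cc_congr {x y x' y' s t : F} (hx : x ≠ 0) (hy : y ≠ 0) (hs : Triv s) (ht : Triv t)
    (e1 : x' = x * s) (e2 : y' = y * t) : Ar.cc x' y' = Ar.cc x y := by
  rw [e1, e2, Ar.cc_mul_left _ _ _ hx hs.1 (mul_ne_zero hy ht.1), hs.2 _ (mul_ne_zero hy ht.1),
    mul_one, Ar.cc_mul_right _ _ _ hx hy ht.1, ht.right hx, mul_one]

omit [NumberField F] [Emb F] [Ar F] in
theorem XK_ne {u : F × F} (hu : u ≠ 0) : XK u ≠ 0 := by
  unfold XK
  split_ifs with h
  · exact inv_ne_zero fun h2 => hu (Prod.ext h h2)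
  · exact h

omit [NumberField F] [Emb F] [Ar F] in
theorem XK_of_ne {c : F} (hc : c ≠ 0) (d : F) : XK (c, d) = c := if_neg hc

omit [NumberField F] [Emb F] [Ar F] in
theorem XK_zero (d : F) : XK ((0 : F), d) = d⁻¹ := if_pos rfl

/-- scaling a row by cubes -/
theorem XK_cube {a b : F} (ha : a ≠ 0) (hb : b ≠ 0) (c d : F) :
    ∃ s, Triv s ∧ XK (a ^ 3 * c, b ^ 3 * d) = XK (c, d) * s := by
  rcases eq_or_ne c 0 with rfl | hc
  · refine ⟨_, (triv_cube hb).inv, ?_⟩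
    rw [mul_zero, XK_zero, XK_zero, mul_inv, mul_comm]
  · refine ⟨_, triv_cube ha, ?_⟩
    rw [XK_of_ne hc, XK_of_ne (mul_ne_zero (pow_ne_zero _ ha) hc), mul_comm]

theorem test_zero {f : F × F → ℂ} (h : Test f) : f 0 = 0 := by
  obtain ⟨j, hj⟩ := h
  by_contra h0
  obtain ⟨-, -, a, -, b, -, e⟩ := hj.supp 0 h0
  simp only [Prod.fst_zero, Prod.snd_zero, mul_zero, add_zero] at e
  exact pow_ne_zero j N_ne e.symm

/-! ## the integrand -/

theorem fE_ne (f : F × F → ℂ) {η x : F} (hη : η ≠ 0) (hx : x ≠ 0) (d : F) :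
    fE f η x d = f (η * x ^ 3, d) := by
  rw [fE, XK_of_ne (mul_ne_zero hη (pow_ne_zero _ hx)),
    cc_congr hη hη (triv_cube hx) triv_one rfl (mul_one _).symm, cc_self hη, mul_one]

theorem fE_zero (f : F × F → ℂ) (η d : F) : fE f η 0 d = f (0, d) * Ar.cc d⁻¹ η := by
  rw [fE, zero_pow three_ne_zero, mul_zero, XK_zero]

theorem fE_mul (f : F × F → ℂ) {η d : F} (hη : η ≠ 0) (hd : d ≠ 0) (x : F) :
    fE f η x d * Ar.cc d η = f (η * x ^ 3, d) * Ar.cc d (XK (η * x ^ 3, d)) := by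
  rcases eq_or_ne x 0 with rfl | hx
  · rw [fE_zero, zero_pow three_ne_zero, mul_zero, XK_zero, cc_inv_left hd hη, cc_inv_right hd hd,
      cc_self hd]
    linear_combination f (0, d) * Ar.cc_cube d η hd hη
  · rw [fE_ne f hη hx, XK_of_ne (mul_ne_zero hη (pow_ne_zero _ hx)),
      cc_congr hd hη triv_one (triv_cube hx) (mul_one _).symm rfl]

theorem fE_d0 {f : F × F → ℂ} (h0 : f 0 = 0) {η : F} (hη : η ≠ 0) (x : F) :
    fE f η x 0 = f (η * x ^ 3, 0) := by
  rcases eq_or_ne x 0 with rfl | hx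
  · rw [fE_zero, zero_pow three_ne_zero, mul_zero]
    have : f (0, 0) = 0 := h0
    rw [this, zero_mul]
  · exact fE_ne f hη hx 0

theorem sb (hO : OpStmt F) {f : F × F → ℂ} (hf : Test f) {η : F} (hη : η ≠ 0) :
    ∃ J, (∀ x, SB J (fE f η x)) ∧ ∀ d, SB J fun x => fE f η x d := by
  have h0 := test_zero hf
  obtain ⟨j, hj⟩ := hf
  obtain ⟨J0, hJ0⟩ := hO.close f j hj
  obtain ⟨k, hk1, hk2⟩ := exists_bd2 η
  have hsx : ∀ x d, fE f η x d ≠ 0 → 𝐍 ^ (j + k) * x ∈ 𝐋 := by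
    intro x d hx
    have h1 := (hj.supp _ (left_ne_zero_of_mul hx)).1
    refine L_of_cube ?_
    have := Subring.mul_mem _ (Npow_L (2 * (j + k))) (Subring.mul_mem _ h1 hk2)
    have e : (𝐍 ^ (j + k) * x) ^ 3 =
        𝐍 ^ (2 * (j + k)) * (𝐍 ^ j * (η * x ^ 3) * (𝐍 ^ k * η⁻¹)) := by
      field_simp
      ring
    rw [e]
    exact this
  refine ⟨J0 + k + 2 * (j + k) + j + Ar.kc F, fun x => ⟨fun d y hy => ?_, fun d hd => ?_⟩,
    fun d => ⟨fun x y hy => ?_, fun x hx => bd_mono (hsx x d hx) (by omega)⟩⟩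
  · -- periodicity in `d`
    have hy0 : Deep J0 y := deep_mono hy (by omega)
    have c1 := hJ0 (η * x ^ 3, d) (η * x ^ 3, d + y) (by simpa using deep_zero J0)
      (by simpa using hy0)
    have c2 := hJ0 (η * x ^ 3, d + y) (η * x ^ 3, d) (by simpa using deep_zero J0)
      (by simpa using deep_neg hy0)
    rcases eq_or_ne x 0 with rfl | hx
    · simp only [zero_pow three_ne_zero, mul_zero, XK_zero] at c1 c2
      rw [fE_zero, fE_zero]
      have h00 : f (0, 0) = 0 := h0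
      rcases eq_or_ne d 0 with rfl | hd
      · rw [c1.2 rfl, h00, zero_mul, zero_mul]
      rcases eq_or_ne (d + y) 0 with hd' | hd'
      · rw [c2.2 hd', hd', h00, zero_mul, zero_mul]
      have c3 := c1.1 hd
      by_cases hf0 : f (0, d) = 0
      · rw [hf0, zero_mul] at c3
        rw [(mul_eq_zero.1 c3).resolve_right (cc_ne hd (inv_ne_zero hd')), hf0, zero_mul, zero_mul]
      obtain ⟨-, -, a, -, b, hb, e⟩ := hj.supp _ hf0
      simp only [mul_zero, zero_add] at e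
      have hdi : 𝐍 ^ j * d⁻¹ ∈ 𝐋 := by
        rw [← e, mul_inv_cancel_right₀ hd]; exact hb
      have ht : Triv ((d + y) / d) := by
        refine triv_PJ le_rfl ?_
        have : (d + y) / d - 1 = y * d⁻¹ := by field_simp; ring
        rw [PJ, this]
        exact deep_mul_bd (deep_mono hy (by omega)) hdi
      have e1 : (d + y)⁻¹ = d⁻¹ * ((d + y) / d)⁻¹ := by field_simp
      rw [cc_congr hd (inv_ne_zero hd) triv_one ht.inv (mul_one _).symm e1] at c3
      rw [mul_right_cancel₀ (cc_ne hd (inv_ne_zero hd)) c3,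
        cc_congr (inv_ne_zero hd) hη ht.inv triv_one e1 (mul_one _).symm]
    · have hc : η * x ^ 3 ≠ 0 := mul_ne_zero hη (pow_ne_zero _ hx)
      rw [fE_ne f hη hx, fE_ne f hη hx]
      rcases eq_or_ne d 0 with rfl | hd
      · exact c1.2 rfl
      · have c3 := c1.1 hd
        rw [XK_of_ne hc, XK_of_ne hc] at c3
        exact mul_right_cancel₀ (cc_ne hd hc) c3
  · exact bd_mono (hj.supp _ (left_ne_zero_of_mul hd)).2.1 (by omega)
  · -- periodicity in `x`
    show fE f η (x + y) d = fE f η x d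
    by_cases hx : 𝐍 ^ (j + k) * x ∈ 𝐋
    · have hyL := deep_L hy
      have hdeep : Deep J0 (η * (x + y) ^ 3 - η * x ^ 3) := by
        have h1 : 𝐍 ^ (k + 2 * (j + k)) * (η * (3 * x ^ 2 + 3 * x * y + y ^ 2)) ∈ 𝐋 := by
          have e : 𝐍 ^ (k + 2 * (j + k)) * (η * (3 * x ^ 2 + 3 * x * y + y ^ 2)) =
              (𝐍 ^ k * η) * (3 * (𝐍 ^ (j + k) * x) ^ 2 +
                3 * (𝐍 ^ (j + k) * x) * (𝐍 ^ (j + k) * y) + (𝐍 ^ (j + k) * y) ^ 2) := by ring
          have hy' : 𝐍 ^ (j + k) * y ∈ 𝐋 := Subring.mul_mem _ (Npow_L _) hyL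
          have h3 : (3 : F) ∈ 𝐋 := by exact_mod_cast natCast_mem 𝐋 3
          rw [e]
          exact Subring.mul_mem _ hk1 (Subring.add_mem _ (Subring.add_mem _
            (Subring.mul_mem _ h3 (Subring.pow_mem _ hx _))
            (Subring.mul_mem _ (Subring.mul_mem _ h3 hx) hy')) (Subring.pow_mem _ hy' _))
        have := deep_mul_bd (j := J0) (deep_mono hy (by omega)) h1
        convert this using 1
        ring
      have c1 := hJ0 (η * x ^ 3, d) (η * (x + y) ^ 3, d) hdeep (by simpa using deep_zero J0)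
      rcases eq_or_ne d 0 with rfl | hd
      · rw [fE_d0 h0 hη, fE_d0 h0 hη]
        exact c1.2 rfl
      · refine mul_right_cancel₀ (cc_ne hd hη) ?_
        rw [fE_mul f hη hd, fE_mul f hη hd]
        exact c1.1 hd
    · have hx' : 𝐍 ^ (j + k) * (x + y) ∉ 𝐋 := fun h => hx (by
        rw [mul_add] at h
        exact (add_mem_cancel_right (Subring.mul_mem _ (Npow_L _) (deep_L hy))).1 h)
      have z1 : fE f η x d = 0 := by by_contra h; exact hx (hsx _ _ h)
      have z2 : fE f η (x + y) d = 0 := by by_contra h; exact hx' (hsx _ _ h)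
      rw [z1, z2]

theorem sb2 (hO : OpStmt F) {f g : F × F → ℂ} (hf : Test f) (hg : Test g) {η : F} (hη : η ≠ 0) :
    ∃ J, ((∀ x, SB J (fE f η x)) ∧ ∀ d, SB J fun x => fE f η x d) ∧
      (∀ x, SB J (fE g η x)) ∧ ∀ d, SB J fun x => fE g η x d := by
  obtain ⟨J, h1, h2⟩ := sb hO hf hη
  obtain ⟨J', g1, g2⟩ := sb hO hg hη
  exact ⟨J + J', ⟨fun x => sb_mono (h1 x) (by omega), fun d => sb_mono (h2 d) (by omega)⟩,
    fun x => sb_mono (g1 x) (by omega), fun d => sb_mono (g2 d) (by omega)⟩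

variable (hM : MeanStmt F) (hO : OpStmt F)
include hM hO

theorem lam_add {f g : F × F → ℂ} (hf : Test f) (hg : Test g) : LamF (f + g) = LamF f + LamF g := by
  simp only [LamF]
  rw [← Finset.sum_add_distrib]
  refine Finset.sum_congr rfl fun η hη => ?_
  obtain ⟨J, ⟨h1, h2⟩, g1, g2⟩ := sb2 hO hf hg (Ar.E_unit η hη).1
  rw [← mul_add, ← I2_add hM h1 h2 g1 g2]
  simp only [fE, Pi.add_apply, add_mul]

theorem lam_smul (a : ℂ) {f : F × F → ℂ} (hf : Test f) : LamF (fun u => a * f u) = a * LamF f := by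
  simp only [LamF]
  rw [Finset.mul_sum]
  refine Finset.sum_congr rfl fun η hη => ?_
  obtain ⟨J, h1, h2⟩ := sb hO hf (Ar.E_unit η hη).1
  rw [mul_left_comm, ← I2_smul hM h1 h2]
  simp only [fE, mul_assoc]

theorem lam_nT {f : F × F → ℂ} (hf : Test f) (p : F) : LamF (rho (nT p : SL F) f) = LamF f := by
  rw [hO.rho_nT f p (test_zero hf)]
  simp only [LamF]
  refine Finset.sum_congr rfl fun η hη => ?_
  have hη0 := (Ar.E_unit η hη).1
  obtain ⟨J, h1, -⟩ := sb hO hf hη0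
  congr 2
  funext x
  rw [← shift hM (h1 x) (η * x ^ 3 * p)]
  congr 1
  funext d
  rcases eq_or_ne x 0 with rfl | hx
  · simp only [fE_zero, zero_pow three_ne_zero, mul_zero, zero_mul, add_zero]
  · simp only [fE_ne _ hη0 hx]

theorem lam_scale {f : F × F → ℂ} (hf : Test f) {a b : F} (ha : a ≠ 0) (hb : b ≠ 0) :
    LamF (fun u => f (a ^ 3 * u.1, b ^ 3 * u.2)) =
      (((absS a)⁻¹ * (absS b ^ 3)⁻¹ : ℝ) : ℂ) * LamF f := by
  simp only [LamF]
  rw [Finset.mul_sum]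
  refine Finset.sum_congr rfl fun η hη => ?_
  have hη0 := (Ar.E_unit η hη).1
  obtain ⟨J, h1, h2⟩ := sb hO hf hη0
  rw [mul_left_comm, ← absS_pow, ← I2_scale hM h1 h2 ha (pow_ne_zero 3 hb)]
  congr 2
  funext x
  congr 1
  funext d
  rcases eq_or_ne x 0 with rfl | hx
  · simp only [fE_zero, mul_zero]
    rcases eq_or_ne d 0 with rfl | hd
    · simp only [mul_zero]
    · rw [cc_congr (inv_ne_zero hd) hη0 (triv_cube hb).inv triv_one (x' := (b ^ 3 * d)⁻¹) (y' := η)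
        (by rw [mul_inv, mul_comm]) (mul_one _).symm]
  · simp only [fE_ne _ hη0 hx, fE_ne _ hη0 (mul_ne_zero ha hx)]
    congr 2
    ring

omit hM hO [NumberField F] [Emb F] [Ar F] in
theorem gam_det (α : F) {β : F} (hβ : β ≠ 0) : (gam α β).det = 1 := by
  rw [gam, Matrix.det_fin_two_of]; field_simp; ring

omit hM hO [NumberField F] [Emb F] [Ar F] in
theorem rmul_gam (α β c d : F) : rmul (c, d) (gam α β) = (-(d * β), c * β⁻¹ + d * α) := by
  simp [rmul, gam]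

omit hM hO [NumberField F] [Emb F] [Ar F] in
theorem gam_row (α : F) {β : F} (hβ : β ≠ 0) : XK (gam α β 1 0, gam α β 1 1) = -β := by
  simp only [gam, Matrix.of_apply, Matrix.cons_val', Matrix.cons_val_zero, Matrix.cons_val_one,
    Matrix.cons_val_fin_one]
  exact XK_of_ne (neg_ne_zero.2 hβ) _

omit hM hO [NumberField F] [Emb F] [Ar F] in
theorem row_ne {α β c d : F} (hβ : β ≠ 0) (h : (c, d) ≠ 0) :
    (-(d * β), c * β⁻¹ + d * α) ≠ (0 : F × F) := by
  intro h0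
  have h1 : -(d * β) = 0 := congrArg Prod.fst h0
  have h2 : c * β⁻¹ + d * α = 0 := congrArg Prod.snd h0
  have hd : d = 0 := by simpa [hβ] using h1
  rw [hd, zero_mul, add_zero] at h2
  have hc : c = 0 := by simpa [hβ] using h2
  exact h (Prod.ext hc hd)

omit hM hO in
theorem rho_gam (f : F × F → ℂ) (α : F) {β : F} (hβ : β ≠ 0) (c d : F) :
    rho (gam α β) f (c, d) = f (-(d * β), c * β⁻¹ + d * α) *
      conj (Ar.cc (XK (-(d * β), c * β⁻¹ + d * α) / XK (c, d))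
        (XK (-(d * β), c * β⁻¹ + d * α) / -β)) := by
  rw [rho, rmul_gam, gam_row α hβ]

theorem P1 {f : F × F → ℂ} (hf : Test f) {m : F} (α : F) {β : F} (hm : m ≠ 0) (hβ : β ≠ 0) :
    CF f (m ^ 3 * α) (m ^ 3 * β) = ((absS m ^ 2)⁻¹ : ℝ) * CF f α β := by
  have hmβ : m ^ 3 * β ≠ 0 := mul_ne_zero (pow_ne_zero _ hm) hβ
  have key : rho (gam (m ^ 3 * α) (m ^ 3 * β)) f =
      fun u => rho (gam α β) f (m⁻¹ ^ 3 * u.1, m ^ 3 * u.2) := by
    funext ⟨c, d⟩
    rw [rho_gam f _ hmβ, rho_gam f _ hβ]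
    have e : (-(d * (m ^ 3 * β)), c * (m ^ 3 * β)⁻¹ + d * (m ^ 3 * α)) =
        (-(m ^ 3 * d * β), m⁻¹ ^ 3 * c * β⁻¹ + m ^ 3 * d * α) :=
      Prod.ext (by ring) (by field_simp)
    rcases eq_or_ne (c, d) 0 with h0 | h0
    · obtain ⟨rfl, rfl⟩ := Prod.mk.inj h0
      have h00 : f (0, 0) = 0 := test_zero hf
      simp [h00]
    have hw := XK_ne (row_ne (α := m ^ 3 * α) hmβ h0)
    obtain ⟨s, hs, es⟩ := XK_cube (inv_ne_zero hm) hm c d
    rw [es, ← e]
    congr 2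
    symm
    exact cc_congr (div_ne_zero hw (XK_ne h0)) (div_ne_zero hw (neg_ne_zero.2 hmβ)) hs.inv
      (triv_cube hm) (by rw [div_mul_eq_div_div, div_eq_mul_inv]) (by field_simp)
  rw [CF, key, lam_scale hM hO (hO.test_rho f _ (gam_det α hβ) hf) (inv_ne_zero hm) hm, CF,
    absS_inv hm]
  congr 2
  have := (absS_pos hm).ne'
  field_simp

theorem P2 {f : F × F → ℂ} (hf : Test f) {m : F} (α : F) {β : F} (hm : m ≠ 0) (hβ : β ≠ 0) :
    CF (opC m f) (m ^ 3 * α) β = ((absS m ^ 3)⁻¹ : ℝ) * CF f α β := by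
  have key : rho (gam (m ^ 3 * α) β) (opC m f) =
      fun u => rho (gam α β) f (1 ^ 3 * u.1, m ^ 3 * u.2) := by
    funext ⟨c, d⟩
    rw [rho_gam _ _ hβ, rho_gam f _ hβ, opC]
    have e : (-(m ^ 3 * d * β), 1 ^ 3 * c * β⁻¹ + m ^ 3 * d * α) =
        (m ^ 3 * -(d * β), 1 ^ 3 * (c * β⁻¹ + d * (m ^ 3 * α))) :=
      Prod.ext (by ring) (by ring)
    rcases eq_or_ne (c, d) 0 with h0 | h0
    · obtain ⟨rfl, rfl⟩ := Prod.mk.inj h0
      have h00 : f (0, 0) = 0 := test_zero hf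
      simp [h00]
    have hw := XK_ne (row_ne (α := m ^ 3 * α) hβ h0)
    obtain ⟨s, hs, es⟩ := XK_cube one_ne_zero hm c d
    obtain ⟨s', hs', es'⟩ := XK_cube hm one_ne_zero (-(d * β)) (c * β⁻¹ + d * (m ^ 3 * α))
    rw [es, e, es']
    congr 2
    · rw [one_pow, one_mul]
    symm
    exact cc_congr (div_ne_zero hw (XK_ne h0)) (div_ne_zero hw (neg_ne_zero.2 hβ)) (hs'.mul hs.inv)
      hs' (by have := hs.1; have := XK_ne h0; field_simp) (by ring)
  rw [CF, key, lam_scale hM hO (hO.test_rho f _ (gam_det α hβ) hf) one_ne_zero hm, CF, absS_one]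
  congr 2
  simp

omit hM hO in
theorem P3_aux {t β X U : F} (ht : t ≠ 0) (hβ : β ≠ 0) (hX : X ≠ 0) (hU : U ≠ 0) :
    Ar.cc t X * conj (Ar.cc (X / U) (X / (t * β))) =
      conj (Ar.cc β t) * conj (Ar.cc (t * t * X / U) (t * t * X / β)) := by
  have htt := mul_ne_zero ht ht
  have httX := mul_ne_zero htt hX
  have htβ := mul_ne_zero ht hβ
  rw [conj_cc (div_ne_zero hX hU) (div_ne_zero hX htβ), conj_cc hβ ht,
    conj_cc (div_ne_zero httX hU) (div_ne_zero httX hβ)]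
  simp only [div_eq_mul_inv]
  simp (disch := simp only [ne_eq, mul_eq_zero, inv_eq_zero, ht, hβ, hX, hU, or_self, not_false_eq_true])
    only [Ar.cc_mul_left, Ar.cc_mul_right, cc_inv_left, cc_inv_right, cc_self]
  rw [cc_swap_eq ht hX, cc_swap_eq ht hβ]
  have h1 := Ar.cc_cube t X ht hX
  have h2 := Ar.cc_cube t β ht hβ
  generalize Ar.cc t X = a at *
  generalize Ar.cc t β = b at *
  calc _ = (a ^ 3) ^ 3 * (Ar.cc U t ^ 8 * Ar.cc U X ^ 4 * Ar.cc X β ^ 4 * Ar.cc U β ^ 8) := by ring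
    _ = (a ^ 3) ^ 4 * (b ^ 3) ^ 4 *
      (Ar.cc U t ^ 8 * Ar.cc U X ^ 4 * Ar.cc X β ^ 4 * Ar.cc U β ^ 8) := by rw [h1, h2]; ring
    _ = _ := by ring

theorem P3 {f : F × F → ℂ} (hf : Test f) {t : F} (α : F) {β : F} (ht : t ≠ 0) (hβ : β ≠ 0) :
    CF (opT t f) (t ^ 2 * α) (t * β) = ((absS t ^ 3)⁻¹ : ℝ) * conj (Ar.cc β t) * CF f α β := by
  have htβ := mul_ne_zero ht hβ
  have key : rho (gam (t ^ 2 * α) (t * β)) (opT t f) =
      fun u => conj (Ar.cc β t) * rho (gam α β) f (1 ^ 3 * u.1, t ^ 3 * u.2) := by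
    funext ⟨c, d⟩
    rw [rho_gam _ _ htβ, rho_gam f _ hβ, opT]
    have e : (-(t ^ 3 * d * β), 1 ^ 3 * c * β⁻¹ + t ^ 3 * d * α) =
        (t ^ 2 * -(d * (t * β)), t * (c * (t * β)⁻¹ + d * (t ^ 2 * α))) :=
      Prod.ext (by ring) (by field_simp)
    rcases eq_or_ne (c, d) 0 with h0 | h0
    · obtain ⟨rfl, rfl⟩ := Prod.mk.inj h0
      have h00 : f (0, 0) = 0 := test_zero hf
      simp [h00]
    have hw := XK_ne (row_ne (α := t ^ 2 * α) htβ h0)
    have hU := XK_ne h0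
    obtain ⟨s, hs, es⟩ := XK_cube one_ne_zero ht c d
    obtain ⟨s', hs', es'⟩ : ∃ s', Triv s' ∧
        XK (t ^ 2 * -(d * (t * β)), t * (c * (t * β)⁻¹ + d * (t ^ 2 * α))) =
          t * t * XK (-(d * (t * β)), c * (t * β)⁻¹ + d * (t ^ 2 * α)) * s' := by
      rcases eq_or_ne (-(d * (t * β))) 0 with h1 | h1
      · refine ⟨_, (triv_cube ht).inv, ?_⟩
        rw [h1, mul_zero, XK_zero, XK_zero, mul_inv]
        field_simp
      · refine ⟨_, triv_one, ?_⟩
        rw [XK_of_ne h1, XK_of_ne (mul_ne_zero (pow_ne_zero _ ht) h1)]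
        ring
    rw [es, e, es']
    generalize XK (-(d * (t * β)), c * (t * β)⁻¹ + d * (t ^ 2 * α)) = X at hw
    generalize XK (c, d) = U at hU
    have httX := mul_ne_zero (mul_ne_zero ht ht) hw
    rw [cc_congr (div_ne_zero hw hU) (div_ne_zero hw htβ) triv_one triv_neg_one (x' := X / U)
        (y' := X / -(t * β)) (by ring) (by rw [div_neg]; ring),
      cc_congr (div_ne_zero httX hU) (div_ne_zero httX hβ) (hs'.mul hs.inv) (hs'.mul triv_neg_one)
        (x' := t * t * X * s' / (U * s)) (y' := t * t * X * s' / -β)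
        (by have := hs.1; field_simp) (by rw [div_neg]; ring), mul_assoc, P3_aux ht hβ hw hU]
    ring
  have hT := hO.test_rho f _ (gam_det α hβ) hf
  have hT2 : Test fun u : F × F => rho (gam α β) f (1 ^ 3 * u.1, t ^ 3 * u.2) := by
    have h := hO.test_opS _ t ht (hO.test_opC _ t⁻¹ (inv_ne_zero ht) hT)
    convert h using 2 with u
    simp only [opS, opC]
    congr 2
    field_simp
  rw [CF, key, lam_smul hM hO _ hT2, lam_scale hM hO hT one_ne_zero ht, CF, absS_one]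
  push_cast
  ring

omit hM in
theorem P0 {f : F × F → ℂ} {j : ℕ} (hf : TestFn j f) (α : F) {β x : F} (hβ : β ≠ 0)
    (hx : Deep j x) : CF f (α + x * β) β = CF f α β := by
  have e : gam (α + x * β) β = gam α β * ((nT (-x) : SL F) : Mat F) := by
    ext i k
    fin_cases i <;> fin_cases k <;> simp [gam, nT, mkSL, Matrix.mul_apply, Fin.sum_univ_two]
    ring
  have hk : KJ j (nT (-x)) := by
    intro i k
    fin_cases i <;> fin_cases k
    · simpa [nT, mkSL] using deep_zero j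
    · simpa [nT, mkSL] using deep_neg hx
    · simpa [nT, mkSL] using deep_zero j
    · simpa [nT, mkSL] using deep_zero j
  rw [CF, CF, e, hO.rho_mul_nT f _ _ (gam_det α hβ) (test_zero ⟨j, hf⟩), hf.inv _ hk]

/-! ## the basic test function -/

omit hM hO in
theorem row_KJ {j : ℕ} {u : F × F} {a b c d : F} (ha : a ∈ 𝐋) (hb : Deep j b) (hc : Deep j c)
    (hd : PJ j d) (hd' : d ∈ 𝐋) (h1 : Deep j u.1) (h2 : PJ j u.2) (h2' : u.2 ∈ 𝐋) :
    Deep j (u.1 * a + u.2 * c) ∧ PJ j (u.1 * b + u.2 * d) := by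
  refine ⟨deep_add (deep_mul h1 ha) (by rw [mul_comm]; exact deep_mul hc h2'), ?_⟩
  have : u.1 * b + u.2 * d - 1 = u.1 * b + ((u.2 - 1) * d + (d - 1)) := by ring
  rw [PJ, this]
  exact deep_add (deep_mul h1 (deep_L hb)) (deep_add (deep_mul h2 hd') hd)

/-- The basic test function of level `j`. -/
def f0 (j : ℕ) : F × F → ℂ := {u : F × F | Deep j u.1 ∧ PJ j u.2}.indicator fun _ => 1

omit hM in
theorem testFn_f0 {j : ℕ} (hj : Ar.kc F ≤ j) : TestFn j (f0 j : F × F → ℂ) := by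
  have hj1 : 1 ≤ j := Ar.one_le_kc.trans hj
  refine ⟨hj, ⟨1, fun u => ?_⟩, fun u hu => ?_, fun k hk => ?_⟩
  · rw [f0]
    by_cases h : u ∈ {u : F × F | Deep j u.1 ∧ PJ j u.2}
    · rw [Set.indicator_of_mem h, norm_one]
    · rw [Set.indicator_of_notMem h, norm_zero]; exact zero_le_one
  · obtain ⟨h1, h2⟩ : u ∈ {u : F × F | Deep j u.1 ∧ PJ j u.2} := Set.mem_of_indicator_ne_zero hu
    obtain ⟨n2, i2, l2⟩ := PJ_unit hj1 h2
    refine ⟨Subring.mul_mem _ (Npow_L j) (deep_L h1), Subring.mul_mem _ (Npow_L j) l2,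
      0, Subring.zero_mem _, 𝐍 ^ j * u.2⁻¹, Subring.mul_mem _ (Npow_L j) i2, ?_⟩
    field_simp
    ring
  · have ka : PJ j (k 0 0) := by simpa [PJ] using hk 0 0
    have kb : Deep j (k 0 1) := by simpa using hk 0 1
    have kc : Deep j (k 1 0) := by simpa using hk 1 0
    have kd : PJ j (k 1 1) := by simpa [PJ] using hk 1 1
    have hdet : k 0 0 * k 1 1 - k 0 1 * k 1 0 = 1 := by
      have := k.det_coe
      rwa [Matrix.det_fin_two] at this
    obtain ⟨na, -, la⟩ := PJ_unit hj1 ka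
    obtain ⟨nd, -, ld⟩ := PJ_unit hj1 kd
    funext u
    rw [rho]
    change f0 j (u.1 * k 0 0 + u.2 * k 1 0, u.1 * k 0 1 + u.2 * k 1 1) *
      conj (Ar.cc (XK (u.1 * k 0 0 + u.2 * k 1 0, u.1 * k 0 1 + u.2 * k 1 1) / XK u)
        (XK (u.1 * k 0 0 + u.2 * k 1 0, u.1 * k 0 1 + u.2 * k 1 1) / XK (k 1 0, k 1 1))) = f0 j u
    generalize k 0 0 = a at *
    generalize k 0 1 = b at *
    generalize k 1 0 = c at *
    generalize k 1 1 = d at *
    obtain ⟨x, y⟩ := u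
    dsimp only
    by_cases h : (x, y) ∈ {u : F × F | Deep j u.1 ∧ PJ j u.2}
    · obtain ⟨ny, -, ly⟩ := PJ_unit hj1 h.2
      have h' : (x * a + y * c, x * b + y * d) ∈ {u : F × F | Deep j u.1 ∧ PJ j u.2} :=
        row_KJ la kb kc kd ld h.1 h.2 ly
      have ta := triv_PJ hj ka
      have td := triv_PJ hj kd
      have ty : Triv y := triv_PJ hj h.2
      have tw : Triv (x * b + y * d) := triv_PJ hj h'.2
      rw [f0, Set.indicator_of_mem h, Set.indicator_of_mem h', one_mul]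
      suffices hs : Ar.cc (XK (x * a + y * c, x * b + y * d) / XK (x, y))
          (XK (x * a + y * c, x * b + y * d) / XK (c, d)) = 1 by rw [hs, map_one]
      rcases eq_or_ne c 0 with rfl | nc
      · rcases eq_or_ne x 0 with rfl | nx
        · simp only [zero_mul, mul_zero, add_zero, zero_add, XK_zero]
          rw [cc_congr one_ne_zero one_ne_zero td.inv ty.inv (by have := ty.1; field_simp)
            (by field_simp), cc_self one_ne_zero]
        · simp only [mul_zero, add_zero, XK_zero]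
          rw [XK_of_ne (mul_ne_zero nx na), XK_of_ne nx, mul_div_cancel_left₀ _ nx]
          exact ta.2 _ (div_ne_zero (mul_ne_zero nx na) (inv_ne_zero nd))
      · rw [XK_of_ne nc]
        rcases eq_or_ne x 0 with rfl | nx
        · simp only [zero_mul, zero_add, XK_zero]
          rw [XK_of_ne (mul_ne_zero ny nc), mul_div_cancel_right₀ _ nc]
          exact ty.right (div_ne_zero (mul_ne_zero ny nc) (inv_ne_zero ny))
        · rw [XK_of_ne nx]
          rcases eq_or_ne (x * a + y * c) 0 with h0 | h0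
          · have ex : x = -(y * c) / a := by field_simp; linear_combination h0
            rw [h0, XK_zero, cc_congr (inv_ne_zero nc) (inv_ne_zero nc)
              (((tw.inv.mul ta).mul ty.inv).mul triv_neg_one) tw.inv ?_ (by rw [div_eq_mul_inv, mul_comm]),
              cc_self (inv_ne_zero nc)]
            generalize x * b + y * d = w at tw
            have := tw.1
            rw [ex]
            field_simp
          · rw [XK_of_ne h0]
            have st := hO.steinberg (x * a / (x * a + y * c)) (y * c / (x * a + y * c))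
              (div_ne_zero (mul_ne_zero nx na) h0) (div_ne_zero (mul_ne_zero ny nc) h0)
              (by field_simp)
            have n1 := div_ne_zero h0 nx
            have n2 := div_ne_zero h0 nc
            rw [cc_congr (inv_ne_zero n1) (inv_ne_zero n2) ta ty (by field_simp) (by field_simp),
              cc_inv_left n1 (inv_ne_zero n2), cc_inv_right n1 n2] at st
            have h3 := Ar.cc_cube _ _ n1 n2
            linear_combination st - Ar.cc ((x * a + y * c) / x) ((x * a + y * c) / c) * h3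
    · have h' : (x * a + y * c, x * b + y * d) ∉ {u : F × F | Deep j u.1 ∧ PJ j u.2} := by
        intro h'
        have := row_KJ ld (deep_neg kb) (deep_neg kc) ka la h'.1 h'.2 (PJ_unit hj1 h'.2).2.2
        refine h ⟨?_, ?_⟩
        · convert this.1 using 1
          linear_combination (-x) * hdet
        · convert this.2 using 1
          linear_combination (-y) * hdet
      rw [f0, Set.indicator_of_notMem h, Set.indicator_of_notMem h', zero_mul]

theorem lam_f0 {j : ℕ} (hj : Ar.kc F ≤ j) : ∃ r : ℝ, 0 < r ∧ LamF (f0 j : F × F → ℂ) = r := by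
  have hj1 : 1 ≤ j := Ar.one_le_kc.trans hj
  have hT : Test (f0 j : F × F → ℂ) := ⟨j, testFn_f0 hO hj⟩
  have key : ∀ η : F, η ≠ 0 → ∃ r : ℝ, 0 < r ∧
      intS (fun x => intS fun d => fE (f0 j) η x d) = r := by
    intro η hη
    obtain ⟨J, h1, h2⟩ := sb hO hT hη
    have e : ∀ x d, fE (f0 j) η x d = {x : F | Deep j (η * x ^ 3)}.indicator (fun _ => (1 : ℂ)) x *
        {d : F | PJ j d}.indicator (fun _ => (1 : ℂ)) d := by
      intro x d
      by_cases hd : PJ j d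
      · have td := triv_PJ hj hd
        have e1 : fE (f0 j) η x d = f0 j (η * x ^ 3, d) := by
          rcases eq_or_ne x 0 with rfl | hx
          · rw [fE_zero, td.inv.2 _ hη, mul_one, zero_pow three_ne_zero, mul_zero]
          · exact fE_ne _ hη hx d
        rw [e1, Set.indicator_of_mem (show d ∈ {d : F | PJ j d} from hd), mul_one, f0]
        by_cases hx : Deep j (η * x ^ 3)
        · rw [Set.indicator_of_mem (show x ∈ {x : F | Deep j (η * x ^ 3)} from hx),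
            Set.indicator_of_mem (show (η * x ^ 3, d) ∈ {u : F × F | Deep j u.1 ∧ PJ j u.2} from
              ⟨hx, hd⟩)]
        · rw [Set.indicator_of_notMem (show x ∉ {x : F | Deep j (η * x ^ 3)} from hx),
            Set.indicator_of_notMem (fun h => hx h.1)]
      · rw [Set.indicator_of_notMem (show d ∉ {d : F | PJ j d} from hd), mul_zero, fE, f0,
          Set.indicator_of_notMem (fun h => hd h.2), zero_mul]
    have x0 : (0 : F) ∈ {x : F | Deep j (η * x ^ 3)} := by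
      show Deep j (η * 0 ^ 3)
      rw [zero_pow three_ne_zero, mul_zero]; exact deep_zero j
    have d1 : (1 : F) ∈ {d : F | PJ j d} := by
      show Deep j (1 - 1)
      rw [sub_self]; exact deep_zero j
    have s1 : SB J ({d : F | PJ j d}.indicator fun _ => (1 : ℂ)) := by
      have := h1 0
      rw [show fE (f0 j) η 0 = {d : F | PJ j d}.indicator fun _ => (1 : ℂ) from funext fun d => by
        rw [e, Set.indicator_of_mem x0, one_mul]] at this
      exact this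
    have s2 : SB J ({x : F | Deep j (η * x ^ 3)}.indicator fun _ => (1 : ℂ)) := by
      have := h2 1
      simp only [e, Set.indicator_of_mem d1, mul_one] at this
      exact this
    obtain ⟨r1, p1, q1⟩ := intS_pos hM s1 d1 (Subring.one_mem _)
    obtain ⟨r2, p2, q2⟩ := intS_pos hM s2 x0 (Subring.zero_mem _)
    refine ⟨r1 * r2, mul_pos p1 p2, ?_⟩
    simp only [e, intS_smul hM s1, q1]
    simp only [mul_comm _ (r1 : ℂ)]
    rw [intS_smul hM s2, q2]
    push_cast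
    ring
  choose! r hr using key
  obtain ⟨η₀, ⟨h0, -⟩, -⟩ := Ar.E_rep (1 : F) one_ne_zero (Subring.one_mem _)
    (by rw [inv_one]; exact Subring.one_mem _)
  have hp : ∀ η ∈ (Ar.E : Finset F), 0 < nF η ^ (-(1 / 3) : ℝ) * r η := fun η hη =>
    mul_pos (Real.rpow_pos_of_pos (lt_of_le_of_ne (M82.nF_nonneg η)
      (M82.nF_ne (Ar.E_unit η hη).1).symm) _) (hr η (Ar.E_unit η hη).1).1
  refine ⟨∑ η ∈ (Ar.E : Finset F), nF η ^ (-(1 / 3) : ℝ) * r η, Finset.sum_pos hp ⟨η₀, h0⟩, ?_⟩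
  rw [LamF, Complex.ofReal_sum]
  refine Finset.sum_congr rfl fun η hη => ?_
  rw [(hr η (Ar.E_unit η hη).1).2, Complex.ofReal_mul]

end I54

open I54 in
/-- **Leaf B2.** -/
theorem intStmt_54 (F : Type) [Field F] [NumberField F] [Emb F] [Ar F] (hM : MeanStmt F)
    (hO : OpStmt F) : IntStmt F where
  per _ _ h := per h
  shift _ _ b h := shift hM h b
  scale _ _ _ h hm := scale hM h hm
  coset _ _ _ _ h hm0 hm hb := ⟨per_cl h hm0 hm hb, coset hM h hm0 hm hb⟩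
  sb _ hf _ hη := sb hO hf hη
  lam_add _ _ hf hg := lam_add hM hO hf hg
  lam_smul a _ hf := lam_smul hM hO a hf
  lam_nT _ p hf := lam_nT hM hO hf p
  lam_opC f m hf hm := by
    have h := lam_scale hM hO hf hm one_ne_zero
    simp only [one_pow, one_mul, absS_one, inv_one, mul_one] at h
    exact h
  lam_opS f m hf hm := by
    have h := lam_scale hM hO hf hm hm
    rw [← mul_inv, ← pow_succ'] at h
    exact h
  P0 _ _ α _ _ hf hβ hx := P0 hO hf α hβ hx
  P1 _ _ α _ hf hm hβ := P1 hM hO hf α hm hβ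
  P2 _ _ α _ hf hm hβ := P2 hM hO hf α hm hβ
  P3 _ _ α _ hf ht hβ := P3 hM hO hf α ht hβ
  basic := by
    obtain ⟨r, hr, e⟩ := lam_f0 hM hO (le_refl (Ar.kc F))
    exact ⟨_, ⟨_, testFn_f0 hO le_rfl⟩, by rw [e]; exact_mod_cast hr.ne'⟩

end Crest.Agent.T27.TH
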