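import Crest.Agent.PVc.R17.ThetaDens
import Crest.Agent.T27.ThA_54
import Crest.Agent.T27.ThB_54

-- ▼ part T27/Vor1_57
section

/-!
# Row 27, theta leaf D1 (helper57): differentiating two Bessel expansions along a geodesic,
in all places at once

Pure analysis.  `ι` is the finite set of places, `a : Λ → ℂ` the coefficients, `ρ r j` the
frequency of the index `r` at the place `j`; the expansion is
`∑ a r ∏_j Mk (y j) (b ‖ρ r j‖²) exp(i Re(ρ r j · z j))`.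
-/

set_option autoImplicit false

noncomputable section

namespace Crest.Agent.T27

open scoped ComplexConjugate Topology
open Filter Crest.Agent.R17

namespace Vor57

/-- `exp(i Re z)`. -/
def eR (z : ℂ) : ℂ := Complex.exp ((z.re : ℂ) * Complex.I)

/-- Conjugate or not. -/
def cjb (s : Bool) (z : ℂ) : ℂ := bif s then conj z else z

theorem norm_eR (z : ℂ) : ‖eR z‖ = 1 := Complex.norm_exp_ofReal_mul_I _

theorem eR_add (z w : ℂ) : eR (z + w) = eR z * eR w := by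
  rw [eR, eR, eR, ← Complex.exp_add, Complex.add_re]
  push_cast
  ring_nf

@[simp] theorem eR_zero : eR 0 = 1 := by simp [eR]

theorem norm_cjb (s : Bool) (z : ℂ) : ‖cjb s z‖ = ‖z‖ := by
  cases s <;> simp [cjb]



theorem cjb_div_ofReal (s : Bool) (z : ℂ) (x : ℝ) : cjb s (z / x) = cjb s z / x := by
  cases s <;> simp [cjb]

/-- One-place summability. -/
def Sm1 {Λ : Type*} (a ρ : Λ → ℂ) : Prop :=
  ∀ y : ℝ, 0 < y → Summable fun r => ‖a r‖ * ((1 + ‖ρ r‖) * W0 (y * ‖ρ r‖ ^ 2))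

section one

variable {Λ Λ' : Type*} {a ρ : Λ → ℂ} {a' ρ' : Λ' → ℂ} {b : ℝ}

theorem W0_nonneg {x : ℝ} (hx : 0 ≤ x) : 0 ≤ W0 x := (W0_pos hx).le

theorem Sm1.summable (h : Sm1 a ρ) (hb : 0 < b) {y : ℝ} (hy : 0 < y) {φ : Λ → ℂ}
    (hφ : ∀ r, ‖φ r‖ ≤ 1 + ‖ρ r‖) :
    Summable fun r => a r * (Mk y (b * ‖ρ r‖ ^ 2) : ℂ) * φ r := by
  refine .of_norm_bounded ((h (y ^ 2 * b) (by positivity)).mul_left (y ^ (2 / 3 : ℝ))) fun r => ?_
  have h1 := W0_nonneg (x := y ^ 2 * (b * ‖ρ r‖ ^ 2)) (by positivity)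
  rw [norm_mul, norm_mul, Complex.norm_real, Real.norm_of_nonneg (Mk_pos hy (by positivity)).le, Mk,
    mul_assoc (y ^ 2)]
  calc _ ≤ ‖a r‖ * (y ^ (2 / 3 : ℝ) * W0 (y ^ 2 * (b * ‖ρ r‖ ^ 2))) * (1 + ‖ρ r‖) := by
        gcongr; exact hφ r
    _ = _ := by ring

theorem diff (w : ℂ) {t : ℝ} (ht : t ≠ 0) :
    (eR (t * w) - eR (-(t * w))) / (2 * t) =
      Complex.I * (w.re * Real.sinc (t * w.re) : ℝ) := by
  have h1 : eR (t * w) = Complex.exp ((t * w.re : ℝ) * Complex.I) := by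
    rw [eR, Complex.re_ofReal_mul]
  have h1' : eR (-(t * w)) = conj (Complex.exp ((t * w.re : ℝ) * Complex.I)) := by
    rw [eR, Complex.neg_re, Complex.re_ofReal_mul, ← Complex.exp_conj, map_mul, Complex.conj_I,
      Complex.conj_ofReal]
    push_cast
    ring_nf
  have h2 : w.re * Real.sinc (t * w.re) = Real.sin (t * w.re) / t := by
    rcases eq_or_ne w.re 0 with h | h
    · simp [h]
    · rw [Real.sinc_of_ne_zero (mul_ne_zero ht h)]
      field_simp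
  have h3 : (t : ℂ) ≠ 0 := Complex.ofReal_ne_zero.2 ht
  rw [h1, h1', h2, Complex.sub_conj, Complex.exp_ofReal_mul_I_im]
  push_cast
  field_simp

/-- The one-place expansion. -/
def F1 (a ρ : Λ → ℂ) (b : ℝ) (z : ℂ) (y : ℝ) : ℂ :=
  ∑' r, a r * (Mk y (b * ‖ρ r‖ ^ 2) : ℂ) * eR (ρ r * z)

theorem odd_deriv (h : Sm1 a ρ) (hb : 0 < b) (ζ : ℝ → ℂ) (η : ℝ → ℝ) (hζ : ContinuousAt ζ 0)
    (hη : ContinuousAt η 0) (hη0 : 0 < η 0) :
    Tendsto (fun t : ℝ => (F1 a ρ b (t * ζ t) (η t) - F1 a ρ b (-(t * ζ t)) (η t)) / (2 * t))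
      (𝓝[>] 0)
      (𝓝 (∑' r, a r * (Mk (η 0) (b * ‖ρ r‖ ^ 2) : ℂ) * (Complex.I * ((ρ r * ζ 0).re : ℝ)))) := by
  have hpos : ∀ᶠ t in 𝓝 (0 : ℝ), η 0 / 2 < η t := hη.eventually (lt_mem_nhds (half_lt_self hη0))
  have hg : ContinuousAt (fun t => η t ^ (2 / 3 : ℝ) * ‖ζ t‖) 0 :=
    (hη.rpow_const (.inl hη0.ne')).mul hζ.norm
  have key := tendsto_tsum_of_dominated_convergence (𝓕 := 𝓝 (0 : ℝ))
    (f := fun t (r : Λ) => a r * (Mk (η t) (b * ‖ρ r‖ ^ 2) : ℂ) *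
      (Complex.I * ((ρ r * ζ t).re * Real.sinc (t * (ρ r * ζ t).re) : ℝ)))
    ((h ((η 0 / 2) ^ 2 * b) (by positivity)).mul_left (η 0 ^ (2 / 3 : ℝ) * ‖ζ 0‖ + 1))
    (fun r => ContinuousAt.tendsto (by
      have h1 : ContinuousAt (fun t => Mk (η t) (b * ‖ρ r‖ ^ 2)) 0 :=
        ((continuousOn_Mk (by positivity)).continuousAt (Ioi_mem_nhds hη0)).comp hη
      have h2 := Real.continuous_sinc
      fun_prop))
    ((hpos.and (hg.eventually (gt_mem_nhds (lt_add_one _)))).mono fun t ht r => by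
      have ht0 : 0 < η t := (half_pos hη0).trans ht.1
      have h2 : |(ρ r * ζ t).re| ≤ ‖ρ r‖ * ‖ζ t‖ := by
        rw [← norm_mul]; exact Complex.abs_re_le_norm _
      have h3 := Real.abs_sinc_le_one (t * (ρ r * ζ t).re)
      have h4 : W0 (η t ^ 2 * (b * ‖ρ r‖ ^ 2)) ≤ W0 ((η 0 / 2) ^ 2 * b * ‖ρ r‖ ^ 2) := by
        refine W0_antitoneOn (Set.mem_Ici.2 (by positivity)) (Set.mem_Ici.2 (by positivity)) ?_
        rw [mul_assoc]
        gcongr
        exact ht.1.le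
      have h5 := W0_nonneg (x := η t ^ 2 * (b * ‖ρ r‖ ^ 2)) (by positivity)
      have h6 := W0_nonneg (x := (η 0 / 2) ^ 2 * b * ‖ρ r‖ ^ 2) (by positivity)
      have h7 : |(ρ r * ζ t).re * Real.sinc (t * (ρ r * ζ t).re)| ≤ (1 + ‖ρ r‖) * ‖ζ t‖ := by
        rw [abs_mul]
        refine (mul_le_of_le_one_right (abs_nonneg _) h3).trans (h2.trans ?_)
        gcongr
        linarith
      rw [norm_mul, norm_mul, norm_mul Complex.I, Complex.norm_I, one_mul, Complex.norm_real,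
        Complex.norm_real, Real.norm_of_nonneg (Mk_pos ht0 (by positivity)).le, Real.norm_eq_abs,
        Mk]
      calc _ ≤ ‖a r‖ * (η t ^ (2 / 3 : ℝ) * W0 ((η 0 / 2) ^ 2 * b * ‖ρ r‖ ^ 2)) *
            ((1 + ‖ρ r‖) * ‖ζ t‖) := by gcongr
        _ = η t ^ (2 / 3 : ℝ) * ‖ζ t‖ *
            (‖a r‖ * ((1 + ‖ρ r‖) * W0 ((η 0 / 2) ^ 2 * b * ‖ρ r‖ ^ 2))) := by ring
        _ ≤ _ := by gcongr; exact ht.2.le)
  simp only [zero_mul, Real.sinc_zero, mul_one] at key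
  refine (key.mono_left nhdsWithin_le_nhds).congr' ?_
  filter_upwards [nhdsWithin_le_nhds hpos, self_mem_nhdsWithin] with t h1 h2
  have ht0 : 0 < η t := (half_pos hη0).trans h1
  have hs := fun z : ℂ => h.summable hb ht0 (φ := fun r => eR (ρ r * z)) fun r => by
    rw [norm_eR]; linarith [norm_nonneg (ρ r)]
  simp only [F1]
  rw [← (hs _).tsum_sub (hs _), ← tsum_div_const]
  refine tsum_congr fun r => ?_
  rw [← mul_sub, mul_div_assoc _ (_ - _), ← diff _ (ne_of_gt h2)]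
  congr 4 <;> ring

/-- The first moment. -/
def S1 (a ρ : Λ → ℂ) (b : ℝ) (s : Bool) (y : ℝ) : ℂ :=
  ∑' r, a r * (Mk y (b * ‖ρ r‖ ^ 2) : ℂ) * cjb s (ρ r)

theorem split (h : Sm1 a ρ) (hb : 0 < b) {y : ℝ} (hy : 0 < y) (ζ : ℂ) :
    ∑' r, a r * (Mk y (b * ‖ρ r‖ ^ 2) : ℂ) * (Complex.I * ((ρ r * ζ).re : ℝ)) =
      Complex.I / 2 * (ζ * S1 a ρ b false y + conj ζ * S1 a ρ b true y) := by
  have hs := fun s => h.summable hb hy (φ := fun r => cjb s (ρ r)) fun r => by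
    rw [norm_cjb]; linarith
  rw [S1, S1, ← tsum_mul_left, ← tsum_mul_left,
    ← ((hs false).mul_left _).tsum_add ((hs true).mul_left _), ← tsum_mul_left]
  refine tsum_congr fun r => ?_
  rw [Complex.re_eq_add_conj, map_mul]
  simp only [cjb, cond_true, cond_false]
  ring

/-- **One place.** -/
theorem one_place (h : Sm1 a ρ) (h' : Sm1 a' ρ') (hb : 0 < b) {β : ℂ} (hβ : β ≠ 0)
    (H : ∀ (z : ℂ) (y : ℝ), 0 < y → F1 a ρ b z y =
      F1 a' ρ' b (-(conj z / (β ^ 2 * ((‖z‖ ^ 2 + y ^ 2 : ℝ) : ℂ))))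
        (y / (‖β‖ ^ 2 * (‖z‖ ^ 2 + y ^ 2))))
    (s : Bool) {y : ℝ} (hy : 0 < y) :
    S1 a ρ b s y = -(cjb (!s) β ^ 2 * y ^ 2)⁻¹ * S1 a' ρ' b (!s) (‖β‖ ^ 2 * y)⁻¹ := by
  have hn := norm_pos_iff.2 hβ
  have dir : ∀ ζ : ℂ, ζ * S1 a ρ b false y + conj ζ * S1 a ρ b true y =
      -(conj ζ / (β ^ 2 * y ^ 2)) * S1 a' ρ' b false (‖β‖ ^ 2 * y)⁻¹ +
        -(ζ / (conj β ^ 2 * y ^ 2)) * S1 a' ρ' b true (‖β‖ ^ 2 * y)⁻¹ := fun ζ => by
    have h1 := odd_deriv h hb (fun _ => ζ) (fun _ => y) continuousAt_const continuousAt_const hy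
    have h2 := odd_deriv h' hb
      (fun t => -(conj ζ / (β ^ 2 * ((‖t * ζ‖ ^ 2 + y ^ 2 : ℝ) : ℂ))))
      (fun t => y / (‖β‖ ^ 2 * (‖t * ζ‖ ^ 2 + y ^ 2)))
      (ContinuousAt.neg (continuousAt_const.div (by fun_prop)
        (mul_ne_zero (pow_ne_zero _ hβ) (Complex.ofReal_ne_zero.2 (by positivity)))))
      (continuousAt_const.div (by fun_prop) (by positivity)) (by positivity)
    have h3 := tendsto_nhds_unique h1 (h2.congr fun t => by
      rw [H _ _ hy, H _ _ hy, norm_neg]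
      simp only [map_neg, map_mul, Complex.conj_ofReal]
      congr 3 <;> ring)
    have h4 : y / (‖β‖ ^ 2 * y ^ 2) = (‖β‖ ^ 2 * y)⁻¹ := by field_simp
    simp only [Complex.ofReal_zero, zero_mul, norm_zero, zero_pow two_ne_zero, zero_add, h4] at h3
    rw [split h hb hy, split h' hb (by positivity)] at h3
    rw [mul_left_cancel₀ (div_ne_zero Complex.I_ne_zero two_ne_zero) h3]
    simp only [map_neg, map_div₀, map_mul, map_pow, Complex.conj_conj, Complex.ofReal_pow,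
      Complex.conj_ofReal]
  have h1 := dir 1
  have h2 := dir Complex.I
  rw [map_one] at h1
  rw [Complex.conj_I] at h2
  apply mul_left_cancel₀ Complex.I_ne_zero
  cases s
  · simp only [cjb, Bool.not_false, cond_true]
    linear_combination (h2 + Complex.I * h1) / 2
  · simp only [cjb, Bool.not_true, cond_false]
    linear_combination (Complex.I * h1 - h2) / 2

end one

section many

variable {ι : Type*} [Fintype ι] [DecidableEq ι] {Λ Λ' : Type*} {a : Λ → ℂ} {ρ : Λ → ι → ℂ}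
  {a' : Λ' → ℂ} {ρ' : Λ' → ι → ℂ} {b : ℝ}

/-- Summability of an expansion together with its first moments. -/
def SmN (a : Λ → ℂ) (ρ : Λ → ι → ℂ) : Prop :=
  ∀ y : ℝ, 0 < y → Summable fun r => ‖a r‖ * ∏ j, (1 + ‖ρ r j‖) * W0 (y * ‖ρ r j‖ ^ 2)

omit [DecidableEq ι] in
theorem SmN.vec (h : SmN a ρ) {y : ι → ℝ} (hy : ∀ j, 0 < y j) :
    Summable fun r => ‖a r‖ * ∏ j, (1 + ‖ρ r j‖) * W0 (y j * ‖ρ r j‖ ^ 2) := by
  obtain ⟨m, hm, hm'⟩ : ∃ m : ℝ, 0 < m ∧ ∀ j, m ≤ y j := by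
    rcases isEmpty_or_nonempty ι with hι | hι
    · exact ⟨1, one_pos, fun j => hι.elim j⟩
    · obtain ⟨j, hj⟩ := Finite.exists_min y
      exact ⟨y j, hy j, hj⟩
  have h0 : ∀ r j, 0 ≤ (1 + ‖ρ r j‖) * W0 (y j * ‖ρ r j‖ ^ 2) := fun r j =>
    mul_nonneg (by positivity) (W0_nonneg (by have := hy j; positivity))
  refine .of_nonneg_of_le (fun r => mul_nonneg (norm_nonneg _) (Finset.prod_nonneg fun j _ => h0 r j))
    (fun r => mul_le_mul_of_nonneg_left (Finset.prod_le_prod (fun j _ => h0 r j) fun j _ => ?_)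
      (norm_nonneg _)) (h m hm)
  have := hy j
  refine mul_le_mul_of_nonneg_left (W0_antitoneOn (Set.mem_Ici.2 (by positivity))
    (Set.mem_Ici.2 (by positivity)) ?_) (by positivity)
  gcongr
  exact hm' j

theorem SmN.sm1 (h : SmN a ρ) (hb : 0 < b) (k : ι) {η : ι → ℝ} (hη : ∀ j, 0 < η j)
    {φ : Λ → ι → ℂ} (hφ : ∀ r j, ‖φ r j‖ ≤ 1 + ‖ρ r j‖) (c : ℂ) :
    Sm1 (fun r => c * a r * ∏ j ∈ Finset.univ.erase k, (Mk (η j) (b * ‖ρ r j‖ ^ 2) : ℂ) * φ r j)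
      fun r => ρ r k := by
  intro y hy
  have h1 := h.vec (y := Function.update (fun j => η j ^ 2 * b) k y) fun j => by
    rcases eq_or_ne j k with rfl | hj
    · rwa [Function.update_self]
    · rw [Function.update_of_ne hj]
      have := hη j
      positivity
  refine .of_nonneg_of_le (fun r => mul_nonneg (norm_nonneg _) (mul_nonneg (by positivity)
    (W0_nonneg (by positivity)))) (fun r => ?_)
    (h1.mul_left (‖c‖ * ∏ j ∈ Finset.univ.erase k, η j ^ (2 / 3 : ℝ)))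
  rw [← Finset.mul_prod_erase _ _ (Finset.mem_univ k), Function.update_self, norm_mul, norm_mul,
    norm_prod]
  have h2 : ∏ j ∈ Finset.univ.erase k, ‖(Mk (η j) (b * ‖ρ r j‖ ^ 2) : ℂ) * φ r j‖ ≤
      (∏ j ∈ Finset.univ.erase k, η j ^ (2 / 3 : ℝ)) * ∏ j ∈ Finset.univ.erase k, (1 + ‖ρ r j‖) *
        W0 (Function.update (fun j => η j ^ 2 * b) k y j * ‖ρ r j‖ ^ 2) := by
    rw [← Finset.prod_mul_distrib]
    refine Finset.prod_le_prod (fun j _ => norm_nonneg _) fun j hj => ?_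
    have h3 := hη j
    have h4 := W0_nonneg (x := η j ^ 2 * (b * ‖ρ r j‖ ^ 2)) (by positivity)
    rw [Function.update_of_ne (Finset.ne_of_mem_erase hj), norm_mul, Complex.norm_real,
      Real.norm_of_nonneg (Mk_pos h3 (by positivity)).le, Mk, mul_assoc (η j ^ 2)]
    calc _ ≤ η j ^ (2 / 3 : ℝ) * W0 (η j ^ 2 * (b * ‖ρ r j‖ ^ 2)) * (1 + ‖ρ r j‖) := by
          gcongr; exact hφ r j
      _ = _ := by ring
  have h5 : 0 ≤ (1 + ‖ρ r k‖) * W0 (y * ‖ρ r k‖ ^ 2) :=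
    mul_nonneg (by positivity) (W0_nonneg (by positivity))
  calc _ ≤ ‖c‖ * ‖a r‖ * ((∏ j ∈ Finset.univ.erase k, η j ^ (2 / 3 : ℝ)) *
        ∏ j ∈ Finset.univ.erase k, (1 + ‖ρ r j‖) *
        W0 (Function.update (fun j => η j ^ 2 * b) k y j * ‖ρ r j‖ ^ 2)) *
        ((1 + ‖ρ r k‖) * W0 (y * ‖ρ r k‖ ^ 2)) := by gcongr
    _ = _ := by ring

/-- The expansion in all places. -/
def FN (a : Λ → ℂ) (ρ : Λ → ι → ℂ) (b : ℝ) (z : ι → ℂ) (y : ι → ℝ) : ℂ :=
  ∑' r, a r * ∏ j, (Mk (y j) (b * ‖ρ r j‖ ^ 2) : ℂ) * eR (ρ r j * z j)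

/-- The horizontal coordinate after the inversion. -/
def gz (β z : ℂ) (y : ℝ) : ℂ := -(conj z / (β ^ 2 * ((‖z‖ ^ 2 + y ^ 2 : ℝ) : ℂ)))

/-- The height after the inversion. -/
def gy (β z : ℂ) (y : ℝ) : ℝ := y / (‖β‖ ^ 2 * (‖z‖ ^ 2 + y ^ 2))

theorem gy_pos {β : ℂ} (hβ : β ≠ 0) (z : ℂ) {y : ℝ} (hy : 0 < y) : 0 < gy β z y := by
  have := norm_pos_iff.2 hβ
  unfold gy
  positivity

theorem prod_split (k : ι) {f g : ι → ℂ} (h : ∀ j, j ≠ k → f j = g j) :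
    ∏ j, f j = f k * ∏ j ∈ Finset.univ.erase k, g j := by
  rw [← Finset.mul_prod_erase _ _ (Finset.mem_univ k),
    Finset.prod_congr rfl fun j hj => h j (Finset.ne_of_mem_erase hj)]

theorem partial_places (h : SmN a ρ) (h' : SmN a' ρ') (hb : 0 < b) {β : ι → ℂ}
    (hβ : ∀ j, β j ≠ 0)
    (H : ∀ (z : ι → ℂ) (y : ι → ℝ), (∀ j, 0 < y j) → FN a ρ b z y =
      FN a' ρ' b (fun j => gz (β j) (z j) (y j)) fun j => gy (β j) (z j) (y j))
    (s : ι → Bool) (T : Finset ι) : ∀ (z : ι → ℂ) (y : ι → ℝ), (∀ j, 0 < y j) →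
    ∑' r, a r * ∏ j, (Mk (y j) (b * ‖ρ r j‖ ^ 2) : ℂ) *
        (if j ∈ T then cjb (s j) (ρ r j) else eR (ρ r j * z j)) =
      (∏ j ∈ T, -(cjb (!s j) (β j) ^ 2 * y j ^ 2)⁻¹) *
        ∑' r, a' r * ∏ j, (Mk (if j ∈ T then (‖β j‖ ^ 2 * y j)⁻¹ else gy (β j) (z j) (y j))
          (b * ‖ρ' r j‖ ^ 2) : ℂ) *
          (if j ∈ T then cjb (!s j) (ρ' r j) else eR (ρ' r j * gz (β j) (z j) (y j))) := by
  induction T using Finset.induction_on with
  | empty => intro z y hy; simpa [FN] using H z y hy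
  | insert k T hk ih =>
    intro z y hy
    have hφ : ∀ (w u : ℂ) (s : Bool) (p : Prop) [Decidable p],
        ‖if p then cjb s w else eR u‖ ≤ 1 + ‖w‖ := fun w u s p _ => by
      split_ifs
      · rw [norm_cjb]; linarith
      · rw [norm_eR]; linarith [norm_nonneg w]
    have hη : ∀ j, 0 < if j ∈ T then (‖β j‖ ^ 2 * y j)⁻¹ else gy (β j) (z j) (y j) := fun j => by
      have := norm_pos_iff.2 (hβ j)
      have := hy j
      split_ifs
      · positivity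
      · exact gy_pos (hβ j) _ (hy j)
    have s1 := h.sm1 hb k hy (φ := fun r j => if j ∈ T then cjb (s j) (ρ r j) else eR (ρ r j * z j))
      (fun r j => hφ _ _ _ _) 1
    have s2 := h'.sm1 hb k hη (φ := fun r j =>
      if j ∈ T then cjb (!s j) (ρ' r j) else eR (ρ' r j * gz (β j) (z j) (y j)))
      (fun r j => hφ _ _ _ _) (∏ j ∈ T, -(cjb (!s j) (β j) ^ 2 * y j ^ 2)⁻¹)
    have key := one_place s1 s2 hb (hβ k) (fun z' y' hy' => by
      have h1 := ih (Function.update z k z') (Function.update y k y') fun j => by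
        rcases eq_or_ne j k with rfl | hj
        · rwa [Function.update_self]
        · rw [Function.update_of_ne hj]; exact hy j
      rw [← tsum_mul_left] at h1
      rw [F1, F1]
      refine (tsum_congr fun r => ?_).trans (h1.trans (tsum_congr fun r => ?_))
      · rw [prod_split k fun j hj => by rw [Function.update_of_ne hj, Function.update_of_ne hj],
          Function.update_self, Function.update_self, if_neg hk]
        ring
      · rw [prod_split k fun j hj => by rw [Function.update_of_ne hj, Function.update_of_ne hj],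
          Function.update_self, Function.update_self, if_neg hk, if_neg hk,
          Finset.prod_congr (s₁ := T) rfl fun j hj => by
            rw [Function.update_of_ne (ne_of_mem_of_not_mem hj hk)], gz, gy]
        ring) (s k) (hy k)
    rw [S1, S1, ← tsum_mul_left] at key
    rw [← tsum_mul_left]
    refine (tsum_congr fun r => ?_).trans (key.trans (tsum_congr fun r => ?_))
    · rw [prod_split k fun j hj => by simp only [Finset.mem_insert, hj, false_or]; rfl,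
        if_pos (Finset.mem_insert_self _ _)]
      ring
    · rw [prod_split k fun j hj => by simp only [Finset.mem_insert, hj, false_or]; rfl,
        if_pos (Finset.mem_insert_self _ _), if_pos (Finset.mem_insert_self _ _),
        Finset.prod_insert hk]
      ring

/-- **All places**, in terms of `Mk`. -/
theorem all_places (h : SmN a ρ) (h' : SmN a' ρ') (hb : 0 < b) {β : ι → ℂ} (hβ : ∀ j, β j ≠ 0)
    (H : ∀ (z : ι → ℂ) (y : ι → ℝ), (∀ j, 0 < y j) → FN a ρ b z y =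
      FN a' ρ' b (fun j => gz (β j) (z j) (y j)) fun j => gy (β j) (z j) (y j))
    (s : ι → Bool) {y : ι → ℝ} (hy : ∀ j, 0 < y j) :
    ∑' r, a r * ∏ j, (Mk (y j) (b * ‖ρ r j‖ ^ 2) : ℂ) * cjb (s j) (ρ r j) =
      (∏ j, -(cjb (!s j) (β j) ^ 2 * y j ^ 2)⁻¹) *
        ∑' r, a' r * ∏ j, (Mk (‖β j‖ ^ 2 * y j)⁻¹ (b * ‖ρ' r j‖ ^ 2) : ℂ) * cjb (!s j) (ρ' r j) := by
  simpa using partial_places h h' hb hβ H s Finset.univ 0 y hy

/-- The angular factor `‖w‖^{1/3} · w / ‖w‖` (or its conjugate). -/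
def ang (s : Bool) (w : ℂ) : ℂ := ((‖w‖ ^ (1 / 3 : ℝ) : ℝ) : ℂ) * cjb s (w / (‖w‖ : ℝ))

theorem U1_eq {y b : ℝ} (hy0 : 0 < y) (hb : 0 ≤ b) : U1 (y ^ 2 * b) = b ^ (1 / 3 : ℝ) * Mk y b := by
  rw [U1, Mk, Real.mul_rpow (by positivity) hb, ← Real.rpow_natCast, ← Real.rpow_mul hy0.le]
  norm_num
  ring

theorem ang_U1 (hb : 0 < b) {y : ℝ} (hy : 0 < y) (s : Bool) (w : ℂ) :
    ang s w * (U1 (y ^ 2 * (b * ‖w‖ ^ 2)) : ℂ) =
      ((b ^ (1 / 3 : ℝ) : ℝ) : ℂ) * ((Mk y (b * ‖w‖ ^ 2) : ℂ) * cjb s w) := by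
  rcases eq_or_ne w 0 with rfl | hw
  · cases s <;> simp [ang, cjb]
  have hn := norm_pos_iff.2 hw
  have e : ‖w‖ ^ (1 / 3 : ℝ) * (‖w‖ ^ 2) ^ (1 / 3 : ℝ) = ‖w‖ := by
    rw [← Real.mul_rpow hn.le (by positivity), show ‖w‖ * ‖w‖ ^ 2 = ‖w‖ ^ (3 : ℕ) by ring,
      show (1 / 3 : ℝ) = ((3 : ℕ) : ℝ)⁻¹ by norm_num, Real.pow_rpow_inv_natCast hn.le (by norm_num)]
  have e' := congrArg (fun x : ℝ => (x : ℂ)) e
  have hn' : ((‖w‖ : ℝ) : ℂ) ≠ 0 := Complex.ofReal_ne_zero.2 hn.ne'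
  rw [U1_eq hy (by positivity), Real.mul_rpow hb.le (by positivity), ang, cjb_div_ofReal]
  simp only [Complex.ofReal_mul] at e' ⊢
  generalize Mk y (b * ‖w‖ ^ 2) = M
  field_simp
  linear_combination ((b ^ (1 / 3 : ℝ) : ℝ) : ℂ) * (M : ℂ) * cjb s w * e'

/-- **Abstract additive Voronoi formula**: all places, profile `U1`. -/
theorem voronoi (h : SmN a ρ) (h' : SmN a' ρ') (hb : 0 < b) {β : ι → ℂ} (hβ : ∀ j, β j ≠ 0)
    (H : ∀ (z : ι → ℂ) (y : ι → ℝ), (∀ j, 0 < y j) → FN a ρ b z y =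
      FN a' ρ' b (fun j => gz (β j) (z j) (y j)) fun j => gy (β j) (z j) (y j))
    (s : ι → Bool) {x : ι → ℝ} (hx : ∀ j, 0 < x j) :
    ∑' r, a r * (∏ j, ang (s j) (ρ r j)) * ∏ j, (U1 (b * ‖ρ r j‖ ^ 2 * x j) : ℂ) =
      (∏ j, -(cjb (!s j) (β j) ^ 2)⁻¹) * (∏ j, (x j : ℂ))⁻¹ *
        ∑' r, a' r * (∏ j, ang (!s j) (ρ' r j)) *
          ∏ j, (U1 (b / ‖β j‖ ^ 4 * ‖ρ' r j‖ ^ 2 / x j) : ℂ) := by
  obtain ⟨y, hy, rfl⟩ : ∃ y : ι → ℝ, (∀ j, 0 < y j) ∧ x = fun j => y j ^ 2 :=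
    ⟨fun j => √(x j), fun j => Real.sqrt_pos.2 (hx j), funext fun j => (Real.sq_sqrt (hx j).le).symm⟩
  have h1 : ∀ r, a r * (∏ j, ang (s j) (ρ r j)) * ∏ j, (U1 (b * ‖ρ r j‖ ^ 2 * y j ^ 2) : ℂ) =
      (∏ _j : ι, ((b ^ (1 / 3 : ℝ) : ℝ) : ℂ)) *
        (a r * ∏ j, (Mk (y j) (b * ‖ρ r j‖ ^ 2) : ℂ) * cjb (s j) (ρ r j)) := fun r => by
    rw [mul_assoc, ← Finset.prod_mul_distrib, mul_left_comm, ← Finset.prod_mul_distrib]
    congr 1
    exact Finset.prod_congr rfl fun j _ => by rw [mul_comm _ (y j ^ 2), ang_U1 hb (hy j)]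
  have h2 : ∀ r, a' r * (∏ j, ang (!s j) (ρ' r j)) *
      ∏ j, (U1 (b / ‖β j‖ ^ 4 * ‖ρ' r j‖ ^ 2 / y j ^ 2) : ℂ) =
      (∏ _j : ι, ((b ^ (1 / 3 : ℝ) : ℝ) : ℂ)) * (a' r *
        ∏ j, (Mk (‖β j‖ ^ 2 * y j)⁻¹ (b * ‖ρ' r j‖ ^ 2) : ℂ) * cjb (!s j) (ρ' r j)) := fun r => by
    rw [mul_assoc, ← Finset.prod_mul_distrib, mul_left_comm, ← Finset.prod_mul_distrib]
    congr 1
    refine Finset.prod_congr rfl fun j _ => ?_
    have := norm_pos_iff.2 (hβ j)
    have := hy j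
    rw [← ang_U1 hb (by positivity)]
    congr 3
    field_simp
  simp only [h1, h2, tsum_mul_left]
  rw [all_places h h' hb hβ H s hy, ← Finset.prod_inv_distrib, ← Finset.prod_mul_distrib,
    mul_left_comm]
  congr 1
  refine Finset.prod_congr rfl fun j _ => ?_
  push_cast
  rw [mul_inv, neg_mul]

end many

end Vor57

end Crest.Agent.T27
end
end

-- ▼ part T27/Vor2_57
section

/-!
# Row 27, theta leaf D2 (helper57): the additive Voronoi formula for the abstract theta function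
-/

set_option autoImplicit false

noncomputable section

namespace Crest.Agent.T27.TH

open scoped ComplexConjugate Topology
open Filter NumberField Vor57

variable {F : Type} [Field F] [NumberField F] [Emb F]

namespace V57

theorem em_ne {x : F} (hx : x ≠ 0) (j : Pl F) : em x j ≠ 0 := (map_ne_zero (Emb.σ j)).2 hx

theorem em_mul (x y : F) (j : Pl F) : em (x * y) j = em x j * em y j := map_mul _ _ _

theorem em_div (x y : F) (j : Pl F) : em (x / y) j = em x j / em y j := map_div₀ _ _ _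

theorem em_neg (x : F) (j : Pl F) : em (-x) j = -em x j := map_neg _ _

theorem nF_mul (x y : F) : nF (x * y) = nF x * nF y := by
  simp only [nF, em_mul, norm_mul, mul_pow, Finset.prod_mul_distrib]

theorem nF_pos {x : F} (hx : x ≠ 0) : 0 < nF x :=
  Finset.prod_pos fun j _ => pow_pos (norm_pos_iff.2 (em_ne hx j)) 2

theorem nF_nonneg (x : F) : 0 ≤ nF x := Finset.prod_nonneg fun _ _ => by positivity

theorem pow_W0 {p q y : ℝ} (hp : 0 ≤ p) (hq : 0 ≤ q) (hy : 0 < y) :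
    ∃ C : ℝ, 0 < C ∧ ∀ X : ℝ, 0 < X → X ^ p * R17.W0 (y * X) ≤ C * X ^ (-q) := by
  obtain ⟨C, hC, h⟩ := R17.W0_le_rpow (A := p + q) (by linarith)
  refine ⟨C * y ^ (-(p + q)), by positivity, fun X hX => ?_⟩
  calc X ^ p * R17.W0 (y * X) ≤ X ^ p * (C * (y * X) ^ (-(p + q))) := by
        gcongr; exact h _ (by positivity)
    _ = C * y ^ (-(p + q)) * (X ^ p * X ^ (-(p + q))) := by
        rw [Real.mul_rpow hy.le hX.le]; ring
    _ = _ := by rw [← Real.rpow_add hX]; congr 2; ring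

theorem local_bd {y : ℝ} (hy : 0 < y) : ∃ C : ℝ, 0 < C ∧ ∀ w : ℂ, w ≠ 0 →
    (‖w‖ ^ 2) ^ (1 / 3 : ℝ) * ((1 + ‖(4 * Real.pi : ℝ) * w‖) *
      R17.W0 (y * ‖(4 * Real.pi : ℝ) * w‖ ^ 2)) ≤
      C * min (Real.exp (-0 * (0 + Real.log (‖w‖ ^ 2)))) (Real.exp (-2 * (0 + Real.log (‖w‖ ^ 2)))) := by
  have hpi := Real.pi_pos
  have hy' : 0 < y * (4 * Real.pi) ^ 2 := by positivity
  have key : ∀ q : ℝ, 0 ≤ q → ∃ C : ℝ, 0 < C ∧ ∀ w : ℂ, w ≠ 0 →
      (‖w‖ ^ 2) ^ (1 / 3 : ℝ) * ((1 + ‖(4 * Real.pi : ℝ) * w‖) *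
        R17.W0 (y * ‖(4 * Real.pi : ℝ) * w‖ ^ 2)) ≤
        C * Real.exp (-q * (0 + Real.log (‖w‖ ^ 2))) := fun q hq => by
    obtain ⟨C₁, h₁, H₁⟩ := pow_W0 (p := 1 / 3) (by norm_num) hq hy'
    obtain ⟨C₂, h₂, H₂⟩ := pow_W0 (p := 1 / 3 + 1 / 2) (by norm_num) hq hy'
    refine ⟨C₁ + 4 * Real.pi * C₂, by positivity, fun w hw => ?_⟩
    have hn := norm_pos_iff.2 hw
    have hX : 0 < ‖w‖ ^ 2 := by positivity
    have e1 : (‖w‖ ^ 2) ^ (1 / 3 + 1 / 2 : ℝ) = (‖w‖ ^ 2) ^ (1 / 3 : ℝ) * ‖w‖ := by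
      rw [Real.rpow_add hX, ← Real.sqrt_eq_rpow, Real.sqrt_sq hn.le]
    have a1 := H₁ _ hX
    have a2 := H₂ _ hX
    rw [e1] at a2
    rw [zero_add, mul_comm (-q), ← Real.rpow_def_of_pos hX, norm_mul, Complex.norm_real,
      Real.norm_of_nonneg (by positivity), mul_pow, ← mul_assoc y]
    nlinarith
  obtain ⟨C₁, h₁, H₁⟩ := key 0 le_rfl
  obtain ⟨C₂, h₂, H₂⟩ := key 2 (by norm_num)
  refine ⟨C₁ + C₂, by positivity, fun w hw => ?_⟩
  rw [mul_min_of_nonneg _ _ (by positivity)]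
  refine le_min ((H₁ w hw).trans ?_) ((H₂ w hw).trans ?_) <;> gcongr <;> linarith

/-- Summability of an expansion with coefficients as those of a theta function. -/
theorem smN (hL : LatStmt F) {τ : F → ℂ} {M : ℕ} (hM : M ≠ 0)
    (hs : ∀ r, τ r ≠ 0 → IsIntegral ℤ ((M : F) * r)) {C : ℝ}
    (hb : ∀ r : F, r ≠ 0 → ‖τ r‖ ^ 2 * nF r ^ (1 / 3 : ℝ) ≤ C * (1 + nF r)) :
    SmN τ fun r j => (4 * Real.pi : ℝ) * em r j := by
  classical
  intro y hy
  obtain ⟨C₁, hC₁, h₁⟩ := local_bd hy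
  obtain ⟨C₂, h₂⟩ := hL.lsum M hM 0 2 (by norm_num) (by norm_num)
  have hM' : (M : F) ≠ 0 := Nat.cast_ne_zero.2 hM
  have hnM := nF_pos hM'
  set K := Real.sqrt (|C| * (nF (M : F) + 1)) with hK
  have hτ : ∀ r : F, r ≠ 0 → IsIntegral ℤ ((M : F) * r) → ‖τ r‖ ≤ K * nF r ^ (1 / 3 : ℝ) := by
    intro r hr hi
    have h1 := hL.one_le _ (mul_ne_zero hM' hr) hi
    have hn := nF_pos hr
    rw [nF_mul] at h1
    have h2 : ‖τ r‖ ^ 2 * nF r ^ (1 / 3 : ℝ) ≤ |C| * (nF (M : F) + 1) * nF r := by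
      refine (hb r hr).trans ?_
      calc C * (1 + nF r) ≤ |C| * (nF (M : F) * nF r + nF r) := by
            gcongr; exact le_abs_self C
        _ = _ := by ring
    have h3 : nF r = (nF r ^ (1 / 3 : ℝ)) ^ 2 * nF r ^ (1 / 3 : ℝ) := by
      rw [← pow_succ, ← Real.rpow_natCast, ← Real.rpow_mul hn.le]; norm_num
    have h4 : 0 < nF r ^ (1 / 3 : ℝ) := by positivity
    refine (abs_le_of_sq_le_sq' ?_ (by positivity)).2
    rw [mul_pow, hK, Real.sq_sqrt (by positivity)]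
    refine le_of_mul_le_mul_right ?_ h4
    rw [mul_assoc, ← h3]
    exact h2
  set g : F → ℝ := fun r => ∏ j, min (Real.exp (-0 * ((0 : Pl F → ℝ) j + lg r j)))
    (Real.exp (-2 * ((0 : Pl F → ℝ) j + lg r j))) with hg
  have hg0 : ∀ r, 0 ≤ g r := fun r => Finset.prod_nonneg fun j _ => by positivity
  have hsum : Summable fun r : F => if r ≠ 0 ∧ IsIntegral ℤ ((M : F) * r) then g r else 0 := by
    refine summable_of_sum_le (c := C₂ * Real.exp (-∑ j, (0 : Pl F → ℝ) j))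
      (fun r => by simp only [Pi.zero_apply]; split_ifs; exacts [hg0 r, le_rfl]) fun S => ?_
    rw [← Finset.sum_filter]
    exact h₂ 0 _ fun x hx => (Finset.mem_filter.1 hx).2
  set f : F → ℝ := fun r => ‖τ r‖ * ∏ j, (1 + ‖((4 * Real.pi : ℝ) : ℂ) * em r j‖) *
    R17.W0 (y * ‖((4 * Real.pi : ℝ) : ℂ) * em r j‖ ^ 2) with hf
  have hf1 : ∀ r j, 0 ≤ (1 + ‖((4 * Real.pi : ℝ) : ℂ) * em r j‖) *
      R17.W0 (y * ‖((4 * Real.pi : ℝ) : ℂ) * em r j‖ ^ 2) := fun (r : F) j =>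
    mul_nonneg (by positivity) (W0_nonneg (by positivity))
  have hf0 : ∀ r, 0 ≤ f r := fun r =>
    mul_nonneg (norm_nonneg _) (Finset.prod_nonneg fun j _ => hf1 r j)
  refine .of_nonneg_of_le hf0 (fun r => ?_) ((hasSum_ite_eq 0 (f 0)).summable.add
    (hsum.mul_left (K * ∏ _j : Pl F, C₁)))
  have hKC : 0 ≤ K * ∏ _j : Pl F, C₁ := by positivity
  rcases eq_or_ne r 0 with rfl | hr
  · simp
  rw [if_neg hr, zero_add]
  by_cases h0 : τ r = 0
  · have : f r = 0 := by simp [hf, h0]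
    rw [this]
    refine mul_nonneg hKC ?_
    split_ifs
    exacts [hg0 r, le_rfl]
  rw [if_pos ⟨hr, hs r h0⟩]
  calc f r ≤ K * nF r ^ (1 / 3 : ℝ) * ∏ j, (1 + ‖((4 * Real.pi : ℝ) : ℂ) * em r j‖) *
        R17.W0 (y * ‖((4 * Real.pi : ℝ) : ℂ) * em r j‖ ^ 2) :=
        mul_le_mul_of_nonneg_right (hτ r hr (hs r h0)) (Finset.prod_nonneg fun j _ => hf1 r j)
    _ = K * ∏ j, (‖em r j‖ ^ 2) ^ (1 / 3 : ℝ) * ((1 + ‖((4 * Real.pi : ℝ) : ℂ) * em r j‖) *
        R17.W0 (y * ‖((4 * Real.pi : ℝ) : ℂ) * em r j‖ ^ 2)) := by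
        rw [nF, ← Real.finsetProd_rpow _ _ (fun j _ => by positivity), mul_assoc,
          ← Finset.prod_mul_distrib]
    _ ≤ K * ∏ j, C₁ * min (Real.exp (-0 * ((0 : Pl F → ℝ) j + lg r j)))
        (Real.exp (-2 * ((0 : Pl F → ℝ) j + lg r j))) := by
        refine mul_le_mul_of_nonneg_left (Finset.prod_le_prod
          (fun j _ => mul_nonneg (by positivity) (hf1 r j)) fun j _ => h₁ _ (em_ne hr j))
          (Real.sqrt_nonneg _)
    _ = _ := by rw [Finset.prod_mul_distrib, mul_assoc]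

theorem smN_mul {Λ ι : Type*} [Fintype ι] {a e : Λ → ℂ} {ρ : Λ → ι → ℂ} (h : SmN a ρ)
    (he : ∀ r, ‖e r‖ = 1) : SmN (fun r => a r * e r) ρ := fun y hy => by
  simpa only [norm_mul, he, mul_one] using h y hy

omit [Emb F] in
theorem eV_eq (z : Pl F → ℂ) : eV z = ∏ j, eR ((4 * Real.pi : ℝ) * z j) := by
  simp only [eV, eR, ← Complex.exp_sum, Complex.re_ofReal_mul]
  congr 1
  push_cast
  rw [Finset.mul_sum]
  exact Finset.sum_congr rfl fun j _ => by ring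

omit [Emb F] in
theorem norm_eV (z : Pl F → ℂ) : ‖eV z‖ = 1 := by
  simp [eV_eq, norm_eR]

theorem norm_eF (x : F) : ‖eF x‖ = 1 := norm_eV _

/-- The theta function near a point of the boundary, as an abstract expansion. -/
theorem Th_eq (ξ : F × F → ℂ) (c : F) (z : Pl F → ℂ) {y : Pl F → ℝ} (hy : ∀ j, 0 < y j) :
    Th ξ (fun j => R17.hp (em c j + z j) (y j)) =
      FN (fun r => tau ξ r * eF (r * c)) (fun r j => (4 * Real.pi : ℝ) * em r j) (1 / 4) z y := by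
  rw [Th, FN]
  refine tsum_congr fun r => ?_
  rw [eF, eV_eq, eV_eq, MkV, Complex.ofReal_prod, mul_assoc, mul_assoc, ← Finset.prod_mul_distrib,
    ← Finset.prod_mul_distrib]
  congr 1
  refine Finset.prod_congr rfl fun j _ => ?_
  have hpi := Real.pi_pos
  have e1 : bb r j = 1 / 4 * ‖((4 * Real.pi : ℝ) : ℂ) * em r j‖ ^ 2 := by
    rw [norm_mul, Complex.norm_real, Real.norm_of_nonneg (by positivity), bb]
    ring
  rw [mul_left_comm (eR _), ← eR_add, R17.hp_fst, em_mul, e1, R17.hp, Real.exp_log (hy j)]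
  congr 2
  ring

theorem geod (σ : SL F) (hβ : σ 1 0 ≠ 0) (z : Pl F → ℂ) {y : Pl F → ℝ} (hy : ∀ j, 0 < y j) :
    (σ⁻¹ • (fun j => R17.hp (em (σ 0 0 / σ 1 0) j + z j) (y j) : HH F) : HH F) =
      fun j => R17.hp (em (-σ 1 1 / σ 1 0) j + gz (em (σ 1 0) j) (z j) (y j))
        (gy (em (σ 1 0) j) (z j) (y j)) := by
  funext j
  have hdet : em (σ 0 0) j * em (σ 1 1) j - em (σ 0 1) j * em (σ 1 0) j = 1 := by
    have h := σ.det_coe
    rw [Matrix.det_fin_two] at h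
    simp only [em, ← map_mul, ← map_sub]
    rw [h, map_one]
  rw [smul_def, act, em_div, em_div, em_neg, gz, gy, ← sub_eq_add_neg,
    ← R17.actC_geod hdet (em_ne hβ j) (z j) (hy j), Matrix.SpecialLinearGroup.coe_inv,
    Matrix.adjugate_fin_two]
  congr 1
  refine Matrix.ext fun a b => ?_
  fin_cases a <;> fin_cases b <;> simp [em]

theorem ang_prod (s : Bool) (r : F) :
    ∏ j, ang s ((4 * Real.pi : ℝ) * em r j) =
      (∏ _j : Pl F, (((4 * Real.pi) ^ (1 / 3 : ℝ) : ℝ) : ℂ)) *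
        (((nF r ^ (1 / 6 : ℝ) : ℝ) : ℂ) * cjb s (argF r)) := by
  have hpi := Real.pi_pos
  have e : cjb s (argF r) = ∏ j, cjb s (em r j / (‖em r j‖ : ℂ)) := by
    cases s
    · simp [cjb, argF]
    · simp only [cjb, argF, cond_true, map_prod]
  rw [e, nF, ← Real.finsetProd_rpow _ _ (fun j _ => by positivity), Complex.ofReal_prod,
    ← Finset.prod_mul_distrib, ← Finset.prod_mul_distrib]
  refine Finset.prod_congr rfl fun j _ => ?_
  have h4 : ((4 * Real.pi : ℝ) : ℂ) ≠ 0 := Complex.ofReal_ne_zero.2 (by positivity)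
  rw [ang, norm_mul, Complex.norm_real, Real.norm_of_nonneg (by positivity),
    Real.mul_rpow (by positivity) (norm_nonneg _), Complex.ofReal_mul,
    Complex.ofReal_mul (4 * Real.pi), mul_div_mul_left _ _ h4, ← Real.rpow_natCast, ← Real.rpow_mul (norm_nonneg _), mul_assoc]
  norm_num

end V57

open V57 in
/-- **Additive Voronoi formula** for the theta function of a good row function at the cusp
`α / β`, `σ = (α x; β δ)`.  `s = true`: conjugate argument on the left. -/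
theorem voronoi_57 (hL : LatStmt F) (hT : ThetaStmt F) (hA : TauStmt F) {ξ : F × F → ℂ}
    (hξ : Good ξ) (σ : SL F) (hβ : σ 1 0 ≠ 0) (s : Bool) {x : Pl F → ℝ} (hx : ∀ j, 0 < x j) :
    ∑' r : F, tau ξ r * eF (r * (σ 0 0 / σ 1 0)) * (((nF r ^ (1 / 6 : ℝ) : ℝ) : ℂ) * cjb s (argF r)) *
        ∏ j, (R17.U1 (4 * Real.pi ^ 2 * ‖em r j‖ ^ 2 * x j) : ℂ) =
      (∏ j, -(cjb (!s) (em (σ 1 0) j) ^ 2)⁻¹) * (∏ j, (x j : ℂ))⁻¹ *
        ∑' ν : F, tau (tr ξ ((σ⁻¹ : SL F) : Mat F)) ν * eF (ν * (-σ 1 1 / σ 1 0)) *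
          (((nF ν ^ (1 / 6 : ℝ) : ℝ) : ℂ) * cjb (!s) (argF ν)) *
          ∏ j, (R17.U1 (4 * Real.pi ^ 2 / ‖em (σ 1 0) j‖ ^ 4 * ‖em ν j‖ ^ 2 / x j) : ℂ) := by
  classical
  have hpi := Real.pi_pos
  have hξ' : Good (tr ξ ((σ⁻¹ : SL F) : Mat F)) :=
    hA.good_tr _ _ hξ (by rw [Matrix.SpecialLinearGroup.det_coe]; exact one_ne_zero)
  have sm : ∀ {η : F × F → ℂ}, Good η → ∀ c : F, SmN (fun r => tau η r * eF (r * c))
      fun r j => (4 * Real.pi : ℝ) * em r j := fun {η} hη c => by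
    obtain ⟨M, hM, hs⟩ := hA.supp η hη
    obtain ⟨C, hC⟩ := hT.bound η hη
    exact smN_mul (smN hL hM hs hC) fun r => norm_eF _
  have key := Vor57.voronoi (sm hξ (σ 0 0 / σ 1 0)) (sm hξ' (-σ 1 1 / σ 1 0)) (b := 1 / 4)
    (by norm_num) (β := em (σ 1 0)) (em_ne hβ) (fun z y hy => by
      rw [← Th_eq ξ _ z hy, ← Th_eq _ _ _ fun j => gy_pos (em_ne hβ j) _ (hy j), ← geod σ hβ z hy,
        hT.aut ξ hξ]) (fun _ => s) hx
  have e1 : ∀ (w : ℂ) (t : ℝ), 1 / 4 * ‖((4 * Real.pi : ℝ) : ℂ) * w‖ ^ 2 * t =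
      4 * Real.pi ^ 2 * ‖w‖ ^ 2 * t := fun w t => by
    rw [norm_mul, Complex.norm_real, Real.norm_of_nonneg (by positivity)]; ring
  have e2 : ∀ (w : ℂ) (u t : ℝ), 1 / 4 / u * ‖((4 * Real.pi : ℝ) : ℂ) * w‖ ^ 2 / t =
      4 * Real.pi ^ 2 / u * ‖w‖ ^ 2 / t := fun w u t => by
    rw [norm_mul, Complex.norm_real, Real.norm_of_nonneg (by positivity)]; ring
  have h0 : (∏ _j : Pl F, (((4 * Real.pi) ^ (1 / 3 : ℝ) : ℝ) : ℂ)) ≠ 0 :=
    Finset.prod_ne_zero_iff.2 fun j _ => Complex.ofReal_ne_zero.2 (by positivity)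
  simp only [ang_prod, e1, e2] at key
  set c := ∏ _j : Pl F, (((4 * Real.pi) ^ (1 / 3 : ℝ) : ℝ) : ℂ)
  simp only [mul_left_comm _ c, mul_assoc c, tsum_mul_left] at key
  exact mul_left_cancel₀ h0 key

end Crest.Agent.T27.TH
end
end

-- ▼ part T27/Vor3_57

/-!
# Row 27, theta leaf D (helper57): the additive Voronoi formula `VorStmt`
-/

set_option autoImplicit false

noncomputable section

namespace Crest.Agent.T27.TH

open scoped ComplexConjugate
open NumberField Vor57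

variable {F : Type} [Field F] [NumberField F] [Emb F] [Ar F]

namespace V57

theorem N_ne : (Ar.N F : F) ≠ 0 := Nat.cast_ne_zero.2 (by have := Ar.two_le (F := F); omega)

theorem mem_L_of_int {x : F} (hx : IsIntegral ℤ x) : x ∈ (Ar.L : Subring F) :=
  (Ar.mem_L x).2 ⟨1, Nat.coprime_one_left _, by simpa using hx⟩

theorem Deep.mono {j j' : ℕ} {x : F} (h : Deep j' x) (hj : j ≤ j') : Deep j x := by
  obtain ⟨y, hy, rfl⟩ := h
  obtain ⟨k, rfl⟩ := Nat.exists_eq_add_of_le hj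
  exact ⟨(Ar.N F : F) ^ k * y, Subring.mul_mem _ (Subring.pow_mem _ (natCast_mem _ _) _) hy, by ring⟩

theorem deep_zero (j : ℕ) : Deep j (0 : F) := ⟨0, Subring.zero_mem _, by simp⟩

theorem test_zero {f : F × F → ℂ} (hf : Test f) : f 0 = 0 := by
  obtain ⟨j, hj⟩ := hf
  by_contra h
  obtain ⟨-, -, a, -, b, -, e⟩ := hj.supp 0 h
  refine pow_ne_zero j (N_ne (F := F)) ?_
  rw [← e, Prod.fst_zero, Prod.snd_zero, mul_zero, mul_zero, add_zero]

theorem rho_nT_deep {f : F × F → ℂ} {j : ℕ} (hf : TestFn j f) {p : F} (hp : Deep j p) :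
    rho ((nT p : SL F) : Mat F) f = f := by
  refine hf.inv _ fun i i' => ?_
  fin_cases i <;> fin_cases i' <;> simp [nT, mkSL, deep_zero, hp]

/-- The support of the coefficients is bounded at the primes of `S`. -/
theorem supp_L (hA : TauStmt F) {ξ : F × F → ℂ} (hξ : Good ξ) :
    ∃ k : ℕ, ∀ r, tau ξ r ≠ 0 → (Ar.N F : F) ^ k * r ∈ (Ar.L : Subring F) := by
  obtain ⟨M, hM, hs⟩ := hA.supp ξ hξ
  obtain ⟨k, hk⟩ := Ar.pow_mem_L (M : F)⁻¹
  refine ⟨k, fun r hr => ?_⟩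
  have hM' : (M : F) ≠ 0 := Nat.cast_ne_zero.2 hM
  rw [show (Ar.N F : F) ^ k * r = (Ar.N F : F) ^ k * (M : F)⁻¹ * (M * r) by field_simp]
  exact Subring.mul_mem _ hk (mem_L_of_int (hs r hr))

theorem psi_eq {k : ℕ} {r c t l : F} (hr : r ∈ (Ar.R : Subring F))
    (hk : (Ar.N F : F) ^ k * r ∈ (Ar.L : Subring F)) (ht : t ∈ (Ar.R : Subring F)) (hl : Deep k l)
    (h : c = t + l) : Ar.psi (r * c) = eF (r * l) := by
  obtain ⟨l', hl', rfl⟩ := hl
  rw [h, mul_add, Ar.psi_add, Ar.psi_R _ (Subring.mul_mem _ hr ht), one_mul, Ar.psi_L]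
  rw [show r * ((Ar.N F : F) ^ k * l') = (Ar.N F : F) ^ k * r * l' by ring]
  exact Subring.mul_mem _ hk hl'

end V57

open V57 in
/-- **Leaf D.** -/
theorem vor_57 (F : Type) [Field F] [NumberField F] [Emb F] [Ar F] (hL : LatStmt F)
    (hT : ThetaStmt F) (hA : TauStmt F) (hO : OpStmt F) (hC : CuspStmt F) : VorStmt F := by
  intro f hf D a δ y hD hDR haR hδR hyR hdet x hx
  obtain ⟨κ₀, -, hC⟩ := hC
  have hdg : (gam 0 D).det = 1 := by simp [gam, hD]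
  have hf' : Test (opW D f) := hO.test_rho f _ hdg hf
  obtain ⟨hg, -, -, -, hR⟩ := hC f hf
  obtain ⟨hg', -, -, -, hR'⟩ := hC _ hf'
  obtain ⟨k, hk⟩ := supp_L hA hg
  obtain ⟨k', hk'⟩ := supp_L hA hg'
  obtain ⟨j, hj⟩ := id hf
  obtain ⟨j', hj'⟩ := id hf'
  obtain ⟨t, ht, l, hl, e⟩ := Ar.approx (a / D) ((Ar.N F : F) ^ (j + k)) (pow_ne_zero _ N_ne)
  obtain ⟨t', ht', l', hl', e'⟩ :=
    Ar.approx (-δ / D) ((Ar.N F : F) ^ (j' + k')) (pow_ne_zero _ N_ne)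
  set q := (Ar.N F : F) ^ (j + k) * l with hq
  set p := (Ar.N F : F) ^ (j' + k') * l' with hp
  have dq : Deep (j + k) q := ⟨l, hl, rfl⟩
  have dp : Deep (j' + k') p := ⟨l', hl', rfl⟩
  have dq' : Deep j (-q) := Deep.mono ⟨-l, Subring.neg_mem _ hl, by rw [hq]; ring⟩
    (Nat.le_add_right j k)
  have ea : a = D * t + D * q := by rw [← mul_add, ← e]; field_simp
  have eδ : δ = -(D * t') - D * p := by
    rw [← neg_add', ← mul_add, ← e']; field_simp
  -- the matrix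
  set σ : SL F := mkSL (a - D * t) (y - t * δ + t' * a - D * t * t') D (δ + D * t')
    (by linear_combination hdet) with hσ
  have s00 : σ 0 0 = a - D * t := rfl
  have s10 : σ 1 0 = D := rfl
  have s11 : σ 1 1 = δ + D * t' := rfl
  have hinv : ((σ⁻¹ : SL F) : Mat F) =
      !![δ + D * t', -(y - t * δ + t' * a - D * t * t'); -D, a - D * t] := by
    rw [Matrix.SpecialLinearGroup.coe_inv, Matrix.adjugate_fin_two]
    rfl
  have hbr : ((σ⁻¹ : SL F) : Mat F) =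
      ((nT p : SL F) : Mat F) * (gam 0 D * ((nT (-q) : SL F) : Mat F)) := by
    rw [hinv]
    refine Matrix.ext fun i i' => ?_
    fin_cases i <;> fin_cases i' <;>
      simp [nT, mkSL, gam, Matrix.mul_apply, Fin.sum_univ_two]
    · rw [eδ]; ring
    · field_simp
      rw [ea, eδ] at hdet
      rw [ea, eδ]
      linear_combination hdet
    · rw [ea]; ring
  have hInR : InR ((σ⁻¹ : SL F) : Mat F) := by
    rw [hinv]
    have m := @Subring.mul_mem F _ Ar.R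
    intro i i'
    fin_cases i <;> fin_cases i'
    · exact Subring.add_mem _ hδR (m hDR ht')
    · exact Subring.neg_mem _ (Subring.sub_mem _ (Subring.add_mem _
        (Subring.sub_mem _ hyR (m ht hδR)) (m ht' haR)) (m (m hDR ht) ht'))
    · exact Subring.neg_mem _ hDR
    · exact Subring.sub_mem _ haR (m hDR ht)
  have hrho : rho ((σ⁻¹ : SL F) : Mat F) f = opW D f := by
    rw [hbr, hO.rho_nT_mul f _ p (by rw [Matrix.det_mul, hdg, Matrix.SpecialLinearGroup.det_coe,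
      one_mul]) (test_zero hf), hO.rho_mul_nT f _ _ hdg (test_zero hf), rho_nT_deep hj dq']
    exact rho_nT_deep hj' (Deep.mono dp (Nat.le_add_right _ _))
  have hsy : syR (((σ⁻¹ : SL F) : Mat F) 1 0, ((σ⁻¹ : SL F) : Mat F) 1 1) = Ar.sy a D := by
    have hm : (-1 : F) ∈ (Ar.R : Subring F) := Subring.neg_mem _ (Subring.one_mem _)
    have h1 : a - D * t ∈ (Ar.R : Subring F) :=
      Subring.sub_mem _ haR (Subring.mul_mem _ hDR ht)
    rw [hinv, syR, if_neg (by simpa using hD)]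
    show Ar.sy (a - D * t) (-D) = _
    rw [← neg_one_mul D, Ar.sy_mul_right _ h1 _ hm _ hDR (by simp) hD,
      Ar.sy_unit _ h1 _ hm (by simp) (by simp), one_mul, sub_eq_add_neg, ← mul_neg,
      Ar.sy_congr _ haR _ hDR _ (Subring.neg_mem _ ht) hD]
  have key := voronoi_57 hL hT hA hg σ hD true hx
  rw [hO.master f _ (Matrix.SpecialLinearGroup.det_coe _) hInR, hrho, hsy, s00, s10, s11] at key
  simp only [hA.tau_smul _ _ hg', cjb, Bool.not_true, cond_true, cond_false] at key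
  have e1 : (a - D * t) / D = q := by rw [ea]; field_simp; ring
  have e2 : -(δ + D * t') / D = p := by rw [eδ]; field_simp; ring
  rw [e1, e2] at key
  refine (tsum_congr fun r => ?_).trans (key.trans ?_)
  · by_cases h0 : tau (xiF f) r = 0
    · simp [tt, h0]
    rw [mul_div_assoc, psi_eq (hR r h0) (hk r h0) ht (Deep.mono dq (Nat.le_add_left _ _)) e, tt,
      U1V, Complex.ofReal_prod]
    simp only [bb]
    ring
  · rw [← Finset.prod_inv_distrib, ← Finset.prod_mul_distrib, mul_comm (Ar.sy a D), mul_assoc,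
      ← tsum_mul_left (a := Ar.sy a D)]
    congr 1
    · exact Finset.prod_congr rfl fun j _ => by rw [← neg_inv, mul_inv, neg_mul]
    · refine tsum_congr fun ν => ?_
      by_cases h0 : tau (xiF (opW D f)) ν = 0
      · simp [tt, h0]
      rw [show -(ν * δ / D) = ν * (-δ / D) by ring, psi_eq (hR' ν h0) (hk' ν h0) ht'
        (Deep.mono dp (Nat.le_add_left _ _)) e', tt, U1V, Complex.ofReal_prod,
        Finset.prod_congr rfl fun j _ => show (R17.U1 (4 * Real.pi ^ 2 / ‖em D j‖ ^ 4 *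
          ‖em ν j‖ ^ 2 / x j) : ℂ) = R17.U1 (bb ν j / (‖em D j‖ ^ 4 * x j)) by
          rw [bb]; congr 2; ring]
      ring

end Crest.Agent.T27.TH
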