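import Crest.Agent.T27.UnfB_89
import Crest.Agent.T27.ThA_54
import Mathlib
import Crest.Agent.T27.ThB_54
import Crest.Agent.T27.Mean_82
import Crest.Agent.T27.MainB_94
import Crest.Agent.T27.ThW_80
import Crest.Agent.T27.DensB_92_Mg
import Crest.Agent.T27.ThInt2_54_Mg
import Crest.Agent.T27.Vor3_57

-- ▼ part T27/Unf_89
section

/-!
# Unfolding, part C: the pairing of an invariant function with the incomplete Eisenstein series
-/

set_option autoImplicit false

noncomputable section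

namespace Crest.Agent.T27.TH.U89

open scoped ComplexConjugate ENNReal Topology
open MeasureTheory Filter NumberField

theorem integrable_dexp (a : ℝ) (k : ℕ) (hk : 0 < k) :
    Integrable fun l : ℝ => Real.exp (-(k * l)) * Real.exp (-Real.exp (a - l)) := by
  have hc : Continuous fun l : ℝ => Real.exp (-(k * l)) * Real.exp (-Real.exp (a - l)) := by
    fun_prop
  have hk' : (0 : ℝ) < k := by exact_mod_cast hk
  rw [← integrableOn_univ, ← Set.Iic_union_Ioi (a := (0 : ℝ))]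
  refine IntegrableOn.union ?_ ?_
  · refine ((integrableOn_exp_Iic 0).const_mul
      (((k + 1).factorial : ℝ) * Real.exp (-((k + 1 : ℕ) * a)))).mono' hc.aestronglyMeasurable
      (Eventually.of_forall fun l => ?_)
    rw [Real.norm_of_nonneg (by positivity)]
    have h1 := Real.pow_div_factorial_le_exp (Real.exp (a - l)) (Real.exp_pos _).le (k + 1)
    have h2 : (0 : ℝ) < (k + 1).factorial := by positivity
    rw [div_le_iff₀ h2, ← Real.exp_nat_mul] at h1
    have h3 : Real.exp (-(k * l)) = Real.exp (((k + 1 : ℕ) : ℝ) * (a - l)) *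
        (Real.exp (-((k + 1 : ℕ) * a)) * Real.exp l) := by
      rw [← Real.exp_add, ← Real.exp_add]; congr 1; push_cast; ring
    have h4 : Real.exp (Real.exp (a - l)) * Real.exp (-Real.exp (a - l)) = 1 := by
      rw [← Real.exp_add]; simp
    rw [h3]
    calc Real.exp (((k + 1 : ℕ) : ℝ) * (a - l)) * (Real.exp (-((k + 1 : ℕ) * a)) * Real.exp l) *
          Real.exp (-Real.exp (a - l))
        ≤ Real.exp (Real.exp (a - l)) * (k + 1).factorial *
          (Real.exp (-((k + 1 : ℕ) * a)) * Real.exp l) * Real.exp (-Real.exp (a - l)) := by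
          gcongr
      _ = _ := by
          linear_combination ((k + 1).factorial * (Real.exp (-((k + 1 : ℕ) * a)) * Real.exp l)) * h4
  · refine (exp_neg_integrableOn_Ioi 0 hk').mono' hc.aestronglyMeasurable
      (Eventually.of_forall fun l => ?_)
    rw [Real.norm_of_nonneg (by positivity), neg_mul]
    exact mul_le_of_le_one_right (Real.exp_pos _).le
      (Real.exp_le_one_iff.2 (neg_nonpos.2 (Real.exp_pos _).le))

theorem integrable_ker1 (a : ℝ) : Integrable fun l : ℝ => (1 + Real.exp l) * (1 + Real.exp (-l)) *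
    (Real.exp (-Real.exp (a - l)) * Real.exp (-2 * l)) := by
  have h := (((integrable_dexp a 2 two_pos).const_mul 2).add (integrable_dexp a 1 one_pos)).add
    (integrable_dexp a 3 three_pos)
  refine h.congr (Eventually.of_forall fun l => ?_)
  have e1 : Real.exp (-((1 : ℕ) * l)) = Real.exp l * Real.exp (-2 * l) := by
    rw [← Real.exp_add]; congr 1; push_cast; ring
  have e2 : Real.exp (-((2 : ℕ) * l)) = Real.exp (-2 * l) := by
    congr 1; push_cast; ring
  have e3 : Real.exp (-((3 : ℕ) * l)) = Real.exp (-l) * Real.exp (-2 * l) := by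
    rw [← Real.exp_add]; congr 1; push_cast; ring
  have e4 : Real.exp l * Real.exp (-l) = 1 := by rw [← Real.exp_add]; simp
  simp only [Pi.add_apply, e1, e2, e3]
  linear_combination (-(Real.exp (-Real.exp (a - l)) * Real.exp (-2 * l))) * e4

variable {F : Type} [Field F] [NumberField F] [Emb F]

/-- The polynomial majorant. -/
def Bd (l : Pl F → ℝ) : ℝ := ∏ j, (1 + Real.exp (l j)) * (1 + Real.exp (-l j))

/-- The seed. -/
def sd (v l : Pl F → ℝ) : ℝ := Real.exp (-∑ j, Real.exp (v j - l j))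

omit [Emb F] in
theorem Bd_pos (l : Pl F → ℝ) : 0 < Bd l := Finset.prod_pos fun _ _ => by positivity

omit [Emb F] in
theorem sd_pos (v l : Pl F → ℝ) : 0 < sd v l := Real.exp_pos _

omit [Emb F] in
theorem integrable_ker (v : Pl F → ℝ) :
    Integrable fun l : Pl F → ℝ => Bd l * (sd v l * Real.exp (-2 * ∑ j, l j)) := by
  have h := Integrable.fintype_prod (μ := fun _ : Pl F => (volume : Measure ℝ))
    (fun j => integrable_ker1 (v j))
  refine h.congr (Eventually.of_forall fun l => ?_)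
  simp only [Bd, sd, Finset.prod_mul_distrib, ← Real.exp_sum, Finset.mul_sum,
    Finset.sum_neg_distrib]

theorem det_map (γ : SL F) (j : Pl F) : ((γ : Mat F).map (Emb.σ j)).det = 1 := by
  have h := (Emb.σ j : F →+* ℂ).map_det (γ : Mat F)
  rw [RingHom.mapMatrix_apply, γ.det_coe, map_one] at h
  exact h.symm

theorem Qv_smul (v : Pl F → ℝ) (γ : SL F) (w : HH F) (u : F × F) :
    Qv v (γ • w) u = Qv v w (rmul u (γ : Mat F)) := by
  unfold Qv
  refine Finset.sum_congr rfl fun j _ => ?_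
  rw [smul_def, act, R17.Qf_actC (by rw [det_map]; exact one_ne_zero), det_map, norm_one, div_one]
  simp [rmul, em]

theorem Qv_row (v : Pl F → ℝ) (γ : SL F) (w : HH F) :
    Real.exp (-Qv v w (row γ)) = sd v fun j => ((γ • w) j).2 := by
  have : row γ = rmul (0, 1) (γ : Mat F) := by simp [row, rmul]
  rw [this, ← Qv_smul, sd, Qv]
  congr 2
  refine Finset.sum_congr rfl fun j _ => ?_
  simp only [em, map_zero, map_one, R17.Qf_zero_left, norm_one, R17.hy, Real.exp_sub]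
  ring

theorem nT_smul (t : F) (w : HH F) : nT t • w = fun j => ((w j).1 + em t j, (w j).2) := by
  funext j
  have h := R17.actC_upper one_ne_zero one_ne_zero (em t j) (w j).1 (R17.hy_pos (w j))
  rw [R17.hp_hy] at h
  have e : ((nT t : SL F) : Mat F).map (Emb.σ j) = !![1, em t j; 0, 1] := by
    ext a b
    fin_cases a <;> fin_cases b <;> simp [em]
  rw [smul_def, act, e, h]
  simp [R17.hp, R17.hy]


/-- One cusp. -/
theorem cusp (hL : LatStmt F) (hG : GeomStmt F) {Δ : Subgroup (SL F)} {γ : SL F}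
    {β : (Pl F → ℂ) → ℝ} (hβ : Wt (Lc Δ γ) β) {G : HH F → ℂ} {N : ℕ}
    {A : F → (Pl F → ℝ) → ℂ} {C : ℝ} (hN : N ≠ 0) (hGm : Measurable G)
    (hinv : ∀ δ ∈ Δ, ∀ w, G (δ • w) = G w) (hA : HasExp N (fun w => G (γ⁻¹ • w)) A)
    (hC : ∀ w : HH F, ‖G (γ⁻¹ • w)‖ ≤ C * Bd fun j => (w j).2) (v : Pl F → ℝ) :
    Integrable (fun w => G w * (β (fun j => ((γ • w) j).1) * sd v fun j => ((γ • w) j).2 : ℝ))
      (μHH F) ∧
    Integrable (fun l => A 0 l * (sd v l * Real.exp (-2 * ∑ j, l j) : ℝ)) ∧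
    ∫ w, G w * (β (fun j => ((γ • w) j).1) * sd v fun j => ((γ • w) j).2 : ℝ) ∂μHH F =
      (∫ z, β z : ℝ) * ∫ l, A 0 l * (sd v l * Real.exp (-2 * ∑ j, l j) : ℝ) := by
  have hmp : ∀ g : SL F, MeasurePreserving (fun w : HH F => g • w) (μHH F) (μHH F) := fun g =>
    hG.meas g (by simp)
  have hC0 : 0 ≤ C := by
    have := (norm_nonneg _).trans (hC fun _ => (0, 0))
    exact nonneg_of_mul_nonneg_left this (Bd_pos _)
  let ψ : HH F → ℂ := fun w => G (γ⁻¹ • w) * (β (fun j => (w j).1) * sd v fun j => (w j).2 : ℝ)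
  have hsd : Continuous (sd v) := by unfold sd; fun_prop
  have hBd : Continuous (Bd : (Pl F → ℝ) → ℝ) := by unfold Bd; fun_prop
  have m1 : Measurable fun w : HH F => β fun j => (w j).1 := hβ.meas.comp (by fun_prop)
  have m2 : Measurable fun w : HH F => sd v fun j => (w j).2 := hsd.measurable.comp (by fun_prop)
  have m3 : Measurable fun w : HH F => Bd fun j => (w j).2 := hBd.measurable.comp (by fun_prop)
  have hψm : Measurable ψ :=
    (hGm.comp (hmp γ⁻¹).measurable).mul (Complex.measurable_ofReal.comp (m1.mul m2))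
  -- integrability of the unfolded function
  have hψ : Integrable ψ (μHH F) := by
    refine ⟨hψm.aestronglyMeasurable, ?_⟩
    have h1 : ∫⁻ w, ‖ψ w‖ₑ ∂μHH F ≤ ∫⁻ w, ENNReal.ofReal (β (fun j => (w j).1)) *
        ENNReal.ofReal (C * Bd (fun j => (w j).2) * sd v fun j => (w j).2) ∂μHH F := by
      refine lintegral_mono fun w => ?_
      rw [← ofReal_norm, ← ENNReal.ofReal_mul (hβ.nonneg _)]
      refine ENNReal.ofReal_le_ofReal ?_
      have h2 := hβ.nonneg fun j => (w j).1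
      have h3 := sd_pos v fun j => (w j).2
      simp only [ψ]
      rw [norm_mul, Complex.norm_real, Real.norm_of_nonneg (by positivity)]
      calc _ ≤ C * Bd (fun j => (w j).2) * (β (fun j => (w j).1) * sd v fun j => (w j).2) := by
            gcongr; exact hC w
        _ = _ := by ring
    refine lt_of_le_of_lt h1 ?_
    rw [hG.lint (fun w => ENNReal.ofReal (β (fun j => (w j).1)) *
        ENNReal.ofReal (C * Bd (fun j => (w j).2) * sd v fun j => (w j).2))
      (m1.ennreal_ofReal.mul ((measurable_const.mul m3).mul m2).ennreal_ofReal)]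
    simp only [pt]
    have h4 : ∀ l : Pl F → ℝ, (∫⁻ z : Pl F → ℂ, ENNReal.ofReal (β z) *
        ENNReal.ofReal (C * Bd l * sd v l)) * ENNReal.ofReal (Real.exp (-2 * ∑ j, l j)) =
        (∫⁻ z : Pl F → ℂ, ENNReal.ofReal (β z)) *
          ENNReal.ofReal (C * (Bd l * (sd v l * Real.exp (-2 * ∑ j, l j)))) := by
      intro l
      have := Bd_pos l
      have := sd_pos v l
      rw [lintegral_mul_const _ hβ.meas.ennreal_ofReal, mul_assoc,
        ← ENNReal.ofReal_mul (by positivity)]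
      congr 2; ring
    simp only [h4]
    rw [lintegral_const_mul' _ _ hβ.int.lintegral_lt_top.ne]
    exact ENNReal.mul_lt_top hβ.int.lintegral_lt_top
      ((integrable_ker v).const_mul C).lintegral_lt_top
  -- the inner integral
  have hin : ∀ l, ∫ z, (β z : ℂ) * G (γ⁻¹ • pt z l) = (∫ z, β z : ℝ) * A 0 l := by
    intro l
    refine hβ.mean_series hL hN (hA.2.2 l).1 (fun r hr => hA.2.1 r l hr) (hA.2.2 l).2 ?_
    intro z t ht
    have e1 : pt (z + em t) l = nT t • pt z l := by rw [nT_smul]; rfl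
    have e2 : γ⁻¹ * nT t = (γ⁻¹ * nT t * γ) * γ⁻¹ := by group
    rw [e1, ← mul_smul, e2, mul_smul, hinv _ ht]
  have hA0 : ∀ l, ‖A 0 l‖ ≤ C * Bd l := by
    intro l
    have h1 : ‖∫ z, (β z : ℂ) * G (γ⁻¹ • pt z l)‖ ≤ ∫ z, β z * (C * Bd l) := by
      refine norm_integral_le_of_norm_le (hβ.int.mul_const _) (Eventually.of_forall fun z => ?_)
      rw [norm_mul, Complex.norm_real, Real.norm_of_nonneg (hβ.nonneg z)]
      exact mul_le_mul_of_nonneg_left (hC (pt z l)) (hβ.nonneg z)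
    rw [hin, integral_mul_const, norm_mul, Complex.norm_real, Real.norm_of_nonneg hβ.pos.le] at h1
    exact le_of_mul_le_mul_left h1 hβ.pos
  have e0 : ∀ w, G w * (β (fun j => ((γ • w) j).1) * sd v fun j => ((γ • w) j).2 : ℝ) =
      ψ (γ • w) := fun w => by simp only [ψ, inv_smul_smul]
  simp only [e0]
  refine ⟨(hmp γ).integrable_comp_of_integrable hψ, ?_, ?_⟩
  · refine ((integrable_ker v).const_mul C).mono'
      ((hA.1 0).mul (Complex.measurable_ofReal.comp
        (hsd.measurable.mul (by fun_prop)))).aestronglyMeasurable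
      (Eventually.of_forall fun l => ?_)
    have := sd_pos v l
    rw [norm_mul, Complex.norm_real, Real.norm_of_nonneg (by positivity), ← mul_assoc C]
    exact mul_le_mul_of_nonneg_right (hA0 l) (by positivity)
  · have h1 : ∫ w, ψ (γ • w) ∂μHH F = ∫ w, ψ w ∂μHH F := by
      conv_rhs => rw [← (hmp γ).map_eq,
        integral_map (hmp γ).measurable.aemeasurable hψm.aestronglyMeasurable]
    rw [h1, hG.int _ hψ, ← integral_const_mul]
    congr 1
    funext l
    have h2 : ∀ z, ψ (pt z l) = (β z : ℂ) * G (γ⁻¹ • pt z l) * (sd v l : ℂ) := fun z => by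
      simp only [ψ, pt]; push_cast; ring
    simp only [h2]
    rw [integral_mul_const, hin]
    push_cast; ring

end Crest.Agent.T27.TH.U89

namespace Crest.Agent.T27.TH

open scoped ComplexConjugate ENNReal Topology
open MeasureTheory Filter NumberField U89

/-- **Leaf A2a**. -/
theorem unfold_89 (F : Type) [Field F] [NumberField F] [Emb F] (hL : LatStmt F) (hR : RowStmt F)
    (hG : GeomStmt F) : UnfoldStmt F := by
  classical
  intro ξ hξ
  obtain ⟨I₀, hI₀⟩ := exists_orbits hξ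
  choose β hβ using exists_wt_cusp hR hξ
  obtain ⟨M, hM, hsupp⟩ := hξ.supp
  let I := I₀.filter fun γ => ξ (row γ) ≠ 0
  have hI : ∀ u, ξ u = ∑ γ ∈ I, ξ (row γ) * (Orb (Del ξ) γ).indicator 1 u := by
    intro u
    rw [hI₀ u, Finset.sum_filter_of_ne fun γ _ h => left_ne_zero_of_mul h]
  refine ⟨I, fun γ => conj (ξ (row γ)) * (∫ z, β γ z : ℝ), ?_⟩
  intro G N A C hN hGm hinv hA hC v
  have hmp : ∀ g : SL F, MeasurePreserving (fun w : HH F => g • w) (μHH F) (μHH F) := fun g =>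
    hG.meas g (by simp)
  have : Countable (SL F) := inferInstanceAs (Countable {g : Fin 2 → Fin 2 → F // _})
  have hw := hG.wt (Del ξ) inf_le_right
  set E : ℝ := Real.exp (4 / 3 * ∑ j, v j) with hE
  let φ : SL F → HH F → ℝ := fun γ w =>
    β γ (fun j => ((γ • w) j).1) * sd v fun j => ((γ • w) j).2
  have hc := fun γ (hγ : γ ∈ I) => cusp hL hG (hβ γ) hN hGm hinv (hA γ hγ) (hC γ hγ) v
  have hker : ∀ l : Pl F → ℝ,
      (Real.exp (4 / 3 * ∑ j, v j - ∑ j, Real.exp (v j - l j) - 2 * ∑ j, l j) : ℂ) =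
        (E : ℂ) * (sd v l * Real.exp (-2 * ∑ j, l j) : ℝ) := by
    intro l
    rw [← Complex.ofReal_mul, hE, sd, ← Real.exp_add, ← Real.exp_add]
    congr 2; ring
  -- summability over the orbits
  have hs : ∀ γ ∈ I, ∀ w : HH F,
      Summable ((Orb (Del ξ) γ).indicator fun u => Real.exp (-Qv v w u)) := by
    intro γ hγ w
    refine Summable.of_nonneg_of_le
      (fun u => Set.indicator_nonneg (fun _ _ => (Real.exp_pos _).le) u) (fun u => ?_)
      (hG.summ M v w hM)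
    refine Set.indicator_le_indicator_of_subset ?_ (fun _ => (Real.exp_pos _).le) u
    rintro _ ⟨δ, hδ, rfl⟩
    have h := hsupp (row (γ * δ)) (by rw [xi_row hδ]; exact (Finset.mem_filter.1 hγ).2)
    exact ⟨h.1, h.2.1⟩
  have hP : ∀ γ ∈ I, ∀ w : HH F, HasSum (fun δ : Del ξ => φ γ (δ • w))
      (∑' u, (Orb (Del ξ) γ).indicator (fun u => Real.exp (-Qv v w u)) u) := by
    intro γ hγ w
    have h := hasSum_poinc (β := β γ) (sh := fun t z => z + em t) (hβ γ).nonneg (hβ γ).sum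
      (z := fun g j => ((g • w) j).1) (fun t g => by
        funext j; rw [mul_smul, nT_smul]; rfl) (fun u => (Real.exp_pos _).le) (hs γ hγ w)
    simp only [Qv_row, mul_smul] at h
    exact h
  have hth : ∀ w, thY ξ v w = (E : ℂ) * ∑ γ ∈ I, ξ (row γ) * (∑' δ : Del ξ, φ γ (δ • w) : ℝ) := by
    intro w
    rw [thY]
    congr 1
    have e1 : ∀ u, ξ u * (Real.exp (-Qv v w u) : ℂ) = ∑ γ ∈ I, ξ (row γ) *
        ((Orb (Del ξ) γ).indicator (fun u => Real.exp (-Qv v w u)) u : ℝ) := by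
      intro u
      rw [hI u, Finset.sum_mul]
      refine Finset.sum_congr rfl fun γ _ => ?_
      by_cases h : u ∈ Orb (Del ξ) γ <;> simp [h]
    simp only [e1]
    rw [Summable.tsum_finsetSum fun γ hγ =>
      (Complex.summable_ofReal.2 (hs γ hγ w)).mul_left _]
    refine Finset.sum_congr rfl fun γ hγ => ?_
    rw [tsum_mul_left, (hP γ hγ w).tsum_eq, Complex.ofReal_tsum]
  have hun := fun γ (hγ : γ ∈ I) => hw.integral_unfold (μ := μHH F) (fun δ => hmp δ)
    (φ := fun w => G w * (φ γ w : ℝ)) (by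
      have hsd : Continuous (sd v) := by unfold sd; fun_prop
      have m1 : Measurable fun w : HH F => β γ fun j => (w j).1 := (hβ γ).meas.comp (by fun_prop)
      have m2 : Measurable fun w : HH F => sd v fun j => (w j).2 :=
        hsd.measurable.comp (by fun_prop)
      exact hGm.mul (Complex.measurable_ofReal.comp ((m1.mul m2).comp (hmp γ).measurable)))
    (hc γ hγ).1
  have hpt : ∀ w, (wOf (Del ξ) w : ℂ) * (G w * conj (thY ξ v w)) = ∑ γ ∈ I,
      ((E : ℂ) * conj (ξ (row γ))) * ((wOf (Del ξ) w : ℂ) *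
        ∑' δ : Del ξ, G (δ • w) * (φ γ (δ • w) : ℝ)) := by
    intro w
    have e1 : ∀ δ : Del ξ, G (δ • w) = G w := fun δ => hinv δ δ.2 w
    simp only [e1, tsum_mul_left, ← Complex.ofReal_tsum]
    rw [hth, map_mul, map_sum, Complex.conj_ofReal, Finset.mul_sum, Finset.mul_sum, Finset.mul_sum]
    refine Finset.sum_congr rfl fun γ _ => ?_
    rw [map_mul, Complex.conj_ofReal]; ring
  simp only [hpt, hker]
  refine ⟨integrable_finsetSum _ fun γ hγ => (hun γ hγ).1.const_mul _, fun γ hγ => ?_, ?_⟩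
  · simpa only [mul_left_comm (E : ℂ)] using (hc γ hγ).2.1.const_mul (E : ℂ)
  · rw [integral_finsetSum _ fun γ hγ => (hun γ hγ).1.const_mul _]
    refine Finset.sum_congr rfl fun γ hγ => ?_
    rw [integral_const_mul, (hun γ hγ).2, (hc γ hγ).2.2]
    simp only [mul_left_comm _ (E : ℂ)]
    rw [integral_const_mul]
    ring

end Crest.Agent.T27.TH
end
end

-- ▼ part T27/Tau_73
section

/-!
# Row 27, theta function, leaf A6: formal properties of `Good` and `tau`
-/

set_option autoImplicit false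

noncomputable section

namespace Crest.Agent.T27.TH

open scoped ComplexConjugate ENNReal Topology
open MeasureTheory Filter NumberField

variable {F : Type} [Field F] [NumberField F] [Emb F]

omit [Emb F] in
theorem mean_zero_73 : mean (fun _ : F => (0 : ℂ)) = 0 := by
  unfold mean meanN
  split_ifs <;> simp

theorem mf_zero_73 (r : F) : mf (0 : F × F → ℂ) r = 0 := by
  funext c
  unfold mf
  split_ifs
  · rfl
  · simpa using mean_zero_73 (F := F)

theorem wdk_zero_73 (k : (Pl F → ℝ) → ℝ) : WDk (0 : F → ℂ) k 0 := by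
  refine ⟨⟨0, fun v => by simp [Sk]⟩, fun v => ?_⟩
  simp [Sk]

theorem bddL_mf_73 (hR : RowStmt F) {ξ : F × F → ℂ} (h : Adm ξ) (r : F) : BddL (mf ξ r) := by
  obtain ⟨M, B, hM, hB⟩ := hR.bddL ξ h
  exact ⟨M, B, hM, (hB r).1, fun c hc => ⟨((hB r).2 c hc).1, ((hB r).2 c hc).2.1⟩⟩

theorem tau_eq_73 (hR : RowStmt F) (hD : DensStmt F) (hT : ThetaStmt F) {ξ : F × F → ℂ}
    (h : Good ξ) {r : F} {t : ℂ} (ht : WD (mf ξ r) t) : tau ξ r = t :=
  hD.unique _ _ _ (bddL_mf_73 hR h.1 r) (hT.spec ξ h r) ht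

theorem eF_zero_73 : eF (0 : F) = 1 := by
  simp [eF, eV, em]

omit [NumberField F] [Emb F] in
theorem det_ne_73 (γ : SL F) : (γ : Mat F).det ≠ 0 := by
  rw [γ.det_coe]; exact one_ne_zero

omit [NumberField F] [Emb F] in
theorem adm_zero_73 : Adm (0 : F × F → ℂ) := by
  refine ⟨⟨0, fun u => by simp⟩, ⟨1, one_ne_zero, fun u hu => (hu rfl).elim⟩, ?_⟩
  have : Stab (0 : F × F → ℂ) = ⊤ := by
    rw [eq_top_iff]
    intro g _
    rfl
  rw [this, Subgroup.relIndex_top_left]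
  exact one_ne_zero

theorem good_zero_73 : Good (0 : F × F → ℂ) := by
  refine ⟨adm_zero_73, fun γ => ⟨0, ?_⟩⟩
  have : tr (0 : F × F → ℂ) (γ : Mat F) = 0 := rfl
  rw [this, mf_zero_73]
  exact wdk_zero_73 _

theorem good_add_73 (hR : RowStmt F) (hD : DensStmt F) {ξ ξ' : F × F → ℂ} (h : Good ξ)
    (h' : Good ξ') : Good (ξ + ξ') := by
  refine ⟨hR.adm_add _ _ h.1 h'.1, fun γ => ?_⟩
  obtain ⟨t, ht⟩ := h.2 γ
  obtain ⟨t', ht'⟩ := h'.2 γ
  have h1 := hR.adm_tr ξ γ h.1 (det_ne_73 γ)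
  have h2 := hR.adm_tr ξ' γ h'.1 (det_ne_73 γ)
  have e : tr (ξ + ξ') (γ : Mat F) = tr ξ γ + tr ξ' γ := rfl
  refine ⟨t + t', ?_⟩
  rw [e, hR.mf_add _ _ h1 h2]
  exact hD.addk _ _ _ _ _ (bddL_mf_73 hR h1 0) (bddL_mf_73 hR h2 0) hD.kc0 ht ht'

theorem good_smul_73 (hR : RowStmt F) (hD : DensStmt F) (a : ℂ) {ξ : F × F → ℂ} (h : Good ξ) :
    Good (fun u => a * ξ u) := by
  refine ⟨hR.adm_smul _ _ h.1, fun γ => ?_⟩
  obtain ⟨t, ht⟩ := h.2 γ
  have h1 := hR.adm_tr ξ γ h.1 (det_ne_73 γ)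
  have e : tr (fun u => a * ξ u) (γ : Mat F) = fun u => a * tr ξ γ u := rfl
  have e2 : mf (fun u => a * tr ξ γ u) 0 = fun c => a * mf (tr ξ γ) 0 c :=
    funext fun c => hR.mf_smul a _ h1 0 c
  refine ⟨a * t, ?_⟩
  rw [e, e2]
  exact hD.smulk _ _ _ _ ht

theorem good_tr_73 (hR : RowStmt F) (hD : DensStmt F) {ξ : F × F → ℂ} (h : Good ξ) (g : Mat F)
    (hg : g.det ≠ 0) : Good (tr ξ g) := by
  refine ⟨hR.adm_tr _ _ h.1 hg, fun γ => ?_⟩
  have hdet : ((!![1, 0; 0, g.det⁻¹] : Mat F) * ((γ : Mat F) * g)).det = 1 := by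
    rw [Matrix.det_mul, Matrix.det_mul, γ.det_coe, Matrix.det_fin_two_of]
    field_simp
    ring
  let γ' : SL F := ⟨_, hdet⟩
  have e : (γ : Mat F) * g = !![1, 0; 0, g.det] * (γ' : Mat F) := by
    show _ = _ * ((!![1, 0; 0, g.det⁻¹] : Mat F) * ((γ : Mat F) * g))
    rw [← Matrix.mul_assoc, Matrix.mul_fin_two]
    simp only [mul_one, mul_zero, add_zero, zero_mul, zero_add, mul_inv_cancel₀ hg]
    rw [← Matrix.one_fin_two, Matrix.one_mul]
  obtain ⟨t, ht⟩ := h.2 γ'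
  have h1 := hR.adm_tr ξ γ' h.1 (det_ne_73 γ')
  have e2 : mf (tr (tr ξ g) γ) 0 = fun c => (nF g.det : ℂ) * mf (tr ξ γ') 0 c := by
    funext c
    rw [← tr_mul, e, tr_mul, hR.mf_tri _ h1 1 0 g.det 0 c one_ne_zero hg]
    simp [eF_zero_73]
  refine ⟨(nF g.det : ℂ) * t, ?_⟩
  rw [e2]
  exact hD.smulk _ _ _ _ ht

theorem tau_tri_73 (hR : RowStmt F) (hD : DensStmt F) (hT : ThetaStmt F) {ξ : F × F → ℂ}
    (h : Good ξ) (ρ b e r : F) (hρ : ρ ≠ 0) (he : e ≠ 0) :
    tau (tr ξ !![ρ, b; 0, e]) r =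
      ((nF e * nF ρ ^ (1 / 3 : ℝ) : ℝ) : ℂ) * eF (-(r * b / e)) * tau ξ (r * ρ / e) := by
  have hdet : (!![ρ, b; 0, e] : Mat F).det ≠ 0 := by
    rw [Matrix.det_fin_two_of, mul_zero, sub_zero]
    exact mul_ne_zero hρ he
  refine tau_eq_73 hR hD hT (good_tr_73 hR hD h _ hdet) ?_
  obtain ⟨k, hk, hw⟩ := hT.spec ξ h (r * ρ / e)
  obtain ⟨M, B, -, -, hB⟩ := bddL_mf_73 hR h.1 (r * ρ / e)
  have h2 := hD.smulk ((nF e : ℂ) * eF (-(r * b / e))) _ _ _
    (hD.scalek _ k _ ρ hρ (fun c hc => (hB c hc).1) hw)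
  have e2 : mf (tr ξ !![ρ, b; 0, e]) r =
      fun c => (nF e : ℂ) * eF (-(r * b / e)) * mf ξ (r * ρ / e) (c * ρ) :=
    funext fun c => hR.mf_tri ξ h.1 ρ b e r c hρ he
  refine ⟨k, hk, ?_⟩
  rw [e2]
  convert h2 using 1
  push_cast
  ring

/-- The lower unipotent matrices. -/
def lT73 (t : F) : SL F := mkSL 1 0 t 1 (by ring)

omit [NumberField F] [Emb F] in
theorem lT73_pow (t : F) (n : ℕ) : lT73 t ^ n = lT73 (n * t) := by
  induction n with
  | zero =>
    rw [pow_zero]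
    ext i j
    fin_cases i <;> fin_cases j <;> simp [lT73, mkSL]
  | succ n ih =>
    rw [pow_succ, ih]
    ext i j
    rw [Matrix.SpecialLinearGroup.coe_mul]
    fin_cases i <;> fin_cases j <;> simp [lT73, mkSL, add_mul]

omit [NumberField F] [Emb F] in
theorem lT73_mem : lT73 (1 : F) ∈ Gam0 F := by
  intro i j
  fin_cases i <;> fin_cases j <;> simp [lT73, mkSL, isIntegral_one, isIntegral_zero]

theorem Th_const_73 {ξ : F × F → ℂ} (h : ∀ r, r ≠ 0 → tau ξ r = 0) (w : HH F) :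
    Th ξ w = tau ξ 0 * ((∏ j, R17.hy (w j) ^ (2 / 3 : ℝ) * R17.W0 0 : ℝ) : ℂ) := by
  rw [Th, tsum_eq_single 0 fun r hr => by rw [h r hr, zero_mul, zero_mul]]
  simp [MkV, bb, eV, em, R17.Mk, R17.hy]

theorem nonconst_73 (hT : ThetaStmt F) {ξ : F × F → ℂ} (h : Good ξ) (h0 : tau ξ 0 ≠ 0) :
    ∃ r, r ≠ 0 ∧ tau ξ r ≠ 0 := by
  by_contra hc
  push Not at hc
  obtain ⟨n, hn, -, hmem⟩ := Subgroup.exists_pow_mem_of_relIndex_ne_zero h.1.fin lT73_mem
  rw [lT73_pow, mul_one] at hmem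
  have hst : tr ξ ((lT73 (n : F) : SL F) : Mat F) = ξ := hmem.1
  let w : HH F := fun _ => (0, 0)
  have h1 := hT.aut ξ h (lT73 n) w
  rw [hst, Th_const_73 hc, Th_const_73 hc, mul_right_inj' h0, Complex.ofReal_inj] at h1
  have hW : 0 < R17.W0 0 := R17.W0_pos le_rfl
  have hlt : ∀ j : Pl F, R17.hy ((lT73 (n : F) • w) j) < R17.hy (w j) := by
    intro j
    rw [smul_def, act, R17.hy_actC (det_map_ne (det_ne_73 _) j)]
    have hn' : (0 : ℝ) < n := by exact_mod_cast hn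
    have hd : ((lT73 (n : F) : SL F) : Mat F).map (Emb.σ j) = !![1, 0; (n : ℂ), 1] := by
      ext a b
      fin_cases a <;> fin_cases b <;> simp [lT73, mkSL]
    rw [hd]
    simp only [Matrix.det_fin_two_of, R17.Qf, R17.hy, w, Real.exp_zero]
    simp
    exact inv_lt_one_of_one_lt₀ (by nlinarith)
  refine absurd h1 (ne_of_lt ?_)
  refine Finset.prod_lt_prod_of_nonempty (fun j _ => ?_) (fun j _ => ?_) Finset.univ_nonempty
  · exact mul_pos (Real.rpow_pos_of_pos (R17.hy_pos _) _) hW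
  · exact mul_lt_mul_of_pos_right
      (Real.rpow_lt_rpow (R17.hy_pos _).le (hlt j) (by norm_num)) hW

/-- **Leaf A6.** -/
theorem tauStmt_73 (F : Type) [Field F] [NumberField F] [Emb F] (hR : RowStmt F)
    (hD : DensStmt F) (hT : ThetaStmt F) : TauStmt F where
  good_add _ _ h h' := good_add_73 hR hD h h'
  good_smul a _ h := good_smul_73 hR hD a h
  good_tr _ g h hg := good_tr_73 hR hD h g hg
  good_zero := good_zero_73
  tau_zero r := tau_eq_73 hR hD hT good_zero_73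
    ⟨k0, hD.kc0, by rw [mf_zero_73]; exact wdk_zero_73 _⟩
  tau_add ξ ξ' h h' r := by
    refine tau_eq_73 hR hD hT (good_add_73 hR hD h h') ?_
    rw [hR.mf_add _ _ h.1 h'.1]
    exact hD.add _ _ _ _ (bddL_mf_73 hR h.1 r) (bddL_mf_73 hR h'.1 r) (hT.spec _ h r)
      (hT.spec _ h' r)
  tau_smul a ξ h r := by
    refine tau_eq_73 hR hD hT (good_smul_73 hR hD a h) ?_
    rw [show mf (fun u => a * ξ u) r = fun c => a * mf ξ r c from
      funext fun c => hR.mf_smul a ξ h.1 r c]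
    exact hD.smul _ _ _ (hT.spec _ h r)
  tau_tri _ h ρ b e r hρ he := tau_tri_73 hR hD hT h ρ b e r hρ he
  tau_ct _ _ h ht := tau_eq_73 hR hD hT h ⟨k0, hD.kc0, ht⟩
  supp ξ h := by
    obtain ⟨M, B, hM, hB⟩ := hR.bddL ξ h.1
    refine ⟨M, hM, fun r hr => ?_⟩
    by_contra hc
    have h0 : mf ξ r = 0 := by
      funext c
      by_contra hc'
      exact hc ((hB r).2 c hc').2.2
    exact hr (tau_eq_73 hR hD hT h ⟨k0, hD.kc0, by rw [h0]; exact wdk_zero_73 _⟩)
  nonconst _ h h0 := nonconst_73 hT h h0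

end Crest.Agent.T27.TH
end
end

-- ▼ part T27/LamA_98
section

/-!
# Row 27, theta module B3 (part A): Riemann sums over shifted lattices and a packing bound

* `riemann_98`: `s^d ∑_{l ∈ L} g(s (l + a)) → (∫ g) / covol L` as `s → 0+`.
* `packing_98`: for a `δ`-separated family `y i` (`δ ≤ 1`), `∑ exp(-‖y i‖) ≤ C δ^{-d}`.
-/

set_option autoImplicit false

noncomputable section

namespace Crest.Agent.T27.Lam98

open MeasureTheory Filter Topology Module Submodule

section general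

variable {E : Type*} [NormedAddCommGroup E] [NormedSpace ℝ E] [FiniteDimensional ℝ E]
  [MeasurableSpace E] [BorelSpace E] (μ : Measure E) [μ.IsAddHaarMeasure]

omit [FiniteDimensional ℝ E] in
theorem measurable_floor {ι : Type*} [Fintype ι] [FiniteDimensional ℝ E] (b : Basis ι ℝ E) :
    Measurable fun x : E => (ZSpan.floor b x : E) := by
  have e : (fun x : E => (ZSpan.floor b x : E)) =
      fun x => ∑ i, ((⌊b.repr x i⌋ : ℤ) : ℝ) • b i := by
    funext x
    refine b.ext_elem fun i => ?_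
    rw [ZSpan.repr_floor_apply, Basis.repr_sum_self]
  rw [e]
  refine Finset.measurable_sum _ fun i _ => ?_
  have h1 : Measurable fun x : E => b.repr x i :=
    (b.coord i).continuous_of_finiteDimensional.measurable
  exact ((measurable_of_countable (fun n : ℤ => (n : ℝ))).comp
    (Int.measurable_floor.comp h1)).smul_const _

/-- Riemann sums over a shifted lattice. -/
theorem riemann_98 {ι : Type*} [Fintype ι] (b : Basis ι ℝ E) (a : E) {g : E → ℂ}
    (hg : Continuous g) {G : E → ℝ} (hG : Integrable G μ)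
    (hb : ∀ x y, ‖y - x‖ ≤ 1 → ‖g y‖ ≤ G x) :
    Tendsto (fun s : ℝ => ((s ^ finrank ℝ E : ℝ) : ℂ) *
        ∑' l : span ℤ (Set.range b), g (s • ((l : E) + a))) (𝓝[>] 0)
      (𝓝 ((∫ x, g x ∂μ) / (μ.real (ZSpan.fundamentalDomain b) : ℂ))) := by
  set D := ZSpan.fundamentalDomain b with hD
  have hD0 : μ.real D ≠ 0 := by
    refine (ENNReal.toReal_pos (ZSpan.measure_fundamentalDomain_ne_zero b) ?_).ne'
    exact (ZSpan.fundamentalDomain_isBounded b).measure_lt_top.ne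
  have hD0' : (μ.real D : ℂ) ≠ 0 := by exact_mod_cast hD0
  set K : ℝ := ∑ i, ‖b i‖ + ‖a‖ + 1 with hK
  have hK0 : 0 < K := by positivity
  set h : ℝ → E → ℂ := fun s x => g (s • ((ZSpan.floor b (s⁻¹ • x) : E) + a)) with hh
  have hmeas : ∀ s, Measurable (h s) := fun s =>
    hg.measurable.comp ((((measurable_floor b).comp (measurable_const_smul s⁻¹)).add_const
      a).const_smul s)
  have hclose : ∀ s : ℝ, 0 < s → ∀ x : E,
      ‖s • ((ZSpan.floor b (s⁻¹ • x) : E) + a) - x‖ ≤ s * K := by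
    intro s hs x
    have e : s • ((ZSpan.floor b (s⁻¹ • x) : E) + a) - x =
        s • (a - ZSpan.fract b (s⁻¹ • x)) := by
      rw [ZSpan.fract_apply, smul_sub, smul_sub, smul_inv_smul₀ hs.ne', smul_add]
      abel
    rw [e, norm_smul, Real.norm_of_nonneg hs.le]
    refine mul_le_mul_of_nonneg_left ((norm_sub_le _ _).trans ?_) hs.le
    have := ZSpan.norm_fract_le b (s⁻¹ • x)
    linarith
  have hev : ∀ᶠ s : ℝ in 𝓝[>] 0, 0 < s ∧ s * K ≤ 1 := by
    have h1 : ∀ᶠ s : ℝ in 𝓝[>] 0, s < K⁻¹ :=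
      mem_nhdsWithin_of_mem_nhds (Iio_mem_nhds (inv_pos.2 hK0))
    filter_upwards [h1, self_mem_nhdsWithin] with s h1 h2
    refine ⟨h2, ?_⟩
    have := mul_lt_mul_of_pos_right h1 hK0
    rw [inv_mul_cancel₀ hK0.ne'] at this
    exact this.le
  have hbd : ∀ s : ℝ, 0 < s → s * K ≤ 1 → ∀ x, ‖h s x‖ ≤ G x := fun s hs hs1 x =>
    hb _ _ ((hclose s hs x).trans hs1)
  have hlim : Tendsto (fun s : ℝ => ∫ x, h s x ∂μ) (𝓝[>] 0) (𝓝 (∫ x, g x ∂μ)) := by
    refine tendsto_integral_filter_of_dominated_convergence G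
      (Eventually.of_forall fun s => (hmeas s).aestronglyMeasurable)
      (hev.mono fun s hs => Eventually.of_forall (hbd s hs.1 hs.2)) hG
      (Eventually.of_forall fun x => ?_)
    refine (hg.tendsto x).comp ?_
    rw [tendsto_iff_norm_sub_tendsto_zero]
    have h0 : Tendsto (fun s : ℝ => s * K) (𝓝[>] 0) (𝓝 0) := by
      have : Tendsto (fun s : ℝ => s * K) (𝓝 0) (𝓝 (0 * K)) :=
        (continuous_id.mul continuous_const).tendsto 0
      rw [zero_mul] at this
      exact this.mono_left nhdsWithin_le_nhds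
    exact squeeze_zero' (Eventually.of_forall fun _ => norm_nonneg _)
      (hev.mono fun s hs => hclose s hs.1 x) h0
  refine (hlim.div_const (μ.real D : ℂ)).congr' (hev.mono fun s hs => ?_)
  obtain ⟨hs, hs1⟩ := hs
  have hint : Integrable (h s) μ :=
    hG.mono' (hmeas s).aestronglyMeasurable (Eventually.of_forall (hbd s hs hs1))
  set k : E → ℂ := fun y => g (s • ((ZSpan.floor b y : E) + a)) with hk
  have e1 : h s = fun x => k (s⁻¹ • x) := rfl
  have hint2 : Integrable k μ := by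
    have := hint.comp_smul hs.ne'
    refine this.congr (Eventually.of_forall fun y => ?_)
    simp only [e1, inv_smul_smul₀ hs.ne']
  have e2 : ∫ x, h s x ∂μ = (s ^ finrank ℝ E : ℝ) • ∫ y, k y ∂μ := by
    rw [e1, Measure.integral_comp_inv_smul, abs_of_pos (pow_pos hs _)]
  have e3 : ∫ y, k y ∂μ = ∑' l : span ℤ (Set.range b), (μ.real D : ℂ) * g (s • ((l : E) + a)) := by
    have : VAddInvariantMeasure (span ℤ (Set.range b)) E μ :=
      ⟨fun c s _ => measure_preimage_add μ (c : E) s⟩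
    rw [(ZSpan.isAddFundamentalDomain b μ).integral_eq_tsum'' k hint2]
    refine tsum_congr fun l => ?_
    rw [setIntegral_congr_fun (ZSpan.fundamentalDomain_measurableSet b)
      (g := fun _ => g (s • ((l : E) + a))) fun y hy => ?_]
    · rw [setIntegral_const, Complex.real_smul]
    · have h1 : (ZSpan.floor b (l +ᵥ y) : E) = l := by
        have h2 : ZSpan.fract b ((l : E) + y) = y := by
          rw [ZSpan.fract_zSpan_add b y l.2]
          exact ZSpan.fract_eq_self.2 hy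
        rw [ZSpan.fract_apply] at h2
        have h3 : (l +ᵥ y : E) = (l : E) + y := rfl
        rw [h3]
        exact (add_right_cancel (sub_eq_iff_eq_add'.1 h2)).symm
      simp only [hk, h1]
  simp only
  rw [e2, e3, tsum_mul_left, Complex.real_smul]
  field_simp

theorem pow_mul_exp_le (k : ℕ) {m : ℝ} (hm : 0 < m) {u : ℝ} (hu : 0 ≤ u) :
    u ^ k * Real.exp (-(m * u)) ≤ k.factorial / m ^ k := by
  have h := Real.pow_div_factorial_le_exp (m * u) (by positivity) k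
  have hk : (0 : ℝ) < k.factorial := by exact_mod_cast k.factorial_pos
  rw [div_le_iff₀ hk, mul_pow] at h
  rw [le_div_iff₀ (by positivity), Real.exp_neg]
  have := Real.exp_pos (m * u)
  calc _ = m ^ k * u ^ k / Real.exp (m * u) := by field_simp
    _ ≤ _ := by rw [div_le_iff₀ this, mul_comm (k.factorial : ℝ)]; exact h

theorem integrable_exp_neg_norm {m : ℝ} (hm : 0 < m) :
    Integrable (fun x : E => Real.exp (-(m * ‖x‖))) μ := by
  set k : ℕ := finrank ℝ E + 1 with hk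
  have h := (integrable_one_add_norm (E := E) (μ := μ) (r := k)
    (by rw [hk]; push_cast; linarith)).const_mul (Real.exp m * (k.factorial / m ^ k))
  refine h.mono' (Continuous.aestronglyMeasurable (by fun_prop)) (Eventually.of_forall fun x => ?_)
  have h1 := pow_mul_exp_le k hm (u := 1 + ‖x‖) (by positivity)
  have h2 : (0 : ℝ) < (1 + ‖x‖) ^ k := by positivity
  rw [Real.norm_of_nonneg (Real.exp_pos _).le, Real.rpow_neg (by positivity), Real.rpow_natCast,
    ← div_eq_mul_inv, le_div_iff₀ h2]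
  calc Real.exp (-(m * ‖x‖)) * (1 + ‖x‖) ^ k
      = Real.exp m * ((1 + ‖x‖) ^ k * Real.exp (-(m * (1 + ‖x‖)))) := by
        rw [mul_comm (_ ^ k), ← mul_assoc, ← Real.exp_add]
        congr 2
        ring
    _ ≤ _ := mul_le_mul_of_nonneg_left h1 (Real.exp_pos _).le

omit μ in
/-- Packing bound. -/
theorem packing_98 : ∃ C : ℝ, 0 < C ∧ ∀ {α : Type} (y : α → E) (δ : ℝ), 0 < δ → δ ≤ 1 →
    (∀ i j, i ≠ j → δ ≤ ‖y i - y j‖) →
    Summable (fun i => Real.exp (-‖y i‖)) ∧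
      ∑' i, Real.exp (-‖y i‖) ≤ C / δ ^ finrank ℝ E := by
  let μ : Measure E := Measure.addHaar
  have hI := integrable_exp_neg_norm μ one_pos
  simp only [one_mul] at hI
  set I : ℝ := ∫ x : E, Real.exp (-‖x‖) ∂μ with hIdef
  have hI0 : 0 ≤ I := integral_nonneg fun _ => (Real.exp_pos _).le
  set V : ℝ := μ.real (Metric.ball (0 : E) 1) with hV
  have hV0 : 0 < V := ENNReal.toReal_pos (Metric.measure_ball_pos μ _ one_pos).ne'
    measure_ball_lt_top.ne
  refine ⟨Real.exp 1 * I * 2 ^ finrank ℝ E / V + 1, by positivity, fun y δ hδ hδ1 hsep => ?_⟩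
  have hvol : ∀ x : E, μ.real (Metric.ball x (δ / 2)) = (δ / 2) ^ finrank ℝ E * V := fun x => by
    rw [Measure.real, Measure.addHaar_ball_of_pos μ x (half_pos hδ), ENNReal.toReal_mul,
      ENNReal.toReal_ofReal (by positivity)]
    rfl
  have key : ∀ T : Finset _, ∑ i ∈ T, Real.exp (-‖y i‖) ≤
      (Real.exp 1 * I * 2 ^ finrank ℝ E / V + 1) / δ ^ finrank ℝ E := by
    intro T
    have h1 : ∀ i, Real.exp (-‖y i‖) * ((δ / 2) ^ finrank ℝ E * V) ≤
        Real.exp 1 * ∫ x in Metric.ball (y i) (δ / 2), Real.exp (-‖x‖) ∂μ := by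
      intro i
      rw [← hvol (y i), ← integral_const_mul, mul_comm, ← smul_eq_mul, ← setIntegral_const]
      refine setIntegral_mono_on (integrableOn_const measure_ball_lt_top.ne)
        (hI.const_mul _).integrableOn measurableSet_ball fun x hx => ?_
      rw [← Real.exp_add, Real.exp_le_exp]
      have h2 : ‖x‖ ≤ ‖y i‖ + ‖x - y i‖ := by simpa using norm_add_le (y i) (x - y i)
      rw [mem_ball_iff_norm] at hx
      linarith
    have h2 : ∑ i ∈ T, ∫ x in Metric.ball (y i) (δ / 2), Real.exp (-‖x‖) ∂μ ≤ I := by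
      rw [← integral_biUnion_finset T (fun _ _ => measurableSet_ball) ?_
        (fun _ _ => hI.integrableOn)]
      · exact setIntegral_le_integral hI (Eventually.of_forall fun _ => (Real.exp_pos _).le)
      · intro i _ j _ hij
        refine Metric.ball_disjoint_ball ?_
        rw [dist_eq_norm, add_halves]
        exact hsep i j hij
    have h3 : (∑ i ∈ T, Real.exp (-‖y i‖)) * ((δ / 2) ^ finrank ℝ E * V) ≤ Real.exp 1 * I := by
      rw [Finset.sum_mul]
      refine (Finset.sum_le_sum fun i _ => h1 i).trans ?_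
      rw [← Finset.mul_sum]
      exact mul_le_mul_of_nonneg_left h2 (Real.exp_pos _).le
    rw [le_div_iff₀ (by positivity)]
    have h4 : (∑ i ∈ T, Real.exp (-‖y i‖)) * δ ^ finrank ℝ E ≤
        Real.exp 1 * I * 2 ^ finrank ℝ E / V := by
      rw [le_div_iff₀ hV0]
      calc _ = (∑ i ∈ T, Real.exp (-‖y i‖)) * ((δ / 2) ^ finrank ℝ E * V) * 2 ^ finrank ℝ E := by
            rw [div_pow]; field_simp
        _ ≤ _ := mul_le_mul_of_nonneg_right h3 (by positivity)
    linarith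
  have hs : Summable fun i => Real.exp (-‖y i‖) :=
    summable_of_sum_le (fun _ => (Real.exp_pos _).le) key
  exact ⟨hs, hs.tsum_le_of_sum_le key⟩

end general

section field

open NumberField InfinitePlace

variable {K : Type} [Field K] [NumberField K]

/-- `exp(-∑_w Z_w |x|_w^6)`. -/
def ex6 (Z : InfinitePlace K → ℝ) (x : K) : ℝ := Real.exp (-∑ w, Z w * w x ^ 6)

/-- `∏_w |x|_w^2` (the absolute norm for a totally complex field). -/
def nN (x : K) : ℝ := ∏ w : InfinitePlace K, w x ^ 2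

theorem ex6_pos (Z : InfinitePlace K → ℝ) (x : K) : 0 < ex6 Z x := Real.exp_pos _

theorem nN_nonneg (x : K) : 0 ≤ nN x := Finset.prod_nonneg fun _ _ => sq_nonneg _

theorem nN_pos {x : K} (hx : x ≠ 0) : 0 < nN x :=
  Finset.prod_pos fun w _ => pow_pos (w.pos_iff.2 hx) _

theorem nN_mul (x y : K) : nN (x * y) = nN x * nN y := by
  simp only [nN, map_mul, mul_pow, Finset.prod_mul_distrib]




theorem nN_eq [IsTotallyComplex K] (x : K) : nN x = |((Algebra.norm ℚ x : ℚ) : ℝ)| := by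
  have := prod_eq_abs_norm x
  simp only [IsTotallyComplex.mult_eq] at this
  rw [nN, this, Rat.cast_abs]

theorem ex6_mul (Z : InfinitePlace K → ℝ) (m x : K) :
    ex6 Z (m * x) = ex6 (fun w => Z w * w m ^ 6) x := by
  simp only [ex6, map_mul, mul_pow, mul_assoc]

theorem prod_rpow_mul (Z : InfinitePlace K → ℝ) (hZ : ∀ w, 0 < Z w) (m : K) :
    (∏ w, Z w * w m ^ 6) ^ (1 / 3 : ℝ) = (∏ w, Z w) ^ (1 / 3 : ℝ) * nN m := by
  have e : ∏ w : InfinitePlace K, w m ^ 6 = nN m ^ 3 := by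
    rw [nN, ← Finset.prod_pow]
    exact Finset.prod_congr rfl fun w _ => by ring
  rw [Finset.prod_mul_distrib, e, Real.mul_rpow (Finset.prod_nonneg fun w _ => (hZ w).le)
    (pow_nonneg (nN_nonneg m) _), show (1 / 3 : ℝ) = ((3 : ℕ) : ℝ)⁻¹ by norm_num,
    Real.pow_rpow_inv_natCast (nN_nonneg m) (by norm_num)]

/-- Shape-uniform bound for sums over sets whose elements and differences have norm `≥ ν`. -/
theorem bound_98 : ∃ C : ℝ, 0 < C ∧ ∀ (A : Set K) (ν : ℝ), 0 < ν → (∀ x ∈ A, ν ≤ nN x) →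
    (∀ x ∈ A, ∀ y ∈ A, x ≠ y → ν ≤ nN (x - y)) → ∀ Z : InfinitePlace K → ℝ, (∀ w, 0 < Z w) →
    Summable (fun x : A => ex6 Z x) ∧
      (∏ w, Z w) ^ (1 / 3 : ℝ) * ∑' x : A, ex6 Z x ≤ C / ν := by
  obtain ⟨C, hC, H⟩ := packing_98 (E := InfinitePlace K → ℂ)
  set d : ℕ := finrank ℝ (InfinitePlace K → ℂ) with hd
  have hd2 : d = 2 * Fintype.card (InfinitePlace K) := by
    rw [hd, Module.finrank_pi_fintype]
    simp [mul_comm]
  have hd0 : d ≠ 0 := by
    rw [hd2]
    exact mul_ne_zero two_ne_zero Fintype.card_ne_zero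
  refine ⟨Real.exp 2 * (d.factorial + 1) * C, by positivity, fun A ν hν hA hA2 Z hZ => ?_⟩
  set P : ℝ := (∏ w, Z w) ^ (1 / 3 : ℝ) with hP
  have hP0 : 0 < P := Real.rpow_pos_of_pos (Finset.prod_pos fun w _ => hZ w) _
  let y : K → InfinitePlace K → ℂ := fun x w => ((Z w ^ (1 / 6 : ℝ) : ℝ) : ℂ) * w.embedding x
  have hy : ∀ x w, ‖y x w‖ = Z w ^ (1 / 6 : ℝ) * w x := fun x w => by
    simp only [y, norm_mul, Complex.norm_real, norm_embedding_eq,
      Real.norm_of_nonneg (Real.rpow_nonneg (hZ w).le _)]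
  have hsub : ∀ x x', y x - y x' = y (x - x') := fun x x' => by
    funext w
    simp only [y, Pi.sub_apply, map_sub, mul_sub]
  have hpow : ∀ x, P * nN x ≤ ‖y x‖ ^ d := fun x => by
    have e : P * nN x = ∏ w, ‖y x w‖ ^ 2 := by
      rw [hP, nN, ← Real.finsetProd_rpow _ _ (fun w _ => (hZ w).le), ← Finset.prod_mul_distrib]
      refine Finset.prod_congr rfl fun w _ => ?_
      rw [hy, mul_pow, ← Real.rpow_natCast, ← Real.rpow_natCast (Z w ^ _),
        ← Real.rpow_mul (hZ w).le]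
      norm_num
    rw [e, hd2, pow_mul, ← Finset.card_univ, ← Finset.prod_const]
    exact Finset.prod_le_prod (fun _ _ => sq_nonneg _) fun w _ =>
      pow_le_pow_left₀ (norm_nonneg _) (norm_le_pi_norm _ w) 2
  have hex : ∀ x, ex6 Z x ≤ Real.exp 2 * (Real.exp (-‖y x‖) * Real.exp (-‖y x‖)) := fun x => by
    obtain ⟨w0, hw0⟩ : ∃ w0, ‖y x‖ ≤ ‖y x w0‖ := by
      obtain ⟨w0, -, h⟩ := Finset.exists_max_image Finset.univ (fun w => ‖y x w‖)
        Finset.univ_nonempty
      exact ⟨w0, (pi_norm_le_iff_of_nonneg (norm_nonneg _)).2 fun w => h w (Finset.mem_univ _)⟩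
    have h1 : ‖y x‖ ^ 6 ≤ ∑ w, Z w * w x ^ 6 := by
      refine (pow_le_pow_left₀ (norm_nonneg _) hw0 6).trans ?_
      have e : ‖y x w0‖ ^ 6 = Z w0 * w0 x ^ 6 := by
        rw [hy, mul_pow, ← Real.rpow_natCast (Z w0 ^ _), ← Real.rpow_mul (hZ w0).le]
        norm_num
      rw [e]
      exact Finset.single_le_sum (f := fun w => Z w * w x ^ 6)
        (fun w _ => mul_nonneg (hZ w).le (by positivity)) (Finset.mem_univ w0)
    rw [ex6, ← Real.exp_add, ← Real.exp_add, Real.exp_le_exp]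
    have h0 := norm_nonneg (y x)
    have h2 : 2 * ‖y x‖ - 2 ≤ ‖y x‖ ^ 6 := by
      rcases le_total ‖y x‖ 1 with h | h
      · nlinarith [pow_nonneg h0 6]
      · have h3 : ‖y x‖ ^ 2 ≤ ‖y x‖ ^ 6 := pow_le_pow_right₀ h (by norm_num)
        nlinarith [sq_nonneg (‖y x‖ - 1)]
    linarith
  have hfac : (0 : ℝ) ≤ d.factorial := Nat.cast_nonneg _
  have hνP : 0 < P * ν := mul_pos hP0 hν
  -- separation
  have hsep : ∀ δ : ℝ, 0 < δ → δ ^ d ≤ P * ν → ∀ i j : A, i ≠ j → δ ≤ ‖y i - y j‖ := by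
    intro δ hδ h i j hij
    rw [hsub]
    refine le_of_pow_le_pow_left₀ hd0 (norm_nonneg _) (h.trans (le_trans ?_ (hpow _)))
    exact mul_le_mul_of_nonneg_left (hA2 _ i.2 _ j.2 fun e => hij (Subtype.ext e)) hP0.le
  suffices h : ∃ B : ℝ, 0 ≤ B ∧ ∃ δ : ℝ, 0 < δ ∧ δ ≤ 1 ∧ δ ^ d ≤ P * ν ∧
      (∀ x : A, Real.exp (-‖y x‖) ≤ B) ∧ P * ν * B ≤ (d.factorial + 1) * δ ^ d by
    obtain ⟨B, hB, δ, hδ, hδ1, h1, h2, h3⟩ := h
    obtain ⟨hs, hle⟩ := H (fun x : A => y x) δ hδ hδ1 (hsep δ hδ h1)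
    have hterm : ∀ x : A, ex6 Z x ≤ Real.exp 2 * B * Real.exp (-‖y x‖) := fun x => by
      refine (hex x).trans ?_
      rw [mul_assoc]
      gcongr
      exact h2 x
    have hs2 := hs.mul_left (Real.exp 2 * B)
    have hs3 : Summable fun x : A => ex6 Z x :=
      hs2.of_nonneg_of_le (fun _ => (ex6_pos _ _).le) hterm
    refine ⟨hs3, ?_⟩
    have h4 := hs3.tsum_le_tsum hterm hs2
    rw [tsum_mul_left] at h4
    have h5 : ∑' x : A, ex6 Z x ≤ Real.exp 2 * B * (C / δ ^ d) :=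
      h4.trans (mul_le_mul_of_nonneg_left hle (by positivity))
    rw [le_div_iff₀ hν]
    have hδd : 0 < δ ^ d := pow_pos hδ _
    calc P * (∑' x : A, ex6 Z x) * ν ≤ P * (Real.exp 2 * B * (C / δ ^ d)) * ν := by gcongr
      _ = Real.exp 2 * (P * ν * B) * C / δ ^ d := by ring
      _ ≤ Real.exp 2 * ((d.factorial + 1) * δ ^ d) * C / δ ^ d := by gcongr
      _ = _ := by field_simp
  rcases le_total (P * ν) 1 with h | h
  · have e : ((P * ν) ^ ((d : ℝ)⁻¹)) ^ d = P * ν := Real.rpow_inv_natCast_pow hνP.le hd0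
    refine ⟨1, zero_le_one, (P * ν) ^ ((d : ℝ)⁻¹), Real.rpow_pos_of_pos hνP _,
      Real.rpow_le_one hνP.le h (by positivity), e.le, fun x => ?_, ?_⟩
    · exact Real.exp_le_one_iff.2 (neg_nonpos.2 (norm_nonneg _))
    · rw [e]
      nlinarith
  · refine ⟨d.factorial / (P * ν), by positivity, 1, one_pos, le_rfl, by simpa using h,
      fun x => ?_, ?_⟩
    · have h1 := pow_mul_exp_le d one_pos (norm_nonneg (y x))
      simp only [one_mul, one_pow, div_one] at h1
      rw [le_div_iff₀ hνP]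
      refine le_trans ?_ h1
      rw [mul_comm]
      refine mul_le_mul_of_nonneg_right (le_trans ?_ (hpow x)) (Real.exp_pos _).le
      exact mul_le_mul_of_nonneg_left (hA _ x.2) hP0.le
    · rw [mul_div_cancel₀ _ hνP.ne']
      simp

open mixedEmbedding in
/-- The profile on the mixed space. -/
def gM (Z : InfinitePlace K → ℝ) (x : mixedSpace K) : ℝ :=
  Real.exp (-∑ w, Z w * normAtPlace w x ^ 6)

/-- The one-variable constant. -/
def c6 : ℝ := ∫ z : ℂ, Real.exp (-‖z‖ ^ 6)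

theorem exp_six_le {m : ℝ} (hm : 0 < m) {u : ℝ} (hu : 0 ≤ u) :
    Real.exp (-(m * u ^ 6)) ≤ Real.exp m * Real.exp (-(m * u)) := by
  rw [← Real.exp_add, Real.exp_le_exp]
  have h2 : u - 1 ≤ u ^ 6 := by
    rcases le_total u 1 with h | h
    · nlinarith [pow_nonneg hu 6]
    · have h3 : u ^ 1 ≤ u ^ 6 := pow_le_pow_right₀ h (by norm_num)
      linarith [pow_one u]
  nlinarith

theorem c6_pos : 0 < c6 := by
  have hi : Integrable fun z : ℂ => Real.exp (-‖z‖ ^ 6) := by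
    refine ((integrable_exp_neg_norm volume one_pos).const_mul (Real.exp 1)).mono'
      (Continuous.aestronglyMeasurable (by fun_prop)) (Eventually.of_forall fun z => ?_)
    rw [Real.norm_of_nonneg (Real.exp_pos _).le]
    simpa using exp_six_le one_pos (norm_nonneg z)
  exact integral_exp_pos hi

theorem integral_c6 {η : ℝ} (hη : 0 < η) :
    ∫ z : ℂ, Real.exp (-(η * ‖z‖ ^ 6)) = (η ^ (1 / 3 : ℝ))⁻¹ * c6 := by
  have h := Measure.integral_comp_smul (volume : Measure ℂ) (fun z : ℂ => Real.exp (-‖z‖ ^ 6))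
    (η ^ (1 / 6 : ℝ))
  have h1 : 0 < η ^ (1 / 6 : ℝ) := Real.rpow_pos_of_pos hη _
  have e1 : (η ^ (1 / 6 : ℝ)) ^ 6 = η := by
    rw [← Real.rpow_natCast, ← Real.rpow_mul hη.le]; norm_num
  have e2 : (η ^ (1 / 6 : ℝ)) ^ 2 = η ^ (1 / 3 : ℝ) := by
    rw [← Real.rpow_natCast, ← Real.rpow_mul hη.le]; norm_num
  simp only [norm_smul, Real.norm_of_nonneg h1.le, mul_pow, e1, Complex.finrank_real_complex, e2,
    smul_eq_mul] at h
  rw [h, abs_of_pos (inv_pos.2 (Real.rpow_pos_of_pos hη _)), c6]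

open scoped Classical in
open mixedEmbedding in
theorem integral_gM [IsTotallyComplex K] {Z : InfinitePlace K → ℝ} (hZ : ∀ w, 0 < Z w) :
    ∫ x, gM Z x = ((∏ w, Z w) ^ (1 / 3 : ℝ))⁻¹ * c6 ^ Fintype.card (InfinitePlace K) := by
  let e : {w : InfinitePlace K // IsComplex w} ≃ InfinitePlace K :=
    Equiv.subtypeUnivEquiv IsTotallyComplex.isComplex
  have e1 : ∀ x : mixedSpace K, gM Z x =
      ∏ w : {w : InfinitePlace K // IsComplex w}, Real.exp (-(Z w * ‖x.2 w‖ ^ 6)) := fun x => by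
    rw [gM, ← Real.exp_sum, Finset.sum_neg_distrib, ← e.sum_comp]
    congr 2
    refine Finset.sum_congr rfl fun w _ => ?_
    rw [← normAtPlace_apply_of_isComplex w.2]
    rfl
  simp only [e1]
  have hemp : IsEmpty {w : InfinitePlace K // IsReal w} :=
    ⟨fun w => (not_isReal_iff_isComplex.2 (IsTotallyComplex.isComplex w.1)) w.2⟩
  rw [Measure.volume_eq_prod, integral_fun_snd
    (fun y : {w : InfinitePlace K // IsComplex w} → ℂ =>
      ∏ w : {w : InfinitePlace K // IsComplex w}, Real.exp (-(Z w * ‖y w‖ ^ 6))),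
    integral_fintype_prod_volume_eq_prod
      (fun (w : {w : InfinitePlace K // IsComplex w}) (z : ℂ) => Real.exp (-(Z w * ‖z‖ ^ 6)))]
  have e2 : (volume : Measure ({w : InfinitePlace K // IsReal w} → ℝ)).real Set.univ = 1 := by
    rw [Measure.real, volume_pi, Measure.pi_univ]
    simp
  rw [e2, one_smul]
  simp only [fun w : {w : InfinitePlace K // IsComplex w} => integral_c6 (hZ w)]
  rw [Finset.prod_mul_distrib, Finset.prod_const, Finset.card_univ, Fintype.card_congr e,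
    Finset.prod_inv_distrib, Real.finsetProd_rpow _ _ (fun w _ => (hZ _).le), ← e.prod_comp]
  rfl

open mixedEmbedding in
theorem limit_one [IsTotallyComplex K] : ∃ κ : ℝ, 0 < κ ∧ ∀ (a : K) (η : InfinitePlace K → ℝ),
    (∀ w, 0 < η w) → Tendsto (fun t : ℝ => (∏ w, t * η w) ^ (1 / 3 : ℝ) *
      ∑' x : 𝓞 K, ex6 (fun w => t * η w) (a + x)) (𝓝[>] 0) (𝓝 κ) := by
  classical
  set V : ℝ := volume.real (ZSpan.fundamentalDomain (latticeBasis K)) with hV
  have hV0 : 0 < V :=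
    ENNReal.toReal_pos (ZSpan.measure_fundamentalDomain_ne_zero _)
      (ZSpan.fundamentalDomain_isBounded _).measure_lt_top.ne
  refine ⟨c6 ^ Fintype.card (InfinitePlace K) / V, div_pos (pow_pos c6_pos _) hV0,
    fun a η hη => ?_⟩
  obtain ⟨w0, -, hw0⟩ := Finset.exists_min_image Finset.univ η Finset.univ_nonempty
  have hm := hη w0
  have hcont : Continuous fun x : mixedSpace K => (gM η x : ℂ) := by
    refine Complex.continuous_ofReal.comp (Real.continuous_exp.comp (Continuous.neg ?_))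
    exact continuous_finsetSum _ fun w _ =>
      continuous_const.mul ((continuous_normAtPlace w).pow 6)
  have H := riemann_98 volume (latticeBasis K) (mixedEmbedding K a) hcont
    ((integrable_exp_neg_norm volume hm).const_mul (Real.exp (η w0) * Real.exp (η w0)))
    (fun x y hxy => by
      rw [Complex.norm_real, gM, Real.norm_of_nonneg (Real.exp_pos _).le]
      obtain ⟨w1, -, h1⟩ := Finset.exists_mem_eq_sup' Finset.univ_nonempty
        (fun w => normAtPlace w y)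
      rw [← norm_eq_sup'_normAtPlace] at h1
      have h2 : η w0 * ‖y‖ ^ 6 ≤ ∑ w, η w * normAtPlace w y ^ 6 := by
        refine le_trans ?_ (Finset.single_le_sum (f := fun w => η w * normAtPlace w y ^ 6)
          (fun w _ => mul_nonneg (hη w).le (pow_nonneg (normAtPlace_nonneg _ _) _))
          (Finset.mem_univ w1))
        rw [h1]
        exact mul_le_mul_of_nonneg_right (hw0 _ (Finset.mem_univ _))
          (pow_nonneg (normAtPlace_nonneg _ _) _)
      refine (Real.exp_le_exp.2 (neg_le_neg h2)).trans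
        ((exp_six_le hm (norm_nonneg y)).trans ?_)
      rw [mul_assoc, ← Real.exp_add (η w0) (-(η w0 * ‖x‖))]
      refine mul_le_mul_of_nonneg_left (Real.exp_le_exp.2 ?_) (Real.exp_pos _).le
      have h3 : ‖x‖ ≤ ‖y‖ + ‖y - x‖ := by simpa using norm_sub_le y (y - x)
      nlinarith)
  have hs : Tendsto (fun t : ℝ => t ^ (1 / 6 : ℝ)) (𝓝[>] 0) (𝓝[>] 0) := by
    refine tendsto_nhdsWithin_iff.2 ⟨?_, ?_⟩
    · have := (Real.continuousAt_rpow_const 0 (1 / 6 : ℝ) (Or.inr (by norm_num))).tendsto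
      rw [Real.zero_rpow (by norm_num)] at this
      exact this.mono_left nhdsWithin_le_nhds
    · filter_upwards [self_mem_nhdsWithin] with t ht
      exact Real.rpow_pos_of_pos ht _
  set P : ℝ := (∏ w, η w) ^ (1 / 3 : ℝ) with hP
  have hP0 : 0 < P := Real.rpow_pos_of_pos (Finset.prod_pos fun w _ => hη w) _
  have H2 := (H.comp hs).const_mul (P : ℂ)
  rw [integral_complex_ofReal, integral_gM hη, ← hP, ← hV] at H2
  have e0 : (P : ℂ) * (((P⁻¹ * c6 ^ Fintype.card (InfinitePlace K) : ℝ) : ℂ) / (V : ℂ)) =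
      ((c6 ^ Fintype.card (InfinitePlace K) / V : ℝ) : ℂ) := by
    have : (P : ℂ) ≠ 0 := by exact_mod_cast hP0.ne'
    push_cast
    field_simp
  rw [e0] at H2
  rw [← Filter.tendsto_ofReal_iff]
  refine H2.congr' ?_
  filter_upwards [self_mem_nhdsWithin] with t (ht : 0 < t)
  let e : 𝓞 K ≃ span ℤ (Set.range (latticeBasis K)) := Equiv.ofBijective
    (fun x => ⟨mixedEmbedding K x, (mem_span_latticeBasis K).2 ⟨x, rfl⟩⟩) (by
      constructor
      · intro x y h
        exact RingOfIntegers.ext (mixedEmbedding_injective K (congrArg Subtype.val h))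
      · rintro ⟨y, hy⟩
        obtain ⟨x, rfl⟩ := (mem_span_latticeBasis K).1 hy
        exact ⟨x, rfl⟩)
  have e1 : (t ^ (1 / 6 : ℝ)) ^ 6 = t := by
    rw [← Real.rpow_natCast, ← Real.rpow_mul ht.le]; norm_num
  have e2 : (∏ w, t * η w) ^ (1 / 3 : ℝ) = P * (t ^ (1 / 6 : ℝ)) ^ finrank ℝ (mixedSpace K) := by
    have hcard : finrank ℝ (mixedSpace K) = 2 * Fintype.card (InfinitePlace K) := by
      rw [mixedEmbedding.finrank, IsTotallyComplex.finrank, card_eq_nrRealPlaces_add_nrComplexPlaces,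
        IsTotallyComplex.nrRealPlaces_eq_zero, zero_add]
    rw [Finset.prod_mul_distrib, Finset.prod_const, Finset.card_univ,
      Real.mul_rpow (by positivity) (Finset.prod_nonneg fun w _ => (hη w).le), mul_comm, hcard,
      ← Real.rpow_natCast, ← Real.rpow_natCast, ← Real.rpow_mul ht.le, ← Real.rpow_mul ht.le]
    congr 2
    push_cast
    ring
  simp only [Function.comp]
  rw [e2, ← e.tsum_eq]
  push_cast
  rw [mul_assoc]
  congr 2
  refine tsum_congr fun x => ?_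
  congr 1
  have e3 : ((e x : span ℤ (Set.range (latticeBasis K))) : mixedSpace K) + mixedEmbedding K a =
      mixedEmbedding K (a + x) := by
    rw [map_add, add_comm]
    rfl
  rw [e3, gM, ex6]
  congr 2
  refine Finset.sum_congr rfl fun w _ => ?_
  rw [normAtPlace_smul, normAtPlace_apply, abs_of_pos (Real.rpow_pos_of_pos ht _), mul_pow, e1]
  ring

/-- The lattice sum over a coset `a + M 𝓞`. -/
theorem limit_98 [IsTotallyComplex K] : ∃ κ : ℝ, 0 < κ ∧ ∀ (a M : K), M ≠ 0 →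
    ∀ η : InfinitePlace K → ℝ, (∀ w, 0 < η w) →
    Tendsto (fun t : ℝ => (∏ w, t * η w) ^ (1 / 3 : ℝ) *
      ∑' x : 𝓞 K, ex6 (fun w => t * η w) (a + M * x)) (𝓝[>] 0) (𝓝 (κ / nN M)) := by
  obtain ⟨κ, hκ, H⟩ := limit_one (K := K)
  refine ⟨κ, hκ, fun a M hM η hη => ?_⟩
  have h := (H (a / M) (fun w => η w * w M ^ 6)
    fun w => mul_pos (hη w) (pow_pos (w.pos_iff.2 hM) _)).div_const (nN M)
  refine h.congr' ?_
  filter_upwards [self_mem_nhdsWithin] with t (ht : 0 < t)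
  simp only [← mul_assoc]
  rw [prod_rpow_mul _ (fun w => mul_pos ht (hη w))]
  have e : ∀ x : 𝓞 K, ex6 (fun w => t * η w * w M ^ 6) (a / M + x) =
      ex6 (fun w => t * η w) (a + M * x) := fun x => by
    rw [← ex6_mul]
    congr 1
    field_simp
  simp only [e]
  have := (nN_pos hM).ne'
  field_simp

end field

end Crest.Agent.T27.Lam98
end
end

-- ▼ part T27/LamB_98
section

/-!
# Row 27, theta module B3 (part B): the smoothed sums `TT ψ Z` and mean values
-/

set_option autoImplicit false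
set_option linter.unusedSectionVars false

noncomputable section

namespace Crest.Agent.T27.Lam98

open Filter Topology NumberField TH

variable {F : Type} [Field F] [NumberField F]

/-- `(∏ Z)^{1/3}`. -/
def PZ (Z : Pl F → ℝ) : ℝ := (∏ w, Z w) ^ (1 / 3 : ℝ)

theorem PZ_pos {Z : Pl F → ℝ} (hZ : ∀ w, 0 < Z w) : 0 < PZ Z :=
  Real.rpow_pos_of_pos (Finset.prod_pos fun w _ => hZ w) _

/-- The smoothed sum. -/
def TT (ψ : F → ℂ) (Z : Pl F → ℝ) : ℂ := (PZ Z : ℂ) * ∑' x : F, ψ x * (ex6 Z x : ℂ)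

/-- `ψ` is dominated with the bound `b`. -/
def Dom (ψ : F → ℂ) (b : ℝ) : Prop := ∀ Z : Pl F → ℝ, (∀ w, 0 < Z w) →
  Summable (fun x => ‖ψ x‖ * ex6 Z x) ∧ PZ Z * ∑' x, ‖ψ x‖ * ex6 Z x ≤ b

theorem norm_term (ψ : F → ℂ) (Z : Pl F → ℝ) (x : F) :
    ‖ψ x * (ex6 Z x : ℂ)‖ = ‖ψ x‖ * ex6 Z x := by
  rw [norm_mul, Complex.norm_real, Real.norm_of_nonneg (ex6_pos _ _).le]

theorem Dom.summable {ψ : F → ℂ} {b : ℝ} (h : Dom ψ b) {Z : Pl F → ℝ} (hZ : ∀ w, 0 < Z w) :
    Summable fun x => ψ x * (ex6 Z x : ℂ) :=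
  Summable.of_norm (by simpa only [norm_term] using (h Z hZ).1)

theorem Dom.norm_le {ψ : F → ℂ} {b : ℝ} (h : Dom ψ b) {Z : Pl F → ℝ} (hZ : ∀ w, 0 < Z w) :
    ‖TT ψ Z‖ ≤ b := by
  rw [TT, norm_mul, Complex.norm_real, Real.norm_of_nonneg (PZ_pos hZ).le]
  refine le_trans (mul_le_mul_of_nonneg_left ?_ (PZ_pos hZ).le) (h Z hZ).2
  simpa only [norm_term] using norm_tsum_le_tsum_norm
    (f := fun x => ψ x * (ex6 Z x : ℂ)) (by simpa only [norm_term] using (h Z hZ).1)

theorem exists_dom : ∃ C : ℝ, 0 < C ∧ ∀ (A : Set F) (ν : ℝ), 0 < ν → (∀ x ∈ A, ν ≤ nN x) →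
    (∀ x ∈ A, ∀ y ∈ A, x ≠ y → ν ≤ nN (x - y)) → ∀ (ψ : F → ℂ) (B : ℝ), (∀ x, ‖ψ x‖ ≤ B) →
    (∀ x, ψ x ≠ 0 → x ∈ A) → Dom ψ (B * (C / ν)) := by
  obtain ⟨C, hC, H⟩ := bound_98 (K := F)
  refine ⟨C, hC, fun A ν hν h1 h2 ψ B hB hs Z hZ => ?_⟩
  obtain ⟨s1, s2⟩ := H A ν hν h1 h2 Z hZ
  have hB0 : 0 ≤ B := (norm_nonneg _).trans (hB 0)
  have s3 : Summable (A.indicator (ex6 Z)) := summable_subtype_iff_indicator.1 s1
  have hle : ∀ x, ‖ψ x‖ * ex6 Z x ≤ B * A.indicator (ex6 Z) x := fun x => by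
    by_cases hx : x ∈ A
    · rw [Set.indicator_of_mem hx]
      exact mul_le_mul_of_nonneg_right (hB x) (ex6_pos _ _).le
    · have : ψ x = 0 := by_contra fun h => hx (hs x h)
      rw [Set.indicator_of_notMem hx, this]
      simp
  have s4 : Summable fun x => ‖ψ x‖ * ex6 Z x :=
    (s3.mul_left B).of_nonneg_of_le (fun x => mul_nonneg (norm_nonneg _) (ex6_pos _ _).le) hle
  refine ⟨s4, ?_⟩
  have h3 := s4.tsum_le_tsum hle (s3.mul_left B)
  rw [tsum_mul_left, ← tsum_subtype] at h3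
  calc _ ≤ PZ Z * (B * ∑' x : A, ex6 Z x) := mul_le_mul_of_nonneg_left h3 (PZ_pos hZ).le
    _ = B * (PZ Z * ∑' x : A, ex6 Z x) := by ring
    _ ≤ _ := mul_le_mul_of_nonneg_left s2 hB0

/-- Exchange of a series of test sequences with the smoothed sum. -/
theorem TT_tsum {ι : Type} {ψ : ι → F → ℂ} {b : ι → ℝ} (hb : Summable b)
    (h : ∀ i, Dom (ψ i) (b i)) {Z : Pl F → ℝ} (hZ : ∀ w, 0 < Z w) :
    TT (fun x => ∑' i, ψ i x) Z = ∑' i, TT (ψ i) Z := by
  have hP := PZ_pos hZ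
  have hs : Summable fun p : ι × F => ψ p.1 p.2 * (ex6 Z p.2 : ℂ) := by
    refine Summable.of_norm ?_
    simp only [norm_term]
    rw [summable_prod_of_nonneg fun p => mul_nonneg (norm_nonneg _) (ex6_pos _ _).le]
    refine ⟨fun i => (h i Z hZ).1, (hb.div_const (PZ Z)).of_nonneg_of_le
      (fun i => tsum_nonneg fun x => mul_nonneg (norm_nonneg _) (ex6_pos _ _).le) fun i => ?_⟩
    rw [le_div_iff₀ hP, mul_comm]
    exact (h i Z hZ).2
  simp only [TT]
  rw [tsum_mul_left, ← Summable.tsum_comm (f := fun i x => ψ i x * (ex6 Z x : ℂ)) hs]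
  simp only [tsum_mul_right]

theorem tendsto_TT_tsum {ι : Type} {ψ : ι → F → ℂ} {b : ι → ℝ} (hb : Summable b)
    (h : ∀ i, Dom (ψ i) (b i)) {η : Pl F → ℝ} (hη : ∀ w, 0 < η w) {l : ι → ℂ}
    (hl : ∀ i, Tendsto (fun t : ℝ => TT (ψ i) fun w => t * η w) (𝓝[>] 0) (𝓝 (l i))) :
    Tendsto (fun t : ℝ => TT (fun x => ∑' i, ψ i x) fun w => t * η w) (𝓝[>] 0)
      (𝓝 (∑' i, l i)) := by
  refine (tendsto_tsum_of_dominated_convergence hb hl ?_).congr' ?_
  · filter_upwards [self_mem_nhdsWithin] with t (ht : 0 < t) i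
    exact (h i).norm_le fun w => mul_pos ht (hη w)
  · filter_upwards [self_mem_nhdsWithin] with t (ht : 0 < t)
    exact (TT_tsum hb h fun w => mul_pos ht (hη w)).symm

theorem tendsto_PZ {η : Pl F → ℝ} :
    Tendsto (fun t : ℝ => PZ fun w => t * η w) (𝓝[>] 0) (𝓝 0) := by
  have h1 : Continuous fun t : ℝ => ∏ w : Pl F, t * η w := by fun_prop
  have h2 := ((Real.continuous_rpow_const (q := 1 / 3) (by norm_num)).comp h1).tendsto 0
  have e : ((fun x : ℝ => x ^ (1 / 3 : ℝ)) ∘ fun t : ℝ => ∏ w : Pl F, t * η w) 0 = 0 := by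
    simp [Fintype.card_ne_zero]
  rw [e] at h2
  exact h2.mono_left nhdsWithin_le_nhds

open Classical in
/-- Removing the value at `0`. -/
def cut (ψ : F → ℂ) (x : F) : ℂ := if x = 0 then 0 else ψ x


theorem cut_ne {ψ : F → ℂ} {x : F} (h : cut ψ x ≠ 0) : x ≠ 0 ∧ ψ x ≠ 0 := by
  unfold cut at h
  split_ifs at h with hx
  · exact absurd rfl h
  · exact ⟨hx, h⟩

variable [Emb F]

theorem norm_em (x : F) (j : Pl F) : ‖em x j‖ = j x := by
  conv_rhs => rw [← Emb.mk_σ j]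
  rfl

theorem nF_eq_nN (x : F) : nF x = nN x := by simp only [nF, nN, norm_em]

theorem one_le_nN {x : F} (hx : x ≠ 0) (h : IsIntegral ℤ x) : 1 ≤ nN x := by
  have := Emb.tc (F := F)
  rw [nN_eq]
  have h2 : IsIntegral ℤ (Algebra.norm ℚ x) := Algebra.isIntegral_norm ℚ h
  obtain ⟨m, hm⟩ := IsIntegrallyClosed.isIntegral_iff.1 h2
  have h3 : m ≠ 0 := by
    rintro rfl
    rw [map_zero, eq_comm, Algebra.norm_eq_zero_iff] at hm
    exact hx hm
  rw [← hm, eq_intCast, Rat.cast_intCast, ← Int.cast_abs]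
  exact_mod_cast Int.one_le_abs h3

theorem nN_natCast (N : ℕ) : nN (N : F) = (N : ℝ) ^ Module.finrank ℚ F := by
  have := Emb.tc (F := F)
  rw [nN_eq, show (N : F) = algebraMap ℚ F N by simp, Algebra.norm_algebraMap]
  push_cast
  exact abs_of_nonneg (by positivity)

theorem summable_latt {N : ℕ} (hN : N ≠ 0) {Z : Pl F → ℝ} (hZ : ∀ w, 0 < Z w) :
    Summable ({x : F | IsIntegral ℤ ((N : F) * x)}.indicator (ex6 Z)) := by
  classical
  obtain ⟨C, -, H⟩ := bound_98 (K := F)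
  have hN0 : (N : F) ≠ 0 := Nat.cast_ne_zero.2 hN
  have key : ∀ x : F, x ≠ 0 → IsIntegral ℤ ((N : F) * x) → (nN (N : F))⁻¹ ≤ nN x := fun x hx h => by
    have := one_le_nN (mul_ne_zero hN0 hx) h
    rw [nN_mul] at this
    rw [inv_le_iff_one_le_mul₀' (nN_pos hN0)]
    exact this
  have h1 : Summable fun x : {x : F | x ≠ 0 ∧ IsIntegral ℤ ((N : F) * x)} => ex6 Z x :=
    (H {x : F | x ≠ 0 ∧ IsIntegral ℤ ((N : F) * x)} _ (inv_pos.2 (nN_pos hN0))
    (fun x hx => key x hx.1 hx.2) (fun x hx y hy hxy => key _ (sub_ne_zero.2 hxy)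
      (by rw [mul_sub]; exact hx.2.sub hy.2)) Z hZ).1
  have h3 : Summable ({x : F | x ≠ 0 ∧ IsIntegral ℤ ((N : F) * x)}.indicator (ex6 Z)) :=
    summable_subtype_iff_indicator.1 h1
  have h2 := h3.update 0 (ex6 Z 0)
  refine h2.congr fun x => ?_
  by_cases hx : x = 0
  · subst hx
    rw [Function.update_self, Set.indicator_of_mem]
    simpa using isIntegral_zero
  · rw [Function.update_of_ne hx]
    simp [Set.indicator, hx]

/-- The smoothed sum of a periodic function tends to `κ` times its mean value. -/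
theorem mean_limit (hM : MeanStmt F) : ∃ κ : ℝ, 0 < κ ∧ ∀ ψ : F → ℂ, Per ψ →
    ∀ η : Pl F → ℝ, (∀ w, 0 < η w) →
    Tendsto (fun t : ℝ => TT (cut ψ) fun w => t * η w) (𝓝[>] 0) (𝓝 (κ * mean ψ)) := by
  classical
  have := Emb.tc (F := F)
  obtain ⟨κ, hκ, H⟩ := limit_98 (K := F)
  refine ⟨κ, hκ, fun ψ ⟨N, hψ⟩ η hη => ?_⟩
  have hN := hψ.1
  have hN0 : (N : F) ≠ 0 := Nat.cast_ne_zero.2 hN
  obtain ⟨S, -, hS1, hS2, hS3⟩ := hM.reps N hN
  rw [hM.sum ψ N S hψ hS2 fun x hx => hS3 x (hψ.2.2 x hx)]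
  let e : S × 𝓞 F → F := fun p => p.1 + N * p.2
  have he : Function.Injective e := by
    rintro ⟨a, x⟩ ⟨b, y⟩ h
    have h1 : (a : F) + N * x = b + N * y := h
    have h2 : a = b := Subtype.ext (hS2 _ a.2 _ b.2 ⟨y - x, y.isIntegral_coe.sub x.isIntegral_coe,
      by linear_combination h1⟩)
    subst h2
    rw [RingOfIntegers.ext (mul_left_cancel₀ hN0 (add_left_cancel h1))]
  have hψe : ∀ p, ψ (e p) = ψ p.1 := fun p => hψ.2.1 _ _ ⟨p.2, p.2.isIntegral_coe, rfl⟩
  have hsupp : ∀ Z : Pl F → ℝ, Function.support (fun x => ψ x * (ex6 Z x : ℂ)) ⊆ Set.range e := by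
    intro Z x hx
    obtain ⟨y, hy, z, hz, h⟩ := hS3 x (hψ.2.2 x (left_ne_zero_of_mul hx))
    exact ⟨(⟨y, hy⟩, ⟨z, hz⟩), (sub_eq_iff_eq_add'.1 h).symm⟩
  obtain ⟨B, hB⟩ : ∃ B : ℝ, ∀ x, ‖ψ x‖ ≤ B := by
    refine ⟨∑ a ∈ S, ‖ψ a‖, fun x => ?_⟩
    by_cases hx : ψ x = 0
    · rw [hx, norm_zero]; positivity
    · obtain ⟨y, hy, h⟩ := hS3 x (hψ.2.2 x hx)
      have : ψ x = ψ y := by rw [← hψ.2.1 y _ h]; congr 1; ring
      rw [this]
      exact Finset.single_le_sum (f := fun a => ‖ψ a‖) (fun _ _ => norm_nonneg _) hy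
  have hsum : ∀ Z : Pl F → ℝ, (∀ w, 0 < Z w) → Summable fun x => ψ x * (ex6 Z x : ℂ) := by
    intro Z hZ
    refine Summable.of_norm_bounded ((summable_latt hN hZ).mul_left B) fun x => ?_
    rw [norm_term]
    by_cases hx : ψ x = 0
    · rw [hx, norm_zero, zero_mul]
      exact mul_nonneg ((norm_nonneg _).trans (hB 0))
        (Set.indicator_nonneg (fun _ _ => (ex6_pos _ _).le) _)
    · rw [Set.indicator_of_mem (by exact hψ.2.2 x hx)]
      exact mul_le_mul_of_nonneg_right (hB x) (ex6_pos _ _).le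
  have hTT : ∀ Z : Pl F → ℝ, (∀ w, 0 < Z w) → TT (cut ψ) Z =
      ∑ a ∈ S, ψ a * ((PZ Z * ∑' x : 𝓞 F, ex6 Z (a + N * x) : ℝ) : ℂ) - PZ Z * ψ 0 := by
    intro Z hZ
    have e1 : ∑' x, cut ψ x * (ex6 Z x : ℂ) = ∑' x, ψ x * (ex6 Z x : ℂ) - ψ 0 := by
      rw [(hsum Z hZ).tsum_eq_add_tsum_ite 0]
      have : ex6 Z (0 : F) = 1 := by simp [ex6]
      rw [this, Complex.ofReal_one, mul_one, add_sub_cancel_left]
      refine tsum_congr fun x => ?_
      unfold cut
      split_ifs <;> simp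
    have e2 : ∑' x, ψ x * (ex6 Z x : ℂ) =
        ∑ a ∈ S, ψ a * ((∑' x : 𝓞 F, ex6 Z (a + N * x) : ℝ) : ℂ) := by
      have h5 : Summable fun p => ψ (e p) * (ex6 Z (e p) : ℂ) := (hsum Z hZ).comp_injective he
      rw [← he.tsum_eq (hsupp Z), h5.tsum_prod, tsum_fintype, ← Finset.sum_coe_sort S]
      refine Finset.sum_congr rfl fun a _ => ?_
      simp only [hψe]
      rw [tsum_mul_left, Complex.ofReal_tsum]
    rw [TT, e1, e2, mul_sub, Finset.mul_sum]
    congr 1
    refine Finset.sum_congr rfl fun a _ => ?_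
    push_cast
    ring
  have h1 : Tendsto (fun t : ℝ => ∑ a ∈ S, ψ a * ((PZ (fun w => t * η w) *
      ∑' x : 𝓞 F, ex6 (fun w => t * η w) (a + N * x) : ℝ) : ℂ) - PZ (fun w => t * η w) * ψ 0)
      (𝓝[>] 0) (𝓝 (∑ a ∈ S, ψ a * ((κ / nN (N : F) : ℝ) : ℂ) - (0 : ℝ) * ψ 0)) :=
    (tendsto_finsetSum _ fun a _ => (H a N hN0 η hη).ofReal.const_mul _).sub
      (tendsto_PZ.ofReal.mul_const _)
  have e3 : ∑ a ∈ S, ψ a * ((κ / nN (N : F) : ℝ) : ℂ) - (0 : ℝ) * ψ 0 =
      κ * (((N : ℂ) ^ Module.finrank ℚ F)⁻¹ * ∑ x ∈ S, ψ x) := by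
    rw [← Finset.sum_mul, nN_natCast]
    push_cast
    ring
  rw [e3] at h1
  refine h1.congr' ?_
  filter_upwards [self_mem_nhdsWithin] with t (ht : 0 < t)
  exact (hTT _ fun w => mul_pos ht (hη w)).symm

end Crest.Agent.T27.Lam98
end
end

-- ▼ part T27/LamC_98
section

/-!
# Row 27, theta module B3 (part C): primes of `R`, norms, character sums, the values of `mf`
-/

set_option autoImplicit false
set_option linter.unusedSectionVars false

noncomputable section

namespace Crest.Agent.T27.Lam98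

open Filter Topology NumberField TH IsDedekindDomain

section pid

variable {A : Type} [CommRing A] [IsDomain A] [IsPrincipalIdealRing A]

/-- A generator of a maximal ideal. -/
def gen (v : HeightOneSpectrum A) : A := Submodule.IsPrincipal.generator v.asIdeal

theorem prime_gen (v : HeightOneSpectrum A) : Prime (gen v) :=
  have := v.isPrime
  Submodule.IsPrincipal.prime_generator_of_isPrime _ v.ne_bot

theorem gen_dvd_iff (v : HeightOneSpectrum A) (x : A) : gen v ∣ x ↔ x ∈ v.asIdeal :=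
  (Submodule.IsPrincipal.mem_iff_generator_dvd _).symm

theorem span_gen (v : HeightOneSpectrum A) : Ideal.span {gen v} = v.asIdeal :=
  Ideal.span_singleton_generator _

theorem isCoprime_gen {v w : HeightOneSpectrum A} (h : v ≠ w) : IsCoprime (gen v) (gen w) := by
  rw [← Ideal.isCoprime_span_singleton_iff, span_gen, span_gen]
  exact HeightOneSpectrum.isCoprime_of_ne v w h

theorem finite_gen {x : A} (hx : x ≠ 0) : {v : HeightOneSpectrum A | gen v ∣ x}.Finite := by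
  simp only [gen_dvd_iff, ← Ideal.dvd_span_singleton]
  exact Ideal.finite_factors (by simpa using hx)

/-- The product of the generators. -/
def dS (s : Finset (HeightOneSpectrum A)) : A := ∏ v ∈ s, gen v

theorem dS_ne (s : Finset (HeightOneSpectrum A)) : dS s ≠ 0 :=
  Finset.prod_ne_zero_iff.2 fun v _ => (prime_gen v).ne_zero

theorem dS_dvd_iff (s : Finset (HeightOneSpectrum A)) (x : A) : dS s ∣ x ↔ ∀ v ∈ s, gen v ∣ x :=
  ⟨fun h _ hv => (Finset.dvd_prod_of_mem _ hv).trans h,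
    Finset.prod_dvd_of_coprime fun _ _ _ _ h => isCoprime_gen h⟩

theorem isCoprime_iff_gen {x : A} (hx : x ≠ 0) (y : A) :
    IsCoprime y x ↔ ∀ v : HeightOneSpectrum A, gen v ∣ x → ¬ gen v ∣ y := by
  refine ⟨fun h v h1 h2 => (prime_gen v).not_isUnit (h.isUnit_of_dvd' h2 h1), fun h => ?_⟩
  by_contra hc
  rw [← Ideal.isCoprime_span_singleton_iff, Ideal.isCoprime_iff_sup_eq] at hc
  obtain ⟨m, hm, hle⟩ := Ideal.exists_le_maximal _ hc
  have h1 : x ∈ m := hle (Ideal.mem_sup_right (Ideal.mem_span_singleton_self x))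
  have h2 : y ∈ m := hle (Ideal.mem_sup_left (Ideal.mem_span_singleton_self y))
  let v : HeightOneSpectrum A := ⟨m, hm.isPrime, fun h0 => hx (by simpa [h0] using h1)⟩
  exact h v ((gen_dvd_iff v x).2 h1) ((gen_dvd_iff v y).2 h2)

open Classical in
/-- Inclusion–exclusion. -/
theorem ind_coprime {x : A} (hx : x ≠ 0) (y : A) :
    (if IsCoprime y x then (1 : ℂ) else 0) =
      ∑ s ∈ (finite_gen hx).toFinset.powerset, (-1) ^ s.card * if dS s ∣ y then 1 else 0 := by
  have e : ∀ s : Finset (HeightOneSpectrum A), ((-1 : ℂ) ^ s.card * if dS s ∣ y then 1 else 0) =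
      ∏ v ∈ s, -(if gen v ∣ y then (1 : ℂ) else 0) := fun s => by
    rw [Finset.prod_neg, Finset.prod_boole]
    simp only [dS_dvd_iff]
  simp only [e]
  rw [← Finset.prod_one_add, isCoprime_iff_gen hx]
  split_ifs with h
  · refine (Finset.prod_eq_one fun v hv => ?_).symm
    rw [if_neg (h v ((finite_gen hx).mem_toFinset.1 hv))]
    simp
  · push Not at h
    obtain ⟨v, h1, h2⟩ := h
    refine (Finset.prod_eq_zero ((finite_gen hx).mem_toFinset.2 h1) ?_).symm
    rw [if_pos h2]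
    simp

theorem cube_or {x : A} (hx : x ≠ 0) : (∃ u n : A, IsUnit u ∧ n ≠ 0 ∧ x = u * n ^ 3) ∨
    ∃ (p : A) (k : ℕ) (y : A), Prime p ∧ ¬ 3 ∣ k ∧ ¬ p ∣ y ∧ x = p ^ k * y := by
  induction x using (wellFounded_dvdNotUnit (α := A)).induction with
  | _ x ih =>
    by_cases hu : IsUnit x
    · exact Or.inl ⟨x, 1, hu, one_ne_zero, by simp⟩
    obtain ⟨p, hp, hpx⟩ := WfDvdMonoid.exists_irreducible_factor hu hx
    obtain ⟨k, y, hy, e⟩ := WfDvdMonoid.max_power_factor hx hp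
    by_cases hk : 3 ∣ k
    swap
    · exact Or.inr ⟨p, k, y, hp.prime, hk, hy, e⟩
    have hy0 : y ≠ 0 := by rintro rfl; exact hy (dvd_zero _)
    have hk0 : k ≠ 0 := by
      rintro rfl
      rw [pow_zero, one_mul] at e
      exact hy (e ▸ hpx)
    obtain ⟨j, rfl⟩ := hk
    rcases ih y ⟨hy0, p ^ (3 * j), fun h => hp.not_isUnit ((isUnit_pow_iff hk0).1 h),
      e.trans (mul_comm _ _)⟩ hy0 with ⟨u, n, h1, h2, h3⟩ | ⟨q, l, z, h1, h2, h3, h4⟩
    · exact Or.inl ⟨u, n * p ^ j, h1, mul_ne_zero h2 (pow_ne_zero _ hp.ne_zero), by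
        rw [e, h3]; ring⟩
    · refine Or.inr ⟨q, l, p ^ (3 * j) * z, h1, h2, fun h => ?_, by rw [e, h4]; ring⟩
      rcases h1.dvd_or_dvd h with h | h
      · have h5 : Associated q p := h1.irreducible.associated_of_dvd hp (h1.dvd_of_dvd_pow h)
        have hl : l ≠ 0 := by rintro rfl; exact h2 (dvd_zero _)
        exact hy (h4 ▸ (h5.symm.dvd.trans (dvd_pow_self q hl)).mul_right z)
      · exact h3 h

end pid

variable {F : Type} [Field F] [NumberField F] [Emb F] [Ar F]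

theorem N_ne : (Ar.N F : F) ≠ 0 :=
  Nat.cast_ne_zero.2 (by have := Ar.two_le (F := F); omega)

theorem mem_R_of_int {x : F} (h : IsIntegral ℤ x) : x ∈ (Ar.R : Subring F) :=
  (Ar.mem_R x).2 ⟨0, by simpa using h⟩

theorem N_mem_R : (Ar.N F : F) ∈ (Ar.R : Subring F) := natCast_mem _ _

theorem one_le_nm {x : RR F} (hx : x ≠ 0) : 1 ≤ Ar.nm (x : F) := by
  have := Ar.fin_quot x hx
  rw [Ar.nm_eq x hx]
  exact_mod_cast Nat.card_pos

theorem nm_one : Ar.nm (1 : F) = 1 := by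
  have h := Ar.nm_mul (1 : F) 1
  have h1 := Ar.nm_pos (1 : F) one_ne_zero
  rw [one_mul] at h
  exact (mul_eq_left₀ h1.ne').1 h.symm

theorem two_le_nm {p : RR F} (hp : Prime p) : 2 ≤ Ar.nm (p : F) := by
  have := Ar.fin_quot p hp.ne_zero
  have : Nontrivial (RR F ⧸ Ideal.span {p}) :=
    Ideal.Quotient.nontrivial_iff.2 (by rw [Ne, Ideal.span_singleton_eq_top]; exact hp.not_isUnit)
  rw [Ar.nm_eq p hp.ne_zero]
  exact_mod_cast Finite.one_lt_card

theorem nm_dS (s : Finset (HeightOneSpectrum (RR F))) :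
    Ar.nm ((dS s : RR F) : F) = ∏ v ∈ s, Ar.nm ((gen v : RR F) : F) := by
  classical
  induction s using Finset.induction_on with
  | empty => simp [dS, nm_one]
  | insert v s hv ih =>
    rw [dS, Finset.prod_insert hv, Finset.prod_insert hv, Subring.coe_mul, Ar.nm_mul, ← ih, dS]

theorem nm_le_nN {z : F} (hz : z ≠ 0) (h : IsIntegral ℤ z) : Ar.nm z ≤ nN z := by
  have := Emb.tc (F := F)
  let a : 𝓞 F := ⟨z, h⟩
  let r : RR F := ⟨z, mem_R_of_int h⟩
  have hr : r ≠ 0 := fun e => hz (congrArg Subtype.val e)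
  let φ : 𝓞 F →+* RR F := (algebraMap (𝓞 F) F).codRestrict _ fun x => mem_R_of_int x.isIntegral_coe
  let ψ : 𝓞 F ⧸ Ideal.span {a} →+* RR F ⧸ Ideal.span {r} := Ideal.quotientMap _ φ (by
    rw [Ideal.span_le, Set.singleton_subset_iff]
    exact Ideal.mem_span_singleton_self r)
  have hψ : Function.Surjective ψ := by
    intro q
    obtain ⟨x, rfl⟩ := Ideal.Quotient.mk_surjective q
    obtain ⟨r1, hr1, l, hl, e⟩ := Ar.approx ((x : F) / z) z⁻¹ (inv_ne_zero hz)
    have e2 : l = x - z * r1 := by field_simp at e; linear_combination -e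
    have hl2 : l ∈ (Ar.R : Subring F) := e2 ▸ sub_mem x.2 (mul_mem r.2 hr1)
    refine ⟨Ideal.Quotient.mk _ ⟨l, Ar.int_of l hl2 hl⟩, ?_⟩
    refine Ideal.Quotient.eq.2 (Ideal.mem_span_singleton.2 ?_)
    exact ⟨-⟨r1, hr1⟩, Subtype.ext (by
      change l - x = z * -r1
      rw [e2]; ring)⟩
  have ha : a ≠ 0 := fun e => hz (congrArg Subtype.val e)
  have hfin : Finite (𝓞 F ⧸ Ideal.span {a}) :=
    Ideal.finiteQuotientOfFreeOfNeBot _ (by simpa using ha)
  have h1 := Nat.card_le_card_of_surjective ψ hψ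
  have h2 : Nat.card (𝓞 F ⧸ Ideal.span {a}) = (Algebra.norm ℤ a).natAbs := by
    rw [← Ideal.absNorm_span_singleton, Ideal.absNorm_apply, Submodule.cardQuot_apply]
  have h3 : nN z = ((Algebra.norm ℤ a).natAbs : ℝ) := by
    rw [nN_eq, show z = algebraMap (𝓞 F) F a from rfl, ← Algebra.coe_norm_int, Nat.cast_natAbs]
    push_cast
    rfl
  rw [show z = (r : F) from rfl, Ar.nm_eq r hr, show (r : F) = z from rfl, h3, ← h2]
  exact_mod_cast h1

/-- Norm of the elements of `d R ∩ N^{-J} L`. -/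
theorem nN_ge {d : RR F} (hd : d ≠ 0) (J : ℕ) {x : F} (hx : x ≠ 0)
    (h1 : x / d ∈ (Ar.R : Subring F)) (h2 : (Ar.N F : F) ^ J * x ∈ (Ar.L : Subring F)) :
    Ar.nm (d : F) / nN ((Ar.N F : F) ^ J) ≤ nN x := by
  have hd0 : (d : F) ≠ 0 := fun e => hd (Subtype.ext e)
  have hN : (Ar.N F : F) ^ J ≠ 0 := pow_ne_zero _ N_ne
  have h3 : (Ar.N F : F) ^ J * (x / d) ∈ (Ar.R : Subring F) := mul_mem (pow_mem N_mem_R _) h1
  have e : (Ar.N F : F) ^ J * x = d * ((Ar.N F : F) ^ J * (x / d)) := by field_simp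
  have h4 := nm_le_nN (mul_ne_zero hN hx) (Ar.int_of _ (e ▸ mul_mem d.2 h3) h2)
  have h5 : 1 ≤ Ar.nm ((Ar.N F : F) ^ J * (x / d)) :=
    one_le_nm (x := ⟨_, h3⟩) fun e => mul_ne_zero hN (div_ne_zero hx hd0) (congrArg Subtype.val e)
  rw [nN_mul, e, Ar.nm_mul] at h4
  rw [div_le_iff₀' (nN_pos hN)]
  nlinarith [Ar.nm_pos (d : F) hd0]

theorem summable_inv_nm_sq :
    Summable fun v : HeightOneSpectrum (RR F) => ((Ar.nm ((gen v : RR F) : F))⁻¹) ^ 2 := by
  classical
  obtain ⟨C, hC⟩ := Ar.count_nm (F := F)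
  have hC0 : 0 ≤ C := by simpa using hC 1 ∅ zero_le_one (by simp) (by simp)
  let q : HeightOneSpectrum (RR F) → ℝ := fun v => Ar.nm ((gen v : RR F) : F)
  have hq : ∀ v, 2 ≤ q v := fun v => two_le_nm (prime_gen v)
  let key : HeightOneSpectrum (RR F) → ℕ := fun v => Nat.log 2 ⌊q v⌋₊
  have hk1 : ∀ v, (2 : ℝ) ^ key v ≤ q v := fun v => by
    have h1 : ⌊q v⌋₊ ≠ 0 := (Nat.floor_pos.2 (by linarith [hq v])).ne'
    refine le_trans ?_ (Nat.floor_le (by linarith [hq v]))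
    exact_mod_cast Nat.pow_log_le_self 2 h1
  have hk2 : ∀ v, q v ≤ (2 : ℝ) ^ (key v + 1) := fun v => by
    refine (Nat.lt_floor_add_one (q v)).le.trans ?_
    exact_mod_cast Nat.lt_pow_succ_log_self (by norm_num : 1 < 2) ⌊q v⌋₊
  have hg : Summable fun k : ℕ => 2 * C * (1 / 2 : ℝ) ^ k := summable_geometric_two.mul_left _
  refine summable_of_sum_le (c := ∑' k : ℕ, 2 * C * (1 / 2 : ℝ) ^ k) (fun _ => sq_nonneg _)
    fun T => ?_
  rw [← Finset.sum_fiberwise_of_maps_to (t := T.image key) (g := key)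
    fun v hv => Finset.mem_image_of_mem _ hv]
  refine le_trans (Finset.sum_le_sum fun k _ => ?_) (hg.sum_le_tsum _ fun k _ => by positivity)
  have h1 : (((T.filter fun v => key v = k).image gen).card : ℝ) ≤ C * 2 ^ (k + 1) := by
    refine hC _ _ (by positivity) (fun x hx => ?_) fun x hx y hy hxy => ?_
    · obtain ⟨v, hv, rfl⟩ := Finset.mem_image.1 hx
      exact ⟨(prime_gen v).ne_zero, (Finset.mem_filter.1 hv).2 ▸ hk2 v⟩
    · obtain ⟨v, -, rfl⟩ := Finset.mem_image.1 hx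
      obtain ⟨w, -, rfl⟩ := Finset.mem_image.1 hy
      by_contra h
      exact (prime_gen v).not_isUnit
        ((isCoprime_gen (fun e => h (by rw [e]))).isUnit_of_dvd' dvd_rfl hxy.dvd)
  rw [Finset.card_image_of_injective _ fun v w h => HeightOneSpectrum.ext
    (by rw [← span_gen, ← span_gen, h])] at h1
  have h2 : ∀ v ∈ T.filter fun v => key v = k, (q v)⁻¹ ^ 2 ≤ (((2 : ℝ) ^ k)⁻¹) ^ 2 := fun v hv => by
    have h3 := hk1 v
    rw [(Finset.mem_filter.1 hv).2] at h3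
    have := hq v
    gcongr
  refine (Finset.sum_le_card_nsmul _ _ _ h2).trans ?_
  rw [nsmul_eq_mul]
  calc _ ≤ C * 2 ^ (k + 1) * (((2 : ℝ) ^ k)⁻¹) ^ 2 := by gcongr
    _ = _ := by rw [one_div, inv_pow 2 k, pow_succ]; field_simp

/-- The weights of the sieve. -/
def wS (s : Finset (HeightOneSpectrum (RR F))) : ℝ := (-1) ^ s.card * (Ar.nm ((dS s : RR F) : F))⁻¹

theorem nm_dS_pos (s : Finset (HeightOneSpectrum (RR F))) : 0 < Ar.nm ((dS s : RR F) : F) :=
  lt_of_lt_of_le one_pos (one_le_nm (dS_ne s))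

theorem abs_wS (s : Finset (HeightOneSpectrum (RR F))) :
    |wS s| = (Ar.nm ((dS s : RR F) : F))⁻¹ := by
  rw [wS, abs_mul, abs_pow, abs_neg, abs_one, one_pow, one_mul, abs_of_pos (inv_pos.2 (nm_dS_pos s))]

theorem summable_wS : Summable fun s : Finset (HeightOneSpectrum (RR F)) =>
    (Ar.nm ((dS s : RR F) : F))⁻¹ * (Ar.nm ((dS s : RR F) : F))⁻¹ := by
  refine (summable_finsetProd_of_summable_nonneg (fun _ => sq_nonneg _)
    summable_inv_nm_sq).congr fun s => ?_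
  rw [nm_dS, ← sq, ← Finset.prod_inv_distrib, ← Finset.prod_pow]

variable (F) in
/-- `1 / ζ_R(2)`. -/
def cS : ℝ := ∑' s : Finset (HeightOneSpectrum (RR F)), wS s * (Ar.nm ((dS s : RR F) : F))⁻¹

theorem cS_pos : 0 < cS F := by
  let f : HeightOneSpectrum (RR F) → ℝ := fun v => -((Ar.nm ((gen v : RR F) : F))⁻¹) ^ 2
  have h1 : Summable fun v => ‖f v‖ := by
    simpa only [f, norm_neg, Real.norm_of_nonneg (sq_nonneg _)] using summable_inv_nm_sq (F := F)
  have h2 : ∀ v, 0 < 1 + f v := fun v => by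
    have h3 := two_le_nm (prime_gen v)
    have h4 : (Ar.nm ((gen v : RR F) : F))⁻¹ ≤ 2⁻¹ := by gcongr
    have h5 : 0 ≤ (Ar.nm ((gen v : RR F) : F))⁻¹ := by positivity
    simp only [f]
    nlinarith
  have e : cS F = ∏' v, (1 + f v) := by
    rw [tprod_one_add (summable_finsetProd_of_summable_norm h1), cS]
    refine tsum_congr fun s => ?_
    rw [wS, Finset.prod_neg, mul_assoc, nm_dS, ← sq, ← Finset.prod_inv_distrib, ← Finset.prod_pow]
  rw [e]
  exact lt_of_le_of_ne (tprod_nonneg fun v => (h2 v).le)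
    (tprod_one_add_ne_zero_of_summable (fun v => (h2 v).ne') h1).symm

end Crest.Agent.T27.Lam98
end
end

-- ▼ part T27/LamD_98
section

/-!
# Row 27, theta module B3 (part D): the density of the constant term (`LamStmt`)
-/

set_option autoImplicit false
set_option linter.unusedSectionVars false

noncomputable section

namespace Crest.Agent.T27.Lam98

open Filter Topology NumberField TH IsDedekindDomain

variable {F : Type} [Field F] [NumberField F] [Emb F]

theorem per_zero : Per (fun _ : F => (0 : ℂ)) :=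
  ⟨1, one_ne_zero, fun _ _ _ => rfl, fun _ h => absurd rfl h⟩

theorem mean_zero (hM : MeanStmt F) : mean (fun _ : F => (0 : ℂ)) = 0 := by
  simpa using (hM.smul 0 _ per_zero).2

theorem mean_sum (hM : MeanStmt F) {ι : Type} (s : Finset ι) (φ : ι → F → ℂ)
    (h : ∀ i ∈ s, Per (φ i)) :
    Per (fun x => ∑ i ∈ s, φ i x) ∧ mean (fun x => ∑ i ∈ s, φ i x) = ∑ i ∈ s, mean (φ i) := by
  classical
  induction s using Finset.induction_on with
  | empty => exact ⟨per_zero, by simpa using mean_zero hM⟩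
  | insert i s hi ih =>
    obtain ⟨h1, h2⟩ := ih fun j hj => h j (Finset.mem_insert_of_mem hj)
    simp only [Finset.sum_insert hi]
    have h3 := hM.add _ _ (h i (Finset.mem_insert_self _ _)) h1
    rw [h2] at h3
    exact h3

theorem eF_zero : eF (0 : F) = 1 := by simp [eF, eV, TH.em]

variable [Ar F]

/-- Restriction to a residue class of `R`. -/
def cosI (m b : F) (φ : F → ℂ) : F → ℂ := {x | (x - b) / m ∈ (Ar.R : Subring F)}.indicator φ

theorem div_mem_iff {c : RR F} (hc : c ≠ 0) (x : RR F) :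
    (x : F) / c ∈ (Ar.R : Subring F) ↔ c ∣ x := by
  have hc0 : (c : F) ≠ 0 := fun e => hc (Subtype.ext e)
  refine ⟨fun h => ⟨⟨_, h⟩, Subtype.ext ?_⟩, ?_⟩
  · change (x : F) = c * (x / c)
    field_simp
  · rintro ⟨y, rfl⟩
    rw [Subring.coe_mul, mul_div_cancel_left₀ _ hc0]
    exact y.2

theorem mem_of_div_mem {c : RR F} (hc : c ≠ 0) {x : F} (h : x / c ∈ (Ar.R : Subring F)) :
    x ∈ (Ar.R : Subring F) := by
  have hc0 : (c : F) ≠ 0 := fun e => hc (Subtype.ext e)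
  have := mul_mem c.2 h
  rwa [mul_div_cancel₀ _ hc0] at this

open Classical in
theorem cosI_mem {c : RR F} (hc : c ≠ 0) (b x : RR F) (φ : F → ℂ) :
    cosI (c : F) b φ x = if c ∣ x - b then φ x else 0 := by
  have h : (x : F) ∈ {x : F | (x - b) / c ∈ (Ar.R : Subring F)} ↔ c ∣ x - b := div_mem_iff hc (x - b)
  split_ifs with h1
  · exact Set.indicator_of_mem (h.2 h1) _
  · exact Set.indicator_of_notMem (fun h2 => h1 (h.1 h2)) _

theorem cosI_notMem {c : RR F} (hc : c ≠ 0) (b : RR F) {x : F} (hx : x ∉ (Ar.R : Subring F))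
    (φ : F → ℂ) : cosI (c : F) b φ x = 0 := by
  refine Set.indicator_of_notMem (fun h2 => hx ?_) _
  have h3 := add_mem (mem_of_div_mem hc h2) b.2
  rwa [sub_add_cancel] at h3

theorem mean_cosI (hI : IntStmt F) {φ : F → ℂ} {j : ℕ} (hφ : SB j φ) {c : RR F} (hc : c ≠ 0)
    (b : RR F) : Per (cosI (c : F) b φ) ∧
      mean (cosI (c : F) b φ) = ((Ar.nm (c : F))⁻¹ : ℝ) * intS φ :=
  hI.coset φ j c b hφ (fun e => hc (Subtype.ext e)) c.2 b.2

/-- Independence of the `S`-adic and of the residue conditions. -/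
theorem indep (hM : MeanStmt F) (hI : IntStmt F) {φ : F → ℂ} {j : ℕ} (hφ : SB j φ) {c : RR F}
    (hc : c ≠ 0) (h : RR F ⧸ Ideal.span {c} → ℂ) (ψ : F → ℂ)
    (h0 : ∀ x, x ∉ (Ar.R : Subring F) → ψ x = 0)
    (h1 : ∀ x : RR F, ψ x = φ x * h (Ideal.Quotient.mk _ x)) :
    mean ψ = ((Ar.nm (c : F))⁻¹ : ℝ) * intS φ * ∑ᶠ q, h q := by
  classical
  have := Ar.fin_quot c hc
  have := Fintype.ofFinite (RR F ⧸ Ideal.span {c})
  have e : ψ = fun x => ∑ q, h q * cosI (c : F) ((q.out : RR F) : F) φ x := by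
    funext x
    by_cases hx : x ∈ (Ar.R : Subring F)
    · lift x to RR F using hx
      rw [Finset.sum_eq_single (Ideal.Quotient.mk _ x)]
      · rw [h1, cosI_mem hc, if_pos, mul_comm]
        rw [← Ideal.mem_span_singleton, ← Ideal.Quotient.eq]
        exact (Quotient.out_eq _).symm
      · intro q _ hq
        rw [cosI_mem hc, if_neg, mul_zero]
        rw [← Ideal.mem_span_singleton, ← Ideal.Quotient.eq]
        exact fun h2 => hq ((Quotient.out_eq q).symm.trans h2.symm)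
      · exact fun h => absurd (Finset.mem_univ _) h
    · rw [h0 x hx]
      refine (Finset.sum_eq_zero fun q _ => ?_).symm
      rw [cosI_notMem hc _ hx, mul_zero]
  have hq := fun q : RR F ⧸ Ideal.span {c} => mean_cosI hI hφ hc q.out
  rw [e, (mean_sum hM _ _ fun q _ => (hM.smul (h q) _ (hq q).1).1).2, finsum_eq_sum_of_fintype,
    Finset.mul_sum]
  refine Finset.sum_congr rfl fun q _ => ?_
  rw [mul_comm, ← (hq q).2]
  exact (hM.smul (h q) _ (hq q).1).2

theorem eq_one_of_sq_cube {z : ℂ} (h2 : z * z = z) (h3 : z ^ 3 = 1) : z = 1 := by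
  have hz : z ≠ 0 := by rintro rfl; simp at h3
  exact mul_left_cancel₀ hz (by rw [h2, mul_one])

theorem sy_one {y : RR F} (hy : y ≠ 0) : Ar.sy (1 : F) y = 1 := by
  have hy0 : (y : F) ≠ 0 := fun e => hy (Subtype.ext e)
  refine eq_one_of_sq_cube ?_ (Ar.sy_cube 1 y hy isCoprime_one_left)
  rw [← Ar.sy_mul_left (1 : F) (one_mem _) 1 (one_mem _) y y.2 hy0, one_mul]

theorem sy_pow (x : RR F) {y : RR F} (hy : y ≠ 0) (k : ℕ) :
    Ar.sy (x : F) ((y : F) ^ k) = Ar.sy (x : F) y ^ k := by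
  have hy0 : (y : F) ≠ 0 := fun e => hy (Subtype.ext e)
  induction k with
  | zero =>
    rw [pow_zero, pow_zero]
    exact Ar.sy_unit _ x.2 1 (one_mem _) one_ne_zero (by simp)
  | succ k ih =>
    rw [pow_succ, Ar.sy_mul_right _ x.2 _ (pow_mem y.2 _) _ y.2 (pow_ne_zero _ hy0) hy0, ih,
      pow_succ]

theorem sy_congr' {c : RR F} (hc : c ≠ 0) {x y : RR F} (h : c ∣ x - y) :
    Ar.sy (x : F) c = Ar.sy (y : F) c := by
  obtain ⟨t, ht⟩ := h
  have : (x : F) = y + c * t := by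
    rw [sub_eq_iff_eq_add'.1 ht]; rfl
  rw [this]
  exact Ar.sy_congr _ y.2 _ c.2 _ t.2 fun e => hc (Subtype.ext e)

theorem sy_out {c : RR F} (hc : c ≠ 0) (x : RR F) :
    Ar.sy (((Ideal.Quotient.mk (Ideal.span {c}) x).out : RR F) : F) c = Ar.sy (x : F) c :=
  sy_congr' hc (Ideal.mem_span_singleton.1 (Ideal.Quotient.eq.1 (Quotient.out_eq _)))

/-- The complete character sum vanishes unless the modulus is a cube up to a unit. -/
theorem sum_sy_eq_zero {p y : RR F} {k : ℕ} (hp : Prime p) (hk : ¬ 3 ∣ k) (hy : ¬ p ∣ y) :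
    ∑ᶠ q : RR F ⧸ Ideal.span {p ^ k * y}, Ar.sy ((q.out : RR F) : F) (p ^ k * y : RR F) = 0 := by
  have hy0 : y ≠ 0 := by rintro rfl; exact hy (dvd_zero _)
  have hc : p ^ k * y ≠ 0 := mul_ne_zero (pow_ne_zero _ hp.ne_zero) hy0
  obtain ⟨x0, hx0, hx1⟩ := Ar.sy_nontriv p hp
  obtain ⟨a, b, hab⟩ : IsCoprime p y := hp.irreducible.coprime_iff_not_dvd.2 hy
  set u : RR F := x0 * (b * y) + a * p with hu
  have h1 : p ∣ u - x0 := ⟨a - x0 * a, by linear_combination x0 * hab⟩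
  have h2 : y ∣ u - 1 := ⟨x0 * b - b, by linear_combination hab⟩
  have h3 : IsCoprime u (p ^ k * y) := by
    refine IsCoprime.mul_right (IsCoprime.pow_right ?_) ?_
    · obtain ⟨t, ht⟩ := h1
      rw [sub_eq_iff_eq_add'.1 ht]
      exact hx0.add_mul_left_left t
    · obtain ⟨t, ht⟩ := h2
      rw [sub_eq_iff_eq_add'.1 ht]
      exact isCoprime_one_left.add_mul_left_left t
  have h4 : Ar.sy (u : F) (p ^ k * y : RR F) ≠ 1 := by
    rw [Subring.coe_mul, Subring.coe_pow, Ar.sy_mul_right _ u.2 _ (pow_mem p.2 _) _ y.2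
      (pow_ne_zero _ fun e => hp.ne_zero (Subtype.ext e)) (fun e => hy0 (Subtype.ext e)),
      sy_pow u hp.ne_zero, sy_congr' hp.ne_zero h1, sy_congr' hy0 h2, Subring.coe_one,
      sy_one hy0, mul_one]
    intro h
    have h5 := Ar.sy_cube x0 p hp.ne_zero hx0
    have h6 := pow_gcd_eq_one.2 ⟨h, h5⟩
    rw [Nat.Coprime.gcd_eq_one ((Nat.prime_three.coprime_iff_not_dvd.2 hk).symm), pow_one] at h6
    exact hx1 h6
  obtain ⟨s, t, hst⟩ := h3
  have hU : IsUnit (Ideal.Quotient.mk (Ideal.span {p ^ k * y}) u) := by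
    refine IsUnit.of_mul_eq_one (Ideal.Quotient.mk _ s) ?_
    rw [← map_mul, ← map_one (Ideal.Quotient.mk (Ideal.span {p ^ k * y})), Ideal.Quotient.eq,
      Ideal.mem_span_singleton]
    exact ⟨-t, by linear_combination hst⟩
  set S := ∑ᶠ q : RR F ⧸ Ideal.span {p ^ k * y},
    Ar.sy ((q.out : RR F) : F) (p ^ k * y : RR F) with hS
  have h7 : S = Ar.sy (u : F) (p ^ k * y : RR F) * S := by
    conv_lhs => rw [hS, ← finsum_comp_equiv hU.unit.mulLeft]
    rw [hS, mul_finsum]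
    refine finsum_congr fun q => ?_
    obtain ⟨x, rfl⟩ := Ideal.Quotient.mk_surjective q
    have e : hU.unit.mulLeft (Ideal.Quotient.mk _ x) = Ideal.Quotient.mk _ (u * x) := rfl
    rw [e, sy_out hc, sy_out hc, Subring.coe_mul _ u,
      Ar.sy_mul_left _ u.2 _ x.2 _ (p ^ k * y).2 fun e => hc (Subtype.ext e)]
  by_contra h8
  exact h4 (mul_right_cancel₀ h8 (by rw [← h7, one_mul]))

theorem cc_self {x : F} (hx : x ≠ 0) : Ar.cc x x = 1 := by
  have h2 := Ar.cc_swap x x hx hx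
  have h3 := Ar.cc_cube x x hx hx
  rw [pow_succ, sq, h2, one_mul] at h3
  exact h3

theorem fE_eq (f : F × F → ℂ) {η x : F} (hη : η ≠ 0) (hx : x ≠ 0) (d : F) :
    fE f η x d = f (η * x ^ 3, d) := by
  have h : η * x ^ 3 ≠ 0 := mul_ne_zero hη (pow_ne_zero _ hx)
  have h3 := Ar.cc_cube x η hx hη
  have h4 : Ar.cc (x ^ 3) η = 1 := by
    rw [pow_succ, sq, Ar.cc_mul_left _ _ _ (mul_ne_zero hx hx) hx hη,
      Ar.cc_mul_left _ _ _ hx hx hη, ← h3]
    ring
  rw [fE, XK, if_neg h, Ar.cc_mul_left _ _ _ hη (pow_ne_zero _ hx) hη, cc_self hη, h4]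
  simp

theorem xiF_of_notMem (f : F × F → ℂ) (c : F) {d : F} (hd : d ∉ (Ar.R : Subring F)) :
    xiF f (c, d) = 0 := if_neg fun h => hd h.2.1

theorem xiF_of_mem (f : F × F → ℂ) {c : RR F} (hc : c ≠ 0) (d : RR F) :
    xiF f (c, d) = f (c, d) * Ar.sy (d : F) c := by
  have hc0 : (c : F) ≠ 0 := fun e => hc (Subtype.ext e)
  unfold xiF
  split_ifs with h
  · rw [syR, if_neg hc0]
  · rw [Ar.sy_zero d c hc, mul_zero]
    rintro ⟨a, b, hab⟩
    refine h ⟨c.2, d.2, b, b.2, a, a.2, ?_⟩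
    rw [add_comm]
    exact congrArg Subtype.val hab

theorem mf_eq (f : F × F → ℂ) {c : F} (hc : c ≠ 0) :
    mf (xiF f) 0 c = mean fun d => xiF f (c, d) := by
  simp only [mf, if_neg hc, zero_mul, zero_div, eF_zero, mul_one]

/-- Only the cubes contribute. -/
theorem exists_of_mf_ne (hM : MeanStmt F) (hI : IntStmt F) {f : F × F → ℂ} (hf : Test f) {c : F}
    (h : mf (xiF f) 0 c ≠ 0) : ∃ η ∈ (Ar.E : Finset F), ∃ n ∈ (Ar.R : Subring F), n ≠ 0 ∧
      c = η * n ^ 3 := by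
  have hc0 : c ≠ 0 := by
    rintro rfl
    exact h (if_pos rfl)
  rw [mf_eq f hc0] at h
  have hcR : c ∈ (Ar.R : Subring F) := by
    by_contra hc
    refine h ?_
    rw [← mean_zero hM]
    congr 1
    funext d
    exact if_neg fun h => hc h.1
  lift c to RR F using hcR
  have hc : c ≠ 0 := fun e => hc0 (congrArg Subtype.val e)
  rcases cube_or hc with ⟨u, n, hu, hn, e⟩ | ⟨p, k, y, hp, hk, hy, e⟩
  · obtain ⟨u', hu'⟩ := hu.exists_right_inv
    have h1 : (u : F) * u' = 1 := congrArg Subtype.val hu'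
    obtain ⟨η, ⟨hη, v, hv0, hv, -, e2⟩, -⟩ := Ar.E_rep (u : F) (left_ne_zero_of_mul_eq_one h1) u.2
      (by rw [← eq_inv_of_mul_eq_one_right h1]; exact u'.2)
    refine ⟨η, hη, v * n, mul_mem hv n.2, mul_ne_zero hv0 fun e => hn (Subtype.ext e), ?_⟩
    rw [e, Subring.coe_mul, Subring.coe_pow, e2]
    ring
  · exfalso
    obtain ⟨J, hJ, -⟩ := hI.sb f hf c hc0
    refine h ?_
    rw [indep hM hI (hJ 1) hc (fun q => Ar.sy ((q.out : RR F) : F) c) _
      (fun x hx => xiF_of_notMem f c hx) fun x => ?_]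
    · subst e
      rw [sum_sy_eq_zero hp hk hy, mul_zero]
    · rw [xiF_of_mem f hc, sy_out hc, fE_eq f hc0 one_ne_zero, one_pow, mul_one]

open Classical in
/-- The value at a cube. -/
theorem mf_cube (hM : MeanStmt F) (hI : IntStmt F) {f : F × F → ℂ} {η : F}
    (hη : η ∈ (Ar.E : Finset F)) {J : ℕ} (hJ : ∀ x, SB J (fE f η x)) {n : RR F} (hn : n ≠ 0) :
    mf (xiF f) 0 (η * n ^ 3) =
      ∑ s ∈ (finite_gen hn).toFinset.powerset, (wS s : ℂ) * intS (fE f η n) := by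
  obtain ⟨h0, h1, h2⟩ := Ar.E_unit η hη
  have hn0 : (n : F) ≠ 0 := fun e => hn (Subtype.ext e)
  have hc0 : η * (n : F) ^ 3 ≠ 0 := mul_ne_zero h0 (pow_ne_zero _ hn0)
  have hq := fun s : Finset (HeightOneSpectrum (RR F)) => mean_cosI hI (hJ n) (dS_ne s) 0
  have e : (fun d => xiF f (η * n ^ 3, d)) = fun d => ∑ s ∈ (finite_gen hn).toFinset.powerset,
      (-1 : ℂ) ^ s.card * cosI ((dS s : RR F) : F) (0 : RR F) (fE f η (n : F)) d := by
    funext d
    by_cases hd : d ∈ (Ar.R : Subring F)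
    · lift d to RR F using hd
      have e1 : xiF f (η * n ^ 3, d) = f (η * n ^ 3, d) * Ar.sy (d : F) (η * n ^ 3) :=
        xiF_of_mem f (c := ⟨η, h1⟩ * n ^ 3) (fun e => hc0 (congrArg Subtype.val e)) d
      have e2 : Ar.sy (d : F) (η * (n : F) ^ 3) = if IsCoprime d n then 1 else 0 := by
        rw [Ar.sy_mul_right _ d.2 _ h1 _ (pow_mem n.2 _) h0 (pow_ne_zero _ hn0),
          Ar.sy_unit _ d.2 _ h1 h0 h2, one_mul, sy_pow d hn]
        split_ifs with h
        · exact Ar.sy_cube d n hn h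
        · rw [Ar.sy_zero d n hn h]; simp
      rw [e1, e2, ind_coprime hn, Finset.mul_sum]
      refine Finset.sum_congr rfl fun s _ => ?_
      rw [cosI_mem (dS_ne s), sub_zero, fE_eq f h0 hn0]
      split_ifs <;> simp [mul_comm]
    · rw [xiF_of_notMem f _ hd]
      refine (Finset.sum_eq_zero fun s _ => ?_).symm
      rw [cosI_notMem (dS_ne s) _ hd, mul_zero]
  rw [mf_eq f hc0, e, (mean_sum hM _ _ fun s _ => (hM.smul _ _ (hq s).1).1).2]
  refine Finset.sum_congr rfl fun s _ => ?_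
  refine (hM.smul _ _ (hq s).1).2.trans ?_
  rw [(hq s).2, wS]
  push_cast
  ring

theorem Dom.tsum {ι : Type} {ψ : ι → F → ℂ} {b : ι → ℝ} (hb : Summable b)
    (h : ∀ i, Dom (ψ i) (b i)) : Dom (fun x => ∑' i, ψ i x) (∑' i, b i) := by
  intro Z hZ
  have hP := PZ_pos hZ
  have hnn : ∀ i x, 0 ≤ ‖ψ i x‖ * ex6 Z x := fun i x => mul_nonneg (norm_nonneg _) (ex6_pos _ _).le
  have hle : ∀ i, ∑' x, ‖ψ i x‖ * ex6 Z x ≤ b i / PZ Z := fun i => by
    rw [le_div_iff₀ hP, mul_comm]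
    exact (h i Z hZ).2
  have hs1 : Summable fun i => ∑' x, ‖ψ i x‖ * ex6 Z x :=
    (hb.div_const (PZ Z)).of_nonneg_of_le (fun i => tsum_nonneg (hnn i)) hle
  have hs : Summable fun p : ι × F => ‖ψ p.1 p.2‖ * ex6 Z p.2 :=
    (summable_prod_of_nonneg fun p => hnn _ _).2 ⟨fun i => (h i Z hZ).1, hs1⟩
  have hs2 : Summable fun x => ∑' i, ‖ψ i x‖ * ex6 Z x := hs.prod_symm.prod
  have hx : ∀ x, ‖∑' i, ψ i x‖ * ex6 Z x ≤ ∑' i, ‖ψ i x‖ * ex6 Z x := fun x => by
    have h1 : Summable fun i => ‖ψ i x‖ * ex6 Z x := hs.prod_symm.prod_factor x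
    rw [tsum_mul_right]
    exact mul_le_mul_of_nonneg_right (norm_tsum_le_tsum_norm
      ((summable_mul_right_iff (ex6_pos Z x).ne').1 h1)) (ex6_pos _ _).le
  have hs3 : Summable fun x => ‖∑' i, ψ i x‖ * ex6 Z x :=
    hs2.of_nonneg_of_le (fun x => mul_nonneg (norm_nonneg _) (ex6_pos _ _).le) hx
  refine ⟨hs3, ?_⟩
  have h2 := hs3.tsum_le_tsum hx hs2
  rw [Summable.tsum_comm (f := fun i x => ‖ψ i x‖ * ex6 Z x) hs] at h2
  have h3 := h2.trans (hs1.tsum_le_tsum hle (hb.div_const _))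
  rwa [tsum_div_const, le_div_iff₀ hP, mul_comm] at h3

theorem TT_const_mul (a : ℂ) (ψ : F → ℂ) (Z : Pl F → ℝ) :
    TT (fun x => a * ψ x) Z = a * TT ψ Z := by
  simp only [TT, mul_assoc, tsum_mul_left]
  ring

/-- The coefficients along the cubes of the class `η`. -/
def aE (H : F → ℂ) (η : F) : F → ℂ := cut (indR fun x => H (η * x ^ 3))

theorem aE_mem (H : F → ℂ) (η : F) {x : F} (hx : x ∈ (Ar.R : Subring F)) (h0 : x ≠ 0) :
    aE H η x = H (η * x ^ 3) := by
  rw [aE, cut, if_neg h0, indR, Set.indicator_of_mem hx]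

theorem aE_ne {H : F → ℂ} {η x : F} (h : aE H η x ≠ 0) : x ∈ (Ar.R : Subring F) ∧ x ≠ 0 :=
  ⟨Set.mem_of_indicator_ne_zero (cut_ne h).2, (cut_ne h).1⟩

theorem eta_lim (hM : MeanStmt F) (hI : IntStmt F) {κ : ℝ} (hκ : ∀ ψ : F → ℂ, Per ψ →
      ∀ η : Pl F → ℝ, (∀ w, 0 < η w) →
      Tendsto (fun t : ℝ => TT (cut ψ) fun w => t * η w) (𝓝[>] 0) (𝓝 (κ * mean ψ)))
    {f : F × F → ℂ} (hf : Test f) {η : F} (hη : η ∈ (Ar.E : Finset F)) :
    (∃ b, Dom (aE (mf (xiF f) 0) η) b) ∧ ∀ Z : Pl F → ℝ, (∀ w, 0 < Z w) →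
      Tendsto (fun t : ℝ => TT (aE (mf (xiF f) 0) η) fun w => t * Z w) (𝓝[>] 0)
        (𝓝 (κ * cS F * intS fun x => intS fun d => fE f η x d)) := by
  classical
  obtain ⟨h0, -, -⟩ := Ar.E_unit η hη
  obtain ⟨J, hJ1, hJ2⟩ := hI.sb f hf η h0
  obtain ⟨j, -, ⟨B, hB⟩, -, -⟩ := hf
  obtain ⟨C, hC, HD⟩ := exists_dom (F := F)
  set G : F → ℂ := fun x => intS fun d => fE f η x d with hG
  have hGS : SB J G := by
    refine ⟨fun x y hy => ?_, fun x hx => ?_⟩
    · simp only [hG]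
      congr 1
      funext d
      exact (hJ2 d).1 x y hy
    · by_contra h
      refine hx ?_
      have e : indR (fun d => fE f η x d) = fun _ => 0 := by
        funext d
        exact Set.indicator_apply_eq_zero.2 fun _ => by_contra fun h1 => h ((hJ2 d).2 x h1)
      simp only [hG]
      rw [intS, e, mean_zero hM]
  have hB0 : 0 ≤ B := (norm_nonneg _).trans (hB 0)
  set B' : ℝ := B * ((Ar.N F ^ J : ℕ) : ℝ) ^ Module.finrank ℚ F with hB'
  have hB'0 : 0 ≤ B' := by positivity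
  have hGB : ∀ x, x ≠ 0 → ‖G x‖ ≤ B' := fun x hx => by
    refine hM.norm_le _ _ _ (pow_ne_zero _ (Nat.cast_ne_zero.1 (N_ne (F := F)))) (fun d => ?_)
      fun d hd => ?_
    · refine (norm_indicator_le_norm_self _ _).trans ?_
      rw [fE_eq f h0 hx]
      exact hB _
    · rw [Nat.cast_pow]
      exact Ar.int_of _ (mul_mem (pow_mem N_mem_R _) (Set.mem_of_indicator_ne_zero hd))
        ((hJ1 x).2 d fun h => hd (Set.indicator_apply_eq_zero.2 fun _ => h))
  let ψ : Finset (HeightOneSpectrum (RR F)) → F → ℂ := fun s x =>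
    (wS s : ℂ) * cut (cosI ((dS s : RR F) : F) (0 : RR F) G) x
  have hN : 0 < nN ((Ar.N F : F) ^ J) := nN_pos (pow_ne_zero _ N_ne)
  have hdom : ∀ s, Dom (ψ s) (B' * C * nN ((Ar.N F : F) ^ J) *
      ((Ar.nm ((dS s : RR F) : F))⁻¹ * (Ar.nm ((dS s : RR F) : F))⁻¹)) := fun s => by
    have h1 := nm_dS_pos s
    have h2 := HD {x | x ≠ 0 ∧ x / (dS s : RR F) ∈ (Ar.R : Subring F) ∧
      (Ar.N F : F) ^ J * x ∈ (Ar.L : Subring F)} _ (div_pos h1 hN)
      (fun x hx => nN_ge (dS_ne s) J hx.1 hx.2.1 hx.2.2)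
      (fun x hx y hy hxy => nN_ge (dS_ne s) J (sub_ne_zero.2 hxy)
        (by rw [sub_div]; exact sub_mem hx.2.1 hy.2.1)
        (by rw [mul_sub]; exact sub_mem hx.2.2 hy.2.2)) (ψ s)
      ((Ar.nm ((dS s : RR F) : F))⁻¹ * B') (fun x => by
        simp only [ψ]
        rw [norm_mul, Complex.norm_real, Real.norm_eq_abs, abs_wS]
        refine mul_le_mul_of_nonneg_left ?_ (inv_pos.2 h1).le
        unfold cut
        split_ifs with hx
        · simpa using hB'0
        · exact (norm_indicator_le_norm_self _ _).trans (hGB x hx))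
      (fun x hx => by
        obtain ⟨h3, h4⟩ := cut_ne (right_ne_zero_of_mul hx)
        refine ⟨h3, by simpa using Set.mem_of_indicator_ne_zero h4, hGS.2 x fun h => h4 ?_⟩
        exact Set.indicator_apply_eq_zero.2 fun _ => h)
    convert h2 using 1
    field_simp
  have hsum := (summable_wS (F := F)).mul_left (B' * C * nN ((Ar.N F : F) ^ J))
  have e : aE (mf (xiF f) 0) η = fun x => ∑' s, ψ s x := by
    funext x
    by_cases hx0 : x = 0
    · simp [ψ, aE, cut, hx0]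
    by_cases hx : x ∈ (Ar.R : Subring F)
    · rw [aE_mem _ _ hx hx0]
      lift x to RR F using hx
      have hn : x ≠ 0 := fun e => hx0 (congrArg Subtype.val e)
      have hmem : ∀ s, s ∈ (finite_gen hn).toFinset.powerset ↔ dS s ∣ x := fun s => by
        rw [dS_dvd_iff, Finset.mem_powerset]
        exact ⟨fun h v hv => (finite_gen hn).mem_toFinset.1 (h hv),
          fun h v hv => (finite_gen hn).mem_toFinset.2 (h v hv)⟩
      rw [mf_cube hM hI hη hJ1 hn, tsum_eq_sum (s := (finite_gen hn).toFinset.powerset)]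
      · refine Finset.sum_congr rfl fun s hs => ?_
        simp only [ψ]
        rw [cut, if_neg hx0, cosI_mem (dS_ne s), sub_zero, if_pos ((hmem s).1 hs)]
      · intro s hs
        simp only [ψ]
        rw [cut, if_neg hx0, cosI_mem (dS_ne s), sub_zero, if_neg fun h => hs ((hmem s).2 h),
          mul_zero]
    · simp only [ψ, cut, if_neg hx0, cosI_notMem (dS_ne _) _ hx, mul_zero, tsum_zero]
      exact by_contra fun h => hx (aE_ne h).1
  rw [e]
  refine ⟨⟨_, Dom.tsum hsum hdom⟩, fun Z hZ => ?_⟩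
  have h1 := tendsto_TT_tsum hsum hdom hZ
    (l := fun s => κ * ((wS s * (Ar.nm ((dS s : RR F) : F))⁻¹ : ℝ) : ℂ) * intS G) fun s => by
      simp only [ψ, TT_const_mul]
      have h2 := (hκ _ (mean_cosI hI hGS (dS_ne s) 0).1 Z hZ).const_mul (wS s : ℂ)
      rw [(mean_cosI hI hGS (dS_ne s) 0).2] at h2
      convert h2 using 2
      push_cast
      ring
  rwa [tsum_mul_right, tsum_mul_left, ← Complex.ofReal_tsum] at h1

variable (F) in
/-- The number of cube roots of unity. -/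
def m3 : ℕ := (Polynomial.nthRootsFinset 3 (1 : F)).card

theorem m3_pos : 0 < m3 F :=
  Finset.card_pos.2 ⟨1, (Polynomial.mem_nthRootsFinset (by norm_num) _).2 (one_pow _)⟩

/-- The cubes of the class `η`. -/
def DE (η : F) : Set F := {c | ∃ n ∈ (Ar.R : Subring F), n ≠ 0 ∧ c = η * n ^ 3}

theorem hasSum_fiber {H : F → ℂ} {η : F} (hη : η ≠ 0) {S : ℂ} (h : HasSum (aE H η) S) :
    HasSum (fun c => (m3 F : ℂ) * (DE η).indicator H c) S := by
  classical
  have h' : HasSum (fun c : F => ∑' x : ((fun x : F => η * x ^ 3) ⁻¹' {c} : Set F), aE H η x) S :=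
    h.tsum_fiberwise (fun x => η * x ^ 3)
  refine (congrArg (HasSum · S) (funext fun c => ?_)).mpr h'
  rw [tsum_subtype]
  by_cases hc : c ∈ DE η
  · rw [Set.indicator_of_mem hc]
    obtain ⟨n, hn, hn0, rfl⟩ := hc
    rw [tsum_eq_sum (s := (Polynomial.nthRootsFinset 3 (1 : F)).image (· * n)),
      Finset.sum_image fun a _ b _ h => mul_right_cancel₀ hn0 h, m3, ← nsmul_eq_mul,
      ← Finset.sum_const]
    · refine Finset.sum_congr rfl fun ζ hζ => ?_
      have h1 : ζ ^ 3 = 1 := (Polynomial.mem_nthRootsFinset (by norm_num) _).1 hζ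
      have h2 : η * (ζ * n) ^ 3 = η * n ^ 3 := by rw [mul_pow, h1, one_mul]
      have h3 : ζ ≠ 0 := by rintro rfl; simp at h1
      have h4 : IsIntegral ℤ ζ := IsIntegral.of_pow (by norm_num : 0 < 3) (h1 ▸ isIntegral_one)
      rw [Set.indicator_of_mem (by exact h2), aE_mem _ _ (mul_mem (mem_R_of_int h4) hn)
        (mul_ne_zero h3 hn0), h2]
    · intro x hx
      refine Set.indicator_of_notMem (fun h1 => hx ?_) _
      have h2 : x ^ 3 = n ^ 3 := mul_left_cancel₀ hη h1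
      refine Finset.mem_image.2 ⟨x / n, (Polynomial.mem_nthRootsFinset (by norm_num) _).2 ?_,
        div_mul_cancel₀ _ hn0⟩
      rw [div_pow, h2, div_self (pow_ne_zero _ hn0)]
  · rw [Set.indicator_of_notMem hc, mul_zero, eq_comm]
    convert tsum_zero with x
    refine Set.indicator_apply_eq_zero.2 fun h1 => by_contra fun h2 => hc ?_
    exact ⟨x, (aE_ne h2).1, (aE_ne h2).2, Eq.symm h1⟩

theorem eq_of_mem_DE {η η' c : F} (hη : η ∈ (Ar.E : Finset F)) (hη' : η' ∈ (Ar.E : Finset F))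
    (h : c ∈ DE η) (h' : c ∈ DE η') : η = η' := by
  obtain ⟨n, hn, hn0, e⟩ := h
  obtain ⟨n', hn', hn0', e'⟩ := h'
  have key : ∀ {a b x y : F}, a ∈ (Ar.E : Finset F) → b ∈ (Ar.E : Finset F) →
      x ∈ (Ar.R : Subring F) → y ∈ (Ar.R : Subring F) → y ≠ 0 → a * x ^ 3 = b * y ^ 3 →
      x / y ∈ (Ar.R : Subring F) := by
    intro a b x y ha hb hx hy hy0 h
    obtain ⟨a0, -, a2⟩ := Ar.E_unit a ha
    obtain ⟨-, b1, -⟩ := Ar.E_unit b hb
    lift x to RR F using hx
    lift y to RR F using hy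
    rw [div_mem_iff fun e => hy0 (congrArg Subtype.val e),
      ← IsIntegrallyClosed.pow_dvd_pow_iff (n := 3) (by norm_num)]
    refine ⟨⟨a⁻¹ * b, mul_mem a2 b1⟩, Subtype.ext ?_⟩
    change (x : F) ^ 3 = (y : F) ^ 3 * (a⁻¹ * b)
    field_simp
    linear_combination h
  obtain ⟨b0, b1, b2⟩ := Ar.E_unit η' hη'
  refine (Ar.E_rep η' b0 b1 b2).unique ⟨hη, n / n', div_ne_zero hn0 hn0',
    key hη hη' hn hn' hn0' (e.symm.trans e'), ?_, ?_⟩
    ⟨hη', 1, one_ne_zero, one_mem _, by simp, by simp⟩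
  · rw [inv_div]
    exact key hη' hη hn' hn hn0 (e'.symm.trans e)
  · field_simp
    linear_combination e - e'

/-- The shape attached to `v` and `η`. -/
def ZE (v : Pl F → ℝ) (η : F) : Pl F → ℝ := fun j => Real.exp (v j) * j η ^ 2

theorem ZE_pos (v : Pl F → ℝ) {η : F} (hη : η ≠ 0) (j : Pl F) : 0 < ZE v η j :=
  mul_pos (Real.exp_pos _) (pow_pos (j.pos_iff.2 hη) _)

theorem k0_eq (v : Pl F → ℝ) {η x : F} (hη : η ≠ 0) (hx : x ≠ 0) :
    k0 (v + lg (η * x ^ 3)) = ex6 (ZE v η) x := by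
  rw [k0, ex6]
  congr 2
  refine Finset.sum_congr rfl fun j _ => ?_
  rw [Pi.add_apply, Real.exp_add, lg, norm_em, Real.exp_log
    (pow_pos (j.pos_iff.2 (mul_ne_zero hη (pow_ne_zero _ hx))) _), map_mul, map_pow, ZE]
  ring

theorem PZ_ZE (v : Pl F → ℝ) {η : F} (hη : η ≠ 0) :
    Real.exp ((∑ j, v j) / 3) = nF η ^ (-(1 / 3) : ℝ) * PZ (ZE v η) := by
  have h1 := nN_pos hη
  have e : ∏ j, ZE v η j = Real.exp (∑ j, v j) * nN η := by
    rw [Real.exp_sum, nN, ← Finset.prod_mul_distrib]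
    rfl
  rw [PZ, e, Real.mul_rpow (Real.exp_pos _).le h1.le, nF_eq_nN, Real.rpow_neg h1.le,
    ← Real.exp_mul, mul_one_div]
  have := (Real.rpow_pos_of_pos h1 (1 / 3 : ℝ)).ne'
  field_simp

theorem Sk_eq {g : F → ℂ} (hg : ∀ c, g c ≠ 0 → ∃ η ∈ (Ar.E : Finset F), c ∈ DE η)
    (hd : ∀ η ∈ (Ar.E : Finset F), ∃ b, Dom (aE g η) b) (v : Pl F → ℝ) :
    Sk g k0 v = (m3 F : ℂ)⁻¹ * ∑ η ∈ (Ar.E : Finset F),
      ((nF η ^ (-(1 / 3) : ℝ) : ℝ) : ℂ) * TT (aE g η) (ZE v η) := by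
  have hm : (m3 F : ℂ) ≠ 0 := Nat.cast_ne_zero.2 m3_pos.ne'
  set H : F → ℂ := fun c => g c * (k0 (v + lg c) : ℂ) with hH
  have h1 : ∀ η ∈ (Ar.E : Finset F), HasSum (fun c => (m3 F : ℂ) * (DE η).indicator H c)
      (∑' x, aE g η x * (ex6 (ZE v η) x : ℂ)) := fun η hη => by
    obtain ⟨h0, -, -⟩ := Ar.E_unit η hη
    obtain ⟨b, hb⟩ := hd η hη
    refine hasSum_fiber h0 ?_
    convert (hb.summable (ZE_pos v h0)).hasSum using 2 with x
    by_cases hx : x ∈ (Ar.R : Subring F) ∧ x ≠ 0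
    · rw [aE_mem _ _ hx.1 hx.2, aE_mem _ _ hx.1 hx.2, ← k0_eq v h0 hx.2]
    · rw [show aE H η x = 0 from by_contra fun h => hx (aE_ne h),
        show aE g η x = 0 from by_contra fun h => hx (aE_ne h), zero_mul]
  have h2 := hasSum_sum h1
  have e : ∀ c, ∑ η ∈ (Ar.E : Finset F), (m3 F : ℂ) * (DE η).indicator H c = m3 F * H c := by
    intro c
    rw [← Finset.mul_sum]
    congr 1
    by_cases hc : g c = 0
    · have : H c = 0 := by simp only [hH, hc, zero_mul]
      rw [this]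
      exact Finset.sum_eq_zero fun η _ => Set.indicator_apply_eq_zero.2 fun _ => this
    · obtain ⟨η, hη, h⟩ := hg c hc
      rw [Finset.sum_eq_single η, Set.indicator_of_mem h]
      · exact fun η' hη' hne => Set.indicator_of_notMem
          (fun h' => hne (eq_of_mem_DE hη' hη h' h)) _
      · exact fun h => absurd hη h
  simp only [e] at h2
  have h3 := h2.tsum_eq
  rw [tsum_mul_left] at h3
  rw [eq_inv_mul_iff_mul_eq₀ hm, Sk, mul_left_comm, h3, Finset.mul_sum]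
  refine Finset.sum_congr rfl fun η hη => ?_
  rw [PZ_ZE v (Ar.E_unit η hη).1, TT]
  push_cast
  ring

end Crest.Agent.T27.Lam98

namespace Crest.Agent.T27.TH

open Filter Topology NumberField Lam98

/-- **Leaf B3**. -/
theorem lam_98 (F : Type) [Field F] [NumberField F] [Emb F] [Ar F] (hM : MeanStmt F)
    (hI : IntStmt F) (hk : 0 < Mo (k0 : (Pl F → ℝ) → ℝ)) : LamStmt F := by
  obtain ⟨κ, hκ, H⟩ := mean_limit hM
  have hm : (0 : ℝ) < m3 F := Nat.cast_pos.2 m3_pos
  refine ⟨κ * cS F / (m3 F * Mo (k0 : (Pl F → ℝ) → ℝ)),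
    div_pos (mul_pos hκ cS_pos) (mul_pos hm hk), fun f hf => ?_⟩
  have h1 := fun η (hη : η ∈ (Ar.E : Finset F)) => eta_lim hM hI H hf hη
  have h2 := Sk_eq (g := mf (xiF f) 0) (fun c hc => exists_of_mf_ne hM hI hf hc)
    fun η hη => (h1 η hη).1
  constructor
  · choose! b hb using fun η hη => (h1 η hη).1
    refine ⟨‖(m3 F : ℂ)⁻¹‖ * ∑ η ∈ (Ar.E : Finset F), ‖((nF η ^ (-(1 / 3) : ℝ) : ℝ) : ℂ)‖ * b η,
      fun v => ?_⟩
    rw [h2, norm_mul]
    refine mul_le_mul_of_nonneg_left ((norm_sum_le _ _).trans (Finset.sum_le_sum fun η hη => ?_))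
      (norm_nonneg _)
    rw [norm_mul]
    exact mul_le_mul_of_nonneg_left ((hb η hη).norm_le (ZE_pos v (Ar.E_unit η hη).1))
      (norm_nonneg _)
  · intro v
    have ht : Tendsto (fun s : ℝ => Real.exp (-s)) atTop (𝓝[>] 0) :=
      tendsto_nhdsWithin_iff.2 ⟨Real.tendsto_exp_neg_atTop_nhds_zero,
        Eventually.of_forall fun s => Real.exp_pos _⟩
    have e : ∀ (s : ℝ) (η : F), ZE (ray v s) η = fun w => Real.exp (-s) * ZE v η w := by
      intro s η
      funext w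
      rw [ZE, ZE, ray, sub_eq_neg_add, Real.exp_add, mul_assoc]
    simp only [h2, e]
    have h3 := (tendsto_finsetSum (Ar.E : Finset F) fun η hη =>
      (((h1 η hη).2 _ (ZE_pos v (Ar.E_unit η hη).1)).comp ht).const_mul
        ((nF η ^ (-(1 / 3) : ℝ) : ℝ) : ℂ)).const_mul (m3 F : ℂ)⁻¹
    refine (congrArg (fun z => Tendsto _ _ (𝓝 z)) ?_).mpr h3
    have hk' : ((Mo (k0 : (Pl F → ℝ) → ℝ) : ℝ) : ℂ) ≠ 0 := by exact_mod_cast hk.ne'
    have e2 : ∑ η ∈ (Ar.E : Finset F), ((nF η ^ (-(1 / 3) : ℝ) : ℝ) : ℂ) *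
        (κ * cS F * intS fun x => intS fun d => fE f η x d) = κ * cS F * LamF f := by
      rw [LamF, Finset.mul_sum]
      exact Finset.sum_congr rfl fun η _ => by ring
    rw [e2]
    push_cast
    field_simp

end Crest.Agent.T27.TH
end
end

-- ▼ part T27/Cusp_78
section

/-!
# Row 27, theta leaf B4 (helper78): constant terms at all cusps
-/

set_option autoImplicit false
set_option linter.unusedSectionVars false

noncomputable section

namespace Crest.Agent.T27.TH.Cusp78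

open scoped ComplexConjugate
open NumberField

variable {F : Type} [Field F] [NumberField F] [Emb F] [Ar F]

omit [Ar F] in
theorem eF_zero : eF (0 : F) = 1 := by simp [eF, eV, em]

omit [Ar F] in
theorem nF_mul (x y : F) : nF (x * y) = nF x * nF y := by
  simp only [nF, em, map_mul, norm_mul, mul_pow, Finset.prod_mul_distrib]

omit [Ar F] in
theorem nF_pos {x : F} (hx : x ≠ 0) : 0 < nF x :=
  Finset.prod_pos fun _ _ => pow_pos (norm_pos_iff.2 ((map_ne_zero _).2 hx)) 2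

omit [Ar F] in
theorem nF_one : nF (1 : F) = 1 := by simp [nF, em]

theorem N_ne : (Ar.N F : F) ≠ 0 := by
  have := Ar.two_le (F := F)
  exact Nat.cast_ne_zero.2 (by omega)

theorem test_zero {f : F × F → ℂ} (h : Test f) : f 0 = 0 := by
  obtain ⟨j, h⟩ := h
  by_contra h0
  obtain ⟨-, -, a, -, b, -, hab⟩ := h.supp 0 h0
  simp only [Prod.fst_zero, Prod.snd_zero, mul_zero, add_zero] at hab
  exact pow_ne_zero j N_ne hab.symm

theorem det_tri {ρ b e : F} (hρ : ρ ≠ 0) (he : e ≠ 0) : (!![ρ, b; 0, e] : Mat F).det ≠ 0 := by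
  rw [Matrix.det_fin_two_of, mul_zero, sub_zero]
  exact mul_ne_zero hρ he

theorem det_gam (α : F) {β : F} (hβ : β ≠ 0) : (gam α β).det = 1 := by
  rw [gam, Matrix.det_fin_two_of]
  field_simp
  ring

section

variable (hO : OpStmt F) (hD : DensStmt F) (hR : RowStmt F) {κ₀ : ℝ}
  (hκ : ∀ f : F × F → ℂ, Test f → WDk (mf (xiF f) 0) k0 ((κ₀ : ℂ) * LamF f))

include hO hD hR hκ in
/-- The density of the constant term at the cusp given by a Hermite decomposition. -/
theorem wdk_tri {f : F × F → ℂ} (h : Test f) {ρ b e : F} {σ : Mat F} (hρ : ρ ≠ 0) (he : e ≠ 0)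
    (hσ : σ.det = 1) (hσR : InR σ) :
    WDk (mf (tr (xiF f) (!![ρ, b; 0, e] * σ)) 0) k0
      ((nF e : ℂ) * (((nF ρ ^ (1 / 3 : ℝ) : ℝ) : ℂ) *
        (syR (σ 1 0, σ 1 1) * ((κ₀ : ℂ) * LamF (rho σ f))))) := by
  have h1 := hO.test_rho f σ hσ h
  have h2 := hO.adm _ h1
  have h3 := hD.smulk (syR (σ 1 0, σ 1 1)) _ _ _ (hκ _ h1)
  have h4 := hD.scalek _ _ _ ρ hρ (fun c hc h0 => hc (by simp [mf, h0])) h3
  have h5 := hD.smulk (nF e : ℂ) _ _ _ h4
  convert h5 using 1
  funext c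
  rw [tr_mul, hO.master f σ hσ hσR, hR.mf_tri _ (hR.adm_smul _ _ h2) ρ b e 0 c hρ he,
    hR.mf_smul _ _ h2]
  simp only [zero_mul, zero_div, neg_zero, eF_zero, mul_one]

include hO hD hR hκ in
theorem good {f : F × F → ℂ} (h : Test f) : Good (xiF f) := by
  refine ⟨hO.adm f h, fun γ => ?_⟩
  obtain ⟨ρ, b, e, σ, hρ, he, hσ, hσR, hγ⟩ := hO.hermite (γ : Mat F) (by
    rw [γ.det_coe]; exact one_ne_zero)
  rw [hγ]
  exact ⟨_, wdk_tri hO hD hR hκ h hρ he hσ hσR⟩

include hO hD hR hκ in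
theorem tau_herm (hT : TauStmt F) {f : F × F → ℂ} (h : Test f) {ρ b e : F} {σ : Mat F} (hρ : ρ ≠ 0)
    (he : e ≠ 0) (hσ : σ.det = 1) (hσR : InR σ) :
    tau (tr (xiF f) (!![ρ, b; 0, e] * σ)) 0 =
      (nF e : ℂ) * (((nF ρ ^ (1 / 3 : ℝ) : ℝ) : ℂ) *
        (syR (σ 1 0, σ 1 1) * ((κ₀ : ℂ) * LamF (rho σ f)))) :=
  hT.tau_ct _ _ (hT.good_tr _ _ (good hO hD hR hκ h) (by
    rw [Matrix.det_mul, hσ, mul_one]; exact det_tri hρ he)) (wdk_tri hO hD hR hκ h hρ he hσ hσR)

include hO hD hR hκ in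
theorem tau_cusp (hT : TauStmt F) (hI : IntStmt F) {f : F × F → ℂ} (h : Test f) {g : Mat F}
    {ρ α β : F} (hg : g.det ≠ 0) (hρ : ρ ≠ 0) (hβ : β ≠ 0) (hc : Cop α β)
    (h0 : g 1 0 = -(ρ * β)) (h1 : g 1 1 = ρ * α) :
    tau (tr (xiF f) g) 0 =
      ((nF ρ ^ (2 / 3 : ℝ) * nF g.det ^ (1 / 3 : ℝ) : ℝ) : ℂ) * (κ₀ * Ar.sy α β * CF f α β) := by
  obtain ⟨hα, hβR, a, ha, b, hb, hab⟩ := hc
  set σ : Mat F := !![a, b; -β, α] with hσ
  have hσ1 : σ.det = 1 := by
    rw [hσ, Matrix.det_fin_two_of]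
    linear_combination hab
  have hσR : InR σ := by
    intro i j
    fin_cases i <;> fin_cases j
    · exact ha
    · exact hb
    · exact neg_mem hβR
    · exact hα
  have hdet : g.det = ρ * (g 0 0 * α + g 0 1 * β) := by
    rw [Matrix.det_fin_two, h0, h1]
    ring
  set ρ' := g 0 0 * α + g 0 1 * β with hρ'
  have hρ0 : ρ' ≠ 0 := fun h => hg (by rw [hdet, h, mul_zero])
  have hgσ : g = !![ρ', g 0 1 * a - g 0 0 * b; 0, ρ] * σ := by
    rw [hσ, Matrix.mul_fin_two]
    ext i j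
    fin_cases i <;> fin_cases j
    · change g 0 0 = ρ' * a + (g 0 1 * a - g 0 0 * b) * -β
      rw [hρ']
      linear_combination (-g 0 0) * hab
    · change g 0 1 = ρ' * b + (g 0 1 * a - g 0 0 * b) * α
      rw [hρ']
      linear_combination (-g 0 1) * hab
    · change g 1 0 = 0 * a + ρ * -β
      rw [h0]
      ring
    · change g 1 1 = 0 * b + ρ * α
      rw [h1]
      ring
  have e1 : syR (σ 1 0, σ 1 1) = Ar.sy α β := by
    change syR (-β, α) = _
    rw [syR, if_neg (neg_ne_zero.2 hβ)]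
    change Ar.sy α (-β) = _
    have hm : (-1 : F) ∈ (Ar.R : Subring F) := neg_mem (one_mem _)
    rw [← neg_one_mul, Ar.sy_mul_right α hα (-1) hm β hβR (by simp) hβ,
      Ar.sy_unit α hα (-1) hm (by simp) (by rw [inv_neg, inv_one]; exact hm), one_mul]
  have e2 : σ = ((nT (-a / β) : SL F) : Mat F) * gam α β := by
    change σ = !![1, -a / β; 0, 1] * gam α β
    rw [hσ, gam, Matrix.mul_fin_two]
    ext i j
    fin_cases i <;> fin_cases j
    · change a = 1 * 0 + -a / β * -β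
      field_simp
      ring
    · change b = 1 * β⁻¹ + -a / β * α
      field_simp
      linear_combination hab
    · change -β = 0 * 0 + 1 * -β
      ring
    · change α = 0 * β⁻¹ + 1 * α
      ring
  have e3 : LamF (rho σ f) = CF f α β := by
    rw [e2, hO.rho_nT_mul f _ _ (det_gam α hβ) (test_zero h),
      hI.lam_nT _ _ (hO.test_rho f _ (det_gam α hβ) h), CF]
  have e4 : nF ρ ^ (2 / 3 : ℝ) * nF g.det ^ (1 / 3 : ℝ) = nF ρ * nF ρ' ^ (1 / 3 : ℝ) := by
    have p1 := nF_pos hρ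
    rw [hdet, nF_mul, Real.mul_rpow p1.le (nF_pos hρ0).le, ← mul_assoc, ← Real.rpow_add p1]
    norm_num
  rw [e4]
  conv_lhs => rw [hgσ]
  rw [tau_herm hO hD hR hκ hT h hρ0 hρ hσ1 hσR, e1, e3]
  push_cast
  ring

include hO hD hR hκ in
theorem tau_opS (hT : TauStmt F) (hI : IntStmt F) (hΘ : ThetaStmt F) {f : F × F → ℂ} (h : Test f)
    {m : F} (hm : m ≠ 0) (r : F) :
    tau (xiF (opS m f)) r = ((absS m ^ 4)⁻¹ : ℝ) * tau (xiF f) r := by
  set a : ℂ := -(((absS m ^ 4)⁻¹ : ℝ) : ℂ) with ha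
  have hS := hO.test_opS f m hm h
  have g1 := good hO hD hR hκ hS
  have g2 := good hO hD hR hκ h
  have g3 := hT.good_smul a _ g2
  have h1 := hΘ.vanish _ (hT.good_add _ _ g1 g3) (fun γ => by
    have hγ0 : (γ : Mat F).det ≠ 0 := by rw [γ.det_coe]; exact one_ne_zero
    have e1 : tr (xiF (opS m f) + fun u => a * xiF f u) (γ : Mat F) =
        tr (xiF (opS m f)) (γ : Mat F) + fun u => a * tr (xiF f) (γ : Mat F) u := rfl
    have g4 := hT.good_tr _ _ g2 hγ0
    rw [e1, hT.tau_add _ _ (hT.good_tr _ _ g1 hγ0) (hT.good_smul a _ g4), hT.tau_smul a _ g4]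
    obtain ⟨ρ, b, e, σ, hρ, he, hσ, hσR, hγ⟩ := hO.hermite (γ : Mat F) hγ0
    rw [hγ, tau_herm hO hD hR hκ hT hS hρ he hσ hσR, tau_herm hO hD hR hκ hT h hρ he hσ hσR,
      hO.rho_opS f σ m hσ hm, hI.lam_opS _ m (hO.test_rho f σ hσ h) hm, ha]
    ring) r
  rw [hT.tau_add _ _ g1 g3, hT.tau_smul a _ g2, ha] at h1
  linear_combination h1

theorem mem_R_of_int {x : F} (hx : IsIntegral ℤ x) : x ∈ (Ar.R : Subring F) :=
  (Ar.mem_R x).2 ⟨0, by simpa using hx⟩

theorem mem_R_of_pow {x : F} {k : ℕ} (hx : (Ar.N F : F) ^ k * x ∈ (Ar.R : Subring F)) :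
    x ∈ (Ar.R : Subring F) := by
  obtain ⟨i, hi⟩ := (Ar.mem_R _).1 hx
  exact (Ar.mem_R x).2 ⟨i + k, by rwa [pow_add, mul_assoc]⟩

include hO hD hR hκ in
theorem tau_mem (hT : TauStmt F) {f : F × F → ℂ} (h : Test f) {r : F} (hr : tau (xiF f) r ≠ 0) :
    r ∈ (Ar.R : Subring F) := by
  have g := good hO hD hR hκ h
  obtain ⟨j, hj⟩ := h
  have key : ∀ t ∈ (Ar.R : Subring F), Deep j t → eF (-(r * t)) = 1 := by
    intro t ht hd
    have h0 : Deep j (0 : F) := ⟨0, zero_mem _, by simp⟩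
    have hK : KJ j (nT t) := by
      intro i i'
      fin_cases i <;> fin_cases i'
      · simpa [nT, mkSL] using h0
      · simpa [nT, mkSL] using hd
      · simpa [nT, mkSL] using h0
      · simpa [nT, mkSL] using h0
    have hin : InR (!![1, t; 0, 1] : Mat F) := by
      intro i i'
      fin_cases i <;> fin_cases i'
      · exact one_mem _
      · exact ht
      · exact zero_mem _
      · exact one_mem _
    have e1 : tr (xiF f) !![1, t; 0, 1] = xiF f := by
      have e2 : rho !![1, t; 0, 1] f = f := hj.inv (nT t) hK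
      rw [hO.master f _ (by simp) hin, e2]
      funext u
      simp [syR]
    have e3 := hT.tau_tri _ g 1 t 1 r one_ne_zero one_ne_zero
    rw [e1] at e3
    simp only [nF_one, Real.one_rpow, mul_one, div_one, Complex.ofReal_one, one_mul] at e3
    exact (mul_eq_right₀ hr).1 e3.symm
  obtain ⟨k, hk⟩ := Ar.pow_mem_L r
  have hN : ((Ar.N F : ℕ) : F) ∈ (Ar.L : Subring F) := natCast_mem _ _
  have hr' : (Ar.N F : F) ^ (j + k) * r ∈ (Ar.L : Subring F) := by
    rw [pow_add, mul_assoc]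
    exact mul_mem (pow_mem hN j) hk
  refine mem_R_of_pow (k := j + k) (Ar.psi_prim _ fun y hy => ?_)
  obtain ⟨m, hm, hm'⟩ := (Ar.mem_L _).1 hr'
  have hm0 : (m : F) ≠ 0 := by
    refine Nat.cast_ne_zero.2 fun h0 => ?_
    have := Ar.two_le (F := F)
    rw [h0, Nat.coprime_zero_left] at hm
    omega
  obtain ⟨ρ, hρ, l, hl, e⟩ := Ar.approx (y / m) (m : F)⁻¹ (inv_ne_zero hm0)
  have e1 : l = y - m * ρ := by
    field_simp at e
    linear_combination -e
  have hlR : l ∈ (Ar.R : Subring F) := by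
    rw [e1]
    exact sub_mem hy (mul_mem (natCast_mem _ _) hρ)
  have e2 : (Ar.N F : F) ^ (j + k) * r * y =
      (m * ((Ar.N F : F) ^ (j + k) * r)) * ρ + (Ar.N F : F) ^ (j + k) * r * l := by
    rw [e1]
    ring
  rw [e2, Ar.psi_add, Ar.psi_R _ (mul_mem (mem_R_of_int hm') hρ), one_mul,
    Ar.psi_L _ (mul_mem hr' hl)]
  have h1 := key (-((Ar.N F : F) ^ (j + k) * l))
    (neg_mem (mul_mem (pow_mem (natCast_mem _ _) _) hlR))
    ⟨-((Ar.N F : F) ^ k * l), neg_mem (mul_mem (pow_mem hN k) hl), by ring⟩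
  rw [← h1]
  congr 1
  ring

end

end Crest.Agent.T27.TH.Cusp78

namespace Crest.Agent.T27.TH

open Cusp78

/-- **Leaf B4.** -/
theorem cusp_78 (F : Type) [Field F] [NumberField F] [Emb F] [Ar F] (hO : OpStmt F) (hI : IntStmt F)
    (hΛ : LamStmt F) (hT : TauStmt F) (hΘ : ThetaStmt F) (hD : DensStmt F) (hR : RowStmt F) :
    CuspStmt F := by
  obtain ⟨κ₀, h0, hκ⟩ := hΛ
  exact ⟨κ₀, h0, fun f h => ⟨good hO hD hR hκ h, hT.tau_ct _ _ (good hO hD hR hκ h) (hκ f h),
    fun g ρ α β hg hρ hβ hc h1 h2 => tau_cusp hO hD hR hκ hT hI h hg hρ hβ hc h1 h2,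
    fun m hm r => tau_opS hO hD hR hκ hT hI hΘ h hm r, fun r hr => tau_mem hO hD hR hκ hT h hr⟩⟩

end Crest.Agent.T27.TH
end
end

-- ▼ part T27/Cls_73
section

/-!
# Row 27, theta function, leaf C2, last field: every class of `F^× / P_J` is cut out by a test function
-/

set_option autoImplicit false

noncomputable section

namespace Crest.Agent.T27.TH

open scoped ComplexConjugate
open NumberField

variable {F : Type} [Field F] [NumberField F] [Emb F] [Ar F]

namespace C73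

theorem N_ne : (Ar.N F : F) ≠ 0 := by
  have := Ar.two_le (F := F)
  exact Nat.cast_ne_zero.2 (by omega)

theorem Npow_ne (a : ℕ) : Ar.N F ^ a ≠ 0 := by
  have := Ar.two_le (F := F)
  exact pow_ne_zero _ (by omega)

theorem int_mem_L {x : F} (h : IsIntegral ℤ x) : x ∈ (Ar.L : Subring F) :=
  (Ar.mem_L x).2 ⟨1, Nat.coprime_one_left _, by simpa using h⟩

theorem N_mem_L : (Ar.N F : F) ∈ (Ar.L : Subring F) := natCast_mem _ _

theorem N_mem_R : (Ar.N F : F) ∈ (Ar.R : Subring F) := natCast_mem _ _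

theorem deep_mono {j j' : ℕ} (h : j ≤ j') {x : F} (hx : Deep j' x) : Deep j x := by
  obtain ⟨y, hy, rfl⟩ := hx
  obtain ⟨k, rfl⟩ := Nat.exists_eq_add_of_le h
  exact ⟨(Ar.N F : F) ^ k * y, mul_mem (pow_mem N_mem_L _) hy, by ring⟩

theorem deep_neg {j : ℕ} {x : F} (hx : Deep j x) : Deep j (-x) := by
  obtain ⟨y, hy, rfl⟩ := hx
  exact ⟨-y, neg_mem hy, by ring⟩

theorem deep_add {j : ℕ} {x y : F} (hx : Deep j x) (hy : Deep j y) : Deep j (x + y) := by
  obtain ⟨x, hx, rfl⟩ := hx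
  obtain ⟨y, hy, rfl⟩ := hy
  exact ⟨x + y, add_mem hx hy, by ring⟩

theorem deep_latt {a : ℕ} {x : F} (hx : x ∈ latt F (Ar.N F ^ a)) : Deep a x := by
  obtain ⟨y, hy, rfl⟩ := hx
  exact ⟨y, int_mem_L hy, by push_cast; rfl⟩

theorem pow_mul_mem {j j' : ℕ} (h : j ≤ j') {x : F} (hx : (Ar.N F : F) ^ j * x ∈ (Ar.L : Subring F)) :
    (Ar.N F : F) ^ j' * x ∈ (Ar.L : Subring F) := by
  obtain ⟨k, rfl⟩ := Nat.exists_eq_add_of_le h
  rw [pow_add, mul_comm _ ((Ar.N F : F) ^ k), mul_assoc]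
  exact mul_mem (pow_mem N_mem_L _) hx

theorem int_of_mem {a : ℕ} {x : F} (hR : x ∈ (Ar.R : Subring F))
    (hx : (Ar.N F : F) ^ a * x ∈ (Ar.L : Subring F)) :
    IsIntegral ℤ (((Ar.N F ^ a : ℕ) : F) * x) := by
  push_cast
  exact Ar.int_of _ (mul_mem (pow_mem N_mem_R _) hR) hx

theorem mem_R_of_int {a : ℕ} {x : F} (h : IsIntegral ℤ (((Ar.N F ^ a : ℕ) : F) * x)) :
    x ∈ (Ar.R : Subring F) := (Ar.mem_R x).2 ⟨a, by simpa using h⟩

theorem test_zero {f : F × F → ℂ} (h : Test f) : f 0 = 0 := by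
  obtain ⟨j, h⟩ := h
  by_contra h0
  obtain ⟨-, -, a, -, b, -, hab⟩ := h.supp 0 h0
  exact pow_ne_zero j (N_ne (F := F)) (by rw [← hab]; simp)

theorem thF_mem {r : F} (h : thF r ≠ 0) : r ∈ (Ar.R : Subring F) := by
  by_contra hr
  apply h
  rw [thF, dif_neg]
  rintro ⟨p, -, -, rfl⟩
  exact hr (mul_mem p.1.2 (pow_mem p.2.2 _))

theorem xiF_add (f g : F × F → ℂ) : xiF (f + g) = xiF f + xiF g := by
  funext u
  simp only [xiF, Pi.add_apply]
  split_ifs <;> ring

theorem xiF_smul (a : ℂ) (f : F × F → ℂ) : xiF (fun u => a * f u) = fun u => a * xiF f u := by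
  funext u
  simp only [xiF]
  split_ifs <;> ring

theorem xiF_zero : xiF (0 : F × F → ℂ) = 0 := by
  funext u
  simp [xiF]

/-- `W` is the Whittaker function of a test function. -/
def Rz (W : F → ℂ) : Prop := ∃ f : F × F → ℂ, Test f ∧ ∀ r : F, r ≠ 0 → tt f r = thF r * W r

theorem Rz.congr {W W' : F → ℂ} (h : Rz W)
    (hW : ∀ r, r ≠ 0 → r ∈ (Ar.R : Subring F) → W r = W' r) : Rz W' := by
  obtain ⟨f, hf, h⟩ := h
  refine ⟨f, hf, fun r hr => ?_⟩
  rw [h r hr]
  by_cases h0 : thF r = 0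
  · rw [h0, zero_mul, zero_mul]
  · rw [hW r hr (thF_mem h0)]

section

variable (hA : TauStmt F) (hO : OpStmt F) (hG : ∀ f : F × F → ℂ, Test f → Good (xiF f))
include hA hO

theorem Rz.zero : Rz (0 : F → ℂ) :=
  ⟨0, hO.zero, fun r _ => by rw [tt, xiF_zero, hA.tau_zero]; simp⟩

include hG

theorem Rz.add {W W' : F → ℂ} (h : Rz W) (h' : Rz W') : Rz (W + W') := by
  obtain ⟨f, hf, h⟩ := h
  obtain ⟨g, hg, h'⟩ := h'
  refine ⟨f + g, hO.add _ _ hf hg, fun r hr => ?_⟩
  rw [Pi.add_apply, mul_add, ← h r hr, ← h' r hr, tt, tt, tt, xiF_add,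
    hA.tau_add _ _ (hG f hf) (hG g hg), add_mul]

theorem Rz.smul (a : ℂ) {W : F → ℂ} (h : Rz W) : Rz fun r => a * W r := by
  obtain ⟨f, hf, h⟩ := h
  refine ⟨fun u => a * f u, hO.smul _ _ hf, fun r hr => ?_⟩
  rw [mul_left_comm, ← h r hr, tt, tt, xiF_smul, hA.tau_smul _ _ (hG f hf), mul_assoc]

theorem Rz.sum {ι : Type} (S : Finset ι) (W : ι → F → ℂ) (h : ∀ i ∈ S, Rz (W i)) :
    Rz (∑ i ∈ S, W i) :=
  Finset.sum_induction _ _ (fun _ _ => Rz.add hA hO hG) (Rz.zero hA hO) h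

theorem Rz.char {p : F} (hp : p ∈ (Ar.R : Subring F)) {W : F → ℂ} (h : Rz W) :
    Rz fun r => eF (-(r * p)) * W r := by
  obtain ⟨f, hf, h⟩ := h
  have hin : InR ((nT p : SL F) : Mat F) := by
    intro i j
    fin_cases i <;> fin_cases j <;> simp [nT, mkSL, hp]
  have hm := hO.master f (nT p : SL F) (nT p).det_coe hin
  have h1 : xiF (rho (nT p : SL F) f) = tr (xiF f) !![1, p; 0, 1] := by
    have : ((nT p : SL F) : Mat F) = !![1, p; 0, 1] := rfl
    rw [← this, hm]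
    funext u
    simp [this, syR]
  refine ⟨rho (nT p : SL F) f, hO.test_rho _ _ (nT p).det_coe hf, fun r hr => ?_⟩
  rw [mul_left_comm, ← h r hr, tt, tt, h1,
    hA.tau_tri _ (hG f hf) 1 p 1 r one_ne_zero one_ne_zero]
  simp [M82.nF_one, mul_assoc]

/-- The algebra of multipliers of level `a`. -/
def mult (a : ℕ) : Subalgebra ℂ (F → ℂ) where
  carrier := {m | (∀ W, Rz W → Rz (m * W)) ∧ ∀ r, ∀ z ∈ latt F (Ar.N F ^ a), m (r + z) = m r}
  mul_mem' := by
    rintro m m' ⟨h1, h2⟩ ⟨h1', h2'⟩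
    refine ⟨fun W hW => ?_, fun r z hz => ?_⟩
    · rw [mul_assoc]
      exact h1 _ (h1' _ hW)
    · rw [Pi.mul_apply, Pi.mul_apply, h2 r z hz, h2' r z hz]
  add_mem' := by
    rintro m m' ⟨h1, h2⟩ ⟨h1', h2'⟩
    refine ⟨fun W hW => ?_, fun r z hz => ?_⟩
    · rw [add_mul]
      exact (h1 _ hW).add hA hO hG (h1' _ hW)
    · rw [Pi.add_apply, Pi.add_apply, h2 r z hz, h2' r z hz]
  algebraMap_mem' c := ⟨fun _ hW => hW.smul hA hO hG c, fun _ _ _ => rfl⟩

/-- Cutting a Whittaker function by an `S`-adically open and closed set. -/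
theorem Rz.cut (hL : LatStmt F) (hM : MeanStmt F) {W : F → ℂ} (h : Rz W) {b c : ℕ}
    (hb : ∀ r, r ≠ 0 → W r ≠ 0 → (Ar.N F : F) ^ b * r ∈ (Ar.L : Subring F)) (X : Set F)
    (hX : ∀ r ∈ X, ∀ z, Deep c z → r + z ∈ X) : Rz (X.indicator W) := by
  classical
  obtain ⟨D, hD, hdual⟩ := hM.dual
  obtain ⟨e, he⟩ := Ar.pow_mem_L (D : F)⁻¹
  set a := b + c + e with ha
  obtain ⟨T, -, -, -, hT⟩ := hM.reps _ (Npow_ne (F := F) a)
  have hN := pow_ne_zero a (N_ne (F := F))
  -- separating multipliers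
  have sep : ∀ x y : F, x ∈ X → y ∉ X → ∃ m ∈ mult hA hO hG a, m x = 1 ∧ m y = 0 := by
    intro x y hx hy
    have : ∃ t : F, IsIntegral ℤ t ∧ eF ((y - x) / (Ar.N F : F) ^ a * t) ≠ 1 := by
      by_contra hc
      push Not at hc
      have h1 := mul_mem he (int_mem_L (hdual _ hc))
      refine hy ?_
      rw [show y = x + (y - x) by ring]
      refine hX x hx _ (deep_mono (j' := b + c) (by omega) ⟨_, h1, ?_⟩)
      have : (D : F) ≠ 0 := Nat.cast_ne_zero.2 hD
      have := N_ne (F := F)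
      rw [ha]
      field_simp
      ring
    obtain ⟨t, ht, hne⟩ := this
    set p := t / (Ar.N F : F) ^ a with hp
    have hpR : p ∈ (Ar.R : Subring F) :=
      (Ar.mem_R p).2 ⟨a, by rwa [hp, mul_div_cancel₀ _ hN]⟩
    let χ : F → ℂ := fun r => eF (-(r * p))
    have hχ : χ ∈ mult hA hO hG a := by
      refine ⟨fun W hW => hW.char hA hO hG hpR, ?_⟩
      rintro r _ ⟨z, hz, rfl⟩
      have : -((r + ((Ar.N F ^ a : ℕ) : F) * z) * p) = -(r * p) + -(z * t) := by
        rw [hp]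
        push_cast
        field_simp
        ring
      simp only [χ]
      rw [this, M82.eF_add, M82.eF_int hL (hz.mul ht).neg, mul_one]
    have hxy : χ x - χ y ≠ 0 := by
      intro h0
      apply hne
      have h2 : χ x = eF ((y - x) / (Ar.N F : F) ^ a * t) * χ y := by
        simp only [χ]
        rw [← M82.eF_add, hp]
        congr 1
        field_simp
        ring
      have h3 : χ y ≠ 0 := norm_ne_zero_iff.1 (by simp only [χ]; rw [M82.norm_eF]; norm_num)
      rw [sub_eq_zero, h2] at h0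
      exact mul_right_cancel₀ h3 (by rw [h0, one_mul])
    refine ⟨(χ x - χ y)⁻¹ • (χ - algebraMap ℂ (F → ℂ) (χ y)),
      Subalgebra.smul_mem _ (sub_mem hχ (Subalgebra.algebraMap_mem _ _)) _, ?_, ?_⟩
    · simpa using inv_mul_cancel₀ hxy
    · simp
  choose! m hm hm1 hm0 using sep
  let μ : F → ℂ := 1 - ∏ x ∈ T with x ∈ X, (1 - ∏ y ∈ T with y ∉ X, m x y)
  have hμ : μ ∈ mult hA hO hG a :=
    sub_mem (one_mem _) (prod_mem fun x hx => sub_mem (one_mem _) (prod_mem fun y hy =>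
      hm x y (Finset.mem_filter.1 hx).2 (Finset.mem_filter.1 hy).2))
  have hμT : ∀ s ∈ T, μ s = if s ∈ X then 1 else 0 := by
    intro s hs
    simp only [μ, Pi.sub_apply, Pi.one_apply, Finset.prod_apply]
    split_ifs with hsX
    · rw [Finset.prod_eq_zero (Finset.mem_filter.2 ⟨hs, hsX⟩), sub_zero]
      rw [Finset.prod_eq_one fun y hy => hm1 s y hsX (Finset.mem_filter.1 hy).2, sub_self]
    · rw [Finset.prod_eq_one, sub_self]
      intro x hx
      rw [Finset.prod_eq_zero (s := T.filter (· ∉ X)) (f := fun c => m x c s)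
        (Finset.mem_filter.2 ⟨hs, hsX⟩)
        (hm0 x s (Finset.mem_filter.1 hx).2 hsX), sub_zero]
  refine (hμ.1 W h).congr fun r hr hR => ?_
  by_cases hW : W r = 0
  · simp [Set.indicator, hW]
  obtain ⟨s, hs, hrs⟩ := hT r (int_of_mem hR (pow_mul_mem (by omega) (hb r hr hW)))
  have hd : Deep c (r - s) := deep_mono (by omega) (deep_latt hrs)
  have h1 : μ r = μ s := by rw [← hμ.2 s _ hrs, add_sub_cancel]
  have h2 : s ∈ X ↔ r ∈ X :=
    ⟨fun h => by simpa using hX s h _ hd, fun h => by simpa using hX r h _ (deep_neg hd)⟩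
  rw [Pi.mul_apply, h1, hμT s hs, Set.indicator, h2]
  split_ifs <;> simp

theorem WF_opT {f : F × F → ℂ} (hf : Test f) {t r : F} (ht : t ≠ 0) (hr : r ≠ 0) :
    WF (opT t f) r * ((absS t ^ (3 / 2 : ℝ) : ℝ) : ℂ) = conj (Ar.cc t r) * WF f (t * r) := by
  have h0 : ∀ x : F, x ≠ 0 → 0 ≤ absS x := fun x hx =>
    div_nonneg (Ar.nm_pos x hx).le (M82.nF_nonneg x)
  have h1 : absS (t * r) = absS t * absS r := by
    rw [absS, absS, absS, Ar.nm_mul, M82.nF_mul, mul_div_mul_comm]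
  rw [WF, WF, hO.opT_opT f t r ht hr (test_zero hf), xiF_smul,
    hA.tau_smul _ _ (hG _ (hO.test_opT f _ (mul_ne_zero ht hr) hf)), h1,
    Real.mul_rpow (h0 t ht) (h0 r hr)]
  push_cast
  ring

end


theorem PJ_unit {J : ℕ} (hJ : 1 ≤ J) {k : F} (hk : PJ J k) :
    k ≠ 0 ∧ k ∈ (Ar.L : Subring F) ∧ k⁻¹ ∈ (Ar.L : Subring F) := by
  obtain ⟨y, hy, hk⟩ := deep_mono hJ hk
  have : k = 1 + (Ar.N F : F) * y := by rw [← pow_one (Ar.N F : F), ← hk]; ring
  rw [this]
  exact ⟨(Ar.unit_P y hy).1, add_mem (one_mem _) (mul_mem N_mem_L hy), (Ar.unit_P y hy).2⟩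

theorem cc_PJ {J : ℕ} (hJ : Ar.kc F ≤ J) {t k : F} (ht : t ≠ 0) (hk : PJ J k) : Ar.cc t k = 1 := by
  have hk0 := (PJ_unit ((Ar.one_le_kc (F := F)).trans hJ) hk).1
  obtain ⟨y, hy, hk⟩ := deep_mono hJ hk
  have h1 : k = 1 + (Ar.N F : F) ^ Ar.kc F * y := by rw [← hk]; ring
  have h2 := Ar.cc_swap t k ht hk0
  have h3 : Ar.cc k t = 1 := by rw [h1]; exact Ar.cc_P y hy t ht
  rwa [h3, mul_one] at h2

end C73

open C73 in
/-- The field `cls` of `MainStmt`. -/
theorem cls_73 (hL : LatStmt F) (hM : MeanStmt F) (hA : TauStmt F) (hO : OpStmt F)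
    (hI : IntStmt F) (hC : CuspStmt F)
    (hmain : ∀ f : F × F → ℂ, Test f → ∀ r : F, r ≠ 0 → tt f r = thF r * WF f r)
    (hP : ∀ f : F × F → ℂ, Test f → ∃ J, ∀ r k : F, r ≠ 0 → PJ J k → WF f (r * k) = WF f r)
    (hS : ∀ f : F × F → ℂ, Test f → ∃ J : ℕ, ∀ r : F, r ≠ 0 → WF f r ≠ 0 →
      (Ar.N F : F) ^ J * r ∈ (Ar.L : Subring F))
    (J : ℕ) (α : F) (hJ : 1 ≤ J) (hα : α ≠ 0) :
    ∃ f : F × F → ℂ, Test f ∧ ∀ r : F, r ≠ 0 → tt f r = {r | PJ J (r / α)}.indicator thF r := by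
  classical
  obtain ⟨κ, hκ, hC⟩ := hC
  have hG : ∀ f : F × F → ℂ, Test f → Good (xiF f) := fun f hf => (hC f hf).1
  obtain ⟨f, hf, hf0⟩ := hI.basic
  obtain ⟨r₀, hr₀, ht₀⟩ := hA.nonconst _ (hG f hf) (by
    rw [(hC f hf).2.1]
    exact mul_ne_zero (Complex.ofReal_ne_zero.2 hκ.ne') hf0)
  have hW₀ : WF f r₀ ≠ 0 := by
    intro h
    have h1 := hmain f hf r₀ hr₀
    rw [h, mul_zero, tt, mul_eq_zero] at h1
    refine h1.elim ht₀ fun h2 => ?_
    exact (Real.rpow_pos_of_pos (lt_of_le_of_ne (M82.nF_nonneg r₀) (M82.nF_ne hr₀).symm) _).ne'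
      (Complex.ofReal_eq_zero.1 h2)
  obtain ⟨J₀, hJ₀⟩ := hP f hf
  obtain ⟨b, hb⟩ := Ar.pow_mem_L α
  obtain ⟨e, he⟩ := Ar.pow_mem_L α⁻¹
  set J₁ := J + J₀ + Ar.kc F with hJ₁
  set a := J₁ + b + e with ha
  set X : Set F := {r | PJ J (r / α)} with hX
  have hX0 : ∀ s ∈ X, s ≠ 0 := fun s hs h => (PJ_unit hJ hs).1 (by rw [h, zero_div])
  -- small cosets are contained in cosets of `P_{J₁}`
  have hsmall : ∀ s ∈ X, ∀ z, Deep a z → Deep J₁ (z / s) := by
    rintro s hs _ ⟨y, hy, rfl⟩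
    refine ⟨_, mul_mem (mul_mem (mul_mem (pow_mem N_mem_L b) he) (PJ_unit hJ hs).2.2) hy, ?_⟩
    have := hX0 s hs
    rw [ha]
    field_simp
    ring
  have hXa : ∀ s ∈ X, ∀ z, Deep a z → s + z ∈ X := by
    rintro s hs _ ⟨y, hy, rfl⟩
    show Deep J _
    rw [add_div, add_sub_right_comm]
    refine deep_add hs (deep_mono (j' := J₁ + b) (by omega) ⟨_, mul_mem he hy, ?_⟩)
    rw [ha]
    field_simp
    ring
  have hY : ∀ s ∈ X, Rz ({r | Deep a (r - s)}.indicator 1) := by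
    intro s hs
    have hs0 := hX0 s hs
    have ht : r₀ / s ≠ 0 := div_ne_zero hr₀ hs0
    have hg := hO.test_opT f _ ht hf
    obtain ⟨c, hc⟩ := hS _ hg
    have h1 := Rz.cut hA hO hG hL hM ⟨_, hg, hmain _ hg⟩ hc {r | Deep a (r - s)} (c := a)
      fun r hr z hz => by
        show Deep a _
        rw [add_sub_right_comm]
        exact deep_add hr hz
    have hcc : conj (Ar.cc (r₀ / s) s) ≠ 0 := by
      rw [map_ne_zero]
      intro h
      have := Ar.cc_cube _ _ ht hs0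
      rw [h] at this
      norm_num at this
    refine (h1.smul hA hO hG (((absS (r₀ / s) ^ (3 / 2 : ℝ) : ℝ) : ℂ) /
      (conj (Ar.cc (r₀ / s) s) * WF f r₀))).congr fun r hr _ => ?_
    by_cases hrs : r ∈ {r | Deep a (r - s)}
    · have hk : PJ J₁ (r / s) := by
        have := hsmall s hs _ hrs
        rwa [sub_div, div_self hs0] at this
      have hk0 : r / s ≠ 0 := div_ne_zero hr hs0
      rw [Set.indicator_of_mem hrs, Set.indicator_of_mem hrs, Pi.one_apply, div_mul_eq_mul_div,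
        mul_comm, WF_opT hA hO hG hf ht hr, show r₀ / s * r = r₀ * (r / s) by ring,
        hJ₀ _ _ hr₀ (deep_mono (by omega) hk)]
      conv_lhs => rw [show r = s * (r / s) by field_simp, Ar.cc_mul_right _ _ _ ht hs0 hk0,
        cc_PJ (by omega) ht hk, mul_one]
      exact div_self (mul_ne_zero hcc hW₀)
    · rw [Set.indicator_of_notMem hrs, Set.indicator_of_notMem hrs, mul_zero]
  obtain ⟨T, -, hT1, hT2, hT3⟩ := hM.reps _ (Npow_ne (F := F) a)
  have hsum := Rz.sum hA hO hG (T.filter (· ∈ X)) _ fun s hs => hY s (Finset.mem_filter.1 hs).2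
  obtain ⟨g, hg, h⟩ := hsum.congr (W' := X.indicator 1) fun r _ hR => by
    rw [Finset.sum_apply]
    by_cases hrX : r ∈ X
    · have h1 : (Ar.N F : F) ^ b * r ∈ (Ar.L : Subring F) := by
        have := mul_mem hb (PJ_unit hJ hrX).2.1
        rwa [mul_assoc, mul_div_cancel₀ _ hα] at this
      obtain ⟨s, hs, hrs⟩ := hT3 r (int_of_mem hR (pow_mul_mem (by omega) h1))
      have hd := deep_latt hrs
      have hsX : s ∈ X := by simpa using hXa r hrX _ (deep_neg hd)
      rw [Finset.sum_eq_single_of_mem s (Finset.mem_filter.2 ⟨hs, hsX⟩),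
        Set.indicator_of_mem hrX, Set.indicator_of_mem (show r ∈ {r | Deep a (r - s)} from hd)]
      intro s' hs' hne
      refine Set.indicator_of_notMem (fun hd' => hne ?_) _
      have hs'T := (Finset.mem_filter.1 hs').1
      obtain ⟨y, hy, hy'⟩ := deep_add hd (deep_neg hd')
      refine hT2 s' hs'T s hs ⟨y, Ar.int_of y ?_ hy, by push_cast; rw [← hy']; ring⟩
      have h2 := sub_mem (mem_R_of_int (hT1 s' hs'T)) (mem_R_of_int (hT1 s hs))
      obtain ⟨k, hk⟩ := (Ar.mem_R _).1 h2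
      refine (Ar.mem_R y).2 ⟨k + a, ?_⟩
      rwa [pow_add, mul_assoc, ← hy', show r - s + -(r - s') = s' - s by ring]
    · rw [Set.indicator_of_notMem hrX]
      refine Finset.sum_eq_zero fun s hs => Set.indicator_of_notMem (fun hd => hrX ?_) _
      simpa using hXa s (Finset.mem_filter.1 hs).2 _ hd
  refine ⟨g, hg, fun r hr => ?_⟩
  rw [h r hr]
  by_cases hrX : r ∈ X <;> simp [hrX]

end Crest.Agent.T27.TH
end
end

-- ▼ part T27/Main_94
section

/-!
# Row 27, theta leaf C2 (helper94): the main formula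
-/

set_option autoImplicit false

namespace Crest.Agent.T27.TH

theorem main_94 (F : Type) [Field F] [NumberField F] [Emb F] [Ar F] (hL : LatStmt F)
    (hM : MeanStmt F) (hT : ThetaStmt F) (hA : TauStmt F) (hO : OpStmt F) (hI : IntStmt F)
    (hC : CuspStmt F) (hH : HeckeStmt F) : MainStmt F where
  thF_spec := M94.thF_spec
  norm_gn := M94.norm_gn
  main := M94.main hO hC hA hH
  W_P := M94.W_P hO
  W_supp := M94.W_supp hO hC hA
  W_le := M94.W_le hL hT hO hC hA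
  cls := cls_73 hL hM hA hO hI hC (M94.main hO hC hA hH) (M94.W_P hO) (M94.W_supp hO hC hA)

end Crest.Agent.T27.TH
end

-- ▼ part T27/ThAll0_54

/-!
# Row 27, theta function: integration of the leaves (conditional form)
-/

set_option autoImplicit false

namespace Crest.Agent.T27.TH

variable (F : Type) [Field F] [NumberField F] [Emb F]

/-- All statements of part A. -/
structure AllA : Prop where
  lat : LatStmt F
  mean : MeanStmt F
  row : RowStmt F
  dens : DensStmt F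
  geom : GeomStmt F
  theta : ThetaStmt F
  tau : TauStmt F

/-- All statements of part B. -/
structure AllB [Ar F] : Prop extends AllA F where
  op : OpStmt F
  int : IntStmt F
  lam : LamStmt F
  cusp : CuspStmt F
  hecke : HeckeStmt F
  main : MainStmt F
  vor : VorStmt F

theorem allA_of_geom (hG : GeomStmt F) : AllA F := by
  have hL := latStmt_80 F
  have hM := mean_82 F hL
  have hR := row_93 F hM
  have hD := dens_92 F hL
  have hT := theta_53 F hL hR hD hG (unfold_89 F hL hR hG) (box_86 F hG) (fourier_78 F hL hM hR hG)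
  exact ⟨hL, hM, hR, hD, hG, hT, tauStmt_73 F hR hD hT⟩

theorem allB_of [Ar F] (hA : AllA F) (hO : OpStmt F)
    (hH : OpStmt F → IntStmt F → CuspStmt F → HeckeStmt F) : AllB F := by
  have hI := intStmt_54 F hA.mean hO
  have hΛ := lam_98 F hA.mean hI hA.dens.kc0.2.2.1
  have hC := cusp_78 F hO hI hΛ hA.tau hA.theta hA.dens hA.row
  have hH' := hH hO hI hC
  exact ⟨hA, hO, hI, hΛ, hC, hH', main_94 F hA.lat hA.mean hA.theta hA.tau hO hI hC hH',
    vor_57 F hA.lat hA.theta hA.tau hO hC⟩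

end Crest.Agent.T27.TH
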