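import Mathlib
import Crest.Agent.T27.Basic_55
import Crest.Agent.T27.Core_51
import Crest.Agent.T27.Recip_55

-- ▼ part T27/PsdA_62
section

/-!
# Row 27, core leaf P1 (part A): positive semidefinite kernels, the local lemma, tensor products

No arithmetic in this file.  `PK K`: the kernel `K` is Hermitian and positive semidefinite.
`LocOK q D m`: hypotheses on the local kernel `m j j'` at a prime of norm `q`, where `D j` means
`p ^ j ∣ a`.  Main results: `LocOK.pk_sub` (local lemma), `tensor_dom` (tensor product).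
-/

set_option autoImplicit false

noncomputable section

namespace Crest.Agent.T27.Psd

open scoped ComplexConjugate ComplexOrder
open Finset

/-- Hermitian positive semidefinite kernels. -/
def PK {X : Type*} (K : X → X → ℂ) : Prop :=
  (∀ x y, K y x = conj (K x y)) ∧
    ∀ (S : Finset X) (t : X → ℂ), 0 ≤ (∑ x ∈ S, ∑ y ∈ S, t x * conj (t y) * K x y).re

section general

variable {X : Type*}

theorem form_im {K : X → X → ℂ} (h : ∀ x y, K y x = conj (K x y)) (S : Finset X) (t : X → ℂ) :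
    (∑ x ∈ S, ∑ y ∈ S, t x * conj (t y) * K x y).im = 0 := by
  rw [← Complex.conj_eq_iff_im]
  simp only [map_sum, map_mul, Complex.conj_conj]
  rw [Finset.sum_comm]
  refine sum_congr rfl fun x _ => sum_congr rfl fun y _ => ?_
  rw [h y x]; ring

theorem pk_iff (K : X → X → ℂ) : PK K ↔ (Matrix.of K).PosSemidef := by
  classical
  constructor
  · rintro ⟨h1, h2⟩
    refine ⟨?_, fun x => ?_⟩
    · ext i j
      simp only [Matrix.conjTranspose_apply, Matrix.of_apply, RCLike.star_def]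
      exact (h1 j i).symm
    · have e : (x.sum fun i xi => x.sum fun j xj => star xi * Matrix.of K i j * xj) =
          ∑ i ∈ x.support, ∑ j ∈ x.support, conj (x i) * conj (conj (x j)) * K i j := by
        simp only [Finsupp.sum, Matrix.of_apply, RCLike.star_def, Complex.conj_conj]
        refine sum_congr rfl fun i _ => sum_congr rfl fun j _ => by ring
      rw [e, Complex.nonneg_iff]
      exact ⟨h2 _ fun i => conj (x i), (form_im h1 _ fun i => conj (x i)).symm⟩
  · rintro ⟨h1, h2⟩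
    refine ⟨fun x y => ?_, fun S t => ?_⟩
    · have := congrFun (congrFun h1 y) x
      simp only [Matrix.conjTranspose_apply, Matrix.of_apply, RCLike.star_def] at this
      exact this.symm
    · let x : X →₀ ℂ := Finsupp.onFinset S (fun i => if i ∈ S then conj (t i) else 0)
        (fun i hi => by by_contra hc; exact hi (if_neg hc))
      have hx : ∀ i ∈ S, x i = conj (t i) := fun i hi => by simp [x, hi]
      have hs : x.support ⊆ S := Finsupp.support_onFinset_subset
      have := h2 x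
      rw [Finsupp.sum_of_support_subset _ hs _ (fun i _ => by simp)] at this
      have e : ∑ i ∈ S, (x.sum fun j xj => star (x i) * Matrix.of K i j * xj) =
          ∑ i ∈ S, ∑ j ∈ S, t i * conj (t j) * K i j := by
        refine sum_congr rfl fun i hi => ?_
        rw [Finsupp.sum_of_support_subset _ hs _ (fun i _ => by simp)]
        refine sum_congr rfl fun j hj => ?_
        rw [hx i hi, hx j hj]
        simp only [Matrix.of_apply, RCLike.star_def, Complex.conj_conj]
        ring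
      rw [e] at this
      exact (Complex.nonneg_iff.1 this).1

/-- Schur product theorem. -/
theorem PK.mul {K L : X → X → ℂ} (hK : PK K) (hL : PK L) : PK fun x y => K x y * L x y := by
  rw [pk_iff] at *
  exact hK.hadamard hL

theorem PK.add {K L : X → X → ℂ} (hK : PK K) (hL : PK L) : PK fun x y => K x y + L x y := by
  refine ⟨fun x y => by simp only [hK.1 x y, hL.1 x y, map_add], fun S t => ?_⟩
  simp only [mul_add, sum_add_distrib, Complex.add_re]
  exact add_nonneg (hK.2 S t) (hL.2 S t)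

theorem PK.comp {Y : Type*} {K : X → X → ℂ} (hK : PK K) (f : Y → X) :
    PK fun x y => K (f x) (f y) := by
  rw [pk_iff] at *
  exact hK.submatrix f

theorem form_rank_one (c : ℝ) (u : X → ℂ) (S : Finset X) (t : X → ℂ) :
    (∑ x ∈ S, ∑ y ∈ S, t x * conj (t y) * ((c : ℂ) * (u x * conj (u y)))).re =
      c * ‖∑ x ∈ S, t x * u x‖ ^ 2 := by
  have : ∑ x ∈ S, ∑ y ∈ S, t x * conj (t y) * ((c : ℂ) * (u x * conj (u y))) =
      (c : ℂ) * ((∑ x ∈ S, t x * u x) * conj (∑ x ∈ S, t x * u x)) := by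
    rw [map_sum, sum_mul_sum, mul_sum]
    refine sum_congr rfl fun x _ => ?_
    rw [mul_sum]
    refine sum_congr rfl fun y _ => ?_
    rw [map_mul]; ring
  rw [this, Complex.mul_conj, Complex.normSq_eq_norm_sq, ← Complex.ofReal_mul, Complex.ofReal_re]

theorem pk_rank_one {c : ℝ} (hc : 0 ≤ c) (u : X → ℂ) :
    PK fun x y => (c : ℂ) * (u x * conj (u y)) := by
  refine ⟨fun x y => ?_, fun S t => ?_⟩
  · simp only [map_mul, Complex.conj_conj, Complex.conj_ofReal]; ring
  · rw [form_rank_one]; positivity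

theorem pk_one : PK fun _ _ : X => (1 : ℂ) := by
  simpa using pk_rank_one (X := X) zero_le_one fun _ => 1

theorem pk_zero : PK fun _ _ : X => (0 : ℂ) := ⟨by simp, by simp⟩

/-- Monotonicity of tensor products. -/
theorem pk_prod_sub {ι : Type*} (P : Finset ι) (A B : ι → X → X → ℂ)
    (hA : ∀ i ∈ P, PK (A i)) (hB : ∀ i ∈ P, PK fun x y => B i x y - A i x y) :
    (PK fun x y => ∏ i ∈ P, A i x y) ∧
      PK fun x y => ∏ i ∈ P, B i x y - ∏ i ∈ P, A i x y := by
  classical
  induction P using Finset.induction_on with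
  | empty => exact ⟨by simpa using pk_one, by simpa using pk_zero⟩
  | insert i P hi ih =>
    obtain ⟨h1, h2⟩ := ih (fun j hj => hA j (mem_insert_of_mem hj))
      (fun j hj => hB j (mem_insert_of_mem hj))
    have a1 := hA i (mem_insert_self _ _)
    have b1 := hB i (mem_insert_self _ _)
    simp only [prod_insert hi]
    refine ⟨a1.mul h1, ?_⟩
    have := (b1.mul (h2.add h1)).add (a1.mul h2)
    convert this using 3
    ring

/-- Weighted diagonal dominance. -/
theorem pk_of_dom [DecidableEq X] {K : X → X → ℂ} (h : ∀ x y, K y x = conj (K x y))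
    (w : X → X → ℝ) (hw : ∀ x y, 0 ≤ w x y) (h1 : ∀ x y, x ≠ y → ‖K x y‖ ^ 2 ≤ w x y * w y x)
    (h2 : ∀ x (S : Finset X), x ∉ S → ∑ y ∈ S, w x y ≤ (K x x).re) : PK K := by
  refine ⟨h, fun S t => ?_⟩
  have key : ∀ x y, x ≠ y → -((w x y * ‖t x‖ ^ 2 + w y x * ‖t y‖ ^ 2) / 2) ≤
      (t x * conj (t y) * K x y).re := by
    intro x y hxy
    have a1 := (abs_le.1 (Complex.abs_re_le_norm (t x * conj (t y) * K x y))).1
    rw [norm_mul, norm_mul, Complex.norm_conj] at a1
    have a2 : ‖t x‖ * ‖t y‖ * ‖K x y‖ ≤ (w x y * ‖t x‖ ^ 2 + w y x * ‖t y‖ ^ 2) / 2 := by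
      have b0 : 0 ≤ (w x y * ‖t x‖ ^ 2 + w y x * ‖t y‖ ^ 2) / 2 := by
        have := hw x y; have := hw y x; positivity
      refine le_of_sq_le_sq ?_ b0
      have b1 : (‖t x‖ * ‖t y‖ * ‖K x y‖) ^ 2 ≤ (‖t x‖ * ‖t y‖) ^ 2 * (w x y * w y x) := by
        rw [mul_pow (‖t x‖ * ‖t y‖)]
        exact mul_le_mul_of_nonneg_left (h1 x y hxy) (by positivity)
      nlinarith [sq_nonneg (w x y * ‖t x‖ ^ 2 - w y x * ‖t y‖ ^ 2)]
    linarith
  have diag : ∀ x, (t x * conj (t x) * K x x).re = ‖t x‖ ^ 2 * (K x x).re := by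
    intro x
    rw [Complex.mul_conj, Complex.normSq_eq_norm_sq, Complex.re_ofReal_mul]
  have e1 : (∑ x ∈ S, ∑ y ∈ S, t x * conj (t y) * K x y).re =
      ∑ x ∈ S, (‖t x‖ ^ 2 * (K x x).re + ∑ y ∈ S.erase x, (t x * conj (t y) * K x y).re) := by
    rw [Complex.re_sum]
    refine sum_congr rfl fun x hx => ?_
    rw [Complex.re_sum, ← add_sum_erase S _ hx, diag]
  have e2 : ∑ x ∈ S, ∑ y ∈ S.erase x, w y x * ‖t y‖ ^ 2 =
      ∑ x ∈ S, ∑ y ∈ S.erase x, w x y * ‖t x‖ ^ 2 := by
    refine sum_comm' fun x y => ?_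
    simp only [mem_erase]
    tauto
  have e3 : -∑ x ∈ S, ∑ y ∈ S.erase x, w x y * ‖t x‖ ^ 2 ≤
      ∑ x ∈ S, ∑ y ∈ S.erase x, (t x * conj (t y) * K x y).re := by
    have : ∑ x ∈ S, ∑ y ∈ S.erase x, -((w x y * ‖t x‖ ^ 2 + w y x * ‖t y‖ ^ 2) / 2) =
        -∑ x ∈ S, ∑ y ∈ S.erase x, w x y * ‖t x‖ ^ 2 := by
      simp only [sum_neg_distrib, ← sum_div, sum_add_distrib]
      rw [e2]; ring
    rw [← this]
    exact sum_le_sum fun x _ => sum_le_sum fun y hy => key x y (mem_erase.1 hy).1.symm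
  have e4 : ∑ x ∈ S, ∑ y ∈ S.erase x, w x y * ‖t x‖ ^ 2 ≤ ∑ x ∈ S, ‖t x‖ ^ 2 * (K x x).re := by
    refine sum_le_sum fun x _ => ?_
    rw [← sum_mul, mul_comm]
    exact mul_le_mul_of_nonneg_left (h2 x _ (notMem_erase _ _)) (by positivity)
  rw [e1, sum_add_distrib]
  linarith

end general

/-! ## The local lemma -/

open Classical in
/-- Hypotheses on the local kernel at a prime of norm `q`; `D j` means `p ^ j ∣ a`. -/
structure LocOK (q : ℝ) (D : ℕ → Prop) (m : ℕ → ℕ → ℂ) : Prop where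
  two_le : 2 ≤ q
  zero : D 0
  anti : ∀ j, D (j + 1) → D j
  herm : ∀ j j', m j' j = conj (m j j')
  m00 : m 0 0 = 1
  diag : ∀ j, 1 ≤ j →
    (if D (2 * j) then q ^ j / 2 else if D (2 * j - 1) then -q ^ (j - 1) else 0) ≤ (m j j).re
  off : ∀ j j', j < j' →
    ‖m j j'‖ ^ 2 ≤ if D (j + j' - 1) then q ^ (j + j') * (if 6 ≤ j' then 1 else q⁻¹) else 0

/-- The local weight `5 j³ · (q if j ≥ 6)`. -/
def cl (q : ℝ) (j : ℕ) : ℝ := 5 * (j : ℝ) ^ 3 * if 6 ≤ j then q else 1

open Classical in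
/-- The diagonal correction. -/
def dl (q : ℝ) (D : ℕ → Prop) (j : ℕ) : ℝ := if D (j - 1) then q ^ (j - 1) * cl q j else 0

/-- The diagonal correction as a kernel. -/
def Dl (q : ℝ) (D : ℕ → Prop) (j j' : ℕ) : ℂ := if j = j' then (dl q D j : ℂ) else 0

open Classical in
/-- The vector of the minorant. -/
def ul (D : ℕ → Prop) (m : ℕ → ℕ → ℂ) (j : ℕ) : ℂ :=
  if j = 0 then 1 else if j = 1 ∧ ¬ D 1 then m 1 0 else 0

open Classical in
/-- The constant of the minorant. -/
def cD (D : ℕ → Prop) : ℝ := if D 1 then 1 / 2 else 1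

theorem cD_nonneg (D : ℕ → Prop) : 0 ≤ cD D := by unfold cD; split_ifs <;> norm_num

theorem cl_nonneg {q : ℝ} (hq : 0 ≤ q) (j : ℕ) : 0 ≤ cl q j := by
  unfold cl; split_ifs <;> positivity

theorem dl_zero (q : ℝ) (D : ℕ → Prop) : dl q D 0 = 0 := by simp [dl, cl]

theorem dl_nonneg {q : ℝ} (hq : 0 ≤ q) (D : ℕ → Prop) (j : ℕ) : 0 ≤ dl q D j := by
  have := cl_nonneg hq j
  unfold dl; split_ifs <;> positivity

theorem sum_inv_sq_le (S : Finset ℕ) : ∑ j ∈ S, (1 / (4 * (j : ℝ) ^ 2)) ≤ 1 / 2 := by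
  have h : ∀ n : ℕ, ∑ j ∈ range (n + 2), (1 / (4 * (j : ℝ) ^ 2)) ≤ 1 / 2 - 1 / (4 * (n + 1 : ℝ)) := by
    intro n
    induction n with
    | zero => norm_num [sum_range_succ]
    | succ n ih =>
      rw [show n + 1 + 2 = n + 2 + 1 from rfl, sum_range_succ]
      have hn : (0 : ℝ) ≤ n := Nat.cast_nonneg n
      have : 1 / (4 * ((n + 2 : ℕ) : ℝ) ^ 2) ≤
          1 / (4 * (n + 1 : ℝ)) - 1 / (4 * ((n + 1 : ℕ) + 1 : ℝ)) := by
        push_cast
        rw [div_sub_div _ _ (by positivity) (by positivity), div_le_div_iff₀ (by positivity)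
          (by positivity)]
        nlinarith
      linarith
  have h2 : S ⊆ range (S.sup id + 2) := fun j hj =>
    mem_range.2 (by have := le_sup (f := id) hj; simp only [id] at this; omega)
  have h3 := sum_le_sum_of_subset_of_nonneg (f := fun j : ℕ => 1 / (4 * (j : ℝ) ^ 2)) h2
    fun _ _ _ => by positivity
  have h4 := h (S.sup id)
  have h5 : (0 : ℝ) ≤ 1 / (4 * ((S.sup id : ℕ) + 1 : ℝ)) := by positivity
  linarith

namespace LocOK

variable {q : ℝ} {D : ℕ → Prop} {m : ℕ → ℕ → ℂ}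

theorem mono (h : LocOK q D m) {i j : ℕ} (hij : i ≤ j) (hj : D j) : D i := by
  induction j, hij using Nat.le_induction with
  | base => exact hj
  | succ j _ ih => exact ih (h.anti j hj)

theorem pos (h : LocOK q D m) : 0 < q := lt_of_lt_of_le two_pos h.two_le

theorem herm_sub (h : LocOK q D m) (j j' : ℕ) :
    m j' j + Dl q D j' j - (cD D : ℂ) * (ul D m j' * conj (ul D m j)) =
      conj (m j j' + Dl q D j j' - (cD D : ℂ) * (ul D m j * conj (ul D m j'))) := by
  simp only [map_sub, map_add, map_mul, Complex.conj_conj, Complex.conj_ofReal, h.herm j j']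
  have : conj (Dl q D j j') = Dl q D j' j := by
    unfold Dl
    by_cases e : j = j'
    · subst e; simp
    · simp [e, Ne.symm e]
  rw [this]; ring

open Classical in
/-- The weights for the case `p ∣ a`. -/
def wt (q : ℝ) (D : ℕ → Prop) (j j' : ℕ) : ℝ :=
  if D (j + j' - 1) then
    (if j < j' then q ^ j * (1 / (4 * (j' : ℝ) ^ 2))
      else 4 * (j : ℝ) ^ 2 * q ^ j * (if 6 ≤ j then 1 else q⁻¹)) else 0

theorem wt_nonneg (h : LocOK q D m) (j j' : ℕ) : 0 ≤ wt q D j j' := by
  have := h.pos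
  unfold wt; split_ifs <;> positivity

theorem off_le (h : LocOK q D m) {j j' : ℕ} (hj : j < j') :
    ‖m j j'‖ ^ 2 ≤ wt q D j j' * wt q D j' j := by
  refine (h.off j j' hj).trans (le_of_eq ?_)
  have hj' : (0 : ℝ) < j' := by exact_mod_cast (show 0 < j' by omega)
  unfold wt
  rw [add_comm j' j]
  by_cases hD : D (j + j' - 1)
  · simp only [if_pos hD, if_pos hj, if_neg (not_lt.2 hj.le), pow_add]
    field_simp
  · simp [hD]

open Classical in
theorem row_le (h : LocOK q D m) (j : ℕ) (S : Finset ℕ) (hj : j ∉ S) :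
    ∑ j' ∈ S, wt q D j j' ≤ (if D (2 * j) then q ^ j / 2 else 0) +
      (if D (j - 1) then 4 * (j : ℝ) ^ 3 * q ^ j * (if 6 ≤ j then 1 else q⁻¹) else 0) := by
  have hq := h.pos
  rw [← sum_filter_add_sum_filter_not S (fun j' => j < j')]
  refine add_le_add ?_ ?_
  · split_ifs with hD
    · calc _ ≤ ∑ j' ∈ S.filter (fun j' => j < j'), q ^ j * (1 / (4 * (j' : ℝ) ^ 2)) := by
            refine sum_le_sum fun j' hj' => ?_
            unfold wt
            rw [if_pos (mem_filter.1 hj').2]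
            split_ifs
            · exact le_rfl
            · positivity
        _ ≤ q ^ j * (1 / 2) := by
            rw [← mul_sum]
            exact mul_le_mul_of_nonneg_left (sum_inv_sq_le _) (by positivity)
        _ = _ := by ring
    · refine le_of_eq (sum_eq_zero fun j' hj' => ?_)
      have := (mem_filter.1 hj').2
      unfold wt
      rw [if_neg fun hc => hD (h.mono (by omega) hc)]
  · have hc : (S.filter fun j' => ¬ j < j').card ≤ j := by
      calc _ ≤ (range j).card := card_le_card fun j' hj' => by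
            have h1 := mem_filter.1 hj'
            have : j' ≠ j := fun e => hj (e ▸ h1.1)
            exact mem_range.2 (by omega)
        _ = j := card_range j
    by_cases hD : D (j - 1)
    · rw [if_pos hD]
      set c : ℝ := if 6 ≤ j then 1 else q⁻¹ with hcdef
      have hc0 : 0 ≤ c := by rw [hcdef]; split_ifs <;> positivity
      calc _ ≤ (S.filter fun j' => ¬ j < j').card • (4 * (j : ℝ) ^ 2 * q ^ j * c) := by
            refine sum_le_card_nsmul _ _ _ fun j' hj' => ?_
            unfold wt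
            rw [if_neg (mem_filter.1 hj').2, ← hcdef]
            split_ifs
            · exact le_rfl
            · positivity
        _ ≤ (j : ℝ) * (4 * (j : ℝ) ^ 2 * q ^ j * c) := by
            rw [nsmul_eq_mul]
            exact mul_le_mul_of_nonneg_right (by exact_mod_cast hc) (by positivity)
        _ = _ := by ring
    · rw [if_neg hD]
      refine le_of_eq (sum_eq_zero fun j' _ => ?_)
      unfold wt
      rw [if_neg fun hc => hD (h.mono (by omega) hc)]

/-- **Local lemma.** -/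
theorem pk_sub (h : LocOK q D m) :
    PK fun j j' => m j j' + Dl q D j j' - (cD D : ℂ) * (ul D m j * conj (ul D m j')) := by
  classical
  have hq := h.pos
  have hq2 := h.two_le
  by_cases h1 : D 1
  · refine pk_of_dom (fun j j' => h.herm_sub j j') (wt q D) h.wt_nonneg (fun j j' hjj => ?_)
      fun j S hj => ?_
    · have e : ul D m j * conj (ul D m j') = 0 := by
        unfold ul
        by_cases a : j = 0
        · have b : j' ≠ 0 := fun b => hjj (a.trans b.symm)
          simp [b, h1]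
        · simp [a, h1]
      rw [e, mul_zero, sub_zero, Dl, if_neg hjj, add_zero]
      rcases lt_or_gt_of_ne hjj with a | a
      · exact h.off_le a
      · rw [h.herm j' j, Complex.norm_conj, mul_comm]; exact h.off_le a
    · refine (h.row_le j S hj).trans ?_
      rcases Nat.eq_zero_or_pos j with rfl | hj0
      · simp [h.m00, Dl, dl_zero, cD, h1, ul, h.zero]
        norm_num
      · have e : ul D m j = 0 := by simp [ul, hj0.ne', h1]
        have hd := h.diag j hj0
        simp only [e, zero_mul, mul_zero, sub_zero, Dl, if_true, Complex.add_re,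
          Complex.ofReal_re]
        have hj1 : (1 : ℝ) ≤ j := by exact_mod_cast hj0
        have hj3 : (1 : ℝ) ≤ (j : ℝ) ^ 3 := one_le_pow₀ hj1
        have hp : q ^ j = q ^ (j - 1) * q := by
          rw [← pow_succ]; congr 1; omega
        have hp0 : 0 < q ^ (j - 1) := by positivity
        have key : (if D (j - 1) then 4 * (j : ℝ) ^ 3 * q ^ j * (if 6 ≤ j then 1 else q⁻¹) else 0) +
            (if D (j - 1) then q ^ (j - 1) else 0) ≤ dl q D j := by
          unfold dl cl
          by_cases hD : D (j - 1)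
          · simp only [if_pos hD]
            rw [hp]
            split_ifs
            · nlinarith [mul_le_mul_of_nonneg_left (show 1 ≤ (j : ℝ) ^ 3 * q by nlinarith) hp0.le]
            · have : 4 * (j : ℝ) ^ 3 * (q ^ (j - 1) * q) * q⁻¹ = 4 * (j : ℝ) ^ 3 * q ^ (j - 1) := by
                field_simp
              rw [this]
              nlinarith [mul_le_mul_of_nonneg_left hj3 hp0.le]
          · simp [hD]
        by_cases a : D (2 * j)
        · rw [if_pos a] at hd ⊢
          have : (0 : ℝ) ≤ if D (j - 1) then q ^ (j - 1) else 0 := by split_ifs <;> positivity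
          linarith
        · rw [if_neg a] at hd ⊢
          by_cases b : D (2 * j - 1)
          · rw [if_pos b] at hd
            simp only [if_pos (h.mono (show j - 1 ≤ 2 * j - 1 by omega) b)] at key ⊢
            linarith
          · rw [if_neg b] at hd
            have : (0 : ℝ) ≤ if D (j - 1) then q ^ (j - 1) else 0 := by split_ifs <;> positivity
            linarith
  · have hc : cD D = 1 := by simp [cD, h1]
    have hD : ∀ i, 1 ≤ i → ¬ D i := fun i hi hc => h1 (h.mono hi hc)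
    have hoff : ∀ j j', j < j' → 2 ≤ j + j' → m j j' = 0 := by
      intro j j' a b
      have := h.off j j' a
      rw [if_neg (hD _ (by omega))] at this
      exact norm_eq_zero.1 (pow_eq_zero_iff two_ne_zero |>.1 (le_antisymm this (by positivity)))
    have main : ∀ j j', j < j' →
        m j j' + Dl q D j j' - (cD D : ℂ) * (ul D m j * conj (ul D m j')) = 0 := by
      intro j j' a
      rw [Dl, if_neg a.ne, hc]
      by_cases b : 2 ≤ j + j'
      · have c : ul D m j * conj (ul D m j') = 0 := by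
          by_cases c : j' = 1
          · omega
          · simp [ul, c, show j' ≠ 0 by omega]
        rw [hoff j j' a b, c]; simp
      · obtain rfl : j = 0 := by omega
        obtain rfl : j' = 1 := by omega
        simp [ul, h1, h.herm 1 0]
    refine pk_of_dom (fun j j' => h.herm_sub j j') (fun _ _ => 0) (fun _ _ => le_rfl)
      (fun j j' hjj => ?_) fun j S _ => ?_
    · rcases lt_or_gt_of_ne hjj with a | a
      · rw [main j j' a]; simp
      · rw [h.herm_sub j' j, main j' j a]; simp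
    · simp only [sum_const_zero]
      rcases Nat.eq_zero_or_pos j with rfl | hj0
      · simp [h.m00, Dl, dl_zero, hc, ul]
      · have hd := h.diag j hj0
        rw [if_neg (hD _ (by omega)), if_neg (hD _ (by omega))] at hd
        simp only [Dl, if_true, hc, Complex.ofReal_one, one_mul, Complex.sub_re, Complex.add_re,
          Complex.ofReal_re, Complex.mul_conj, Complex.normSq_eq_norm_sq]
        by_cases a : j = 1
        · subst a
          have b := h.off 0 1 one_pos
          simp only [zero_add, tsub_self, h.zero, if_true, pow_one, show ¬ 6 ≤ 1 by norm_num,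
            if_false, mul_inv_cancel₀ hq.ne'] at b
          rw [h.herm 1 0, Complex.norm_conj] at b
          have c : ul D m 1 = m 1 0 := by simp [ul, h1]
          have d : dl q D 1 = 5 := by simp [dl, cl, h.zero]
          rw [c, d]
          linarith
        · have c : ul D m j = 0 := by simp [ul, a, hj0.ne']
          have := dl_nonneg hq.le D j
          rw [c]
          simp only [norm_zero, ne_eq, OfNat.ofNat_ne_zero, not_false_eq_true, zero_pow, sub_zero]
          linarith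

end LocOK

/-- **Tensor domination**, expanded over the set `T` of primes where the diagonal is used. -/
theorem tensor_dom {ι X : Type*} [DecidableEq ι] (P : Finset ι) (q : ι → ℝ) (D : ι → ℕ → Prop)
    (m : ι → ℕ → ℕ → ℂ) (h : ∀ p ∈ P, LocOK (q p) (D p) (m p)) (v : ι → X → ℕ)
    (S : Finset X) (t : X → ℂ) :
    (∏ p ∈ P, cD (D p)) * ‖∑ x ∈ S, t x * ∏ p ∈ P, ul (D p) (m p) (v p x)‖ ^ 2 ≤
      (∑ x ∈ S, ∑ y ∈ S, t x * conj (t y) * ∑ T ∈ P.powerset,
        (∏ p ∈ T, Dl (q p) (D p) (v p x) (v p y)) * ∏ p ∈ P \ T, m p (v p x) (v p y)).re := by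
  have h1 := (pk_prod_sub P
    (fun p x y => (cD (D p) : ℂ) * (ul (D p) (m p) (v p x) * conj (ul (D p) (m p) (v p y))))
    (fun p x y => m p (v p x) (v p y) + Dl (q p) (D p) (v p x) (v p y))
    (fun p _ => pk_rank_one (cD_nonneg _) fun x => ul (D p) (m p) (v p x))
    (fun p hp => (h p hp).pk_sub.comp (v p))).2.2 S t
  rw [← form_rank_one]
  simp only [mul_sub, sum_sub_distrib, Complex.sub_re, sub_nonneg] at h1
  convert h1 using 5 with x _ y _ x _ y _
  · rw [prod_mul_distrib, prod_mul_distrib, Complex.ofReal_prod, map_prod]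
  · simp only [add_comm (m _ _ _)]
    rw [prod_add]

end Crest.Agent.T27.Psd
end
end

-- ▼ part T27/PsdB_62
section

/-!
# Row 27, core leaf P1 (part B): the pointwise domination `psd_dom` on the frame
-/

set_option autoImplicit false

noncomputable section

namespace Crest.Agent.T27

open scoped ComplexConjugate
open Finset Psd

variable [Fr]

namespace Psd

/-- `G` is a unitary divisor of `x`. -/
def UD (G x : O) : Prop := ∀ p ∈ pf G, vp p x = vp p G

open Classical in
/-- The primes of norm at most `Y`. -/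
def primesY (Y : ℕ) : Finset O := (pball Y).filter Prime

theorem mem_primesY {Y : ℕ} {p : O} (h : p ∈ primesY Y) : Prime p ∧ Primary p := by
  classical
  rw [primesY, mem_filter, mem_pball] at h
  exact ⟨h.2, h.1.1⟩

theorem pf_subset {Y : ℕ} {n : O} (hn : n ∈ pball Y) : pf n ⊆ primesY Y := by
  classical
  intro p hp
  obtain ⟨h1, h2⟩ := mem_pball.1 hn
  obtain ⟨a1, a2, a3⟩ := BasicB.of_mem_pf hp
  rw [primesY, mem_filter, mem_pball]
  exact ⟨⟨a2, (nm_le_of_dvd a3 h1.ne_zero).trans h2⟩, a1⟩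

theorem vp_eq_zero_of_notMem {n p : O} (hn : n ≠ 0) (hp : Prime p ∧ Primary p) (h : p ∉ pf n) :
    vp p n = 0 := by
  by_contra hc
  exact h ((BasicB.mem_pf_iff hn hp.1 hp.2).2 hc)

theorem UD.dvd {G x : O} (h : UD G x) (hG : Primary G) (hx : x ≠ 0) : G ∣ x :=
  (hG.dvd_iff_vp hx).2 fun p hp => (h p hp).ge

theorem eG_dvd_iff (G a : O) : eG G ∣ a ↔ ∀ p ∈ pf G, p ^ (vp p G - 1) ∣ a := by
  refine ⟨fun h p hp => (dvd_prod_of_mem (fun p => p ^ (vp p G - 1)) hp).trans h, fun h => ?_⟩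
  refine prod_dvd_of_coprime (fun p hp p' hp' hne => ?_) h
  obtain ⟨a1, a2⟩ := BasicB.pf_sub (mem_coe.1 hp)
  obtain ⟨b1, b2⟩ := BasicB.pf_sub (mem_coe.1 hp')
  refine IsCoprime.pow ?_
  exact a1.irreducible.coprime_iff_not_dvd.2 fun hd => hne (BasicB.eq_of_dvd a1 b1 a2 b2 hd)

open Classical in
theorem prod_dl (G a : O) :
    ∏ p ∈ pf G, dl (nr p) (fun j => p ^ j ∣ a) (vp p G) =
      if eG G ∣ a then nr (eG G) * cG G else 0 := by
  split_ifs with h
  · rw [eG_dvd_iff] at h
    have e : nr (eG G) = ∏ p ∈ pf G, nr p ^ (vp p G - 1) := by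
      simp only [eG, nr, nm_prod, nm_pow, Nat.cast_prod, Nat.cast_pow]
    rw [e, cG, ← prod_mul_distrib]
    refine prod_congr rfl fun p hp => ?_
    simp only [dl, cl, if_pos (h p hp)]
  · rw [eG_dvd_iff] at h
    push Not at h
    obtain ⟨p, hp, h⟩ := h
    exact prod_eq_zero hp (by simp only [dl, if_neg h])

open Classical in
/-- Expansion over the unitary common divisors. -/
theorem sum_powerset {Y : ℕ} {x y : O} (hx : x ∈ pball Y) (a : O) (f : O → ℂ) :
    ∑ T ∈ (primesY Y).powerset,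
        (∏ p ∈ T, Dl (nr p) (fun j => p ^ j ∣ a) (vp p x) (vp p y)) * ∏ p ∈ primesY Y \ T, f p =
      ∑ G ∈ pball Y, if UD G x ∧ UD G y then
        ((if eG G ∣ a then nr (eG G) * cG G else 0 : ℝ) : ℂ) * ∏ p ∈ primesY Y \ pf G, f p
        else 0 := by
  obtain ⟨hx1, hx2⟩ := mem_pball.1 hx
  rw [← sum_filter]
  symm
  refine sum_of_injOn pf (fun G hG G' hG' e => ?_) (fun G hG => ?_) (fun T hT hT' => ?_)
    fun G hG => ?_
  · obtain ⟨a1, a2, -⟩ := mem_filter.1 (mem_coe.1 hG)
    obtain ⟨b1, b2, -⟩ := mem_filter.1 (mem_coe.1 hG')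
    rw [(mem_pball.1 a1).1.eq_prod, (mem_pball.1 b1).1.eq_prod, ← e]
    refine prod_congr rfl fun p hp => ?_
    rw [← a2 p hp, b2 p (e ▸ hp)]
  · exact mem_powerset.2 (pf_subset (mem_filter.1 hG).1)
  · by_contra hc
    have h0 := prod_ne_zero_iff.1 (left_ne_zero_of_mul hc)
    have hTp : ∀ p ∈ T, Prime p ∧ Primary p := fun p hp => mem_primesY (mem_powerset.1 hT hp)
    have h1 : ∀ p ∈ T, vp p x = vp p y ∧ vp p x ≠ 0 := by
      intro p hp
      have := h0 p hp
      unfold Dl at this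
      split_ifs at this with e
      · refine ⟨e, fun e0 => this ?_⟩
        rw [e0, dl_zero, Complex.ofReal_zero]
      · exact absurd rfl this
    have hG := BasicB.primary_prod_pow hTp fun p => vp p x
    have hpf : pf (∏ p ∈ T, p ^ vp p x) = T := by
      ext p
      constructor
      · intro hp
        have a1 := BasicB.pf_sub hp
        have a2 := BasicB.vp_ne_zero hp
        rw [vp_prod_pow hTp _ a1.1 a1.2] at a2
        by_contra hc'
        exact a2 (if_neg hc')
      · intro hp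
        rw [BasicB.mem_pf_iff hG.ne_zero (hTp p hp).1 (hTp p hp).2,
          vp_prod_pow hTp _ (hTp p hp).1 (hTp p hp).2, if_pos hp]
        exact (h1 p hp).2
    have hU : UD (∏ p ∈ T, p ^ vp p x) x := by
      intro p hp
      rw [hpf] at hp
      rw [vp_prod_pow hTp _ (hTp p hp).1 (hTp p hp).2, if_pos hp]
    refine hT' ⟨_, mem_coe.2 (mem_filter.2 ⟨mem_pball.2 ⟨hG, ?_⟩, hU, fun p hp => ?_⟩), hpf⟩
    · exact (nm_le_of_dvd (hU.dvd hG hx1.ne_zero) hx1.ne_zero).trans hx2
    · rw [← hU p hp, (h1 p (hpf ▸ hp)).1]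
  · obtain ⟨-, a2, a3⟩ := mem_filter.1 hG
    rw [← prod_dl, Complex.ofReal_prod]
    congr 1
    refine prod_congr rfl fun p hp => ?_
    rw [a2 p hp, a3 p hp, Dl, if_pos rfl]

theorem mem_cofS {κ : WithZero Cl} {Y : ℕ} {G k : O} : k ∈ cofS κ Y G ↔
    k ∈ pball Y ∧ IsCoprime k G ∧ nm (G * k) ≤ Y ∧ cls (G * k) = κ := by
  simp only [cofS, mem_filter]

open Classical in
theorem filter_UD {κ : WithZero Cl} {Y : ℕ} {S : Finset O}
    (hS : ∀ n, n ∈ S ↔ n ∈ pball Y ∧ cls n = κ) {G : O} (hG : Primary G) :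
    S.filter (UD G) = (cofS κ Y G).image (G * ·) := by
  ext n
  simp only [mem_filter, mem_image, mem_cofS, mem_pball, hS]
  constructor
  · rintro ⟨⟨⟨h1, h2⟩, h3⟩, h4⟩
    obtain ⟨k, rfl⟩ := h4.dvd hG h1.ne_zero
    have hk := hG.of_mul h1
    refine ⟨k, ⟨⟨hk, (nm_le_of_dvd (dvd_mul_left k G) h1.ne_zero).trans h2⟩, ?_, h2, h3⟩, rfl⟩
    refine isCoprime_of_disjoint_pf hk hG.ne_zero (disjoint_left.2 fun p hp hp' => ?_)
    have := h4 p hp'
    rw [vp_mul (BasicB.pf_sub hp).1 hG.ne_zero hk.ne_zero] at this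
    exact BasicB.vp_ne_zero hp (by omega)
  · rintro ⟨k, ⟨⟨hk, -⟩, h1, h2, h3⟩, rfl⟩
    refine ⟨⟨⟨hG.mul hk, h2⟩, h3⟩, fun p hp => ?_⟩
    rw [vp_mul (BasicB.pf_sub hp).1 hG.ne_zero hk.ne_zero,
      vp_eq_zero_of_notMem hk.ne_zero (BasicB.pf_sub hp)
        (disjoint_right.1 (disjoint_pf h1) hp), add_zero]

theorem prod_cof {κ : WithZero Cl} {Y : ℕ} {G k₁ k₂ : O} (hG : Primary G) (h₁ : k₁ ∈ cofS κ Y G)
    (h₂ : k₂ ∈ cofS κ Y G) (m : O → ℕ → ℕ → ℂ) (hm : ∀ p, Prime p → Primary p → m p 0 0 = 1) :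
    ∏ p ∈ primesY Y \ pf G, m p (vp p (G * k₁)) (vp p (G * k₂)) =
      ∏ p ∈ pf (k₁ * k₂), m p (vp p k₁) (vp p k₂) := by
  classical
  rw [mem_cofS] at h₁ h₂
  have a1 := (mem_pball.1 h₁.1).1.ne_zero
  have a2 := (mem_pball.1 h₂.1).1.ne_zero
  have e : ∏ p ∈ primesY Y \ pf G, m p (vp p (G * k₁)) (vp p (G * k₂)) =
      ∏ p ∈ primesY Y \ pf G, m p (vp p k₁) (vp p k₂) := by
    refine prod_congr rfl fun p hp => ?_
    obtain ⟨b1, b2⟩ := mem_sdiff.1 hp
    have b3 := mem_primesY b1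
    rw [vp_mul b3.1 hG.ne_zero a1, vp_mul b3.1 hG.ne_zero a2,
      vp_eq_zero_of_notMem hG.ne_zero b3 b2, zero_add, zero_add]
  rw [e, pf_mul a1 a2]
  symm
  refine prod_subset (fun p hp => mem_sdiff.2 ?_) fun p hp hp' => ?_
  · rcases mem_union.1 hp with h | h
    · exact ⟨pf_subset h₁.1 h, disjoint_left.1 (disjoint_pf h₁.2.1) h⟩
    · exact ⟨pf_subset h₂.1 h, disjoint_left.1 (disjoint_pf h₂.2.1) h⟩
  · have b3 := mem_primesY (mem_sdiff.1 hp).1
    rw [mem_union, not_or] at hp'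
    rw [vp_eq_zero_of_notMem a1 b3 hp'.1, vp_eq_zero_of_notMem a2 b3 hp'.2, hm p b3.1 b3.2]

open Classical in
theorem prod_ul {Y : ℕ} {n a : O} (hn : n ∈ pball Y) (ha : a ≠ 0) (m : O → ℕ → ℕ → ℂ) :
    ∏ p ∈ primesY Y, ul (fun j => p ^ j ∣ a) (m p) (vp p n) =
      if Squarefree n ∧ IsCoprime n a then ∏ p ∈ pf n, m p 1 0 else 0 := by
  have h1 := (mem_pball.1 hn).1
  rw [← prod_subset (pf_subset hn) fun p hp hp' => by
    rw [vp_eq_zero_of_notMem h1.ne_zero (mem_primesY hp) hp', ul, if_pos rfl]]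
  split_ifs with h
  · refine prod_congr rfl fun p hp => ?_
    have a1 := h1.squarefree_iff.1 h.1 p hp
    have a2 : ¬ p ^ 1 ∣ a := fun hd => disjoint_left.1 (disjoint_pf h.2) hp
      ((mem_pf ha).2 ⟨(BasicB.pf_sub hp).1, (BasicB.pf_sub hp).2, by rwa [pow_one] at hd⟩)
    rw [a1, ul, if_neg one_ne_zero, if_pos ⟨rfl, a2⟩]
  · by_contra hc
    have h0 := prod_ne_zero_iff.1 hc
    have h2 : ∀ p ∈ pf n, vp p n = 1 ∧ ¬ p ^ 1 ∣ a := by
      intro p hp
      have := h0 p hp
      rw [ul, if_neg (BasicB.vp_ne_zero hp)] at this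
      by_contra hc'
      exact this (if_neg hc')
    refine h ⟨h1.squarefree_iff.2 fun p hp => (h2 p hp).1,
      isCoprime_of_disjoint_pf h1 ha (disjoint_left.2 fun p hp hp' => (h2 p hp).2 ?_)⟩
    rw [pow_one]
    exact (BasicB.of_mem_pf hp').2.2

theorem le_prod_cD (Y : ℕ) {a : O} (ha : a ≠ 0) :
    (1 / 2 : ℝ) ^ (pf a).card ≤ ∏ p ∈ primesY Y, cD (fun j => p ^ j ∣ a) := by
  classical
  simp only [cD]
  rw [prod_ite, prod_const, prod_const_one, mul_one]
  refine pow_le_pow_of_le_one (by norm_num) (by norm_num) (card_le_card fun p hp => ?_)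
  obtain ⟨h1, h2⟩ := mem_filter.1 hp
  rw [pow_one] at h2
  exact (mem_pf ha).2 ⟨(mem_primesY h1).1, (mem_primesY h1).2, h2⟩

end Psd

open Classical in
/-- **Pointwise PSD domination** for abstract local kernels `m p`. -/
theorem psd_dom (a : O) (m : O → ℕ → ℕ → ℂ)
    (hm : ∀ p, Prime p → Primary p → LocOK (nr p) (fun j => p ^ j ∣ a) (m p))
    (κ : WithZero Cl) (Y : ℕ) (S : Finset O) (hS : ∀ n, n ∈ S ↔ n ∈ pball Y ∧ cls n = κ)
    (t : O → ℂ) :
    (if a = 0 then 0 else (1 / 2 : ℝ) ^ (pf a).card) *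
        ‖∑ n ∈ S, if Squarefree n ∧ IsCoprime n a then t n * ∏ p ∈ pf n, m p 1 0 else 0‖ ^ 2 ≤
      ∑ G ∈ pball Y, (if eG G ∣ a then nr (eG G) * cG G else 0) *
        (∑ k₁ ∈ cofS κ Y G, ∑ k₂ ∈ cofS κ Y G, t (G * k₁) * conj (t (G * k₂)) *
          ∏ p ∈ pf (k₁ * k₂), m p (vp p k₁) (vp p k₂)).re := by
  have h := tensor_dom (primesY Y) nr (fun p j => p ^ j ∣ a) m
    (fun p hp => hm p (mem_primesY hp).1 (mem_primesY hp).2) vp S t
  refine le_trans ?_ (h.trans (le_of_eq ?_))
  · split_ifs with ha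
    · rw [zero_mul]
      exact mul_nonneg (prod_nonneg fun _ _ => cD_nonneg _) (by positivity)
    · refine mul_le_mul (le_prod_cD Y ha) (le_of_eq ?_) (by positivity)
        (prod_nonneg fun _ _ => cD_nonneg _)
      congr 2
      refine sum_congr rfl fun n hn => ?_
      rw [prod_ul ((hS n).1 hn).1 ha, mul_ite, mul_zero]
  · simp only [← Complex.re_ofReal_mul]
    rw [← Complex.re_sum]
    congr 1
    have e1 : ∀ x ∈ S, ∀ y ∈ S, t x * conj (t y) * ∑ T ∈ (primesY Y).powerset,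
        (∏ p ∈ T, Dl (nr p) (fun j => p ^ j ∣ a) (vp p x) (vp p y)) *
          ∏ p ∈ primesY Y \ T, m p (vp p x) (vp p y) =
        ∑ G ∈ pball Y, ((if eG G ∣ a then nr (eG G) * cG G else 0 : ℝ) : ℂ) *
          if UD G x then (if UD G y then t x * conj (t y) *
            ∏ p ∈ primesY Y \ pf G, m p (vp p x) (vp p y) else 0) else 0 := by
      intro x hx y _
      rw [sum_powerset ((hS x).1 hx).1, mul_sum]
      refine sum_congr rfl fun G _ => ?_
      by_cases h1 : UD G x <;> by_cases h2 : UD G y <;> simp only [h1, h2, and_self, and_false,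
        false_and, if_true, if_false, mul_zero]
      ring
    rw [sum_congr rfl fun x hx => sum_congr rfl fun y hy => e1 x hx y hy]
    simp only [sum_comm (s := S) (t := pball Y), ← mul_sum]
    refine sum_congr rfl fun G hG => ?_
    have hG1 := (mem_pball.1 hG).1
    congr 1
    simp only [sum_ite_irrel, sum_const_zero, ← sum_filter]
    have hinj : Set.InjOn (G * ·) (cofS κ Y G : Set O) := fun _ _ _ _ e =>
      mul_left_cancel₀ hG1.ne_zero e
    rw [filter_UD hS hG1, sum_image hinj]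
    refine sum_congr rfl fun k₁ h₁ => ?_
    rw [sum_image hinj]
    refine sum_congr rfl fun k₂ h₂ => ?_
    rw [prod_cof hG1 h₁ h₂ m fun p a1 a2 => (hm p a1 a2).m00]

end Crest.Agent.T27
end
end

-- ▼ part T27/DomA_91

/-!
# Row 27, PSD core, part P2 (helper91): the local kernels and the factorisation of `MK`
-/

set_option autoImplicit false

noncomputable section

namespace Crest.Agent.T27

open scoped ComplexConjugate

namespace Dom

section loc

variable [Fr0]

theorem po {n : O} (hn : Primary n) : PO n := ⟨hn, hn.ne_zero⟩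

omit [Fr0] in
theorem conj_mul_self {z : ℂ} (h : ‖z‖ = 1) : conj z * z = 1 := by
  rw [Complex.conj_mul', h]; simp

/-- the local character `χ_p^j · conj χ_p^{j'}` -/
def fl (p : O) (j j' : ℕ) (x : O) : ℂ := sym p x ^ j * conj (sym p x ^ j')

/-- the local kernel -/
def mloc (a p : O) (j j' : ℕ) : ℂ :=
  sym p (-1) ^ (j' + j * j') * ft (p ^ (j + j')) (fl p j j') a / (Real.sqrt (nr p) : ℂ) ^ (j + j')

theorem fl_per (p : O) (j j' : ℕ) (x y : O) (h : p ∣ x - y) : fl p j j' x = fl p j j' y := by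
  unfold fl
  rw [sym_congr ((rad_dvd p).trans h)]

theorem fl_per' (p : O) (j j' : ℕ) (x y : O) (h : p ^ (j + j') ∣ x - y) :
    fl p j j' x = fl p j j' y := by
  rcases Nat.eq_zero_or_pos (j + j') with h0 | h0
  · obtain ⟨rfl, rfl⟩ : j = 0 ∧ j' = 0 := by omega
    simp [fl]
  · exact fl_per p j j' x y ((dvd_pow_self p h0.ne').trans h)

theorem fl_mul {p : O} (hp : Primary p) (j j' : ℕ) (x y : O) :
    fl p j j' (x * y) = fl p j j' x * fl p j j' y := by
  unfold fl
  rw [sym_mul_right (po hp), mul_pow, mul_pow, map_mul]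
  ring

theorem ft_one (f : O → ℂ) (hf : ∀ x, f x = 1) (a : O) : ft 1 f a = 1 := by
  unfold ft
  simp only [hf, one_mul]
  simpa using sum_res_eq_char one_ne_zero a

theorem mloc_zero (a p : O) : mloc a p 0 0 = 1 := by
  simp [mloc, ft_one (fl p 0 0) (fun x => by simp [fl])]

theorem conj_neg_one {p : O} (hp : Primary p) : conj (sym p (-1)) = sym p (-1) := by
  have h := Gauss_neg_one (po hp)
  rw [conj_sym hp]
  linear_combination (sym p (-1) ^ 3 + sym p (-1)) * h

theorem neg_one_pow_two_mul {p : O} (hp : Primary p) (n : ℕ) : sym p (-1) ^ (2 * n) = 1 := by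
  rw [pow_mul, Gauss_neg_one (po hp), one_pow]

theorem conj_ft {q : O} (hq : q ≠ 0) (f : O → ℂ) (hf : ∀ x y, q ∣ x - y → f x = f y) (a : O) :
    conj (ft q f a) = ft q (fun x => conj (f (-x))) a := by
  unfold ft
  have h := sum_res_affine hq (fun x => conj (f x * eq (a * x) q)) (fun x y hxy => by
    rw [hf x y hxy, eq_congr (show q ∣ a * x - a * y from mul_sub a x y ▸ hxy.mul_left a)])
    (a := -1) (isCoprime_one_left.neg_left) 0
  rw [map_sum, ← h]
  refine Finset.sum_congr rfl fun x _ => ?_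
  simp only [add_zero, neg_mul, one_mul, map_mul, mul_neg, eq_neg, Complex.conj_conj]

theorem mloc_herm {p : O} (hp : Primary p) (a : O) (j j' : ℕ) :
    mloc a p j' j = conj (mloc a p j j') := by
  unfold mloc
  rw [map_div₀, map_mul, map_pow, map_pow, Complex.conj_ofReal, conj_neg_one hp,
    conj_ft (pow_ne_zero _ hp.ne_zero) _ (fl_per' p j j'), add_comm j' j]
  congr 1
  have e : (fun x => conj (fl p j j' (-x))) = fun x => sym p (-1) ^ (j + j') * fl p j' j x := by
    funext x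
    rw [← neg_one_mul, fl_mul hp, map_mul]
    unfold fl
    simp only [map_mul, map_pow, Complex.conj_conj, conj_neg_one hp]
    ring
  rw [e]
  unfold ft
  simp only [mul_assoc, ← Finset.mul_sum]
  rw [← mul_assoc, ← pow_add, show j' + j * j' + (j + j') = 2 * j' + (j + j' * j) by ring,
    pow_add _ (2 * j'), neg_one_pow_two_mul hp, one_mul]

open Classical in
theorem ft_fl {p : O} (hp : Primary p) (a : O) {j j' i : ℕ} (h : j + j' = i + 1) :
    ft (p ^ (j + j')) (fl p j j') a =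
      if p ^ i ∣ a then (nm p : ℂ) ^ i * gs (j + 5 * j') p (a / p ^ i) else 0 := by
  rw [h]
  refine (Gauss_pow hp.ne_zero (fl_per p j j') i a).trans ?_
  congr 2
  refine Finset.sum_congr rfl fun x _ => ?_
  rw [sym_pow_add_six hp x (by omega), fl, map_pow, conj_sym hp, ← pow_mul, ← pow_add]

theorem two_le_nr {p : O} (hp : Prime p) : 2 ≤ nr p := by
  have := (nm_prime_mod_six' hp).2
  exact_mod_cast (by omega : 2 ≤ nm p)

theorem sqrt_pow_two_mul (p : O) (j : ℕ) :
    (Real.sqrt (nr p) : ℂ) ^ (j + j) = ((nr p ^ j : ℝ) : ℂ) := by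
  rw [← two_mul, pow_mul, ← Complex.ofReal_pow, Real.sq_sqrt (Nat.cast_nonneg _),
    Complex.ofReal_pow]

theorem norm_gs_prime {p : O} (hp : Prime p) (hp' : Primary p) (i : ℕ) (k : O) :
    ‖gs i p k‖ ^ 2 ≤ if 6 ∣ i then nr p ^ 2 else nr p := by
  have h2 := two_le_nr hp
  split_ifs with h
  · refine pow_le_pow_left₀ (norm_nonneg _) ?_ 2
    rw [gs_prime_zero h hp (po hp')]
    split_ifs
    · rw [show (nm p : ℂ) - 1 = ((nr p - 1 : ℝ) : ℂ) by push_cast; ring, Complex.norm_real,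
        Real.norm_of_nonneg (by linarith)]
      linarith
    · simp only [zero_sub, norm_neg, norm_one]; linarith
  · rw [gs_sqfree h (po hp') hp.squarefree, norm_mul, Gauss_norm_gs h (po hp') hp.squarefree,
      mul_pow, Real.sq_sqrt (Nat.cast_nonneg _), Complex.norm_conj, norm_pow]
    exact mul_le_of_le_one_left (Nat.cast_nonneg _)
      (pow_le_one₀ (by positivity) (pow_le_one₀ (norm_nonneg _) (norm_sym_le _ _)))

theorem norm_neg_one {p : O} (hp : Primary p) : ‖sym p (-1)‖ = 1 :=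
  norm_sym hp isCoprime_one_right.neg_right

theorem locOK {p : O} (hp : Prime p) (hp' : Primary p) (a : O) :
    Psd.LocOK (nr p) (fun j => p ^ j ∣ a) (mloc a p) where
  two_le := two_le_nr hp
  zero := by simp
  anti j h := (pow_dvd_pow p j.le_succ).trans h
  herm := mloc_herm hp' a
  m00 := mloc_zero a p
  diag j hj := by
    classical
    have h2 := two_le_nr hp
    obtain ⟨i, rfl⟩ : ∃ i, j = i + 1 := ⟨j - 1, by omega⟩
    have hs : sym p (-1) ^ (i + 1 + (i + 1) * (i + 1)) = 1 := by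
      obtain ⟨c, hc⟩ := Nat.even_mul_succ_self (i + 1)
      rw [show i + 1 + (i + 1) * (i + 1) = 2 * c by linarith, neg_one_pow_two_mul hp']
    have hq : (0 : ℝ) < nr p := by linarith
    rw [mloc, hs, one_mul, ft_fl hp' a (i := 2 * i + 1) (by ring), sqrt_pow_two_mul,
      gs_prime_zero (by omega) hp (po hp'), show 2 * (i + 1) - 1 = 2 * i + 1 by omega,
      Nat.add_sub_cancel]
    by_cases h1 : p ^ (2 * i + 1) ∣ a
    · have e : p ∣ a / p ^ (2 * i + 1) ↔ p ^ (2 * (i + 1)) ∣ a := by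
        obtain ⟨k, rfl⟩ := h1
        have hi := pow_ne_zero (2 * i + 1) hp.ne_zero
        rw [mul_div_cancel_left₀ _ hi, show 2 * (i + 1) = 2 * i + 1 + 1 by ring, pow_succ p (2 * i + 1),
          mul_dvd_mul_iff_left hi]
      rw [if_pos h1, if_pos h1]
      by_cases h3 : p ^ (2 * (i + 1)) ∣ a
      · rw [if_pos h3, if_pos (e.2 h3), show (nm p : ℂ) ^ (2 * i + 1) * ((nm p : ℂ) - 1) /
          ((nr p ^ (i + 1) : ℝ) : ℂ) = ((nr p ^ (2 * i + 1) * (nr p - 1) / nr p ^ (i + 1) : ℝ) : ℂ) by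
            push_cast; ring, Complex.ofReal_re, show nr p ^ (2 * i + 1) * (nr p - 1) / nr p ^ (i + 1) =
            nr p ^ i * (nr p - 1) by field_simp; ring, pow_succ]
        have := pow_pos hq i
        nlinarith
      · rw [if_neg h3, if_neg fun h => h3 (e.1 h), show (nm p : ℂ) ^ (2 * i + 1) * (0 - 1) /
          ((nr p ^ (i + 1) : ℝ) : ℂ) = ((nr p ^ (2 * i + 1) * (0 - 1) / nr p ^ (i + 1) : ℝ) : ℂ) by
            push_cast; ring, Complex.ofReal_re, show nr p ^ (2 * i + 1) * (0 - 1) / nr p ^ (i + 1) =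
            -nr p ^ i by field_simp; ring]
    · rw [if_neg h1, if_neg h1, if_neg fun h => h1 ((pow_dvd_pow p (by omega)).trans h)]
      simp
  off j j' hjj := by
    classical
    have h2 := two_le_nr hp
    have hq : (0 : ℝ) < nr p := by linarith
    obtain ⟨i, hi⟩ : ∃ i, j + j' = i + 1 := ⟨j + j' - 1, by omega⟩
    rw [mloc, ft_fl hp' a hi, hi, Nat.add_sub_cancel]
    by_cases h1 : p ^ i ∣ a
    · rw [if_pos h1, if_pos h1, norm_div, norm_mul, norm_mul, norm_pow, norm_neg_one hp', one_pow,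
        one_mul, norm_pow, norm_pow, Complex.norm_natCast, Complex.norm_real,
        Real.norm_of_nonneg (Real.sqrt_nonneg _), div_pow, mul_pow, ← pow_mul (Real.sqrt _),
        mul_comm (i + 1) 2, pow_mul, Real.sq_sqrt hq.le, div_le_iff₀ (pow_pos hq _)]
      have hb := norm_gs_prime hp hp' (j + 5 * j') (a / p ^ i)
      have hqi := pow_pos hq i
      refine (mul_le_mul_of_nonneg_left hb (by positivity)).trans ?_
      change (nr p ^ i) ^ 2 * _ ≤ _
      by_cases h6 : 6 ∣ j + 5 * j'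
      · rw [if_pos h6, if_pos (by omega)]
        exact le_of_eq (by ring)
      · rw [if_neg h6]
        split_ifs
        · calc _ = (nr p ^ i) ^ 2 * nr p * 1 := by ring
            _ ≤ (nr p ^ i) ^ 2 * nr p * nr p :=
              mul_le_mul_of_nonneg_left (by linarith) (by positivity)
            _ = _ := by ring
        · exact le_of_eq (by field_simp; ring)
    · rw [if_neg h1, if_neg h1]
      simp

/-! ### the twist `λ` -/

/-- `λ(n) = ∏_{p ≠ p'} χ_p(p')^{v_p(n) v_{p'}(n)}` -/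
def lamb (n : O) : ℂ := ∏ p ∈ pf n, sym (p ^ vp p n) (n / p ^ vp p n)

theorem pow_vp_dvd {p n : O} (hp : Prime p) (hn : n ≠ 0) : p ^ vp p n ∣ n :=
  (pow_dvd_iff_le_vp hp hn).2 le_rfl

theorem lamb_aux {G k : O} (hG : Primary G) (hk : Primary k) (h : IsCoprime G k) :
    ∏ p ∈ pf G, sym (p ^ vp p (G * k)) (G * k / p ^ vp p (G * k)) = lamb G * sym G k := by
  rw [lamb, sym_eq_prod G k, ← Finset.prod_mul_distrib]
  refine Finset.prod_congr rfl fun p hp => ?_
  obtain ⟨h1, h2, h3⟩ := BasicB.of_mem_pf hp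
  have hv : vp p (G * k) = vp p G := by
    rw [vp_mul h1 hG.ne_zero hk.ne_zero, (vp_eq_zero_iff h1 hk.ne_zero).2 fun hpk =>
      h1.not_isUnit (h.isUnit_of_dvd' h3 hpk), add_zero]
  have hi := pow_ne_zero (vp p G) h1.ne_zero
  have e : G * k / p ^ vp p G = G / p ^ vp p G * k := by
    obtain ⟨c, hc⟩ := pow_vp_dvd h1 hG.ne_zero
    generalize vp p G = v at *
    rw [hc, mul_assoc, mul_div_cancel_left₀ _ hi, mul_div_cancel_left₀ _ hi]
  rw [hv, e, sym_mul_right (po (h2.pow _)), sym_pow_left h1.ne_zero _ k]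

theorem lamb_mul {G k : O} (hG : Primary G) (hk : Primary k) (h : IsCoprime G k) :
    lamb (G * k) = lamb G * lamb k * (sym G k * sym k G) := by
  have h1 := lamb_aux hG hk h
  have h2 := lamb_aux hk hG h.symm
  rw [mul_comm k G] at h2
  rw [lamb, pf_mul hG.ne_zero hk.ne_zero, Finset.prod_union (disjoint_pf h), h1, h2]
  ring

theorem lamb_one : lamb 1 = 1 := by simp [lamb]

theorem lamb_pow {p : O} (hp : Prime p) (hp' : Primary p) (i : ℕ) : lamb (p ^ i) = 1 := by
  rcases Nat.eq_zero_or_pos i with rfl | hi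
  · simpa using lamb_one
  · have h0 := pow_ne_zero i hp.ne_zero
    rw [lamb, pf_pow hi.ne', pf_prime hp hp', Finset.prod_singleton, vp_pow hp hp.ne_zero,
      vp_self hp, mul_one]
    have : p ^ i / p ^ i = 1 := by
      conv_lhs => rw [← mul_one (p ^ i)]
      rw [mul_one (p ^ i)]
      simpa using mul_div_cancel_left₀ (1 : O) h0
    rw [this, sym_one_right]

theorem norm_lamb {n : O} (hn : Primary n) : ‖lamb n‖ = 1 := by
  rw [lamb, norm_prod]
  refine Finset.prod_eq_one fun p hp => ?_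
  obtain ⟨h1, h2, h3⟩ := BasicB.of_mem_pf hp
  refine norm_sym (h2.pow _) (IsCoprime.pow_left (h1.coprime_iff_not_dvd.2 fun hd => ?_))
  have hi := pow_ne_zero (vp p n) h1.ne_zero
  have e := EuclideanDomain.mul_div_cancel' hi (pow_vp_dvd h1 hn.ne_zero)
  have : p ^ (vp p n + 1) ∣ n := by
    conv_rhs => rw [← e]
    rw [pow_succ]
    exact mul_dvd_mul_left _ hd
  have := (pow_dvd_iff_le_vp h1 hn.ne_zero).1 this
  omega

/-! ### the theta coefficients -/

theorem cub_cube {m d m' d' : O} (hm : Primary m) (hd : Primary d)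
    (h : IsCoprime (m * d ^ 3) (m' * d' ^ 3)) : cub (m * d ^ 3) (m' * d' ^ 3) = cub m m' := by
  have h1 : IsCoprime d (m' * d' ^ 3) :=
    (IsCoprime.pow_left_iff (by norm_num : 0 < 3)).1 h.of_mul_left_right
  have h2 : IsCoprime m d' :=
    (IsCoprime.pow_right_iff (by norm_num : 0 < 3)).1 h.of_mul_left_left.of_mul_right_right
  rw [cub_mul_left hm.ne_zero (pow_ne_zero _ hd.ne_zero), cub_pow_left hd.ne_zero,
    cub_pow_three hd h1, mul_one, cub_mul_right, cub_pow_right, cub_pow_three hm h2, mul_one]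

theorem th_eq {m d : O} (hm : Primary m) (hs : Squarefree m) (hd : Primary d) :
    th (m * d ^ 3) = gc m 1 / (Real.sqrt (nr m) : ℂ) * (Real.sqrt (nr d) : ℂ) *
      conj (arg (m * d ^ 3)) := by
  obtain ⟨h1, h2, h3⟩ := sq1_cu hm hs hd
  rw [th, if_pos ⟨hm.mul (hd.pow 3), h3⟩, h1, h2]

theorem th_zero {m n : O} (hm : Primary m) (hn : Primary n) (h : IsCoprime m n)
    (h2 : ¬ ∀ p ∈ pf m, vp p m % 3 ≠ 2) : th (m * n) = 0 := by
  rw [th, if_neg]
  rintro ⟨-, h3⟩
  refine h2 fun p hp => ?_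
  have hp' := BasicB.of_mem_pf hp
  have := h3 p (by rw [pf_mul hm.ne_zero hn.ne_zero]; exact Finset.mem_union_left _ hp)
  rw [vp_mul hp'.1 hm.ne_zero hn.ne_zero, (vp_eq_zero_iff hp'.1 hn.ne_zero).2 fun hpn =>
    hp'.1.not_isUnit (h.isUnit_of_dvd' hp'.2.2 hpn), add_zero] at this
  exact this

/-- Twisted multiplicativity of the theta coefficients. -/
theorem th_mul {m n : O} (hm : Primary m) (hn : Primary n) (h : IsCoprime m n) :
    th (m * n) = cub m n * cub n m * th m * th n := by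
  by_cases h1 : ∀ p ∈ pf m, vp p m % 3 ≠ 2
  swap
  · rw [th_zero hm hn h h1, show th m = 0 by rw [th, if_neg fun h' => h1 h'.2]]; ring
  by_cases h2 : ∀ p ∈ pf n, vp p n % 3 ≠ 2
  swap
  · rw [mul_comm m n, th_zero hn hm h.symm h2,
      show th n = 0 by rw [th, if_neg fun h' => h2 h'.2]]; ring
  obtain ⟨e₁, hm₁, hs₁, hd₁⟩ := eq_sq1_mul_cu hm h1
  obtain ⟨e₂, hm₂, hs₂, hd₂⟩ := eq_sq1_mul_cu hn h2
  generalize sq1 m = a at e₁ hm₁ hs₁
  generalize cu m = b at e₁ hd₁
  generalize sq1 n = c at e₂ hm₂ hs₂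
  generalize cu n = d at e₂ hd₂
  subst e₁ e₂
  have hac : IsCoprime a c := h.of_mul_left_left.of_mul_right_left
  have e : a * b ^ 3 * (c * d ^ 3) = a * c * (b * d) ^ 3 := by ring
  have ha := arg_mul (a * b ^ 3) (c * d ^ 3)
  rw [cub_cube hm₁ hd₁ h, cub_cube hm₂ hd₂ h.symm, th_eq hm₁ hs₁ hd₁, th_eq hm₂ hs₂ hd₂]
  rw [e] at ha ⊢
  rw [th_eq (hm₁.mul hm₂) ((squarefree_mul_iff).2 ⟨hac.isRelPrime, hs₁, hs₂⟩) (hd₁.mul hd₂), ha,
    gc_mul hm₁ hm₂ hac, nr_mul, nr_mul, Real.sqrt_mul (Nat.cast_nonneg _),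
    Real.sqrt_mul (Nat.cast_nonneg _), map_mul]
  push_cast
  ring

end loc

section glob

variable [Fr]

theorem rs_left {m m' n : O} (hm : m ≠ 0) (hm' : m' ≠ 0) (hn : n ≠ 0) :
    Rs (m * m') n = Rs m n * Rs m' n := Fr.recAx.mul_left m m' n hm hm' hn

theorem rs_anti {m n : O} (hm : m ≠ 0) (hn : n ≠ 0) : Rs m n * Rs n m = 1 :=
  Fr.recAx.anti m n hm hn

theorem rs_right {m n n' : O} (hm : m ≠ 0) (hn : n ≠ 0) (hn' : n' ≠ 0) :
    Rs m (n * n') = Rs m n * Rs m n' := by
  have h1 := rs_anti hm (mul_ne_zero hn hn')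
  have h2 := rs_anti hm hn
  have h3 := rs_anti hm hn'
  rw [rs_left hn hn' hm] at h1
  linear_combination (Rs m n * Rs m n') * h1 - Rs m (n * n') * h2 -
    (Rs m (n * n') * Rs m n * Rs n m) * h3

theorem rs_one_left {n : O} (hn : n ≠ 0) : Rs 1 n = 1 := by
  have h1 := rs_left one_ne_zero one_ne_zero hn
  have h2 := rs_anti one_ne_zero hn
  rw [one_mul] at h1
  linear_combination (1 - Rs 1 n) * h2 - Rs n 1 * h1

theorem rs_one_right {n : O} (hn : n ≠ 0) : Rs n 1 = 1 := by
  have h2 := rs_anti one_ne_zero hn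
  rwa [rs_one_left hn, one_mul] at h2

theorem rs_pow_left {m n : O} (hm : m ≠ 0) (hn : n ≠ 0) (i : ℕ) : Rs (m ^ i) n = Rs m n ^ i := by
  induction i with
  | zero => simp [rs_one_left hn]
  | succ i ih => rw [pow_succ, rs_left (pow_ne_zero i hm) hm hn, ih, pow_succ]

theorem rs_pow_right {m n : O} (hm : m ≠ 0) (hn : n ≠ 0) (i : ℕ) : Rs m (n ^ i) = Rs m n ^ i := by
  induction i with
  | zero => simp [rs_one_right hm]
  | succ i ih => rw [pow_succ, rs_right hm (pow_ne_zero i hn) hn, ih, pow_succ]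

theorem rs_self {n : O} (hn : n ≠ 0) : Rs n n = sym n (-1) := Fr.recAx.self n hn

theorem rs_recip {m n : O} (hm : m ≠ 0) (hn : n ≠ 0) (h : IsCoprime m n) :
    sym m n = Rs m n * sym n m := Fr.recAx.recip m n hm hn h

theorem rs_congr {m m' n n' : O} (h : cls m = cls m') (h' : cls n = cls n') :
    Rs m n = Rs m' n' := Fr.recAx.congr m m' n n' h h'

/-- one step of the Chinese remainder factorisation -/
theorem ft_step {p m₁ m₂ : O} (hp : Prime p) (hp' : Primary p) (h₁ : Primary m₁) (h₂ : Primary m₂)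
    (c₁ : IsCoprime p m₁) (c₂ : IsCoprime p m₂) (i j : ℕ) (a : O) :
    ft (p ^ i * m₁ * (p ^ j * m₂)) (fun x => sym (p ^ i * m₁) x * conj (sym (p ^ j * m₂) x)) a =
      (sym p m₁ * sym m₁ p) ^ i * conj ((sym p m₂ * sym m₂ p) ^ j) * Rs p m₂ ^ i * Rs m₁ p ^ j *
        ft (p ^ (i + j)) (fl p i j) a * ft (m₁ * m₂) (fun x => sym m₁ x * conj (sym m₂ x)) a := by
  have h0 := hp.ne_zero
  have key := Gauss_crt (f := fl p i j) (g := fun x => sym m₁ x * conj (sym m₂ x))
    (pow_ne_zero (i + j) h0) (mul_ne_zero h₁.ne_zero h₂.ne_zero) (c₁.mul_right c₂).pow_left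
    (fl_per' p i j) (fun x y hxy => by
      rw [sym_congr (((rad_dvd m₁).trans (dvd_mul_right _ _)).trans hxy),
        sym_congr (((rad_dvd m₂).trans (dvd_mul_left _ _)).trans hxy)])
    (fl_mul hp' i j) (fun x y => by
      rw [sym_mul_right (po h₁), sym_mul_right (po h₂), map_mul]; ring) a
  have e : (fun x => sym (p ^ i * m₁) x * conj (sym (p ^ j * m₂) x)) =
      fun x => fl p i j x * (sym m₁ x * conj (sym m₂ x)) := by
    funext x
    rw [sym_mul_left (pow_ne_zero i h0) h₁.ne_zero, sym_mul_left (pow_ne_zero j h0) h₂.ne_zero,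
      sym_pow_left h0, sym_pow_left h0, map_mul, fl]
    ring
  rw [e, show p ^ i * m₁ * (p ^ j * m₂) = p ^ (i + j) * (m₁ * m₂) by ring]
  refine key.trans ?_
  change _ * _ * ft _ _ _ * ft _ _ _ = _
  congr 2
  have n1 := conj_mul_self (norm_sym hp' c₁)
  have n2 := conj_mul_self (norm_sym h₂ c₂.symm)
  have r1 := rs_recip h₁.ne_zero h0 c₁.symm
  have r2 := rs_recip h0 h₂.ne_zero c₂
  rw [fl, sym_mul_right (po hp'), sym_pow_right (po h₁), sym_pow_right (po h₂)]
  simp only [map_mul, map_pow, mul_pow, pow_add]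
  calc _ = sym p m₁ ^ i * sym m₁ p ^ i * (conj (sym p m₂) ^ j * conj (sym m₂ p) ^ j) *
        (conj (sym m₂ p) * sym p m₂) ^ i * (conj (sym p m₁) * sym m₁ p) ^ j := by
        simp only [mul_pow]; ring
    _ = _ := by
        have a1 : conj (sym m₂ p) * sym p m₂ = Rs p m₂ := by
          linear_combination conj (sym m₂ p) * r2 + Rs p m₂ * n2
        have a2 : conj (sym p m₁) * sym m₁ p = Rs m₁ p := by
          linear_combination conj (sym p m₁) * r1 + Rs m₁ p * n1
        rw [a1, a2]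

theorem ft_fact (a : O) (s : Finset O) (hs : ∀ q ∈ s, Prime q ∧ Primary q) (e₁ e₂ : O → ℕ) :
    ft ((∏ p ∈ s, p ^ e₁ p) * ∏ p ∈ s, p ^ e₂ p)
        (fun x => sym (∏ p ∈ s, p ^ e₁ p) x * conj (sym (∏ p ∈ s, p ^ e₂ p) x)) a =
      lamb (∏ p ∈ s, p ^ e₁ p) * conj (lamb (∏ p ∈ s, p ^ e₂ p)) *
        Rs (∏ p ∈ s, p ^ e₁ p) (∏ p ∈ s, p ^ e₂ p) *
        ∏ p ∈ s, sym p (-1) ^ (e₁ p * e₂ p) * ft (p ^ (e₁ p + e₂ p)) (fl p (e₁ p) (e₂ p)) a := by
  induction s using Finset.induction_on with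
  | empty =>
    simp only [Finset.prod_empty, mul_one, lamb_one, map_one, rs_one_left one_ne_zero]
    exact ft_one _ (fun x => by simp) a
  | insert p s hps ih =>
    have hs' : ∀ r ∈ s, Prime r ∧ Primary r := fun r hr => hs r (Finset.mem_insert_of_mem hr)
    obtain ⟨hp, hp'⟩ := hs p (Finset.mem_insert_self p s)
    have h0 := hp.ne_zero
    have hc : ∀ e : O → ℕ, IsCoprime p (∏ q ∈ s, q ^ e q) := fun e =>
      IsCoprime.prod_right fun q hq => IsCoprime.pow_right (hp.coprime_iff_not_dvd.2 fun hd =>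
        hps (BasicB.eq_of_dvd hp (hs' q hq).1 hp' (hs' q hq).2 hd ▸ hq))
    have h₁ := BasicB.primary_prod_pow hs' e₁
    have h₂ := BasicB.primary_prod_pow hs' e₂
    have c₁ := hc e₁
    have c₂ := hc e₂
    simp only [Finset.prod_insert hps]
    rw [ft_step hp hp' h₁ h₂ c₁ c₂, ih hs']
    generalize (∏ q ∈ s, q ^ e₁ q) = m₁ at *
    generalize (∏ q ∈ s, q ^ e₂ q) = m₂ at *
    have hsq := neg_one_pow_two_mul hp' (e₁ p * e₂ p)
    rw [lamb_mul (hp'.pow _) h₁ c₁.pow_left, lamb_mul (hp'.pow _) h₂ c₂.pow_left, lamb_pow hp hp',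
      lamb_pow hp hp', sym_pow_left h0, sym_pow_left h0, sym_pow_right (po h₁),
      sym_pow_right (po h₂), rs_left (pow_ne_zero _ h0) h₁.ne_zero
        (mul_ne_zero (pow_ne_zero _ h0) h₂.ne_zero), rs_pow_left h0
        (mul_ne_zero (pow_ne_zero _ h0) h₂.ne_zero), rs_right h0 (pow_ne_zero _ h0) h₂.ne_zero,
      rs_right h₁.ne_zero (pow_ne_zero _ h0) h₂.ne_zero, rs_pow_right h0 h0,
      rs_pow_right h₁.ne_zero h0, rs_self h0]
    simp only [map_mul, map_pow, mul_pow, one_mul]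
    rw [← pow_mul, mul_comm (e₂ p) (e₁ p)]
    rw [two_mul, pow_add] at hsq
    generalize sym p (-1) ^ (e₁ p * e₂ p) = σ at *
    generalize (∏ x ∈ s, sym x (-1) ^ (e₁ x * e₂ x) * ft (x ^ (e₁ x + e₂ x)) (fl x (e₁ x) (e₂ x)) a) = T
    linear_combination (-(sym p m₁ ^ e₁ p * sym m₁ p ^ e₁ p * conj (sym p m₂) ^ e₂ p *
      conj (sym m₂ p) ^ e₂ p * Rs p m₂ ^ e₁ p * Rs m₁ p ^ e₂ p *
      ft (p ^ (e₁ p + e₂ p)) (fl p (e₁ p) (e₂ p)) a * lamb m₁ * conj (lamb m₂) * Rs m₁ m₂ * T)) * hsq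

theorem sqrt_nr_prod (s : Finset O) (e : O → ℕ) :
    (Real.sqrt (nr (∏ p ∈ s, p ^ e p)) : ℂ) = ∏ p ∈ s, (Real.sqrt (nr p) : ℂ) ^ e p := by
  induction s using Finset.induction_on with
  | empty => simp [nr]
  | insert p s hps ih =>
    rw [Finset.prod_insert hps, Finset.prod_insert hps, nr_mul, Real.sqrt_mul (Nat.cast_nonneg _),
      Complex.ofReal_mul, ih]
    congr 1
    rw [← Complex.ofReal_pow, nm_pow, Nat.cast_pow]
    congr 1
    rw [Real.sqrt_eq_iff_mul_self_eq (by positivity) (by positivity), ← mul_pow,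
      Real.mul_self_sqrt (Nat.cast_nonneg _)]

/-- The factorisation of the kernel (general classes). -/
theorem MK_fact' {n₁ n₂ : O} (h₁ : Primary n₁) (h₂ : Primary n₂) (a : O) :
    MK n₁ n₂ a = lamb n₁ * conj (lamb n₂) * (Rs n₁ n₂ * sym n₂ (-1)) *
      ∏ p ∈ pf (n₁ * n₂), mloc a p (vp p n₁) (vp p n₂) := by
  have hs : ∀ q ∈ pf (n₁ * n₂), Prime q ∧ Primary q := fun q => BasicB.pf_sub
  have e₁ : ∏ p ∈ pf (n₁ * n₂), p ^ vp p n₁ = n₁ := by
    rw [BasicB.prod_superset h₁.ne_zero hs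
      (pf_mul h₁.ne_zero h₂.ne_zero ▸ Finset.subset_union_left), ← h₁.eq_prod]
  have e₂ : ∏ p ∈ pf (n₁ * n₂), p ^ vp p n₂ = n₂ := by
    rw [BasicB.prod_superset h₂.ne_zero hs
      (pf_mul h₁.ne_zero h₂.ne_zero ▸ Finset.subset_union_right), ← h₂.eq_prod]
  have key := ft_fact a _ hs (fun p => vp p n₁) (fun p => vp p n₂)
  have s₁ := sqrt_nr_prod (pf (n₁ * n₂)) (fun p => vp p n₁)
  have s₂ := sqrt_nr_prod (pf (n₁ * n₂)) (fun p => vp p n₂)
  have e₃ : sym n₂ (-1) = ∏ p ∈ pf (n₁ * n₂), sym p (-1) ^ vp p n₂ := by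
    rw [sym_eq_prod]
    refine Finset.prod_subset (pf_mul h₁.ne_zero h₂.ne_zero ▸ Finset.subset_union_right)
      fun p hp hp' => ?_
    rw [BasicB.mem_pf_iff h₂.ne_zero (hs p hp).1 (hs p hp).2, not_not] at hp'
    rw [hp', pow_zero]
  rw [e₁, e₂] at key
  rw [e₁] at s₁
  rw [e₂] at s₂
  rw [MK, key, s₁, s₂, e₃, ← Finset.prod_mul_distrib, mul_div_assoc, ← Finset.prod_div_distrib,
    mul_assoc (lamb n₁ * _), mul_assoc (lamb n₁ * _), mul_assoc (Rs _ _), ← Finset.prod_mul_distrib]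
  congr 2
  refine Finset.prod_congr rfl fun p hp => ?_
  have hsq := neg_one_pow_two_mul (hs p hp).2 (vp p n₂)
  rw [two_mul, pow_add] at hsq
  rw [mloc, pow_add (sym p (-1)), ← pow_add (Real.sqrt (nr p) : ℂ), ← mul_div_assoc, ← mul_assoc,
    ← mul_assoc, hsq, one_mul]

/-- The factorisation of the kernel for two elements of the same class. -/
theorem MK_fact {n₁ n₂ : O} (h₁ : Primary n₁) (h₂ : Primary n₂) (h : cls n₁ = cls n₂) (a : O) :
    MK n₁ n₂ a = lamb n₁ * conj (lamb n₂) * ∏ p ∈ pf (n₁ * n₂), mloc a p (vp p n₁) (vp p n₂) := by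
  rw [MK_fact' h₁ h₂, rs_congr h rfl, rs_self h₂.ne_zero, ← sq, Gauss_neg_one (po h₂), mul_one]

/-- The squarefree columns. -/
theorem lamb_mul_prod {n : O} (hn : Primary n) (hs : Squarefree n) (a : O) :
    lamb n * ∏ p ∈ pf n, mloc a p 1 0 = conj (sym n a) * gam 1 n := by
  have h := MK_fact' hn primary_one a
  rw [mul_one, lamb_one, map_one, mul_one, rs_one_right hn.ne_zero, sym_one_left, mul_one,
    mul_one] at h
  have e : ∏ p ∈ pf n, mloc a p (vp p n) (vp p 1) = ∏ p ∈ pf n, mloc a p 1 0 :=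
    Finset.prod_congr rfl fun p hp => by
      have h1 := BasicB.vp_le_one hs (BasicB.pf_sub hp).1
      have h2 := BasicB.vp_ne_zero hp
      rw [BasicB.vp_unit (BasicB.pf_sub hp).1 isUnit_one, show vp p n = 1 by omega]
  rw [← e, ← h, MK, mul_one, gam, ← mul_div_assoc, ← pow_one (sym n a),
    ← gs_sqfree (by norm_num) (po hn) hs]
  simp only [sym_one_left, map_one, mul_one, nr, nm_one, Nat.cast_one, Real.sqrt_one,
    Complex.ofReal_one]
  congr 1
  refine Finset.sum_congr rfl fun x _ => ?_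
  rw [sym_pow_add_six hn x one_ne_zero, pow_one]

/-- Conversion of theta coefficients into Möbius coefficients. -/
theorem th_gam_one {n : O} (hn : Primary n) (hs : Squarefree n) :
    th n * gam 1 n = mu n * (conj (Gf n) * Rs n n) := by
  have h1 := mu_gam_five (po hn) hs
  have h2 := gam_mul_gam (j := 1) (by norm_num) (po hn) hs
  have h3 := conj_mul_self (norm_Gf (po hn))
  rw [mul_one, pow_one, ← rs_self hn.ne_zero] at h2
  linear_combination (-(conj (Gf n) * gam 1 n)) * h1 + (mu n * conj (Gf n)) * h2 -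
    (th n * gam 1 n) * h3

/-- The twisted theta coefficient of a coprime product. -/
theorem th_lamb_mul {G k : O} (hG : Primary G) (hk : Primary k) (h : IsCoprime G k) :
    th (G * k) * lamb (G * k) = th G * lamb G * (th k * Rq G k) * lamb k := by
  have r := rs_recip hG.ne_zero hk.ne_zero h
  have h6 := sym_pow_six hk h.symm
  rw [th_mul hG hk h, lamb_mul hG hk h, ← sym_sq hG, ← sym_sq hk, Rq, r]
  linear_combination (th G * lamb G * th k * lamb k * Rs G k ^ 3) * h6

end glob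

end Dom

open Dom in
/-- **Pointwise PSD domination** of the Möbius sums. -/
theorem dom_91 [Fr] : DomStmt := by
  classical
  intro κ Y Φ a
  generalize hS0 : @Finset.filter O (fun n => cls n = κ) (_) (pball Y) = S
  have hS : ∀ n, n ∈ S ↔ n ∈ pball Y ∧ cls n = κ := fun n => by
    rw [← hS0]; simp only [Finset.mem_filter]
  have h := psd_dom a (mloc a) (fun p hp hp' => locOK hp hp' a) κ Y S hS
    (fun n => th n * Φ n * lamb n)
  refine le_trans (le_of_eq ?_) (h.trans (le_of_eq ?_))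
  · congr 2
    rcases S.eq_empty_or_nonempty with h0 | ⟨n₀, hn₀⟩
    · rw [h0]; simp
    have hp : ∀ n ∈ S, Primary n ∧ cls n = κ := fun n hn =>
      ⟨(mem_pball.1 ((hS n).1 hn).1).1, ((hS n).1 hn).2⟩
    obtain ⟨p₀, c₀⟩ := hp n₀ hn₀
    have hc : ‖conj (Gf n₀) * Rs n₀ n₀‖ = 1 := by
      rw [norm_mul, Complex.norm_conj, norm_Gf (po p₀), rs_self p₀.ne_zero, norm_neg_one p₀, one_mul]
    rw [← one_mul ‖∑ n ∈ _, mu n * _ * _‖, ← hc, ← norm_mul, Finset.mul_sum]
    congr 1
    refine Finset.sum_congr rfl fun n hn => ?_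
    obtain ⟨p₁, c₁⟩ := hp n hn
    split_ifs with hs
    · rw [mul_assoc (th n * Φ n), lamb_mul_prod p₁ hs.1, Gf_congr (po p₀) (po p₁) (c₀.trans c₁.symm),
        rs_congr (c₀.trans c₁.symm) (c₀.trans c₁.symm)]
      linear_combination (-(Φ n * conj (sym n a))) * th_gam_one p₁ hs.1
    · by_cases h1 : Squarefree n
      · rw [(sym_eq_zero_iff p₁).2 fun h2 => hs ⟨h1, h2⟩]; simp
      · rw [BasicB.mu_of_not h1]; simp
  · refine Finset.sum_congr rfl fun G hG => ?_
    have pG := (mem_pball.1 hG).1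
    rw [mul_assoc, ← Complex.re_ofReal_mul (‖th G‖ ^ 2), Finset.mul_sum]
    congr 2
    refine Finset.sum_congr rfl fun k₁ hk₁ => ?_
    rw [Finset.mul_sum]
    refine Finset.sum_congr rfl fun k₂ hk₂ => ?_
    simp only [cofS, Finset.mem_filter] at hk₁ hk₂
    obtain ⟨a₁, b₁, -, c₁⟩ := hk₁
    obtain ⟨a₂, b₂, -, c₂⟩ := hk₂
    have p₁ := (mem_pball.1 a₁).1
    have p₂ := (mem_pball.1 a₂).1
    have hcl : cls k₁ = cls k₂ := by
      have := c₁.trans c₂.symm
      rw [map_mul, map_mul] at this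
      exact mul_left_cancel₀ (cls_ne_zero pG.ne_zero) this
    have e₁ := th_lamb_mul pG p₁ b₁.symm
    have e₂ := congrArg conj (th_lamb_mul pG p₂ b₂.symm)
    have n₁ := conj_mul_self (norm_lamb pG)
    have n₂ : ((‖th G‖ ^ 2 : ℝ) : ℂ) = conj (th G) * th G := by
      rw [Complex.conj_mul', Complex.ofReal_pow]
    rw [MK_fact p₁ p₂ hcl, n₂, mul_right_comm (th (G * k₁)), mul_right_comm (th (G * k₂)), e₁,
      map_mul, e₂]
    simp only [map_mul]
    generalize (∏ p ∈ pf (k₁ * k₂), mloc a p (vp p k₁) (vp p k₂)) = T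
    linear_combination (th G * conj (th G) * (th k₁ * Rq G k₁) * lamb k₁ * Φ (G * k₁) *
      conj (th k₂) * conj (Rq G k₂) * conj (lamb k₂) * conj (Φ (G * k₂)) * T) * n₁

end Crest.Agent.T27
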