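import Crest.Agent.T27.GsMod_58
import Crest.Agent.T27.Mdl_77
import Crest.Agent.T27.Core_51
import Crest.Agent.T27.Gauss_55
import Crest.Agent.T27.Cnt_21
import Crest.Agent.T27.Count_55
import Crest.Agent.T27.Fr_55
import Crest.Agent.T27.Weight_23
import Crest.Agent.T27.Symbol_55
import Crest.Agent.T27.ReflDefs_56
import Crest.Agent.T27.DomA_91
import Crest.Agent.T27.Refl2_59
import Crest.Agent.T27.HeckeD_87
import Crest.Agent.T27.HeckeF_87
import Crest.Agent.T27.KerDefs_63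

-- ▼ part T27/GauMdl_58
section

/-!
# Row 27: `GauAx` for the frame of a number field (interface `Mdl_77`)
-/

set_option autoImplicit false

noncomputable section

namespace Crest.Agent.T27

open NumberField

variable [Fr0] {F : Type} [Field F] [NumberField F] {N J : ℕ} {j : O →+* F}

theorem hQ_pow_58 (h : IsModel F N J j) {k : ℕ} (hk : k ≠ 0)
    (hd : 2 * discr F ∣ ((N ^ k : ℕ) : ℤ)) (hJ : 3 * k ≤ J) (n n' : O) (hn : n ≠ 0) (hn' : n' ≠ 0)
    (e : cls n = cls n') : Qn n = Qn n' := by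
  have := h.good
  obtain ⟨s, -, l, hl, e⟩ := h.exists_of_cls_eq hn' e.symm
  exact G58.Qn_class h.equiv h.coe_equiv h.eq_eq hk hd hJ hn (s := s ^ 3) hl (by rw [e]; ring)

/-- `GauAx` at level `J ≥ 6`, no extra hypothesis on `N`. -/
theorem gauAx_model_58 (h : IsModel F N J j) (hJ : 6 ≤ J) {R : O → O → ℂ} (hR : RecAx R) :
    GauAx R Qn :=
  have := h.good
  gauAx_of_82 hR (hQ_pow_58 h two_ne_zero G58.two_discr_dvd hJ)


end Crest.Agent.T27
end
end

-- ▼ part T27/PsdP_51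
section

/-!
# Row 27, PSD core, P3 (helper51): Poisson summation, `DomStmt → PsdStmt`
-/

set_option autoImplicit false

noncomputable section

namespace Crest.Agent.T27

open scoped ComplexConjugate
open Finset

variable [Fr]

namespace P3

theorem sym_unit_cls {n u : O} (hn : n ≠ 0) (hu : IsUnit u) (h : cls u = 1) : sym n u = 1 := by
  have h1 := Fr.recAx.recip n u hn hu.ne_zero (isCoprime_of_isUnit n hu)
  have h2 := Fr.recAx.recip n 1 hn one_ne_zero isCoprime_one_right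
  rw [sym_one_right, sym_one_left, mul_one] at h2
  rw [h1, sym_unit_left hu, mul_one, Fr.recAx.congr n n u 1 rfl (by rw [h, map_one]), ← h2]

open Classical in
theorem summable_gr' {X : ℝ} (hX : 0 < X) : Summable fun k : O => gr k (X * nr k) := by
  have h := Fr.kerAx
  obtain ⟨C, hC, hg⟩ := h.le_rpow 2 (by norm_num)
  unfold gr grp gw
  refine summable_of_sum_le (c := 1 + U0.card * (Fr0.kp * (C * (X ^ 2)⁻¹ * 2)))
    (fun k => by by_cases hk : Rep k <;> simp [hk, (h.pos _).le]) fun S => ?_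
  obtain ⟨M, hM⟩ := C21.sum_rows_le (fun m : ℕ => Fr.gwF (X * m)) (fun _ => (h.pos _).le) S
  refine hM.trans ?_
  simp only [Nat.cast_zero, mul_zero, h.zero]
  gcongr
  have h1 := C21.sum_pball_le (fun m : ℕ => Fr.gwF (X * m)) (fun _ => (h.pos _).le)
    (fun m hm => by
      have : (0 : ℝ) < m := by exact_mod_cast hm
      refine h.anti (Set.mem_Ioi.2 (by positivity)) (Set.mem_Ioi.2 (by positivity)) ?_
      push_cast
      nlinarith) M
  refine h1.trans ?_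
  gcongr
  have h2 := C21.sum_inv_sq 1 M one_pos
  calc ∑ m ∈ Finset.Ioc 0 M, Fr.gwF (X * m)
      ≤ ∑ m ∈ Finset.Ioc 0 M, C * (X ^ 2)⁻¹ * (((max m 1 : ℕ) : ℝ) ^ 2)⁻¹ := by
        refine Finset.sum_le_sum fun m hm => ?_
        have hm1 : 1 ≤ m := (Finset.mem_Ioc.1 hm).1
        have : (0 : ℝ) < m := by exact_mod_cast hm1
        refine (hg _ (by positivity)).trans (le_of_eq ?_)
        rw [max_eq_left hm1, Real.rpow_neg (by positivity), Real.rpow_two]
        field_simp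
    _ ≤ C * (X ^ 2)⁻¹ * 2 := by
        rw [← Finset.mul_sum]
        gcongr
        simpa using h2

theorem summable_gr {X : ℝ} (hX : 0 < X) : Summable fun k : O => gr k (nr k / X) := by
  simpa only [div_eq_inv_mul] using summable_gr' (inv_pos.2 hX)

theorem norm_Rq {m n : O} (hm : m ≠ 0) (hn : n ≠ 0) : ‖Rq m n‖ = 1 := by
  have h := congrArg norm (Fr.recAx.pow_six m n hm hn)
  rw [norm_pow, norm_one] at h
  have h1 : ‖Fr.RsF m n‖ = 1 := (pow_eq_one_iff_of_nonneg (norm_nonneg _) (by norm_num)).1 h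
  rw [Rq, norm_pow, Rs, h1, one_pow]

theorem gr_nonneg (k : O) (x : ℝ) : 0 ≤ gr k x := by
  unfold gr grp
  split_ifs
  · exact (Fr.kerAx.pos x).le
  · exact le_rfl

theorem rep_mul {e : O} (he : Primary e) (a : O) : Rep (e * a) ↔ Rep a := by
  constructor
  · rintro (h | ⟨u, hu, n, hn, h⟩)
    · exact Or.inl ((mul_eq_zero.1 h).resolve_left he.ne_zero)
    · have hu' : IsUnit u := Fr0.unit_U0F u hu
      obtain ⟨v, hv⟩ := hu'.exists_left_inv
      have h1 : n = e * (v * a) := by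
        calc n = v * (u * n) := by rw [← mul_assoc, hv, one_mul]
          _ = _ := by rw [← h]; ring
      refine Or.inr ⟨u, hu, v * a, he.of_mul (h1 ▸ hn), ?_⟩
      rw [← mul_assoc, mul_comm u v, hv, one_mul]
  · rintro (h | ⟨u, hu, n, hn, h⟩)
    · exact Or.inl (by rw [h, mul_zero])
    · exact Or.inr ⟨u, hu, e * n, he.mul hn, by rw [h]; ring⟩

theorem gr_mul {e : O} (he : Primary e) (a : O) (x : ℝ) : gr (e * a) x = gr a x := by
  unfold gr grp
  by_cases h : Rep a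
  · rw [if_pos h, if_pos ((rep_mul he a).2 h)]
  · rw [if_neg h, if_neg fun h' => h ((rep_mul he a).1 h')]

theorem gr_primary {a : O} (ha : Primary a) (x : ℝ) : gr a x = gw x := by
  unfold gr grp
  exact if_pos (Or.inr ⟨1, Fr0.one_mem_U0F, a, ha, (one_mul a).symm⟩)

theorem primary_eG (G : O) : Primary (eG G) :=
  BasicB.primary_prod_pow (fun _ hq => BasicB.pf_sub hq) _

theorem cop_eG {G k : O} (h : IsCoprime k G) : IsCoprime k (eG G) :=
  IsCoprime.prod_right fun _ hp =>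
    (h.of_isCoprime_of_dvd_right (BasicB.of_mem_pf hp).2.2).pow_right

theorem cG_nonneg (G : O) : 0 ≤ cG G :=
  prod_nonneg fun p _ => by split_ifs <;> positivity

theorem per (k₁ k₂ x y : O) (h : k₁ * k₂ ∣ x - y) :
    sym k₁ x * conj (sym k₂ x) = sym k₁ y * conj (sym k₂ y) := by
  rw [sym_congr ((rad_dvd k₁).trans ((dvd_mul_right k₁ k₂).trans h)),
    sym_congr ((rad_dvd k₂).trans ((dvd_mul_left k₂ k₁).trans h))]

theorem norm_pair_le (k₁ k₂ x : O) : ‖sym k₁ x * conj (sym k₂ x)‖ ≤ 1 := by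
  rw [norm_mul, Complex.norm_conj]
  exact mul_le_one₀ (norm_sym_le _ _) (norm_nonneg _) (norm_sym_le _ _)

theorem norm_MK_le (k₁ k₂ : O) : ∃ C : ℝ, ∀ a, ‖MK k₁ k₂ a‖ ≤ C := by
  refine ⟨(res (k₁ * k₂)).card / ‖(Real.sqrt (nr k₁) : ℂ) * (Real.sqrt (nr k₂) : ℂ)‖, fun a => ?_⟩
  rw [MK, norm_div]
  refine div_le_div_of_nonneg_right ?_ (norm_nonneg _)
  refine (norm_sum_le _ _).trans ?_
  calc _ ≤ ∑ _x ∈ res (k₁ * k₂), (1 : ℝ) := sum_le_sum fun x _ => by
        rw [norm_mul, norm_eq, mul_one]; exact norm_pair_le _ _ _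
    _ = _ := by simp

theorem summable_bdd {f : O → ℂ} {C X : ℝ} (hX : 0 < X) (hf : ∀ a, ‖f a‖ ≤ C) :
    Summable fun a => f a * (gr a (nr a / X) : ℂ) := by
  refine Summable.of_norm_bounded ((summable_gr hX).mul_left C) fun a => ?_
  rw [norm_mul, Complex.norm_real, Real.norm_of_nonneg (gr_nonneg _ _)]
  exact mul_le_mul_of_nonneg_right (hf a) (gr_nonneg _ _)

open Classical in
theorem summable_MK (e k₁ k₂ : O) {A : ℝ} (hA : 0 < A) :
    Summable fun a => (if e ∣ a then MK k₁ k₂ a else 0) * (gr a (nr a / A) : ℂ) := by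
  obtain ⟨C, hC⟩ := norm_MK_le k₁ k₂
  refine summable_bdd (C := C) hA fun a => ?_
  split_ifs
  · exact hC a
  · rw [norm_zero]; exact (norm_nonneg _).trans (hC 0)

open Classical in
/-- Poisson summation for one pair. -/
theorem pair {e k₁ k₂ : O} (he : Primary e) (h₁ : Primary k₁) (h₂ : Primary k₂)
    (c₁ : IsCoprime k₁ e) (c₂ : IsCoprime k₂ e) {A : ℝ} (hA : 0 < A) :
    ∑' a : O, (if e ∣ a then MK k₁ k₂ a else 0) * (gr a (nr a / A) : ℂ) =
      (A / nr e : ℝ) * (conj (sym k₁ e) * sym k₂ e) /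
        ((Real.sqrt (nr k₁) : ℂ) * (Real.sqrt (nr k₂) : ℂ)) *
        ∑' h : O, sym k₁ h * conj (sym k₂ h) *
          (gr h (A * nr h / (nr e * nr k₁ * nr k₂)) : ℂ) := by
  have he0 := he.ne_zero
  have hq : k₁ * k₂ ≠ 0 := mul_ne_zero h₁.ne_zero h₂.ne_zero
  have p₁ : PO k₁ := ⟨h₁, h₁.ne_zero⟩
  have p₂ : PO k₂ := ⟨h₂, h₂.ne_zero⟩
  have ne := nr_pos he0
  have n₁ := nr_pos h₁.ne_zero
  have n₂ := nr_pos h₂.ne_zero
  set f : O → ℂ := fun x => sym k₁ x * conj (sym k₂ x) with hf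
  have hmul : ∀ x y, f (x * y) = f x * f y := fun x y => by
    simp only [hf, sym_mul_right p₁, sym_mul_right p₂, map_mul]; ring
  have hP := Fr.kerAx.poisson (k₁ * k₂) f (nr e * nr k₁ * nr k₂ / A) hq (per k₁ k₂)
    (fun u x hu hc => by
      rw [hmul]
      simp only [hf, sym_unit_cls h₁.ne_zero hu hc, sym_unit_cls h₂.ne_zero hu hc, map_one,
        one_mul]) (by positivity)
  have e1 : ∀ h : O, nr h / (nr e * nr k₁ * nr k₂ / A) = A * nr h / (nr e * nr k₁ * nr k₂) :=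
    fun h => by field_simp
  have e2 : ∀ a : O, nr e * nr k₁ * nr k₂ / A * nr a / nr (k₁ * k₂) = nr (e * a) / A :=
    fun a => by rw [nr_mul, nr_mul]; field_simp
  have e3 : nr e * nr k₁ * nr k₂ / A / nr (k₁ * k₂) = nr e / A := by rw [nr_mul]; field_simp
  simp only [e1, e2, e3] at hP
  have hinj : Function.Injective fun a : O => e * a := mul_right_injective₀ he0
  rw [← hinj.tsum_eq (f := fun a => (if e ∣ a then MK k₁ k₂ a else 0) * (gr a (nr a / A) : ℂ))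
    (fun a ha => by
      by_cases h : e ∣ a
      · obtain ⟨b, rfl⟩ := h; exact ⟨b, rfl⟩
      · simp [h] at ha)]
  have hfe : ‖f e‖ = 1 := by
    simp only [hf, norm_mul, Complex.norm_conj, norm_sym h₁ c₁, norm_sym h₂ c₂, mul_one]
  have e4 : ∀ a : O, (if e ∣ e * a then MK k₁ k₂ (e * a) else 0) *
      (gr (e * a) (nr (e * a) / A) : ℂ) =
      conj (f e) / ((Real.sqrt (nr k₁) : ℂ) * (Real.sqrt (nr k₂) : ℂ)) *
        (ft (k₁ * k₂) f a * (grp Fr.gwF a (nr (e * a) / A) : ℂ)) := fun a => by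
    rw [if_pos (dvd_mul_right e a), gr_mul he, MK, mul_comm e a]
    have := Gauss_unit hq (per k₁ k₂) hmul (c₁.mul_left c₂).symm hfe a
    change ft (k₁ * k₂) f (a * e) = conj (f e) * ft (k₁ * k₂) f a at this
    rw [this]
    change _ * (grp Fr.gwF a _ : ℂ) = _
    ring
  simp only [e4]
  rw [tsum_mul_left]
  change _ = _ * ∑' h : O, f h * (grp Fr.gwF h _ : ℂ)
  rw [hP]
  have e5 : ((A / nr e : ℝ) : ℂ) * ((nr e / A : ℝ) : ℂ) = 1 := by
    rw [← Complex.ofReal_mul, div_mul_div_cancel₀ ne.ne', div_self hA.ne', Complex.ofReal_one]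
  simp only [hf, map_mul, Complex.conj_conj]
  linear_combination (-(conj (sym k₁ e) * sym k₂ e /
    ((Real.sqrt (nr k₁) : ℂ) * (Real.sqrt (nr k₂) : ℂ)) * ∑' h : O, ft (k₁ * k₂)
      (fun x => sym k₁ x * conj (sym k₂ x)) h * (grp Fr.gwF h (nr (e * h) / A) : ℂ))) * e5

open Classical in
/-- The class function. -/
def ph (κ : WithZero Cl) (G n : O) : ℂ :=
  if G ≠ 0 ∧ cls n ≠ 0 ∧ cls G * cls n = κ then Rq G n else 0

theorem norm_ph_le (κ : WithZero Cl) (G n : O) : ‖ph κ G n‖ ≤ 1 := by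
  unfold ph
  split_ifs with h
  · exact (norm_Rq h.1 fun h0 => h.2.1 (by rw [h0, map_zero])).le
  · simp

theorem ph_congr (κ : WithZero Cl) (G n n' : O) (h : cls n = cls n') :
    ph κ G n = ph κ G n' := by
  unfold ph Rq Rs
  rw [h, Fr.recAx.congr G G n n' rfl h]

theorem mem_cofS {κ : WithZero Cl} {Y : ℕ} {G k : O} (hG : Primary G) :
    k ∈ cofS κ Y G ↔ k ∈ pball (Y / nm G) ∧ IsCoprime k G ∧ cls G * cls k = κ := by
  have h0 : 0 < nm G := Nat.pos_of_ne_zero fun h => hG.ne_zero (nm_eq_zero.1 h)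
  unfold cofS
  simp only [mem_filter]
  rw [mem_pball, mem_pball, Nat.le_div_iff_mul_le h0, nm_mul, map_mul,
    mul_comm (nm k)]
  constructor
  · rintro ⟨⟨a, -⟩, b, c, d⟩; exact ⟨⟨a, c⟩, b, d⟩
  · rintro ⟨⟨a, c⟩, b, d⟩
    exact ⟨⟨a, (Nat.le_mul_of_pos_left _ h0).trans c⟩, b, c, d⟩

theorem cfG_of_mem {κ : WithZero Cl} {Y : ℕ} {G k : O} (hG : Primary G) (hk : k ∈ cofS κ Y G)
    (B : ℝ) (h : O) : cfG (ph κ G) G B h k =
      th k * Rq G k * Wc (nr (G * k) / B) 0 * (sym k h * conj (sym k (eG G))) /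
        (Real.sqrt (nr k) : ℂ) := by
  obtain ⟨h1, h2, h3⟩ := (mem_cofS hG).1 hk
  have hp := (mem_pball.1 h1).1
  have p : PO k := ⟨hp, hp.ne_zero⟩
  rw [cfG, ph, if_pos ⟨hG.ne_zero, Fr0.clsF_ne k hp.ne_zero, h3⟩, sym_mul_right p,
    sym_mul_right p, sym_pow_right p, sym_pow_right p,
    sym_pow_six hp (h2.of_isCoprime_of_dvd_right (rad_dvd G)), conj_sym hp, nr_mul]
  ring

theorem cfG_of_not {κ : WithZero Cl} {Y : ℕ} {G k : O} (hG : Primary G)
    (hk : k ∈ pball (Y / nm G)) (hk' : k ∉ cofS κ Y G) (B : ℝ) (h : O) :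
    cfG (ph κ G) G B h k = 0 := by
  have hp := (mem_pball.1 hk).1
  have p : PO k := ⟨hp, hp.ne_zero⟩
  by_cases hc : IsCoprime k G
  · rw [cfG, ph, if_neg fun h' => hk' ((mem_cofS hG).2 ⟨hk, hc, h'.2.2⟩)]
    simp
  · have : sym k (rad G) = 0 := (sym_eq_zero_iff hp).2 fun h' => hc
      (isCoprime_of_disjoint_pf hp hG.ne_zero (pf_rad G ▸ disjoint_pf h'))
    rw [cfG, sym_mul_right p, sym_pow_right p (rad G), this]
    simp

open Classical in
/-- The contribution of one `G`. -/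
theorem term (κ : WithZero Cl) (Y : ℕ) {A : ℝ} (B : ℝ) (hA : 0 < A) {G : O} (hG : Primary G) :
    (nr (eG G) : ℂ) * ∑ k₁ ∈ cofS κ Y G, ∑ k₂ ∈ cofS κ Y G,
      (th k₁ * Rq G k₁ * Wc (nr (G * k₁) / B) 0) * conj (th k₂ * Rq G k₂ * Wc (nr (G * k₂) / B) 0) *
        ∑' a : O, (if eG G ∣ a then MK k₁ k₂ a else 0) * (gr a (nr a / A) : ℂ) =
      (A : ℂ) * ∑' h : O, ∑ n₁ ∈ pball (Y / nm G), ∑ n₂ ∈ pball (Y / nm G),
        cfG (ph κ G) G B h n₁ * conj (cfG (ph κ G) G B h n₂) *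
          (gr h (A * nr h / (nr (eG G) * nr n₁ * nr n₂)) : ℂ) := by
  have he := primary_eG G
  have ne := nr_pos he.ne_zero
  have hsub : cofS κ Y G ⊆ pball (Y / nm G) := fun k hk => ((mem_cofS hG).1 hk).1
  have hprim : ∀ k ∈ cofS κ Y G, Primary k := fun k hk => (mem_pball.1 (hsub hk)).1
  have hcop : ∀ k ∈ cofS κ Y G, IsCoprime k (eG G) := fun k hk =>
    cop_eG ((mem_cofS hG).1 hk).2.1
  set c : O → O → ℂ := fun k₁ k₂ =>
    (th k₁ * Rq G k₁ * Wc (nr (G * k₁) / B) 0) * conj (th k₂ * Rq G k₂ * Wc (nr (G * k₂) / B) 0) *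
      ((conj (sym k₁ (eG G)) * sym k₂ (eG G)) /
        ((Real.sqrt (nr k₁) : ℂ) * (Real.sqrt (nr k₂) : ℂ))) with hc
  have e1 : ∀ h : O, ∑ n₁ ∈ pball (Y / nm G), ∑ n₂ ∈ pball (Y / nm G),
      cfG (ph κ G) G B h n₁ * conj (cfG (ph κ G) G B h n₂) *
        (gr h (A * nr h / (nr (eG G) * nr n₁ * nr n₂)) : ℂ) =
      ∑ k₁ ∈ cofS κ Y G, ∑ k₂ ∈ cofS κ Y G, c k₁ k₂ * (sym k₁ h * conj (sym k₂ h) *
        (gr h (A * nr h / (nr (eG G) * nr k₁ * nr k₂)) : ℂ)) := fun h => by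
    rw [← sum_subset hsub fun k hk hk' => by simp [cfG_of_not hG hk hk']]
    refine sum_congr rfl fun k₁ h₁ => ?_
    rw [← sum_subset hsub fun k hk hk' => by simp [cfG_of_not hG hk hk']]
    refine sum_congr rfl fun k₂ h₂ => ?_
    rw [cfG_of_mem hG h₁, cfG_of_mem hG h₂]
    simp only [hc, map_mul, map_div₀, Complex.conj_conj, Complex.conj_ofReal]
    ring
  have hs : ∀ k₁ ∈ cofS κ Y G, ∀ k₂ ∈ cofS κ Y G, Summable fun h : O =>
      c k₁ k₂ * (sym k₁ h * conj (sym k₂ h) *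
        (gr h (A * nr h / (nr (eG G) * nr k₁ * nr k₂)) : ℂ)) := fun k₁ h₁ k₂ h₂ => by
    have n₁ := nr_pos (hprim k₁ h₁).ne_zero
    have n₂ := nr_pos (hprim k₂ h₂).ne_zero
    refine ((summable_bdd (X := nr (eG G) * nr k₁ * nr k₂ / A) (by positivity)
      (norm_pair_le k₁ k₂)).mul_left (c k₁ k₂)).congr fun h => ?_
    congr 4
    field_simp
  simp only [e1]
  rw [Summable.tsum_finsetSum fun k₁ h₁ => summable_sum fun k₂ h₂ => hs k₁ h₁ k₂ h₂,
    mul_sum, mul_sum]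
  refine sum_congr rfl fun k₁ h₁ => ?_
  rw [Summable.tsum_finsetSum fun k₂ h₂ => hs k₁ h₁ k₂ h₂, mul_sum, mul_sum]
  refine sum_congr rfl fun k₂ h₂ => ?_
  rw [pair he (hprim k₁ h₁) (hprim k₂ h₂) (hcop k₁ h₁) (hcop k₂ h₂) hA, tsum_mul_left]
  have e5 : (nr (eG G) : ℂ) * ((A / nr (eG G) : ℝ) : ℂ) = A := by
    rw [← Complex.ofReal_mul, mul_div_cancel₀ _ ne.ne']
  simp only [hc]
  rw [← e5]
  ring

end P3

open P3 in
/-- **P3.** -/
theorem psd_51 (hD : DomStmt) : PsdStmt := by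
  classical
  intro κ
  refine ⟨ph κ, norm_ph_le κ, ph_congr κ, fun Y A B hA hB S hS => ?_⟩
  set s : O → O → ℂ := fun G k => th k * Rq G k * Wc (nr (G * k) / B) 0 with hs
  set F : O → O → ℂ := fun G a => ((nr (eG G) * cG G * ‖th G‖ ^ 2 : ℝ) : ℂ) *
    ∑ k₁ ∈ cofS κ Y G, ∑ k₂ ∈ cofS κ Y G, s G k₁ * conj (s G k₂) *
      ((if eG G ∣ a then MK k₁ k₂ a else 0) * (gr a (nr a / A) : ℂ)) with hF
  have hFs : ∀ G, Summable (F G) := fun G =>
    (summable_sum fun k₁ _ => summable_sum fun k₂ _ =>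
      (summable_MK (eG G) k₁ k₂ hA).mul_left _).mul_left _
  have hpt : ∀ a, gr a (nr a / A) * ((if a = 0 then 0 else (1 / 2 : ℝ) ^ (pf a).card) *
      ‖MobY κ Y B a‖ ^ 2) ≤ (∑ G ∈ pball Y, F G a).re := fun a => by
    refine (mul_le_mul_of_nonneg_left (hD κ Y (fun n => Wc (nr n / B) 0) a)
      (gr_nonneg _ _)).trans_eq ?_
    rw [Complex.re_sum, mul_sum]
    refine sum_congr rfl fun G _ => ?_
    simp only [hF, Complex.re_ofReal_mul]
    by_cases h : eG G ∣ a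
    · simp only [if_pos h, ← mul_assoc, ← sum_mul, Complex.re_mul_ofReal, hs]
      ring
    · simp [h]
  have hnn : ∀ a, 0 ≤ (∑ G ∈ pball Y, F G a).re := fun a =>
    le_trans (mul_nonneg (gr_nonneg _ _) (mul_nonneg (by split_ifs <;> positivity)
      (sq_nonneg _))) (hpt a)
  have hsum : Summable fun a => ∑ G ∈ pball Y, F G a := summable_sum fun G _ => hFs G
  calc _ ≤ ∑ a ∈ S, (∑ G ∈ pball Y, F G a).re := by
        refine sum_le_sum fun a ha => le_trans (le_of_eq ?_) (hpt a)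
        rw [gr_primary (hS a ha), if_neg (hS a ha).ne_zero, mul_assoc]
    _ ≤ ∑' a, (∑ G ∈ pball Y, F G a).re :=
        (Complex.hasSum_re hsum.hasSum).summable.sum_le_tsum S fun a _ => hnn a
    _ = (∑ G ∈ pball Y, ∑' a, F G a).re := by
        rw [← Complex.re_tsum hsum, Summable.tsum_finsetSum fun G _ => hFs G]
    _ ≤ _ := by
        rw [Complex.re_sum]
        refine sum_le_sum fun G hG => (Complex.re_le_norm _).trans_eq ?_
        have hG' := (mem_pball.1 hG).1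
        have h1 := term κ Y B hA hG'
        have h2 : ∑' a, F G a = ((cG G * ‖th G‖ ^ 2 : ℝ) : ℂ) * ((nr (eG G) : ℂ) *
            ∑ k₁ ∈ cofS κ Y G, ∑ k₂ ∈ cofS κ Y G, s G k₁ * conj (s G k₂) *
              ∑' a : O, (if eG G ∣ a then MK k₁ k₂ a else 0) * (gr a (nr a / A) : ℂ)) := by
          simp only [hF]
          rw [tsum_mul_left, Summable.tsum_finsetSum fun k₁ _ => summable_sum fun k₂ _ =>
            (summable_MK (eG G) k₁ k₂ hA).mul_left _]
          simp only [fun k₁ => Summable.tsum_finsetSum (s := cofS κ Y G) fun k₂ _ =>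
            (summable_MK (eG G) k₁ k₂ hA).mul_left (s G k₁ * conj (s G k₂)), tsum_mul_left]
          push_cast
          ring
        rw [h2]
        simp only [hs]
        rw [h1, norm_mul, norm_mul, Complex.norm_real, Complex.norm_real,
          Real.norm_of_nonneg (mul_nonneg (cG_nonneg G) (sq_nonneg _)), Real.norm_of_nonneg hA.le]
        ring

end Crest.Agent.T27
end
end

-- ▼ part T27/P4G_17
section

/-!
# Row 27, PSD core, last part (helper17): the sum of the costs over `G`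
-/

set_option autoImplicit false

noncomputable section

namespace Crest.Agent.T27.P4

open scoped ComplexConjugate
open Finset

variable [Fr]

theorem th_ne_zero {n : O} (h : th n ≠ 0) : Primary n ∧ ∀ p ∈ pf n, vp p n % 3 ≠ 2 := by
  by_contra h'
  exact h (if_neg h')

theorem norm_th_sq {n : O} (h : th n ≠ 0) : ‖th n‖ ^ 2 = nr (cu n) := by
  have h1 := th_ne_zero h
  obtain ⟨-, h2, h3, h4⟩ := eq_sq1_mul_cu h1.1 h1.2
  have h5 : 0 < Real.sqrt (nr (sq1 n)) := Real.sqrt_pos.2 (nr_pos h2.ne_zero)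
  rw [th, if_pos h1, norm_mul, norm_mul, norm_div, norm_gc h2 h3, Complex.norm_conj,
    norm_arg h1.1.ne_zero, Complex.norm_real, Complex.norm_real, Real.norm_of_nonneg h5.le,
    Real.norm_of_nonneg (Real.sqrt_nonneg _), div_self h5.ne', one_mul, mul_one,
    Real.sq_sqrt (Nat.cast_nonneg _)]

theorem nr_eq {n : O} (h : th n ≠ 0) : nr n = nr (sq1 n) * nr (cu n) ^ 3 := by
  have h1 := th_ne_zero h
  obtain ⟨h2, -⟩ := eq_sq1_mul_cu h1.1 h1.2
  conv_lhs => rw [h2, nr_mul, nr_pow]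

theorem norm_th_le (n : O) : ‖th n‖ ≤ nr n ^ (1 / 2 : ℝ) := by
  by_cases h : th n = 0
  · rw [h, norm_zero]; positivity
  have h1 := th_ne_zero h
  obtain ⟨-, h2, -, h4⟩ := eq_sq1_mul_cu h1.1 h1.2
  rw [← Real.sqrt_eq_rpow]
  refine Real.le_sqrt_of_sq_le ?_
  rw [norm_th_sq h, nr_eq h]
  have a1 := one_le_nr h2.ne_zero
  have a2 := one_le_nr h4.ne_zero
  calc nr (cu n) = 1 * nr (cu n) ^ 1 := by ring
    _ ≤ _ := mul_le_mul a1 (pow_le_pow_right₀ a2 (by norm_num)) (by positivity) (by positivity)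

theorem eG_mul_rad {G : O} (hG : Primary G) : eG G * rad G = G := by
  rw [eG, rad, ← prod_mul_distrib]
  refine (prod_congr rfl fun p hp => ?_).trans hG.eq_prod.symm
  have := BasicB.vp_ne_zero hp
  rw [← pow_succ]
  congr 1
  omega

theorem primary_eG (G : O) : Primary (eG G) :=
  BasicB.primary_prod_pow (fun _ => BasicB.pf_sub) _

theorem rad_h0 {G : O} (hG : Primary G) : rad (eG G ^ 5 * rad G ^ 6) = rad G := by
  have h1 := (primary_eG G).ne_zero
  have h2 := (primary_rad G).ne_zero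
  have h3 : pf (eG G) ⊆ pf G := fun p hp => by
    rw [mem_pf h1] at hp
    exact (mem_pf hG.ne_zero).2 ⟨hp.1, hp.2.1, hp.2.2.trans ⟨_, (eG_mul_rad hG).symm⟩⟩
  rw [rad, pf_mul (pow_ne_zero _ h1) (pow_ne_zero _ h2), pf_pow (by norm_num),
    pf_pow (by norm_num), pf_rad, union_eq_right.2 h3, rad]

theorem nr_prod {α : Type*} (s : Finset α) (f : α → O) : nr (∏ i ∈ s, f i) = ∏ i ∈ s, nr (f i) := by
  rw [nr, nm_prod, Nat.cast_prod]

theorem cG_nonneg (G : O) : 0 ≤ cG G :=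
  prod_nonneg fun p _ => by split_ifs <;> positivity

omit [Fr] in
theorem cube_le {δ : ℝ} (hδ : 0 < δ) : ∃ c : ℝ, 0 < c ∧ ∀ (j : ℕ) (q : ℝ), 2 ≤ q →
    5 * (j : ℝ) ^ 3 ≤ c * (q ^ j) ^ δ := by
  have hl : 0 < δ * Real.log 2 := mul_pos hδ (Real.log_pos (by norm_num))
  refine ⟨30 / (δ * Real.log 2) ^ 3, by positivity, fun j q hq => ?_⟩
  have h1 := Real.pow_div_factorial_le_exp (δ * Real.log 2 * j) (by positivity) 3
  have h2 : Real.exp (δ * Real.log 2 * j) ≤ (q ^ j) ^ δ := by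
    rw [Real.rpow_def_of_pos (by positivity), Real.log_pow]
    refine Real.exp_le_exp.2 ?_
    have := Real.log_le_log (by norm_num) hq
    have h3 : (0 : ℝ) ≤ j := Nat.cast_nonneg _
    nlinarith [mul_le_mul_of_nonneg_left this (mul_nonneg hδ.le h3)]
  have h3 := h1.trans h2
  rw [div_mul_eq_mul_div, le_div_iff₀ (by positivity)]
  rw [show ((Nat.factorial 3 : ℕ) : ℝ) = 6 by norm_num [Nat.factorial], div_le_iff₀ (by norm_num),
    mul_pow] at h3
  linarith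

theorem cG_le {δ : ℝ} (hδ : 0 < δ) : ∃ C : ℝ, 0 < C ∧ ∀ G : O, Primary G →
    cG G ≤ C * nr G ^ δ * nr (cu G) := by
  obtain ⟨c, hc, h1⟩ := cube_le (half_pos hδ)
  obtain ⟨C, hC, h2⟩ := pow_card_pf_le (half_pos hδ) c
  refine ⟨C, hC, fun G hG => ?_⟩
  have h3 : ∏ p ∈ pf G, (5 * (vp p G : ℝ) ^ 3) ≤ c ^ (pf G).card * nr G ^ (δ / 2) := by
    conv_rhs => rw [hG.eq_prod, nr_prod, ← Real.finsetProd_rpow _ _ (fun _ _ => Nat.cast_nonneg _),
      ← hG.eq_prod, ← prod_const, ← prod_mul_distrib]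
    refine prod_le_prod (fun _ _ => by positivity) fun p hp => ?_
    rw [nm_pow, Nat.cast_pow]
    refine h1 _ _ ?_
    have := (nm_prime_mod_six' (BasicB.pf_sub hp).1).2
    exact_mod_cast (by omega : 2 ≤ nm p)
  have h4 : ∏ p ∈ pf G, (if 6 ≤ vp p G then nr p else 1) ≤ nr (cu G) := by
    rw [cu, nr_prod]
    refine prod_le_prod (fun _ _ => by split_ifs <;> positivity) fun p hp => ?_
    have h5 := one_le_nr (BasicB.pf_sub hp).1.ne_zero
    rw [nr_pow]
    split_ifs with h6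
    · exact le_self_pow₀ h5 (by omega)
    · exact one_le_pow₀ h5
  rw [cG, prod_mul_distrib]
  refine mul_le_mul (h3.trans ?_) h4 (prod_nonneg fun _ _ => by split_ifs <;> positivity)
    (by positivity)
  refine (mul_le_mul_of_nonneg_right (h2 G hG.ne_zero) (by positivity)).trans_eq ?_
  rw [mul_assoc, ← Real.rpow_add (nr_pos hG.ne_zero), add_halves]

theorem sum_inv_le {δ : ℝ} (hδ : 0 < δ) : ∃ C : ℝ, 0 < C ∧ ∀ Y : ℕ, 1 ≤ Y →
    ∑ n ∈ pball Y, (nr n)⁻¹ ≤ C * (Y : ℝ) ^ δ := by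
  obtain ⟨C, hC, h⟩ := sum_nr_rpow_le (σ := -1 + δ) (by linarith)
  refine ⟨C, hC, fun Y hY => ?_⟩
  have h1 := h Y hY
  rw [add_neg_cancel_left] at h1
  refine le_trans ?_ h1
  refine le_trans (sum_le_sum (g := fun n => nr n ^ (-1 + δ)) fun n hn => ?_)
    (sum_le_sum_of_subset_of_nonneg (fun n hn => ?_) fun _ _ _ => by positivity)
  · rw [← Real.rpow_neg_one]
    exact Real.rpow_le_rpow_of_exponent_le (one_le_nr (mem_pball.1 hn).1.ne_zero) (by linarith)
  · exact mem_erase.2 ⟨(mem_pball.1 hn).1.ne_zero, pball_subset_ball _ hn⟩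

/-- The sum of the costs. -/
theorem gsum {ε : ℝ} (hε : 0 < ε) : ∃ C : ℝ, 0 < C ∧ ∀ Y : ℕ, 1 ≤ Y →
    ∑ G ∈ pball Y, cG G * ‖th G‖ ^ 2 / nr G ≤ C * (Y : ℝ) ^ ε := by
  classical
  have hδ : 0 < ε / 3 := by positivity
  obtain ⟨C₁, hC₁, h₁⟩ := cG_le hδ
  obtain ⟨C₂, hC₂, h₂⟩ := sum_inv_le hδ
  refine ⟨C₁ * C₂ ^ 2, by positivity, fun Y hY => ?_⟩
  have hY0 : (0 : ℝ) < Y := by exact_mod_cast hY
  set T := (pball Y).filter (fun G => th G ≠ 0) with hT
  have e1 : ∑ G ∈ pball Y, cG G * ‖th G‖ ^ 2 / nr G = ∑ G ∈ T, cG G * ‖th G‖ ^ 2 / nr G := by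
    rw [hT, sum_filter]
    refine sum_congr rfl fun G _ => ?_
    split_ifs with h
    · rfl
    · rw [not_not.1 h]; simp
  have e2 : ∀ G ∈ T, cG G * ‖th G‖ ^ 2 / nr G ≤
      C₁ * (Y : ℝ) ^ (ε / 3) * ((nr (sq1 G))⁻¹ * (nr (cu G))⁻¹) := by
    intro G hG
    obtain ⟨hG1, hG2⟩ := mem_filter.1 hG
    obtain ⟨hG3, hG4⟩ := mem_pball.1 hG1
    obtain ⟨-, a2, -, a4⟩ := eq_sq1_mul_cu hG3 (th_ne_zero hG2).2
    have b2 := nr_pos a2.ne_zero
    have b4 := nr_pos a4.ne_zero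
    have b5 : nr G ^ (ε / 3) ≤ (Y : ℝ) ^ (ε / 3) :=
      Real.rpow_le_rpow (Nat.cast_nonneg _) (by exact_mod_cast hG4) hδ.le
    have b6 : cG G ≤ C₁ * (Y : ℝ) ^ (ε / 3) * nr (cu G) := (h₁ G hG3).trans (by gcongr)
    rw [norm_th_sq hG2, nr_eq hG2, div_le_iff₀ (by positivity)]
    refine (mul_le_mul_of_nonneg_right b6 b4.le).trans_eq ?_
    field_simp
  have e3 : ∑ G ∈ T, (nr (sq1 G))⁻¹ * (nr (cu G))⁻¹ ≤
      ∑ v ∈ pball Y ×ˢ pball Y, (nr v.1)⁻¹ * (nr v.2)⁻¹ := by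
    rw [← sum_image (s := T) (g := fun G => (sq1 G, cu G))
      (f := fun v : O × O => (nr v.1)⁻¹ * (nr v.2)⁻¹)]
    · refine sum_le_sum_of_subset_of_nonneg (fun v hv => ?_) fun _ _ _ => by positivity
      obtain ⟨G, hG, rfl⟩ := mem_image.1 hv
      obtain ⟨hG1, hG2⟩ := mem_filter.1 hG
      obtain ⟨hG3, hG4⟩ := mem_pball.1 hG1
      obtain ⟨a1, a2, -, a4⟩ := eq_sq1_mul_cu hG3 (th_ne_zero hG2).2
      refine mem_product.2 ⟨mem_pball.2 ⟨a2, (nm_le_of_dvd ⟨_, a1⟩ hG3.ne_zero).trans hG4⟩,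
        mem_pball.2 ⟨a4, (nm_le_of_dvd ?_ hG3.ne_zero).trans hG4⟩⟩
      exact (dvd_pow_self _ three_ne_zero).trans (Dvd.intro_left _ a1.symm)
    · intro G hG G' hG' h
      obtain ⟨hG1, hG2⟩ := mem_filter.1 hG
      obtain ⟨hG1', hG2'⟩ := mem_filter.1 hG'
      obtain ⟨a1, -⟩ := eq_sq1_mul_cu (mem_pball.1 hG1).1 (th_ne_zero hG2).2
      obtain ⟨a1', -⟩ := eq_sq1_mul_cu (mem_pball.1 hG1').1 (th_ne_zero hG2').2
      obtain ⟨b1, b2⟩ := Prod.mk.inj h
      rw [a1, a1', b1, b2]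
  rw [sum_product] at e3
  simp only [← mul_sum, ← sum_mul] at e3
  rw [e1]
  refine (sum_le_sum e2).trans ?_
  rw [← mul_sum]
  have e4 := h₂ Y hY
  have e5 : 0 ≤ ∑ n ∈ pball Y, (nr n)⁻¹ := sum_nonneg fun _ _ => by positivity
  refine (mul_le_mul_of_nonneg_left (e3.trans (mul_le_mul e4 e4 e5 (by positivity)))
    (by positivity)).trans_eq ?_
  have e6 : (Y : ℝ) ^ ε = (Y : ℝ) ^ (ε / 3) * (Y : ℝ) ^ (ε / 3) * (Y : ℝ) ^ (ε / 3) := by
    rw [← Real.rpow_add hY0, ← Real.rpow_add hY0]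
    congr 1
    ring
  rw [e6]
  ring

end Crest.Agent.T27.P4
end
end

-- ▼ part T27/P4Mel_17
section

/-!
# Row 27, PSD core, last part (helper17): Mellin separation and dyadic summation

Pure analysis: a bilinear form with a kernel `g (x D² / (N n₁ N n₂))` is bounded by smooth sums
on the lines `Re s = σ - 1/2`; weighted sums over the rows from bounds over balls.
-/

set_option autoImplicit false

noncomputable section

namespace Crest.Agent.T27.P4

open scoped ComplexConjugate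
open MeasureTheory Finset

theorem cpow_eq {y : ℝ} (hy : 0 < y) (t : ℂ) :
    (y : ℂ) ^ t = Complex.exp (t * (Real.log y : ℂ)) := by
  rw [Complex.cpow_def_of_ne_zero (by exact_mod_cast hy.ne'), Complex.ofReal_log hy.le, mul_comm]

theorem conj_W (y : ℝ) (s : ℂ) : conj (Wc y s) = Wc y (conj s) := by
  rw [Wc, Wc, ← Complex.exp_conj]
  generalize Real.log y = L
  simp

theorem sqrt_eq {y : ℝ} (hy : 0 < y) :
    (Real.sqrt y : ℂ) = Complex.exp ((Real.log y : ℂ) / 2) := by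
  have h : Real.sqrt y = Real.exp (Real.log y / 2) := by
    rw [Real.sqrt_eq_rpow, Real.rpow_def_of_pos hy]
    congr 1
    ring
  rw [h, Complex.ofReal_exp]
  push_cast
  rfl

theorem key {n D : ℝ} (hn : 0 < n) (hD : 0 < D) (s : ℂ) :
    Wc (n / D) 0 / (Real.sqrt n : ℂ) * Complex.exp (s * (Real.log (n / D) : ℂ)) =
      (Real.sqrt D : ℂ)⁻¹ * Wc (n / D) (s - 1 / 2) := by
  rw [sqrt_eq hn, sqrt_eq hD, Wc, Wc, Real.log_div hn.ne' hD.ne', ← Complex.exp_neg,
    ← Complex.exp_sub, ← Complex.exp_add, ← Complex.exp_add]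
  congr 1
  push_cast
  ring

/-- A finite smooth sum. -/
def TY {ι : Type*} (P : Finset ι) (N : ι → ℝ) (a : ι → ℂ) (D : ℝ) (s : ℂ) : ℂ :=
  ∑ n ∈ P, a n * Wc (N n / D) s

/-- The bilinear form. -/
def Bil {ι : Type*} (g : ℝ → ℝ) (P : Finset ι) (N : ι → ℝ) (a : ι → ℂ) (D x : ℝ) : ℂ :=
  ∑ n₁ ∈ P, ∑ n₂ ∈ P, (a n₁ * Wc (N n₁ / D) 0 / (Real.sqrt (N n₁) : ℂ)) *
    conj (a n₂ * Wc (N n₂ / D) 0 / (Real.sqrt (N n₂) : ℂ)) * (g (x * D ^ 2 / (N n₁ * N n₂)) : ℂ)

theorem term_eq {n₁ n₂ D x : ℝ} (h₁ : 0 < n₁) (h₂ : 0 < n₂) (hD : 0 < D) (hx : 0 < x)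
    (a b s : ℂ) :
    (a * Wc (n₁ / D) 0 / (Real.sqrt n₁ : ℂ)) * conj (b * Wc (n₂ / D) 0 / (Real.sqrt n₂ : ℂ)) *
        ((x * D ^ 2 / (n₁ * n₂) : ℝ) : ℂ) ^ (-s) =
      (x : ℂ) ^ (-s) * (D : ℂ)⁻¹ * ((a * Wc (n₁ / D) (s - 1 / 2)) *
        conj (b * Wc (n₂ / D) (conj s - 1 / 2))) := by
  have e1 := key h₁ hD s
  have e2 := key h₂ hD s
  have hl : Real.log (x * D ^ 2 / (n₁ * n₂)) =
      Real.log x - Real.log (n₁ / D) - Real.log (n₂ / D) := by
    rw [← Real.log_div hx.ne' (by positivity), ← Real.log_div (by positivity) (by positivity)]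
    congr 1
    field_simp
  have hD' : (D : ℂ)⁻¹ = (Real.sqrt D : ℂ)⁻¹ * (Real.sqrt D : ℂ)⁻¹ := by
    rw [← mul_inv, ← Complex.ofReal_mul, Real.mul_self_sqrt hD.le]
  have hc : conj (conj s - 1 / 2) = s - 1 / 2 := by
    rw [map_sub, Complex.conj_conj, map_div₀, map_one, map_ofNat]
  rw [cpow_eq (by positivity), cpow_eq hx, hl, map_div₀, map_mul, map_mul, conj_W, conj_W,
    Complex.conj_ofReal, map_zero, hc, hD']
  have e3 : Complex.exp (-s * ((Real.log x - Real.log (n₁ / D) - Real.log (n₂ / D) : ℝ) : ℂ)) =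
      Complex.exp (-s * (Real.log x : ℂ)) * (Complex.exp (s * (Real.log (n₁ / D) : ℂ)) *
        Complex.exp (s * (Real.log (n₂ / D) : ℂ))) := by
    rw [← Complex.exp_add, ← Complex.exp_add]
    congr 1
    push_cast
    ring
  rw [e3]
  calc _ = Complex.exp (-s * (Real.log x : ℂ)) * a * conj b *
        (Wc (n₁ / D) 0 / (Real.sqrt n₁ : ℂ) * Complex.exp (s * (Real.log (n₁ / D) : ℂ))) *
        (Wc (n₂ / D) 0 / (Real.sqrt n₂ : ℂ) * Complex.exp (s * (Real.log (n₂ / D) : ℂ))) := by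
        ring
    _ = _ := by rw [e1, e2]; ring

theorem norm_cpow_line {x : ℝ} (hx : 0 < x) (σ u : ℝ) :
    ‖(x : ℂ) ^ (-((σ : ℂ) + u * Complex.I))‖ = x ^ (-σ) := by
  rw [Complex.norm_cpow_eq_rpow_re_of_pos hx]
  simp

theorem integrable_line {m : ℂ → ℂ} {σ : ℝ} (hc : Continuous fun u : ℝ => m (σ + u * Complex.I))
    (hi : Integrable fun u : ℝ => ‖m (σ + u * Complex.I)‖) {x : ℝ} (hx : 0 < x) :
    Integrable fun u : ℝ => m (σ + u * Complex.I) * (x : ℂ) ^ (-((σ : ℂ) + u * Complex.I)) := by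
  have h1 : Continuous fun u : ℝ => (x : ℂ) ^ (-((σ : ℂ) + u * Complex.I)) := by
    simp_rw [cpow_eq hx]
    fun_prop
  refine (hi.mul_const (x ^ (-σ))).mono' (hc.mul h1).aestronglyMeasurable
    (Filter.Eventually.of_forall fun u => ?_)
  rw [norm_mul, norm_cpow_line hx]

/-- Mellin separation of the variables. -/
theorem sep {ι : Type*} {g : ℝ → ℝ} {m : ℂ → ℂ} {σ : ℝ}
    (hc : Continuous fun u : ℝ => m (σ + u * Complex.I))
    (hi : Integrable fun u : ℝ => ‖m (σ + u * Complex.I)‖)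
    (he : ∀ x : ℝ, 0 < x → (g x : ℂ) = (1 / (2 * Real.pi) : ℂ) *
      ∫ u : ℝ, m (σ + u * Complex.I) * (x : ℂ) ^ (-((σ : ℂ) + u * Complex.I)))
    (P : Finset ι) (N : ι → ℝ) (hN : ∀ n ∈ P, 0 < N n) (a : ι → ℂ) {D x : ℝ} (hD : 0 < D)
    (hx : 0 < x) :
    ∃ f : ℝ → ℂ, Integrable f ∧ ‖Bil g P N a D x‖ ≤ ∫ u, ‖f u‖ ∧ ∀ u : ℝ, ‖f u‖ ≤
      ‖m (σ + u * Complex.I)‖ * (D⁻¹ * (x ^ (-σ) *
        (‖TY P N a D ((σ - 1 / 2 : ℝ) + u * Complex.I)‖ ^ 2 +
          ‖TY P N a D ((σ - 1 / 2 : ℝ) + (-u : ℝ) * Complex.I)‖ ^ 2))) := by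
  set c : ι → ℂ := fun n => a n * Wc (N n / D) 0 / (Real.sqrt (N n) : ℂ) with hcdef
  set F : ι → ι → ℝ → ℂ := fun n₁ n₂ u => c n₁ * conj (c n₂) * (m (σ + u * Complex.I) *
    ((x * D ^ 2 / (N n₁ * N n₂) : ℝ) : ℂ) ^ (-((σ : ℂ) + u * Complex.I))) with hF
  have hpos : ∀ n₁ ∈ P, ∀ n₂ ∈ P, 0 < x * D ^ 2 / (N n₁ * N n₂) := fun n₁ h₁ n₂ h₂ => by
    have := hN n₁ h₁
    have := hN n₂ h₂
    positivity
  have hFi : ∀ n₁ ∈ P, ∀ n₂ ∈ P, Integrable (F n₁ n₂) := fun n₁ h₁ n₂ h₂ =>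
    (integrable_line hc hi (hpos n₁ h₁ n₂ h₂)).const_mul _
  refine ⟨fun u => ∑ n₁ ∈ P, ∑ n₂ ∈ P, F n₁ n₂ u,
    integrable_finsetSum _ fun n₁ h₁ => integrable_finsetSum _ fun n₂ h₂ => hFi n₁ h₁ n₂ h₂,
    ?_, fun u => ?_⟩
  · have e : Bil g P N a D x =
        (1 / (2 * Real.pi) : ℂ) * ∫ u, ∑ n₁ ∈ P, ∑ n₂ ∈ P, F n₁ n₂ u := by
      rw [integral_finsetSum _ fun n₁ h₁ => integrable_finsetSum _ fun n₂ h₂ =>
        hFi n₁ h₁ n₂ h₂, Bil, mul_sum]
      refine sum_congr rfl fun n₁ h₁ => ?_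
      rw [integral_finsetSum _ fun n₂ h₂ => hFi n₁ h₁ n₂ h₂, mul_sum]
      refine sum_congr rfl fun n₂ h₂ => ?_
      rw [he _ (hpos n₁ h₁ n₂ h₂), hF]
      simp only [integral_const_mul, hcdef]
      ring
    rw [e, norm_mul]
    have h1 : ‖(1 / (2 * Real.pi) : ℂ)‖ ≤ 1 := by
      rw [norm_div, norm_one, norm_mul, Complex.norm_real, Real.norm_of_nonneg Real.pi_pos.le,
        Complex.norm_ofNat, div_le_one (by positivity)]
      linarith [Real.pi_gt_three]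
    exact (mul_le_of_le_one_left (norm_nonneg _) h1).trans (norm_integral_le_integral_norm _)
  · have e1 : ((σ - 1 / 2 : ℝ) : ℂ) + u * Complex.I = (σ + u * Complex.I) - 1 / 2 := by
      push_cast; ring
    have e2 : ((σ - 1 / 2 : ℝ) : ℂ) + (-u : ℝ) * Complex.I =
        conj ((σ : ℂ) + u * Complex.I) - 1 / 2 := by
      simp only [map_add, map_mul, Complex.conj_ofReal, Complex.conj_I]
      push_cast; ring
    rw [e1, e2]
    set s : ℂ := σ + u * Complex.I with hs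
    have e : ∑ n₁ ∈ P, ∑ n₂ ∈ P, F n₁ n₂ u = m s * ((x : ℂ) ^ (-s) * (D : ℂ)⁻¹ *
        (TY P N a D (s - 1 / 2) * conj (TY P N a D (conj s - 1 / 2)))) := by
      rw [TY, TY, map_sum, sum_mul_sum, mul_sum, mul_sum]
      refine sum_congr rfl fun n₁ h₁ => ?_
      rw [mul_sum, mul_sum]
      refine sum_congr rfl fun n₂ h₂ => ?_
      rw [← term_eq (hN n₁ h₁) (hN n₂ h₂) hD hx, hF]
      simp only [hcdef, ← hs]
      ring
    beta_reduce
    rw [e, norm_mul, norm_mul, norm_mul, norm_mul, hs, norm_cpow_line hx, ← hs, norm_inv,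
      Complex.norm_real, Real.norm_of_nonneg hD.le, Complex.norm_conj]
    refine mul_le_mul_of_nonneg_left ?_ (norm_nonneg _)
    rw [mul_comm (x ^ (-σ)), mul_assoc]
    refine mul_le_mul_of_nonneg_left (mul_le_mul_of_nonneg_left ?_ (by positivity))
      (by positivity)
    nlinarith [sq_nonneg (‖TY P N a D (s - 1 / 2)‖ - ‖TY P N a D (conj s - 1 / 2)‖),
      norm_nonneg (TY P N a D (s - 1 / 2)), norm_nonneg (TY P N a D (conj s - 1 / 2))]

/-- A family of bilinear forms is bounded by the weighted energy of the smooth sums. -/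
theorem sep_sum {g : ℝ → ℝ} {m : ℂ → ℂ} {σ : ℝ} (J : ℕ)
    (hc : Continuous fun u : ℝ => m (σ + u * Complex.I))
    (hi : ∀ J : ℕ, Integrable fun u : ℝ => ‖m (σ + u * Complex.I)‖ * (1 + |u|) ^ J)
    (he : ∀ x : ℝ, 0 < x → (g x : ℂ) = (1 / (2 * Real.pi) : ℂ) *
      ∫ u : ℝ, m (σ + u * Complex.I) * (x : ℂ) ^ (-((σ : ℂ) + u * Complex.I))) :
    ∃ C : ℝ, 0 < C ∧ ∀ {ι κ : Type} (P : Finset ι) (N : ι → ℝ) (S : Finset κ) (a : κ → ι → ℂ)
      (x : κ → ℝ) (D E : ℝ), (∀ n ∈ P, 0 < N n) → 0 < D → 0 ≤ E → (∀ h ∈ S, 0 < x h) →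
      (∀ u : ℝ, ∑ h ∈ S, x h ^ (-σ) * ‖TY P N (a h) D ((σ - 1 / 2 : ℝ) + u * Complex.I)‖ ^ 2 ≤
        E * (1 + |u|) ^ J) →
      ∑ h ∈ S, ‖Bil g P N (a h) D (x h)‖ ≤ C * (D⁻¹ * E) := by
  have h0 : 0 ≤ ∫ u : ℝ, ‖m (σ + u * Complex.I)‖ * (1 + |u|) ^ J :=
    integral_nonneg fun u => by positivity
  refine ⟨2 * (∫ u : ℝ, ‖m (σ + u * Complex.I)‖ * (1 + |u|) ^ J) + 1, by positivity,
    fun P N S a x D E hN hD hE hx hS => ?_⟩
  have hi0 : Integrable fun u : ℝ => ‖m (σ + u * Complex.I)‖ := by simpa using hi 0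
  have h1 := fun h : S => sep hc hi0 he P N hN (a h) hD (hx h h.2)
  choose f hf1 hf2 hf3 using h1
  have h2 : ∑ h : S, ∫ u, ‖f h u‖ ≤
      ∫ u : ℝ, ‖m (σ + u * Complex.I)‖ * (1 + |u|) ^ J * (2 * (D⁻¹ * E)) := by
    rw [← integral_finsetSum _ fun h _ => (hf1 h).norm]
    refine integral_mono (integrable_finsetSum _ fun h _ => (hf1 h).norm) ((hi J).mul_const _)
      fun u => ?_
    refine (sum_le_sum fun h _ => hf3 h u).trans ?_
    rw [← mul_sum, ← mul_sum, mul_assoc]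
    refine mul_le_mul_of_nonneg_left ?_ (norm_nonneg _)
    have h3 := hS u
    have h4 := hS (-u)
    rw [abs_neg] at h4
    rw [← sum_coe_sort] at h3 h4
    simp only [mul_add, sum_add_distrib]
    calc _ ≤ D⁻¹ * (E * (1 + |u|) ^ J) + D⁻¹ * (E * (1 + |u|) ^ J) :=
          add_le_add (mul_le_mul_of_nonneg_left h3 (by positivity))
            (mul_le_mul_of_nonneg_left h4 (by positivity))
      _ = _ := by ring
  rw [← sum_coe_sort]
  refine ((sum_le_sum fun h _ => hf2 h).trans h2).trans ?_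
  rw [integral_mul_const]
  have : 0 ≤ D⁻¹ * E := by positivity
  nlinarith

/-- Dyadic summation: weights `(N k / K)^(-3)` on the indices with `N k > K`. -/
theorem dyadic {ε : ℝ} (hε1 : ε ≤ 1 / 2) : ∃ C : ℝ, 0 < C ∧
    ∀ {κ : Type} (S : Finset κ) (N f : κ → ℝ) (K E : ℝ), 0 < K → 0 ≤ E → (∀ k ∈ S, K < N k) →
      (∀ k ∈ S, 0 ≤ f k) →
      (∀ t : ℝ, 1 ≤ t → ∑ k ∈ S.filter (fun k => N k ≤ t * K), f k ≤ E * t ^ (2 + ε)) →
      ∑ k ∈ S, (N k / K) ^ (-3 : ℝ) * f k ≤ C * E := by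
  set r : ℝ := (2 : ℝ) ^ (ε - 1) with hr
  have hr0 : 0 < r := by positivity
  have hr1 : r < 1 := Real.rpow_lt_one_of_one_lt_of_neg (by norm_num) (by linarith)
  have hr2 : 0 < 1 - r := by linarith
  refine ⟨(2 : ℝ) ^ (2 + ε) * (1 - r)⁻¹, by positivity, fun S N f K E hK hE hN hf h => ?_⟩
  classical
  have hex : ∀ k ∈ S, ∃ j : ℕ, (2 : ℝ) ^ j ≤ N k / K ∧ N k / K < 2 ^ (j + 1) := fun k hk =>
    exists_nat_pow_near ((one_le_div hK).2 (hN k hk).le) (by norm_num)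
  choose! j hj1 hj2 using hex
  set M := S.sup j + 1 with hM
  have h1 : ∀ k ∈ S, (N k / K) ^ (-3 : ℝ) * f k ≤
      ∑ i ∈ range M, ((2 : ℝ) ^ i) ^ (-3 : ℝ) * if N k ≤ 2 ^ (i + 1) * K then f k else 0 := by
    intro k hk
    have hm : j k ∈ range M := mem_range.2 (Nat.lt_succ_of_le (le_sup (f := j) hk))
    refine le_trans ?_ (single_le_sum (f := fun i => ((2 : ℝ) ^ i) ^ (-3 : ℝ) *
      if N k ≤ 2 ^ (i + 1) * K then f k else 0) (fun i _ => ?_) hm)
    · have h2 := hj2 k hk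
      rw [div_lt_iff₀ hK] at h2
      simp only [if_pos h2.le]
      exact mul_le_mul_of_nonneg_right
        (Real.rpow_le_rpow_of_nonpos (by positivity) (hj1 k hk) (by norm_num)) (hf k hk)
    · have := hf k hk
      split_ifs <;> positivity
  refine (sum_le_sum h1).trans ?_
  rw [sum_comm]
  have h2 : ∀ i ∈ range M, ∑ k ∈ S, (((2 : ℝ) ^ i) ^ (-3 : ℝ) *
      if N k ≤ 2 ^ (i + 1) * K then f k else 0) ≤ (2 : ℝ) ^ (2 + ε) * E * r ^ i := by
    intro i _
    rw [← mul_sum, ← sum_filter]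
    refine (mul_le_mul_of_nonneg_left (h _ (one_le_pow₀ (by norm_num))) (by positivity)).trans_eq ?_
    rw [hr, ← Real.rpow_natCast, ← Real.rpow_natCast, ← Real.rpow_natCast,
      ← Real.rpow_mul (by norm_num), ← Real.rpow_mul (by norm_num), ← Real.rpow_mul (by norm_num),
      mul_left_comm, ← Real.rpow_add (by norm_num), mul_right_comm, ← Real.rpow_add (by norm_num),
      mul_comm]
    congr 2
    push_cast
    ring
  refine (sum_le_sum h2).trans ?_
  rw [← mul_sum, mul_right_comm]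
  refine mul_le_mul_of_nonneg_right (mul_le_mul_of_nonneg_left ?_ (by positivity)) hE
  rw [← tsum_geometric_of_lt_one hr0.le hr1]
  exact (summable_geometric_of_lt_one hr0.le hr1).sum_le_tsum _ fun i _ => by positivity

end Crest.Agent.T27.P4
end
end

-- ▼ part T27/P4Defs_17
section

/-!
# Row 27: the energy bound consumed by the last part of the PSD core (definitions only, helper17)

`PsdStmt → EnAll → SStmt → MobFr`.  `EnFix → EnAll` is the reduction to squarefree rows.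
-/

set_option autoImplicit false

noncomputable section

namespace Crest.Agent.T27

variable [Fr]

/-- The energy bound for the completed theta sums over all the rows `k * h₀`, `0 < N k ≤ K`. -/
def EnAll : Prop :=
  ∀ ε : ℝ, 0 < ε → ∃ C : ℝ, 0 < C ∧ ∃ J : ℕ, ∀ (Q K D : ℝ) (φ : O → ℂ) (h₀ : O) (s : ℂ),
    1 ≤ K → K ≤ Q → 0 < D → D ≤ Q → D⁻¹ ≤ Q → Primary h₀ → nr (rad h₀) ≤ Q →
    (∀ n, ‖φ n‖ ≤ 1) → (∀ n n', cls n = cls n' → φ n = φ n') → |s.re| ≤ 3 →
      ∑ k ∈ rows K, ‖∑' n : O, th n * φ n * sym n (k * h₀) * Wc (nr n / D) s‖ ^ 2 ≤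
        C * Q ^ ε * (1 + |s.im|) ^ J * (D * K + K ^ 2 * nr (rad h₀) ^ 2)


end Crest.Agent.T27
end
end

-- ▼ part T27/P4S_17
section

/-!
# Row 27, PSD core, last part (helper17): `PsdStmt → EnAll → SStmt`
-/

set_option autoImplicit false

noncomputable section

namespace Crest.Agent.T27.P4

open scoped ComplexConjugate
open Finset

theorem norm_tsum_le_of_sum {ι : Type*} {f : ι → ℂ} {M : ℝ} (h : ∀ S : Finset ι, ∑ i ∈ S, ‖f i‖ ≤ M) :
    ‖∑' i, f i‖ ≤ M :=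
  (norm_tsum_le_tsum_norm (summable_of_sum_le (fun _ => norm_nonneg _) h)).trans
    (Real.tsum_le_of_sum_le (fun _ => norm_nonneg _) h)

theorem norm_tsum_sub_sum_le {ι : Type*} {f : ι → ℂ} (hf : Summable fun i => ‖f i‖) (P : Finset ι)
    {g : ι → ℝ} (hg : Summable g) (h0 : ∀ i, 0 ≤ g i) (h : ∀ i, i ∉ P → ‖f i‖ ≤ g i) :
    ‖∑' i, f i - ∑ i ∈ P, f i‖ ≤ ∑' i, g i := by
  classical
  have h1 : HasSum (fun i => if i ∈ P then f i else 0) (∑ i ∈ P, f i) := by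
    have := hasSum_sum_of_ne_finset_zero (f := fun i => if i ∈ P then f i else 0) (s := P)
      (L := SummationFilter.unconditional ι) fun i hi => if_neg hi
    rwa [sum_congr rfl fun i hi => if_pos hi] at this
  rw [← (hf.of_norm.hasSum.sub h1).tsum_eq]
  refine tsum_of_norm_bounded hg.hasSum fun i => ?_
  split_ifs with hi
  · rw [sub_self, norm_zero]; exact h0 i
  · rw [sub_zero]; exact h i hi

theorem norm_sq_le_two (a b : ℂ) : ‖a‖ ^ 2 ≤ 2 * ‖b‖ ^ 2 + 2 * ‖b - a‖ ^ 2 := by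
  have h : ‖a‖ ≤ ‖b‖ + ‖b - a‖ := by
    calc ‖a‖ = ‖b - (b - a)‖ := by rw [sub_sub_cancel]
      _ ≤ _ := norm_sub_le _ _
  nlinarith [norm_nonneg a, norm_nonneg b, norm_nonneg (b - a), sq_nonneg (‖b‖ - ‖b - a‖)]

variable [Fr]

/-- Truncation of a smooth sum. -/
theorem trunc (β : ℝ) (hβ : 0 ≤ β) : ∃ C : ℝ, 0 < C ∧ ∀ (b : O → ℂ) (P : Finset O) (X L : ℝ) (s : ℂ),
    (∀ n, b n ≠ 0 → Primary n) → (∀ n, ‖b n‖ ≤ nr n ^ β) → 0 < X → 1 ≤ L → |s.re| ≤ 3 →
    (∀ n, Primary n → nr n ≤ X * L → n ∈ P) →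
    ‖∑' n, b n * Wc (nr n / X) s - ∑ n ∈ P, b n * Wc (nr n / X) s‖ ≤ C * (X ^ (β + 1) / L) := by
  obtain ⟨C, hC, h⟩ := tsum_norm_Sm_tail_le 1 β 3 hβ
  refine ⟨C, hC, fun b P X L s hb1 hb2 hX hL hs hP => ?_⟩
  have hb : PolyB b 1 β := ⟨by_contra fun h0 => (hb1 0 h0).ne_zero rfl,
    fun n => by rw [one_mul]; exact hb2 n, fun n hn => by_contra fun h0 => hn (hb1 n h0).rep⟩
  have h1 := summable_Sm hb hX s
  refine (norm_tsum_sub_sum_le h1 P (g := fun n =>
    if X / L ≤ nr n ∧ nr n ≤ X * L then 0 else ‖b n * Wc (nr n / X) s‖) ?_ (fun n => ?_)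
    fun n hn => ?_).trans ((h b 1 X L s hb hX hL hs).trans_eq ?_)
  · refine Summable.of_nonneg_of_le (fun n => ?_) (fun n => ?_) h1 <;> split_ifs
    exacts [le_rfl, norm_nonneg _, norm_nonneg _, le_rfl]
  · split_ifs
    exacts [le_rfl, norm_nonneg _]
  · split_ifs with h2
    · by_cases h0 : b n = 0
      · rw [h0, zero_mul, norm_zero]
      · exact absurd (hP n (hb1 n h0) h2.2) hn
    · exact le_rfl
  · rw [Real.rpow_neg_one]
    ring

theorem card_le_c7 {S : Finset O} {K : ℝ} (hK : 1 ≤ K) (hS : ∀ h ∈ S, Rep h ∧ nr h ≤ K) :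
    (S.card : ℝ) ≤ (c7 + 1) * K := by
  have h1 : S ⊆ ball ⌊K⌋₊ := fun h hh => mem_ball.2 ⟨(hS h hh).1, Nat.le_floor (hS h hh).2⟩
  have h2 : (S.card : ℝ) ≤ (((kk + 7) * ⌊K⌋₊ + 1 : ℕ) : ℝ) :=
    Nat.cast_le.2 ((card_le_card h1).trans (card_ball_le _))
  have h3 := Nat.floor_le (zero_le_one.trans hK)
  push_cast at h2
  nlinarith [c7_pos]

/-- The coefficients of the dual row `h`. -/
def ca (φ : O → ℂ) (h₀ h n : O) : ℂ := th n * φ n * sym n (h * h₀)

theorem ca_primary {φ : O → ℂ} {h₀ h n : O} (hn : ca φ h₀ h n ≠ 0) : Primary n :=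
  (th_ne_zero (left_ne_zero_of_mul (left_ne_zero_of_mul hn))).1

theorem norm_ca_le {φ : O → ℂ} (hφ : ∀ n, ‖φ n‖ ≤ 1) (h₀ h n : O) :
    ‖ca φ h₀ h n‖ ≤ nr n ^ (1 / 2 : ℝ) := by
  rw [ca, norm_mul, norm_mul]
  exact (mul_le_of_le_one_right (by positivity) (norm_sym_le _ _)).trans
    ((mul_le_of_le_one_right (norm_nonneg _) (hφ n)).trans (norm_th_le n))

/-- The energy of the truncated sums. -/
theorem truncE (hE : EnAll) {ε : ℝ} (hε : 0 < ε) : ∃ C : ℝ, 0 < C ∧ ∃ J : ℕ,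
    ∀ (Q K D L : ℝ) (φ : O → ℂ) (h₀ : O) (s : ℂ) (P S : Finset O), 0 ≤ K → K ≤ Q → 0 < D → D ≤ Q →
      D⁻¹ ≤ Q → Primary h₀ → nr (rad h₀) ≤ Q → (∀ n, ‖φ n‖ ≤ 1) →
      (∀ n n', cls n = cls n' → φ n = φ n') → |s.re| ≤ 3 → 1 ≤ L → D ≤ L →
      (∀ n, Primary n → nr n ≤ D * L → n ∈ P) → (∀ h ∈ S, h ≠ 0 ∧ Rep h ∧ nr h ≤ K) →
      ∑ h ∈ S, ‖TY P nr (ca φ h₀ h) D s‖ ^ 2 ≤
        C * Q ^ ε * (1 + |s.im|) ^ J * (D * K + K ^ 2 * nr (rad h₀) ^ 2) := by
  obtain ⟨C₁, hC₁, J, h₁⟩ := hE ε hε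
  obtain ⟨C₂, hC₂, h₂⟩ := trunc (1 / 2) (by norm_num)
  have hc := c7_pos
  refine ⟨2 * C₁ + 2 * C₂ ^ 2 * (c7 + 1), by positivity, J,
    fun Q K D L φ h₀ s P S hK0 hKQ hD hDQ hDQ' hh₀ hR hφ hφ' hs hL hDL hP hS => ?_⟩
  have hQ0 : 0 ≤ Q := hK0.trans hKQ
  rcases S.eq_empty_or_nonempty with rfl | ⟨k, hk⟩
  · rw [sum_empty]; positivity
  have hK : 1 ≤ K := (one_le_nr (hS k hk).1).trans (hS k hk).2.2
  have e1 := h₁ Q K D φ h₀ s hK hKQ hD hDQ hDQ' hh₀ hR hφ hφ' hs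
  have e2 : ∀ h ∈ S, ‖TY P nr (ca φ h₀ h) D s‖ ^ 2 ≤
      2 * ‖∑' n : O, th n * φ n * sym n (h * h₀) * Wc (nr n / D) s‖ ^ 2 + 2 * (C₂ ^ 2 * D) := by
    intro h _
    refine (norm_sq_le_two _ (∑' n : O, th n * φ n * sym n (h * h₀) * Wc (nr n / D) s)).trans ?_
    have e3 := h₂ (ca φ h₀ h) P D L s (fun n => ca_primary) (norm_ca_le hφ h₀ h) hD hL hs hP
    have e4 : D ^ (1 / 2 + 1 : ℝ) / L ≤ D ^ (1 / 2 : ℝ) := by
      rw [Real.rpow_add_one hD.ne', mul_div_assoc]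
      exact mul_le_of_le_one_right (by positivity) ((div_le_one (by linarith)).2 hDL)
    have e5 := pow_le_pow_left₀ (norm_nonneg _) (e3.trans (mul_le_mul_of_nonneg_left e4 hC₂.le)) 2
    rw [mul_pow, ← Real.sqrt_eq_rpow, Real.sq_sqrt hD.le] at e5
    exact add_le_add le_rfl (mul_le_mul_of_nonneg_left e5 (by norm_num))
  refine (sum_le_sum e2).trans ?_
  rw [sum_add_distrib, ← mul_sum, sum_const, nsmul_eq_mul]
  have e6 : S ⊆ rows K := fun h hh => (mem_rows hK0).2 (hS h hh)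
  have e7 := (sum_le_sum_of_subset_of_nonneg e6 (f := fun h =>
    ‖∑' n : O, th n * φ n * sym n (h * h₀) * Wc (nr n / D) s‖ ^ 2)
    fun _ _ _ => by positivity).trans e1
  have e8 := card_le_c7 hK fun h hh => (hS h hh).2
  have e9 : 1 ≤ Q ^ ε * (1 + |s.im|) ^ J := one_le_mul_of_one_le_of_one_le
    (Real.one_le_rpow (hK.trans hKQ) hε.le) (one_le_pow₀ (by linarith [abs_nonneg s.im]))
  have e10 : D * K ≤ Q ^ ε * (1 + |s.im|) ^ J * (D * K + K ^ 2 * nr (rad h₀) ^ 2) :=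
    (le_add_of_nonneg_right (by positivity)).trans (le_mul_of_one_le_left (by positivity) e9)
  calc _ ≤ 2 * (C₁ * Q ^ ε * (1 + |s.im|) ^ J * (D * K + K ^ 2 * nr (rad h₀) ^ 2)) +
        (c7 + 1) * K * (2 * (C₂ ^ 2 * D)) := by gcongr
    _ = 2 * (C₁ * Q ^ ε * (1 + |s.im|) ^ J * (D * K + K ^ 2 * nr (rad h₀) ^ 2)) +
        2 * C₂ ^ 2 * (c7 + 1) * (D * K) := by ring
    _ ≤ 2 * (C₁ * Q ^ ε * (1 + |s.im|) ^ J * (D * K + K ^ 2 * nr (rad h₀) ^ 2)) +
        2 * C₂ ^ 2 * (c7 + 1) *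
          (Q ^ ε * (1 + |s.im|) ^ J * (D * K + K ^ 2 * nr (rad h₀) ^ 2)) := by gcongr
    _ = _ := by ring

/-- The zero row. -/
theorem zero_row : ∃ C : ℝ, 0 < C ∧ ∀ (φ : O → ℂ) (h₀ : O) (P : Finset O) (D : ℝ),
    (∀ n, ‖φ n‖ ≤ 1) → 0 < D → ‖Bil gw P nr (ca φ h₀ 0) D 0‖ ≤ C * D := by
  obtain ⟨C, hC, h⟩ := norm_Wc_le_rpow (-(1 / 2)) 0
  refine ⟨C ^ 2, by positivity, fun φ h₀ P D hφ hD => ?_⟩
  have hg : gw 0 = 1 := Fr.kerAx.zero
  set c : O → ℂ := fun n => ca φ h₀ 0 n * Wc (nr n / D) 0 / (Real.sqrt (nr n) : ℂ) with hc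
  have e1 : Bil gw P nr (ca φ h₀ 0) D 0 = (∑ n ∈ P, c n) * conj (∑ n ∈ P, c n) := by
    rw [Bil, map_sum, sum_mul_sum]
    refine sum_congr rfl fun _ _ => sum_congr rfl fun _ _ => ?_
    rw [zero_mul, zero_div, hg, Complex.ofReal_one, mul_one]
  have e2 : ∀ n, n ≠ 1 → c n = 0 := by
    intro n hn
    have : ca φ h₀ 0 n = 0 := by
      by_contra h0
      have h1 := ca_primary h0
      refine right_ne_zero_of_mul h0 ((sym_eq_zero_iff h1).2 fun h2 => hn ?_)
      rw [zero_mul] at h2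
      exact h1.eq_one_of_isUnit (isCoprime_zero_right.1 h2)
    simp only [hc, this, zero_mul, zero_div]
  have e3 : ‖c 1‖ ≤ C * D ^ (1 / 2 : ℝ) := by
    have h1 := norm_ca_le hφ h₀ 0 1
    have h2 := h (nr (1 : O) / D) 0 (by simpa using hD) (by simp)
    simp only [hc, nr, nm_one, Nat.cast_one, Real.one_rpow, Real.sqrt_one, Complex.ofReal_one,
      div_one, norm_mul] at h1 h2 ⊢
    rw [Real.div_rpow zero_le_one hD.le, Real.one_rpow, Real.rpow_neg hD.le,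
      one_div (D ^ (1 / 2 : ℝ))⁻¹, inv_inv] at h2
    exact (mul_le_of_le_one_left (norm_nonneg _) h1).trans h2
  have e4 : ‖∑ n ∈ P, c n‖ ≤ C * D ^ (1 / 2 : ℝ) := by
    by_cases h1 : (1 : O) ∈ P
    · rw [sum_eq_single_of_mem 1 h1 fun n _ hn => e2 n hn]
      exact e3
    · rw [sum_eq_zero fun n hn => e2 n fun h2 => h1 (h2 ▸ hn), norm_zero]
      positivity
  have e5 := pow_le_pow_left₀ (norm_nonneg _) e4 2
  rw [mul_pow, ← Real.sqrt_eq_rpow, Real.sq_sqrt hD.le] at e5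
  rwa [e1, norm_mul, Complex.norm_conj, ← sq]

/-- The non-zero rows. -/
theorem rows_le (hE : EnAll) {ε : ℝ} (hε : 0 < ε) (hε1 : ε ≤ 1 / 2) : ∃ C : ℝ, 0 < C ∧
    ∀ (Q K D L : ℝ) (φ : O → ℂ) (h₀ : O) (P S : Finset O), 0 < K → K ≤ Q → 0 < D → D ≤ Q →
      D⁻¹ ≤ Q → 1 ≤ Q → Primary h₀ → nr (rad h₀) ≤ Q → (∀ n, ‖φ n‖ ≤ 1) →
      (∀ n n', cls n = cls n' → φ n = φ n') → 1 ≤ L → D ≤ L → (∀ n ∈ P, n ≠ 0) →
      (∀ n, Primary n → nr n ≤ D * L → n ∈ P) → (∀ h ∈ S, h ≠ 0 ∧ Rep h) →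
      ∑ h ∈ S, ‖Bil gw P nr (ca φ h₀ h) D (nr h / K)‖ ≤
        C * (Q ^ ε) ^ 2 * (D⁻¹ * (D * K + K ^ 2 * nr (rad h₀) ^ 2)) := by
  classical
  obtain ⟨C₁, hC₁, J, h₁⟩ := truncE hE hε
  obtain ⟨C₂, hC₂, h₂⟩ := dyadic hε1
  have hk := Fr.kerAx
  obtain ⟨C₃, hC₃, h₃⟩ := sep_sum (g := gw) (m := mel) J (hk.mel_cont ε hε) (hk.mel_int ε hε)
    fun x hx => hk.mel_eq x ε hx hε
  obtain ⟨C₄, hC₄, h₄⟩ := sep_sum (g := gw) (m := mel) J (hk.mel_cont 3 (by norm_num))
    (hk.mel_int 3 (by norm_num)) fun x hx => hk.mel_eq x 3 hx (by norm_num)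
  refine ⟨C₃ * C₁ + C₄ * (C₂ * C₁), by positivity,
    fun Q K D L φ h₀ P S hK hKQ hD hDQ hDQ' hQ hh₀ hR hφ hφ' hL hDL hP0 hP hS => ?_⟩
  set E := D * K + K ^ 2 * nr (rad h₀) ^ 2 with hEdef
  have hE0 : 0 ≤ E := by positivity
  have hq : 1 ≤ Q ^ ε := Real.one_le_rpow hQ hε.le
  have hx : ∀ T : Finset O, T ⊆ S → ∀ h ∈ T, 0 < nr h / K := fun T hT h hh =>
    div_pos (nr_pos (hS h (hT hh)).1) hK
  have hN : ∀ n ∈ P, 0 < nr n := fun n hn => nr_pos (hP0 n hn)
  have him : ∀ σ u : ℝ, ((σ : ℂ) + u * Complex.I).im = u := fun σ u => by simp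
  have hre : ∀ σ u : ℝ, ((σ : ℂ) + u * Complex.I).re = σ := fun σ u => by simp
  rw [← sum_filter_add_sum_filter_not S fun h => nr h ≤ K]
  have a1 := h₃ P nr (S.filter fun h => nr h ≤ K) (ca φ h₀) (fun h => nr h / K) D
    (C₁ * (Q ^ ε) ^ 2 * E) hN hD (by positivity) (hx _ (filter_subset _ _)) fun u => by
      have b1 := h₁ Q K D L φ h₀ ((ε - 1 / 2 : ℝ) + u * Complex.I) P (S.filter fun h => nr h ≤ K)
        hK.le hKQ hD hDQ hDQ' hh₀ hR hφ hφ' (by rw [hre, abs_le]; constructor <;> linarith) hL hDL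
        hP fun h hh => ⟨(hS h (mem_filter.1 hh).1).1, (hS h (mem_filter.1 hh).1).2,
          (mem_filter.1 hh).2⟩
      rw [him] at b1
      have b2 : ∀ h ∈ S.filter fun h => nr h ≤ K, (nr h / K) ^ (-ε) ≤ Q ^ ε := by
        intro h hh
        have b3 := one_le_nr (hS h (mem_filter.1 hh).1).1
        rw [Real.rpow_neg (by positivity), ← Real.inv_rpow (by positivity), inv_div]
        exact Real.rpow_le_rpow (by positivity) ((div_le_self hK.le b3).trans hKQ) hε.le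
      refine (sum_le_sum fun h hh => mul_le_mul_of_nonneg_right (b2 h hh) (sq_nonneg _)).trans ?_
      rw [← mul_sum]
      refine (mul_le_mul_of_nonneg_left b1 (by positivity)).trans_eq ?_
      ring
  have a2 := h₄ P nr (S.filter fun h => ¬ nr h ≤ K) (ca φ h₀) (fun h => nr h / K) D
    (C₂ * C₁ * Q ^ ε * E) hN hD (by positivity) (hx _ (filter_subset _ _)) fun u => by
      refine (h₂ (S.filter fun h => ¬ nr h ≤ K) nr (fun h =>
        ‖TY P nr (ca φ h₀ h) D (((3 : ℝ) - 1 / 2 : ℝ) + u * Complex.I)‖ ^ 2) K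
        (C₁ * Q ^ ε * (1 + |u|) ^ J * E) hK (by positivity)
        (fun h hh => not_le.1 (mem_filter.1 hh).2) (fun _ _ => sq_nonneg _)
        fun t ht => ?_).trans_eq (by ring)
      have hQt : Q ≤ t * Q := le_mul_of_one_le_left (by linarith) ht
      have b1 := h₁ (t * Q) (t * K) D L φ h₀ (((3 : ℝ) - 1 / 2 : ℝ) + u * Complex.I) P
        ((S.filter fun h => ¬ nr h ≤ K).filter fun h => nr h ≤ t * K)
        (by positivity) (by gcongr) hD (hDQ.trans hQt) (hDQ'.trans hQt) hh₀ (hR.trans hQt) hφ hφ'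
        (by rw [hre, abs_le]; constructor <;> norm_num) hL hDL
        hP fun h hh => ⟨(hS h (mem_filter.1 (mem_filter.1 hh).1).1).1,
          (hS h (mem_filter.1 (mem_filter.1 hh).1).1).2, (mem_filter.1 hh).2⟩
      rw [him] at b1
      refine b1.trans ?_
      have b2 : D * (t * K) + (t * K) ^ 2 * nr (rad h₀) ^ 2 ≤ t ^ 2 * E := by
        have : t ≤ t ^ 2 := by nlinarith
        have : t * (D * K) ≤ t ^ 2 * (D * K) := by gcongr
        rw [hEdef]
        nlinarith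
      rw [Real.mul_rpow (by linarith) (by linarith), Real.rpow_add (by linarith), Real.rpow_two]
      calc _ ≤ C₁ * (t ^ ε * Q ^ ε) * (1 + |u|) ^ J * (t ^ 2 * E) := by gcongr
        _ = _ := by ring
  have a3 : Q ^ ε ≤ (Q ^ ε) ^ 2 := by nlinarith
  calc _ ≤ C₃ * (D⁻¹ * (C₁ * (Q ^ ε) ^ 2 * E)) + C₄ * (D⁻¹ * (C₂ * C₁ * Q ^ ε * E)) :=
        add_le_add a1 a2
    _ ≤ C₃ * (D⁻¹ * (C₁ * (Q ^ ε) ^ 2 * E)) + C₄ * (D⁻¹ * (C₂ * C₁ * (Q ^ ε) ^ 2 * E)) := by
        gcongr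
    _ = _ := by ring

/-- The term of `G`. -/
theorem term_le (hE : EnAll) {ε : ℝ} (hε : 0 < ε) (hε1 : ε ≤ 1 / 2) : ∃ C : ℝ, 0 < C ∧
    ∀ (φ : O → ℂ) (G : O) (Y : ℕ) (A B : ℝ), (∀ n, ‖φ n‖ ≤ 1) →
      (∀ n n', cls n = cls n' → φ n = φ n') → G ∈ pball Y → 1 ≤ B → B ≤ A → B ^ 2 ≤ Y →
      (Y : ℝ) ≤ 2 * B ^ 2 →
      ‖∑' h : O, ∑ n₁ ∈ pball (Y / nm G), ∑ n₂ ∈ pball (Y / nm G),
        cfG φ G B h n₁ * conj (cfG φ G B h n₂) *
          (gr h (A * nr h / (nr (eG G) * nr n₁ * nr n₂)) : ℂ)‖ ≤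
        C * ((2 * B ^ 2) ^ ε) ^ 2 * (B / nr G) := by
  classical
  obtain ⟨C₁, hC₁, h₁⟩ := rows_le hE hε hε1
  obtain ⟨C₂, hC₂, h₂⟩ := zero_row
  refine ⟨C₂ + 2 * C₁, by positivity, fun φ G Y A B hφ hφ' hG hB hBA hY hY' => ?_⟩
  obtain ⟨hG1, hG2⟩ := mem_pball.1 hG
  have g1 := one_le_nr hG1.ne_zero
  have g2 : nr G ≤ Y := Nat.cast_le.2 hG2
  have e1 := one_le_nr (primary_eG G).ne_zero
  have r1 := one_le_nr (primary_rad G).ne_zero
  have er : nr (eG G) * nr (rad G) = nr G := by rw [← nr_mul, eG_mul_rad hG1]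
  have hA : 0 < A := by linarith
  have hB0 : 0 < B := by linarith
  set D := B / nr G with hD
  have hD0 : 0 < D := by positivity
  have hDB : D ≤ B := div_le_self hB0.le g1
  set K := nr (eG G) * D ^ 2 / A with hK
  have hK0 : 0 < K := by positivity
  set h₀ := eG G ^ 5 * rad G ^ 6 with hh₀
  set P := pball (Y / nm G) with hP
  have hQ : 1 ≤ 2 * B ^ 2 := by nlinarith
  have hBQ : B ≤ 2 * B ^ 2 := by nlinarith
  have hKD : K ≤ D := by
    rw [hK, div_le_iff₀ hA, sq, ← mul_assoc, mul_comm D A]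
    refine mul_le_mul_of_nonneg_right ?_ hD0.le
    rw [hD, ← mul_div_assoc, div_le_iff₀ (by linarith)]
    have : nr (eG G) ≤ nr G := by nlinarith
    nlinarith
  have hE2 : D⁻¹ * (D * K + K ^ 2 * nr (rad G) ^ 2) ≤ 2 * D := by
    have h3 : K * nr (rad G) = D * (B / A) := by
      rw [hK, hD, ← er]
      field_simp
    have h4 : B / A ≤ 1 := (div_le_one hA).2 hBA
    have h5 : K * nr (rad G) ≤ D := h3 ▸ mul_le_of_le_one_right hD0.le h4
    have h6 := pow_le_pow_left₀ (by positivity) h5 2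
    rw [inv_mul_le_iff₀ hD0]
    nlinarith
  have hF : ∀ h : O, ∑ n₁ ∈ P, ∑ n₂ ∈ P, cfG φ G B h n₁ * conj (cfG φ G B h n₂) *
      (gr h (A * nr h / (nr (eG G) * nr n₁ * nr n₂)) : ℂ) =
      if Rep h then Bil gw P nr (ca φ h₀ h) D (nr h / K) else 0 := by
    intro h
    split_ifs with hh
    · refine sum_congr rfl fun n₁ hn₁ => sum_congr rfl fun n₂ hn₂ => ?_
      have b1 := nr_pos (mem_pball.1 hn₁).1.ne_zero
      have b2 := nr_pos (mem_pball.1 hn₂).1.ne_zero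
      have b3 : ∀ n : O, nr G * nr n / B = nr n / D := fun n => by
        rw [hD]; field_simp
      have b4 : A * nr h / (nr (eG G) * nr n₁ * nr n₂) = nr h / K * D ^ 2 / (nr n₁ * nr n₂) := by
        rw [hK]; field_simp
      rw [cfG, cfG, b3, b3, b4, gr, grp, if_pos hh, mul_assoc h]
      rfl
    · simp only [gr, grp, if_neg hh, Complex.ofReal_zero, mul_zero, sum_const_zero]
  simp only [hF]
  refine norm_tsum_le_of_sum fun S => ?_
  have a1 := h₁ (2 * B ^ 2) K D (Y / B) φ h₀ P (S.filter fun h => h ≠ 0 ∧ Rep h) hK0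
    (hKD.trans (hDB.trans hBQ)) hD0 (hDB.trans hBQ) ?_ hQ
    (((primary_eG G).pow 5).mul ((primary_rad G).pow 6)) ?_ hφ hφ' ?_ ?_
    (fun n hn => (mem_pball.1 hn).1.ne_zero) (fun n hn hn' => ?_) fun h hh => (mem_filter.1 hh).2
  · rw [hh₀, rad_h0 hG1, ← hh₀] at a1
    have a2 := h₂ φ h₀ P D hφ hD0
    have a3 : ∑ h ∈ S, ‖if Rep h then Bil gw P nr (ca φ h₀ h) D (nr h / K) else 0‖ ≤
        ‖Bil gw P nr (ca φ h₀ 0) D 0‖ + ∑ h ∈ S.filter (fun h => h ≠ 0 ∧ Rep h),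
          ‖Bil gw P nr (ca φ h₀ h) D (nr h / K)‖ := by
      rw [← sum_filter_add_sum_filter_not S fun h => h = 0]
      refine add_le_add ?_ (le_of_eq ?_)
      · rw [filter_eq']
        split_ifs
        · rw [sum_singleton, if_pos rep_zero, nr, nm_zero, Nat.cast_zero, zero_div]
        · rw [sum_empty]; exact norm_nonneg _
      · rw [← filter_filter, sum_filter (s := S.filter fun h => h ≠ 0)]
        refine sum_congr rfl fun h _ => ?_
        split_ifs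
        · rfl
        · exact norm_zero
    have hq : 1 ≤ ((2 * B ^ 2) ^ ε) ^ 2 := one_le_pow₀ (Real.one_le_rpow hQ hε.le)
    have a4 : C₂ * D ≤ C₂ * ((2 * B ^ 2) ^ ε) ^ 2 * D := by
      rw [mul_assoc]
      exact mul_le_mul_of_nonneg_left (le_mul_of_one_le_left hD0.le hq) hC₂.le
    calc _ ≤ _ := a3
      _ ≤ C₂ * ((2 * B ^ 2) ^ ε) ^ 2 * D + C₁ * ((2 * B ^ 2) ^ ε) ^ 2 * (2 * D) :=
        add_le_add (a2.trans a4) (a1.trans (by gcongr))
      _ = _ := by ring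
  · rw [hD, inv_div]
    exact (div_le_self (by linarith) hB).trans (g2.trans hY')
  · rw [hh₀, rad_h0 hG1]
    have : nr (rad G) ≤ nr G := by nlinarith
    exact this.trans (g2.trans hY')
  · rw [le_div_iff₀ hB0]; nlinarith
  · refine hDB.trans ?_
    rw [le_div_iff₀ hB0]; nlinarith
  · refine mem_pball.2 ⟨hn, (Nat.le_div_iff_mul_le ?_).2 ?_⟩
    · exact_mod_cast (by linarith : (0 : ℝ) < nr G)
    · have : D * (Y / B) = Y / nr G := by rw [hD]; field_simp
      rw [this, le_div_iff₀ (by linarith)] at hn'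
      exact_mod_cast hn'

end Crest.Agent.T27.P4

namespace Crest.Agent.T27

open scoped ComplexConjugate
open Finset P4

variable [Fr]

/-- **The mean square of the Möbius sums** from the PSD domination and the energy bound. -/
theorem sStmt_17 (hP : PsdStmt) (hE : EnAll) : SStmt := by
  classical
  intro ε hε
  set δ := min (ε / 7) (1 / 2) with hδ
  have hδ0 : 0 < δ := lt_min (by positivity) (by norm_num)
  have hδ1 : δ ≤ 1 / 2 := min_le_right _ _
  have hδ2 : δ ≤ ε / 7 := min_le_left _ _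
  obtain ⟨C₁, hC₁, h₁⟩ := term_le hE hδ0 hδ1
  obtain ⟨C₂, hC₂, h₂⟩ := gsum hδ0
  obtain ⟨C₃, hC₃, h₃⟩ := pow_card_pf_le hδ0 2
  obtain ⟨C₄, hC₄, h₄⟩ := trunc 0 le_rfl
  have hg : 0 < gw 1 := Fr.kerAx.pos 1
  have hc := c7_pos
  refine ⟨2 * (C₃ / gw 1 * (8 * C₁ * C₂)) + 2 * C₄ ^ 2 * (c7 + 1), by positivity,
    fun κ A B hB hBA => ?_⟩
  obtain ⟨φ, hφ, hφ', hφ''⟩ := hP κ
  have hA : 1 ≤ A := hB.trans hBA
  have hA0 : 0 < A := by linarith
  have hB0 : 0 < B := by linarith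
  set Y := ⌈B ^ 2⌉₊ with hY
  have hY1 : B ^ 2 ≤ Y := Nat.le_ceil _
  have hY2 : (Y : ℝ) ≤ 2 * B ^ 2 := by
    have := (Nat.ceil_lt_add_one (sq_nonneg B)).le
    nlinarith
  have hY3 : 1 ≤ Y := by
    have : (1 : ℝ) ≤ Y := by nlinarith
    exact_mod_cast this
  set q := (2 * B ^ 2) ^ δ with hq
  have hq0 : 0 ≤ q := by positivity
  have hq1 : q ≤ 2 * (A ^ δ) ^ 2 := by
    rw [hq, Real.mul_rpow (by norm_num) (by positivity), ← Real.rpow_natCast,
      ← Real.rpow_mul hB0.le, mul_comm _ δ, Real.rpow_mul hB0.le, Real.rpow_natCast]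
    refine mul_le_mul ?_ (pow_le_pow_left₀ (by positivity)
      (Real.rpow_le_rpow hB0.le hBA hδ0.le) 2) (by positivity) (by norm_num)
    calc (2 : ℝ) ^ δ ≤ 2 ^ (1 : ℝ) :=
          Real.rpow_le_rpow_of_exponent_le (by norm_num) (by linarith)
      _ = 2 := Real.rpow_one 2
  have hq2 : (A ^ δ) ^ 7 ≤ A ^ ε := by
    rw [← Real.rpow_natCast, ← Real.rpow_mul hA0.le]
    exact Real.rpow_le_rpow_of_exponent_le hA (by push_cast; linarith)
  -- the truncated sums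
  have a1 : ∑ a ∈ pball ⌊A⌋₊, gw (nr a / A) * (1 / 2 : ℝ) ^ (pf a).card * ‖MobY κ Y B a‖ ^ 2 ≤
      C₁ * C₂ * q ^ 3 * (A * B) := by
    refine (hφ'' Y A B hA0 hB0 _ fun a ha => (mem_pball.1 ha).1).trans ?_
    refine (sum_le_sum (g := fun G => C₁ * q ^ 2 * (A * B) * (cG G * ‖th G‖ ^ 2 / nr G))
      fun G hG => ?_).trans ?_
    · have := cG_nonneg G
      refine (mul_le_mul_of_nonneg_left (h₁ (φ G) G Y A B (hφ G) (hφ' G) hG hB hBA hY1 hY2)
        (by positivity)).trans_eq ?_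
      ring
    · rw [← mul_sum]
      have b1 : (Y : ℝ) ^ δ ≤ q := Real.rpow_le_rpow (Nat.cast_nonneg _) hY2 hδ0.le
      calc _ ≤ C₁ * q ^ 2 * (A * B) * (C₂ * q) :=
            mul_le_mul_of_nonneg_left ((h₂ Y hY3).trans (by gcongr)) (by positivity)
        _ = _ := by ring
  have a2 : ∑ a ∈ pball ⌊A⌋₊, ‖MobY κ Y B a‖ ^ 2 ≤
      C₃ / gw 1 * (8 * C₁ * C₂) * (A ^ ε * (A * B)) := by
    have b1 : ∀ a ∈ pball ⌊A⌋₊, ‖MobY κ Y B a‖ ^ 2 ≤ C₃ / gw 1 * A ^ δ *
        (gw (nr a / A) * (1 / 2 : ℝ) ^ (pf a).card * ‖MobY κ Y B a‖ ^ 2) := by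
      intro a ha
      obtain ⟨c1, c2⟩ := mem_pball.1 ha
      have c3 : nr a ≤ A := (Nat.le_floor_iff hA0.le).1 c2
      have c4 := nr_pos c1.ne_zero
      have c5 : gw 1 ≤ gw (nr a / A) := Fr.kerAx.anti (div_pos c4 hA0) (Set.mem_Ioi.2 one_pos)
        ((div_le_one hA0).2 c3)
      have c6 : (2 : ℝ) ^ (pf a).card ≤ C₃ * A ^ δ := (h₃ a c1.ne_zero).trans (by gcongr)
      rw [← mul_assoc]
      refine le_mul_of_one_le_left (sq_nonneg _) ?_
      calc (1 : ℝ) = (gw 1)⁻¹ * 2 ^ (pf a).card * (gw 1 * (1 / 2 : ℝ) ^ (pf a).card) := by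
            rw [one_div, inv_pow]; field_simp
        _ ≤ (gw 1)⁻¹ * (C₃ * A ^ δ) * (gw (nr a / A) * (1 / 2 : ℝ) ^ (pf a).card) := by gcongr
        _ = _ := by ring
    refine (sum_le_sum b1).trans ?_
    rw [← mul_sum]
    calc _ ≤ C₃ / gw 1 * A ^ δ * (C₁ * C₂ * (2 * (A ^ δ) ^ 2) ^ 3 * (A * B)) :=
          mul_le_mul_of_nonneg_left (a1.trans (by gcongr)) (by positivity)
      _ = C₃ / gw 1 * (8 * C₁ * C₂) * ((A ^ δ) ^ 7 * (A * B)) := by ring
      _ ≤ _ := by gcongr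
  -- the tails
  have a3 : ∀ (i : ∀ n : O, Decidable (Primary n ∧ cls n = κ)), ∀ a ∈ pball ⌊A⌋₊,
      ‖∑' n : O, @ite _ (Primary n ∧ cls n = κ) (i n)
      (mu n * conj (sym n a) * Wc (nr n / B) 0) 0‖ ^ 2 ≤
      2 * ‖MobY κ Y B a‖ ^ 2 + 2 * C₄ ^ 2 := by
    intro _ a _
    set b : O → ℂ := fun n => if Primary n ∧ cls n = κ then mu n * conj (sym n a) else 0 with hb
    have b1 := h₄ b (pball Y) B (Y / B) 0 (fun n hn => by
      by_contra h0
      exact hn (if_neg fun h => h0 h.1)) (fun n => by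
      rw [Real.rpow_zero, hb]
      beta_reduce
      split_ifs
      · rw [norm_mul, Complex.norm_conj]
        exact mul_le_one₀ (norm_mu_le n) (norm_nonneg _) (norm_sym_le _ _)
      · simp) hB0 (by rw [le_div_iff₀ hB0]; nlinarith) (by simp) fun n hn hn' => by
      rw [mul_div_cancel₀ _ hB0.ne'] at hn'
      exact mem_pball.2 ⟨hn, by exact_mod_cast hn'⟩
    have b2 : ∑ n ∈ pball Y, b n * Wc (nr n / B) 0 = MobY κ Y B a := by
      rw [MobY, sum_filter]
      refine sum_congr rfl fun n hn => ?_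
      simp only [hb, (mem_pball.1 hn).1, true_and, ite_mul, zero_mul]
      split_ifs <;> rfl
    have b3 : (∑' n : O, if Primary n ∧ cls n = κ then
        mu n * conj (sym n a) * Wc (nr n / B) 0 else 0) = ∑' n, b n * Wc (nr n / B) 0 := by
      simp only [hb, ite_mul, zero_mul]
    have b4 : B ^ (0 + 1 : ℝ) / (Y / B) ≤ 1 := by
      rw [zero_add, Real.rpow_one, div_le_one (by positivity), le_div_iff₀ hB0]
      nlinarith
    rw [b2, ← b3, norm_sub_rev] at b1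
    have b5 := pow_le_pow_left₀ (norm_nonneg _)
      (b1.trans (mul_le_of_le_one_right hC₄.le b4)) 2
    exact (norm_sq_le_two _ (MobY κ Y B a)).trans
      (add_le_add le_rfl (mul_le_mul_of_nonneg_left b5 (by norm_num)))
  have a4 := card_le_c7 (S := pball ⌊A⌋₊) hA fun h hh =>
    ⟨(mem_pball.1 hh).1.rep, (Nat.le_floor_iff hA0.le).1 (mem_pball.1 hh).2⟩
  have a5 : A ≤ A ^ ε * (A * B) := (le_mul_of_one_le_right hA0.le hB).trans
    (le_mul_of_one_le_left (by positivity) (Real.one_le_rpow hA hε.le))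
  refine (sum_le_sum (a3 _)).trans ?_
  rw [sum_add_distrib, ← mul_sum, sum_const, nsmul_eq_mul, Real.rpow_add hA0, Real.rpow_one]
  calc _ ≤ 2 * (C₃ / gw 1 * (8 * C₁ * C₂) * (A ^ ε * (A * B))) +
        (c7 + 1) * (A ^ ε * (A * B)) * (2 * C₄ ^ 2) := by
        gcongr
        exact a4.trans (by gcongr)
    _ = _ := by ring

end Crest.Agent.T27
end
end

-- ▼ part T27/Amp_84
section

/-!
# Row 27: amplification over the rows `c ^ 6` (helper84)

`mobFr_84 : SStmt → MobFr`.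
-/

set_option autoImplicit false

noncomputable section

namespace Crest.Agent.T27

open scoped ComplexConjugate

namespace A84

theorem norm_Wc_zero_le {y : ℝ} (hy : 0 < y) (σ : ℝ) :
    ‖Wc y 0‖ ≤ Real.exp (σ ^ 2 / 4) * y ^ (-σ) := by
  have h1 : Wc y 0 = ((Real.exp (-(Real.log y) ^ 2) : ℝ) : ℂ) := by simp [Wc]
  rw [h1, Complex.norm_real, Real.norm_of_nonneg (Real.exp_pos _).le, Real.rpow_def_of_pos hy,
    ← Real.exp_add]
  exact Real.exp_le_exp.2 (by nlinarith [sq_nonneg (Real.log y - σ / 2)])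

section
variable [Fr0]

open Classical in
/-- The Dirichlet series of the primary elements converges for `σ > 1`. -/
theorem summable_prim {σ : ℝ} (hσ : 1 < σ) :
    Summable fun n : O => if Primary n then nr n ^ (-σ) else 0 := by
  have hs : Summable fun m : ℕ => (m : ℝ) ^ (-σ) := Real.summable_nat_rpow.2 (by linarith)
  have h0 : ∀ m : ℕ, 0 ≤ (m : ℝ) ^ (-σ) := fun m => Real.rpow_nonneg (Nat.cast_nonneg _) _
  refine summable_of_sum_le (c := Fr0.kp * ∑' m : ℕ, (m : ℝ) ^ (-σ)) (fun n => ?_) fun S => ?_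
  · dsimp only
    split_ifs
    · exact h0 _
    · exact le_rfl
  have h1 := C21.sum_pball_le (fun m => (m : ℝ) ^ (-σ)) h0 (fun m hm =>
    Real.rpow_le_rpow_of_nonpos (by exact_mod_cast hm) (by push_cast; linarith) (by linarith))
    (S.sup nm)
  rw [← Finset.sum_filter]
  refine le_trans (Finset.sum_le_sum_of_subset_of_nonneg (fun n hn => ?_) fun n _ _ => h0 _)
    (h1.trans (mul_le_mul_of_nonneg_left (hs.sum_le_tsum _ fun m _ => h0 m) (Nat.cast_nonneg _)))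
  obtain ⟨h2, h3⟩ := Finset.mem_filter.1 hn
  exact mem_pball.2 ⟨h3, Finset.le_sup h2⟩

open Classical in
theorem norm_term_le {P : O → Prop} [DecidablePred P] (hP : ∀ n, P n → Primary n) {b : O → ℂ}
    (hb : ∀ n, ‖b n‖ ≤ 1)
    {B : ℝ} (hB : 0 < B) (σ : ℝ) (n : O) :
    ‖if P n then b n * Wc (nr n / B) 0 else 0‖ ≤
      Real.exp (σ ^ 2 / 4) * B ^ σ * if Primary n then nr n ^ (-σ) else 0 := by
  by_cases h : P n
  · have hn := nr_pos (hP n h).ne_zero
    rw [if_pos h, if_pos (hP n h), norm_mul]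
    refine (mul_le_of_le_one_left (norm_nonneg _) (hb n)).trans
      ((norm_Wc_zero_le (div_pos hn hB) σ).trans (le_of_eq ?_))
    rw [Real.div_rpow hn.le hB.le, Real.rpow_neg hB.le]
    field_simp
  · rw [if_neg h, norm_zero]
    split_ifs
    · positivity
    · simp

theorem summable_term {P : O → Prop} [DecidablePred P] (hP : ∀ n, P n → Primary n) {b : O → ℂ}
    (hb : ∀ n, ‖b n‖ ≤ 1) {B : ℝ} (hB : 0 < B) :
    Summable fun n : O => if P n then b n * Wc (nr n / B) 0 else 0 :=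
  Summable.of_norm_bounded ((summable_prim one_lt_two).mul_left _) (norm_term_le hP hb hB 2)

open Classical in
theorem conj_sym_six {n : O} (hn : n ≠ 0) (c : O) :
    conj (sym n (c ^ 6)) = if IsCoprime n c then 1 else 0 := by
  rw [sym_pow_right']
  split_ifs with h
  · rw [sym_pow_six' hn h, map_one]
  · rw [(sym_eq_zero_iff' hn).2 h]; simp

open Classical in
/-- Every squarefree primary `n` is uniquely `d n'`, `d ∣ c`, `n'` coprime to `c`. -/
theorem sum_split {c n : O} (hc : Primary c) (hn : Primary n) (x : ℂ) :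
    ∑ d ∈ pdiv c, (if Primary n ∧ ∃ n', n = d * n' ∧ IsCoprime n' c then mu n * x else 0) =
      mu n * x := by
  by_cases hsq : Squarefree n
  swap
  · simp [BasicB.mu_of_not hsq]
  have hg := primary_pgcd n c
  obtain ⟨h1, h2⟩ := (dvd_pgcd_iff hn.ne_zero hc.ne_zero hg).1 dvd_rfl
  rw [Finset.sum_eq_single (pgcd n c)]
  · refine if_pos ⟨hn, ?_⟩
    obtain ⟨n', hn'⟩ := h1
    refine ⟨n', hn', by_contra fun h => ?_⟩
    have hn0 : n' ≠ 0 := by
      rintro rfl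
      exact hn.ne_zero (by rw [hn', mul_zero])
    obtain ⟨p, hp, hpc⟩ := (SymbolAux.not_coprime_iff' hn0).1 h
    obtain ⟨h3, h4, h5⟩ := BasicB.of_mem_pf hp
    have h6 : p ∣ pgcd n c :=
      (dvd_pgcd_iff hn.ne_zero hc.ne_zero h4).2 ⟨by rw [hn']; exact h5.mul_left _, hpc⟩
    exact h3.not_isUnit (hsq p (by rw [hn']; exact mul_dvd_mul h6 h5))
  · intro d hd hne
    refine if_neg ?_
    rintro ⟨-, n', hn', hco⟩
    obtain ⟨h3, h4⟩ := (mem_pdiv hc.ne_zero).1 hd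
    refine hne (h3.eq_of_associated hg (associated_of_dvd_dvd
      ((dvd_pgcd_iff hn.ne_zero hc.ne_zero h3).2 ⟨⟨n', hn'⟩, h4⟩) ?_))
    have h5 : IsCoprime (pgcd n c) n' := (hco.of_isCoprime_of_dvd_right h2).symm
    exact h5.dvd_of_dvd_mul_right (hn' ▸ h1)
  · intro h
    exact absurd ((mem_pdiv hc.ne_zero).2 ⟨hg, h2⟩) h

open Classical in
/-- Removal of the coprimality condition. -/
theorem mob_eq_sum {c : O} (hc : Primary c) {B : ℝ} (hB : 0 < B) :
    (∑' n : O, if Primary n then mu n * Wc (nr n / B) 0 else 0) =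
      ∑ d ∈ pdiv c, mu d * ∑' n : O,
        if Primary n then mu n * conj (sym n (c ^ 6)) * Wc (nr n / (B / nr d)) 0 else 0 := by
  have h1 : ∀ d ∈ pdiv c, (mu d * ∑' n : O,
      if Primary n then mu n * conj (sym n (c ^ 6)) * Wc (nr n / (B / nr d)) 0 else 0) =
      ∑' n : O, if Primary n ∧ ∃ n', n = d * n' ∧ IsCoprime n' c then
        mu n * Wc (nr n / B) 0 else 0 := by
    intro d hd
    obtain ⟨h3, h4⟩ := (mem_pdiv hc.ne_zero).1 hd
    rw [← tsum_mul_left]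
    refine Eq.trans ?_ ((mul_right_injective₀ h3.ne_zero).tsum_eq ?_)
    · refine tsum_congr fun n => ?_
      by_cases hn : Primary n
      · rw [if_pos hn, conj_sym_six hn.ne_zero]
        by_cases hco : IsCoprime n c
        · rw [if_pos hco, if_pos ⟨h3.mul hn, n, rfl, hco⟩,
            mu_mul h3 hn (hco.of_isCoprime_of_dvd_right h4).symm, nr_mul,
            div_div_eq_mul_div, mul_comm (nr n)]
          ring
        · rw [if_neg hco, if_neg]
          · simp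
          · rintro ⟨-, n', h5, h6⟩
            exact hco (mul_left_cancel₀ h3.ne_zero h5 ▸ h6)
      · rw [if_neg hn, if_neg fun h => hn (h3.of_mul h.1), mul_zero]
    · intro n hn
      by_contra h
      refine hn (if_neg ?_)
      rintro ⟨-, n', h5, -⟩
      exact h ⟨n', h5.symm⟩
  rw [Finset.sum_congr rfl h1, ← Summable.tsum_finsetSum fun d _ =>
    summable_term (fun n h => h.1) norm_mu_le hB]
  refine tsum_congr fun n => ?_
  by_cases hn : Primary n
  · rw [if_pos hn, sum_split hc hn]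
  · rw [if_neg hn]
    exact (Finset.sum_eq_zero fun d _ => if_neg fun h => hn h.1).symm

open Classical in
/-- Splitting into classes. -/
theorem norm_le_sum_cls {b : O → ℂ} (hb : ∀ n, ‖b n‖ ≤ 1) {B : ℝ} (hB : 0 < B) :
    ‖∑' n : O, if Primary n then b n * Wc (nr n / B) 0 else 0‖ ≤
      ∑ κ : WithZero Cl,
        ‖∑' n : O, if Primary n ∧ cls n = κ then b n * Wc (nr n / B) 0 else 0‖ := by
  refine le_trans (le_of_eq ?_) (norm_sum_le _ _)
  rw [← Summable.tsum_finsetSum fun κ _ => summable_term (fun n h => h.1) hb hB]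
  congr 1
  refine tsum_congr fun n => ?_
  by_cases hn : Primary n
  · rw [if_pos hn, Finset.sum_eq_single (cls n), if_pos ⟨hn, rfl⟩]
    · intro κ _ h
      exact if_neg fun h' => h h'.2.symm
    · simp
  · rw [if_neg hn]
    exact (Finset.sum_eq_zero fun d _ => if_neg fun h => hn h.1).symm

open Classical in
theorem card_dvd_le {d : O} (hd : Primary d) (Y : ℕ) :
    (((pball Y).filter (d ∣ ·)).card : ℝ) ≤ Fr0.kp * Y / nr d := by
  have h0 : 0 < nm d := Nat.pos_of_ne_zero fun h => hd.ne_zero (nm_eq_zero.1 h)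
  have h1 : (pball Y).filter (d ∣ ·) ⊆ (pball (Y / nm d)).image (d * ·) := by
    intro c hc
    obtain ⟨h2, e, rfl⟩ := Finset.mem_filter.1 hc
    obtain ⟨h3, h4⟩ := mem_pball.1 h2
    refine Finset.mem_image.2 ⟨e, mem_pball.2 ⟨hd.of_mul h3, ?_⟩, rfl⟩
    rw [Nat.le_div_iff_mul_le h0, mul_comm, ← nm_mul]
    exact h4
  have h2 := ((Finset.card_le_card h1).trans Finset.card_image_le).trans (card_pball_le _)
  calc (((pball Y).filter (d ∣ ·)).card : ℝ) ≤ (Fr0.kp * (Y / nm d) : ℕ) := by exact_mod_cast h2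
    _ ≤ Fr0.kp * Y / nr d := by
      rw [Nat.cast_mul, mul_div_assoc]
      exact mul_le_mul_of_nonneg_left Nat.cast_div_le (Nat.cast_nonneg _)

theorem pow_six_inj {c c' : O} (hc : Primary c) (hc' : Primary c') (h : c ^ 6 = c' ^ 6) :
    c = c' :=
  hc.ext_vp hc' fun p hp _ => by
    have := congrArg (vp p) h
    rw [vp_pow hp hc.ne_zero, vp_pow hp hc'.ne_zero] at this
    omega

theorem sum_inv_le {η : ℝ} (hη : 0 < η) : ∃ Z : ℝ, 0 < Z ∧ ∀ (Y : ℕ) (B : ℝ), (Y : ℝ) ≤ B →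
    ∑ d ∈ pball Y, (nr d)⁻¹ ≤ Z * B ^ η := by
  classical
  have hs := summable_prim (σ := 1 + η) (by linarith)
  have h0 : ∀ n : O, 0 ≤ if Primary n then nr n ^ (-(1 + η)) else 0 := fun n => by
    split_ifs
    · positivity
    · exact le_rfl
  refine ⟨(∑' n : O, if Primary n then nr n ^ (-(1 + η)) else 0) + 1,
    add_pos_of_nonneg_of_pos (tsum_nonneg h0) one_pos, fun Y B hY => ?_⟩
  have hB : 0 ≤ B := (Nat.cast_nonneg _).trans hY
  calc ∑ d ∈ pball Y, (nr d)⁻¹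
      ≤ ∑ d ∈ pball Y, (if Primary d then nr d ^ (-(1 + η)) else 0) * B ^ η := by
        refine Finset.sum_le_sum fun d hd => ?_
        obtain ⟨h1, h2⟩ := mem_pball.1 hd
        have h3 := nr_pos h1.ne_zero
        have h4 : nr d ≤ B := le_trans (by exact_mod_cast h2) hY
        rw [if_pos h1, ← Real.rpow_neg_one, show (-1 : ℝ) = -(1 + η) + η by ring,
          Real.rpow_add h3]
        exact mul_le_mul_of_nonneg_left (Real.rpow_le_rpow h3.le h4 hη.le) (by positivity)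
    _ ≤ _ := by
        rw [← Finset.sum_mul]
        exact mul_le_mul_of_nonneg_right
          ((hs.sum_le_tsum _ fun n _ => h0 n).trans (by linarith)) (by positivity)

end

end A84

open A84 in
/-- **Amplification.** -/
theorem mobFr_84 [Fr] (h : SStmt) : MobFr := by
  classical
  intro ε hε
  obtain ⟨C, hC, hS⟩ := h ε hε
  obtain ⟨c₀, hc₀, hcnt⟩ := Fr.cntAx
  obtain ⟨Z, hZ, hsum⟩ := sum_inv_le (half_pos hε)
  set D : ℝ := Real.sqrt (2 * Fr0.kp * C) + 1 with hD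
  have hD0 : 0 < D := by positivity
  have hD2 : 2 * Fr0.kp * C ≤ D ^ 2 := by
    have := Real.sq_sqrt (show 0 ≤ 2 * (Fr0.kp : ℝ) * C by positivity)
    nlinarith [Real.sqrt_nonneg (2 * (Fr0.kp : ℝ) * C)]
  set K : ℝ := (Fintype.card (WithZero Cl) : ℝ) with hK
  have hK0 : 0 < K := by rw [hK]; exact_mod_cast Fintype.card_pos
  refine ⟨K * D * Z / c₀, by positivity, fun B hB => ?_⟩
  have hB0 : 0 < B := by linarith
  set y : ℝ := B ^ (1 / 6 : ℝ) with hy
  have hy1 : 1 ≤ y := Real.one_le_rpow hB (by norm_num)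
  have hy6 : y ^ 6 = B := by
    rw [hy, ← Real.rpow_natCast, ← Real.rpow_mul hB0.le]; norm_num
  have hyB : y ≤ B := by
    rw [← hy6]; exact le_self_pow₀ hy1 (by norm_num)
  set Y : ℕ := ⌊y⌋₊ with hY
  have hYy : (Y : ℝ) ≤ y := Nat.floor_le (by linarith)
  have hY1 : (1 : ℝ) ≤ Y := by exact_mod_cast Nat.floor_pos.2 hy1
  have hY2 : y ≤ 2 * Y := by linarith [Nat.lt_floor_add_one y]
  set T : ℝ := B ^ (11 / 12 + ε / 2) with hT
  have hT0 : 0 < T := by positivity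
  have hT2 : B ^ (1 + ε) * B = y * T ^ 2 := by
    rw [hy, hT, ← Real.rpow_natCast, ← Real.rpow_mul hB0.le, ← Real.rpow_add hB0,
      ← Real.rpow_add_one hB0.ne']
    congr 1; push_cast; ring
  set M : ℝ := ‖∑' n : O, if Primary n then mu n * Wc (nr n / B) 0 else 0‖ with hM
  set x : WithZero Cl → O → O → ℝ := fun κ d a => ‖∑' n : O, if Primary n ∧ cls n = κ then
    mu n * conj (sym n a) * Wc (nr n / (B / nr d)) 0 else 0‖ with hx
  have hx0 : ∀ κ d a, 0 ≤ x κ d a := fun _ _ _ => norm_nonneg _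
  -- pointwise bound
  have h1 : ∀ c ∈ pball Y, M ≤ ∑ d ∈ pball Y, if d ∣ c then ∑ κ, x κ d (c ^ 6) else 0 := by
    intro c hc
    obtain ⟨h2, h3⟩ := mem_pball.1 hc
    rw [hM, mob_eq_sum h2 hB0, ← Finset.sum_filter]
    refine (norm_sum_le _ _).trans (le_trans (Finset.sum_le_sum fun d hd => ?_)
      (Finset.sum_le_sum_of_subset_of_nonneg (s := pdiv c) (fun d hd => ?_)
        fun d _ _ => Finset.sum_nonneg fun κ _ => hx0 _ _ _))
    · rw [norm_mul]
      refine (mul_le_of_le_one_left (norm_nonneg _) (norm_mu_le d)).trans ?_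
      refine norm_le_sum_cls (b := fun n => mu n * conj (sym n (c ^ 6))) (fun n => ?_)
        (div_pos hB0 (nr_pos ((mem_pdiv h2.ne_zero).1 hd).1.ne_zero))
      rw [norm_mul, Complex.norm_conj]
      exact mul_le_one₀ (norm_mu_le _) (norm_nonneg _) (norm_sym_le _ _)
    · obtain ⟨h4, h5⟩ := (mem_pdiv h2.ne_zero).1 hd
      exact Finset.mem_filter.2 ⟨mem_pball.2 ⟨h4, (nm_le_of_dvd h5 h2.ne_zero).trans h3⟩, h5⟩
  -- Cauchy–Schwarz
  have h2 : ∀ d ∈ pball Y, ∀ κ, ∑ c ∈ (pball Y).filter (d ∣ ·), x κ d (c ^ 6) ≤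
      D * Y * T * (nr d)⁻¹ := by
    intro d hd κ
    obtain ⟨h3, h4⟩ := mem_pball.1 hd
    have h5 := one_le_nr h3.ne_zero
    have h6 : nr d ≤ B := le_trans (by exact_mod_cast h4) (hYy.trans hyB)
    have h7 : ∑ a ∈ pball ⌊B⌋₊, x κ d a ^ 2 ≤ C * B ^ (1 + ε) * (B / nr d) := by
      have := hS κ B (B / nr d) ((one_le_div (by linarith)).2 h6) (div_le_self hB0.le h5)
      simp only [hx]
      convert this
    have h8 : ∑ c ∈ (pball Y).filter (d ∣ ·), x κ d (c ^ 6) ^ 2 ≤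
        C * B ^ (1 + ε) * (B / nr d) := by
      refine le_trans ?_ h7
      rw [← Finset.sum_image (s := (pball Y).filter (d ∣ ·)) (g := fun c => c ^ 6)
        (f := fun a => x κ d a ^ 2) fun c hc c' hc' e =>
          pow_six_inj (mem_pball.1 (Finset.mem_filter.1 hc).1).1
            (mem_pball.1 (Finset.mem_filter.1 hc').1).1 e]
      refine Finset.sum_le_sum_of_subset_of_nonneg (fun a ha => ?_) fun _ _ _ => sq_nonneg _
      obtain ⟨c, hc, rfl⟩ := Finset.mem_image.1 ha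
      obtain ⟨h9, h10⟩ := mem_pball.1 (Finset.mem_filter.1 hc).1
      refine mem_pball.2 ⟨h9.pow 6, Nat.le_floor ?_⟩
      rw [nm_pow, Nat.cast_pow, ← hy6]
      exact pow_le_pow_left₀ (Nat.cast_nonneg _) (le_trans (by exact_mod_cast h10) hYy) 6
    refine abs_le_of_sq_le_sq' ?_ (by positivity) |>.2
    refine sq_sum_le_card_mul_sum_sq.trans ?_
    refine (mul_le_mul (card_dvd_le h3 Y) h8 (by positivity) (by positivity)).trans ?_
    have h9 : (Fr0.kp : ℝ) * Y / nr d * (C * B ^ (1 + ε) * (B / nr d)) =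
        (Fr0.kp * C * y) * (Y * T ^ 2 * (nr d)⁻¹ ^ 2) := by
      rw [show (Fr0.kp : ℝ) * Y / nr d * (C * B ^ (1 + ε) * (B / nr d)) =
        Fr0.kp * Y * C * (B ^ (1 + ε) * B) * (nr d)⁻¹ ^ 2 by field_simp, hT2]
      ring
    rw [h9, show (D * Y * T * (nr d)⁻¹) ^ 2 = (D ^ 2 * Y) * (Y * T ^ 2 * (nr d)⁻¹ ^ 2) by ring]
    refine mul_le_mul_of_nonneg_right ?_ (by positivity)
    calc (Fr0.kp : ℝ) * C * y ≤ Fr0.kp * C * (2 * Y) :=
          mul_le_mul_of_nonneg_left hY2 (by positivity)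
      _ = 2 * Fr0.kp * C * Y := by ring
      _ ≤ D ^ 2 * Y := mul_le_mul_of_nonneg_right hD2 (by positivity)
  have h3 : c₀ * Y * M ≤ K * D * Y * T * (Z * B ^ (ε / 2)) :=
    calc c₀ * Y * M ≤ (pball Y).card * M := mul_le_mul_of_nonneg_right (hcnt Y) (norm_nonneg _)
      _ = ∑ c ∈ pball Y, M := by rw [Finset.sum_const, nsmul_eq_mul]
      _ ≤ ∑ c ∈ pball Y, ∑ d ∈ pball Y, if d ∣ c then ∑ κ, x κ d (c ^ 6) else 0 :=
          Finset.sum_le_sum h1
      _ = ∑ d ∈ pball Y, ∑ κ, ∑ c ∈ (pball Y).filter (d ∣ ·), x κ d (c ^ 6) := by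
          rw [Finset.sum_comm]
          refine Finset.sum_congr rfl fun d _ => ?_
          rw [← Finset.sum_filter, Finset.sum_comm]
      _ ≤ ∑ d ∈ pball Y, ∑ _κ : WithZero Cl, D * Y * T * (nr d)⁻¹ :=
          Finset.sum_le_sum fun d hd => Finset.sum_le_sum fun κ _ => h2 d hd κ
      _ = K * D * Y * T * ∑ d ∈ pball Y, (nr d)⁻¹ := by
          rw [Finset.mul_sum]
          refine Finset.sum_congr rfl fun d _ => ?_
          rw [Finset.sum_const, Finset.card_univ, nsmul_eq_mul]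
          ring
      _ ≤ _ := mul_le_mul_of_nonneg_left (hsum Y B (hYy.trans hyB)) (by positivity)
  have h4 : B ^ (11 / 12 + ε) = T * B ^ (ε / 2) := by
    rw [hT, ← Real.rpow_add hB0]; congr 1; ring
  rw [h4, div_mul_eq_mul_div, le_div_iff₀ hc₀]
  refine le_of_mul_le_mul_left (a := (Y : ℝ)) ?_ (by linarith)
  calc (Y : ℝ) * (M * c₀) = c₀ * Y * M := by ring
    _ ≤ _ := h3
    _ = _ := by ring

end Crest.Agent.T27
end
end

-- ▼ part T27/En_56
section

/-!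
# Row 27: the reflected energy estimate (helper56)

`enFixed_56 : LS2Stmt → ReflStmt → EnFixed`, `energy_56 : RecAx R → EnFixed → EnergyStmt`,
`enAll_56 : LS2Stmt → ReflStmt → EnAll`.
-/

set_option autoImplicit false

noncomputable section

namespace Crest.Agent.T27

open Finset

namespace En56

variable [Fr0]

theorem zeta_le {η : ℝ} (hη : 0 < η) : ∃ Z : ℝ, 0 < Z ∧ ∀ A : Finset O, (∀ n ∈ A, Primary n) →
    ∑ n ∈ A, (nr n ^ (1 + η))⁻¹ ≤ Z := by
  have hs : Summable fun m : ℕ => ((m : ℝ) ^ (1 + η))⁻¹ :=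
    Real.summable_nat_rpow_inv.2 (by linarith)
  have h0 : 0 ≤ ∑' m : ℕ, ((m : ℝ) ^ (1 + η))⁻¹ := tsum_nonneg fun _ => by positivity
  refine ⟨Fr0.kp * ∑' m : ℕ, ((m : ℝ) ^ (1 + η))⁻¹ + 1, by positivity, fun A hA => ?_⟩
  have h1 : A ⊆ pball (A.sup nm) := fun n hn => mem_pball.2 ⟨hA n hn, le_sup hn⟩
  have h2 := C21.sum_pball_le (fun m => ((m : ℝ) ^ (1 + η))⁻¹) (fun _ => by positivity)
    (fun m hm => by
      have : (0 : ℝ) < m := by exact_mod_cast hm
      gcongr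
      simp) (A.sup nm)
  refine (sum_le_sum_of_subset_of_nonneg h1 fun _ _ _ => by positivity).trans (h2.trans ?_)
  have h3 := hs.sum_le_tsum (Ioc 0 (A.sup nm)) fun _ _ => by positivity
  have h4 : (0 : ℝ) ≤ Fr0.kp := Nat.cast_nonneg _
  nlinarith

theorem nr_le_of_dvd {z w : O} (h : z ∣ w) (hw : w ≠ 0) : nr z ≤ nr w :=
  Nat.cast_le.2 (nm_le_of_dvd h hw)

theorem nr_prod {α : Type*} (s : Finset α) (f : α → O) :
    nr (∏ i ∈ s, f i) = ∏ i ∈ s, nr (f i) := by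
  simp only [nr, nm_prod, Nat.cast_prod]

theorem two_pow_le {ε : ℝ} (hε : 0 < ε) :
    ∃ C : ℝ, 0 < C ∧ ∀ n : O, (2 : ℝ) ^ (pf n).card ≤ C * nr (rad n) ^ ε := by
  set T := pball ⌈(2 : ℝ) ^ ε⁻¹⌉₊
  refine ⟨2 ^ T.card, by positivity, fun n => ?_⟩
  have h2 : ∀ p ∈ pf n, (2 : ℝ) ≤ (if p ∈ T then 2 else 1) * nr p ^ ε := by
    intro p hp
    have hp' := BasicB.pf_sub hp
    split_ifs with h
    · exact le_mul_of_one_le_right (by linarith) (Real.one_le_rpow (one_le_nr hp'.1.ne_zero) hε.le)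
    · rw [mem_pball, not_and, not_le] at h
      rw [one_mul, ← Real.rpow_inv_rpow (by norm_num : (0 : ℝ) ≤ 2) hε.ne']
      exact Real.rpow_le_rpow (by positivity) (Nat.ceil_le.1 (h hp'.2).le) hε.le
  calc (2 : ℝ) ^ (pf n).card = ∏ _p ∈ pf n, (2 : ℝ) := (Finset.prod_const _).symm
    _ ≤ ∏ p ∈ pf n, (if p ∈ T then 2 else 1) * nr p ^ ε :=
        Finset.prod_le_prod (fun _ _ => by norm_num) h2
    _ = 2 ^ (pf n ∩ T).card * nr (rad n) ^ ε := by
        rw [Finset.prod_mul_distrib, Finset.prod_ite_mem, Finset.prod_const,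
          Real.finsetProd_rpow _ _ (fun _ _ => Nat.cast_nonneg _), rad, nr_prod]
    _ ≤ _ := mul_le_mul_of_nonneg_right
        (pow_le_pow_right₀ one_le_two (Finset.card_le_card Finset.inter_subset_right))
        (by positivity)

theorem pf_subset {d n : O} (hd : d ∣ n) (hn : n ≠ 0) : pf d ⊆ pf n := fun p hp => by
  obtain ⟨h1, h2, h3⟩ := BasicB.of_mem_pf hp
  exact (mem_pf hn).2 ⟨h1, h2, h3.trans hd⟩

theorem card_pdiv_rad (h : O) : (pdiv (rad h)).card ≤ 2 ^ (pf h).card := by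
  have h0 := (primary_rad h).ne_zero
  rw [← card_powerset]
  refine card_le_card_of_injOn pf (fun d hd => ?_) fun d hd d' hd' e => ?_
  · exact mem_coe.2 (mem_powerset.2 (pf_rad h ▸ pf_subset ((mem_pdiv h0).1 hd).2 h0))
  · obtain ⟨a1, a2⟩ := (mem_pdiv h0).1 hd
    obtain ⟨b1, b2⟩ := (mem_pdiv h0).1 hd'
    rw [← a1.eq_rad ((squarefree_rad h).squarefree_of_dvd a2),
      ← b1.eq_rad ((squarefree_rad h).squarefree_of_dvd b2), rad, rad, e]

open Classical in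
/-- The norm of the part of `P` dividing `m`. -/
def Gw (P : Finset O) (m : O) : ℝ := ∏ p ∈ P, if p ∣ m then nr p else 1

theorem Gw_pos {P : Finset O} (hP : ∀ p ∈ P, Prime p ∧ Primary p) (m : O) : 0 < Gw P m :=
  prod_pos fun p hp => by
    split_ifs
    · exact nr_pos (hP p hp).1.ne_zero
    · exact one_pos

theorem sum_Gw_le {η Z : ℝ} (hη : 0 < η)
    (hZ : ∀ A : Finset O, (∀ n ∈ A, Primary n) → ∑ n ∈ A, (nr n ^ (1 + η))⁻¹ ≤ Z)
    {P : Finset O} (hP : ∀ p ∈ P, Prime p ∧ Primary p) (A : Finset O) (hA : ∀ n ∈ A, Primary n) :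
    ∑ m ∈ A, Gw P m * (nr m ^ (1 + η))⁻¹ ≤ 2 ^ P.card * Z := by
  classical
  rw [← sum_fiberwise_of_maps_to (t := P.powerset) (g := fun m => P.filter (· ∣ m))
    fun m _ => mem_powerset.2 (filter_subset _ _)]
  refine (sum_le_card_nsmul _ _ Z fun T hT => ?_).trans
    (by rw [card_powerset, nsmul_eq_mul]; push_cast; exact le_rfl)
  have hT' : ∀ p ∈ T, Prime p ∧ Primary p := fun p hp => hP p (mem_powerset.1 hT hp)
  have hf := (squarefree_prod_primes hT').2.1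
  have hf1 := one_le_nr hf.ne_zero
  have hdvd : ∀ m ∈ A.filter (fun m => P.filter (· ∣ m) = T), ∃ m', Primary m' ∧
      m = (∏ p ∈ T, p) * m' := fun m hm => by
    obtain ⟨h1, h2⟩ := mem_filter.1 hm
    have h3 := (hA m h1).ne_zero
    obtain ⟨m', e⟩ : ∏ p ∈ T, p ∣ m := BasicB.prod_dvd_of_subset h3 fun p hp =>
      (mem_pf h3).2 ⟨(hT' p hp).1, (hT' p hp).2, (mem_filter.1 (h2 ▸ hp : p ∈ P.filter (· ∣ m))).2⟩
    exact ⟨m', hf.of_mul (e ▸ hA m h1), e⟩
  choose! c hc hc' using hdvd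
  refine le_trans ?_ (hZ ((A.filter fun m => P.filter (· ∣ m) = T).image c) fun n hn => ?_)
  · rw [sum_image fun a ha b hb e => by rw [hc' a ha, hc' b hb, e]]
    refine sum_le_sum fun m hm => ?_
    have e1 : Gw P m = nr (∏ p ∈ T, p) := by
      rw [Gw, ← prod_filter, (mem_filter.1 hm).2, nr_prod]
    have e2 := nr_pos (hc m hm).ne_zero
    have e3 : nr (∏ p ∈ T, p) ≤ nr (∏ p ∈ T, p) ^ (1 + η) := by
      simpa using Real.rpow_le_rpow_of_exponent_le hf1 (show (1 : ℝ) ≤ 1 + η by linarith)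
    have e4 : nr m = nr (∏ p ∈ T, p) * nr (c m) := by rw [← nr_mul, ← hc' m hm]
    rw [e1, e4, Real.mul_rpow (by positivity) e2.le, mul_inv, ← mul_assoc]
    refine mul_le_of_le_one_left (by positivity) ?_
    rw [← div_eq_mul_inv, div_le_one (by positivity)]
    exact e3
  · obtain ⟨m, hm, rfl⟩ := mem_image.1 hn
    exact hc m hm

open Classical in
theorem fac_le {P : Finset O} (hP : ∀ p ∈ P, Prime p ∧ Primary p) (n d : O) :
    (∏ p ∈ P, ((Real.sqrt (nr p))⁻¹ + if p ∣ n * d ^ 3 then Real.sqrt (nr p) else 0)) ^ 2 ≤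
      (2 ^ P.card) ^ 2 * (Gw P d ^ 2 * Gw P n) := by
  rw [Gw, Gw, ← prod_const, ← prod_pow, ← prod_pow, ← prod_pow, ← prod_mul_distrib,
    ← prod_mul_distrib]
  refine prod_le_prod (fun _ _ => sq_nonneg _) fun p hp => ?_
  have h0 := one_le_nr (hP p hp).1.ne_zero
  have h1 : 1 ≤ Real.sqrt (nr p) := Real.one_le_sqrt.2 h0
  have h2 : (Real.sqrt (nr p))⁻¹ ≤ 1 := inv_le_one_of_one_le₀ h1
  have h3 : 0 ≤ (Real.sqrt (nr p))⁻¹ := by positivity
  have h4 := Real.sq_sqrt (show 0 ≤ nr p by linarith)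
  have h5 : ((Real.sqrt (nr p))⁻¹ + Real.sqrt (nr p)) ^ 2 ≤ 2 ^ 2 * nr p := by
    rw [← h4, ← mul_pow]
    rw [h4]
    gcongr
    linarith
  have h6 : ((Real.sqrt (nr p))⁻¹ + 0) ^ 2 ≤ 2 ^ 2 * 1 := by nlinarith
  have h7 : 1 ≤ (if p ∣ d then nr p else 1) := by split_ifs <;> linarith
  have h8 : 1 ≤ (if p ∣ n then nr p else 1) := by split_ifs <;> linarith
  by_cases h : p ∣ n * d ^ 3
  · rw [if_pos h]
    refine h5.trans (mul_le_mul_of_nonneg_left ?_ (by norm_num))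
    rcases (hP p hp).1.dvd_or_dvd h with h | h
    · rw [if_pos h]
      exact le_mul_of_one_le_left (by linarith) (one_le_pow₀ h7)
    · rw [if_pos ((hP p hp).1.dvd_of_dvd_pow h)]
      nlinarith
  · rw [if_neg h]
    exact h6.trans (mul_le_mul_of_nonneg_left
      (one_le_mul_of_one_le_of_one_le (one_le_pow₀ h7) h8) (by norm_num))

omit [Fr0] in
theorem log_le {ε : ℝ} (hε : 0 < ε) : ∃ C : ℝ, 0 < C ∧ ∀ (Q : ℝ) (n : ℕ),
    (2 : ℝ) ^ n ≤ Q → (n : ℝ) + 1 ≤ C * Q ^ ε := by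
  refine ⟨1 + 2 * ε⁻¹, by positivity, fun Q n hQ => ?_⟩
  have hQ1 : 1 ≤ Q := (one_le_pow₀ one_le_two).trans hQ
  have h2 : n * Real.log 2 ≤ Real.log Q := by
    rw [← Real.log_pow]
    exact Real.log_le_log (by positivity) hQ
  have h3 : Real.log Q ≤ Q ^ ε / ε := Real.log_le_rpow_div (by linarith) hε
  have h4 : 1 ≤ Q ^ ε := Real.one_le_rpow hQ1 hε.le
  have h5 := Real.log_two_gt_d9
  have h6 : (0 : ℝ) ≤ n := Nat.cast_nonneg _
  rw [div_eq_inv_mul] at h3
  nlinarith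

/-- dyadic decomposition -/
theorem dyadic {ε : ℝ} (hε : 0 < ε) : ∃ C : ℝ, 0 < C ∧ ∀ (Q K E : ℝ) (S : Finset O) (f : O → ℝ),
    1 ≤ K → K ≤ Q → (∀ k ∈ S, k ≠ 0 ∧ nr k ≤ K) → (∀ k, 0 ≤ f k) →
    (∀ K₁ : ℝ, 1 ≤ K₁ → K₁ ≤ K →
      ∑ k ∈ S.filter (fun k => K₁ ≤ nr k ∧ nr k ≤ 2 * K₁), f k ≤ E) →
    ∑ k ∈ S, f k ≤ C * Q ^ ε * E := by
  classical
  obtain ⟨C, hC, h⟩ := log_le hε
  refine ⟨C, hC, fun Q K E S f hK hKQ hS hf hE => ?_⟩
  have hE0 : 0 ≤ E := (sum_nonneg fun _ _ => hf _).trans (hE 1 le_rfl hK)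
  have hK0 : ⌊K⌋₊ ≠ 0 := by
    have := (Nat.one_le_floor_iff K).2 hK
    omega
  have hm : (2 : ℝ) ^ Nat.log 2 ⌊K⌋₊ ≤ K :=
    le_trans (by exact_mod_cast Nat.pow_log_le_self 2 hK0) (Nat.floor_le (by linarith))
  rw [← sum_fiberwise_of_maps_to (t := range (Nat.log 2 ⌊K⌋₊ + 1)) (g := fun k => Nat.log 2 (nm k))
    fun k hk => mem_range.2 (Nat.lt_succ_of_le (Nat.log_mono_right
      ((Nat.le_floor_iff (by linarith)).2 (hS k hk).2)))]
  calc _ ≤ ∑ _e ∈ range (Nat.log 2 ⌊K⌋₊ + 1), E := by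
        refine sum_le_sum fun e he => le_trans ?_ (hE (2 ^ e) (one_le_pow₀ one_le_two)
          ((pow_le_pow_right₀ one_le_two (Nat.lt_succ_iff.1 (mem_range.1 he))).trans hm))
        refine sum_le_sum_of_subset_of_nonneg (fun k hk => ?_) fun _ _ _ => hf _
        obtain ⟨hk', rfl⟩ := mem_filter.1 hk
        have h0 : nm k ≠ 0 := fun h0 => (hS k hk').1 (nm_eq_zero.1 h0)
        refine mem_filter.2 ⟨hk', by exact_mod_cast Nat.pow_log_le_self 2 h0, ?_⟩
        have := (Nat.lt_pow_succ_log_self one_lt_two (nm k)).le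
        rw [pow_succ'] at this
        exact_mod_cast this
    _ ≤ _ := by
        rw [sum_const, card_range, nsmul_eq_mul]
        refine mul_le_mul_of_nonneg_right ?_ hE0
        exact_mod_cast h Q _ (hm.trans hKQ)

/-- One term `(i, r)` of the reflection formula. -/
theorem piece (hL : LS2Stmt) {Kr : ℂ → ℂ → ℂ} {V : ℝ → ℂ → ℂ} (hV : KernelOK Kr V) {T : Type}
    {a : T → ℝ} (ha : IdxOK a) (C₁ : ℝ) {η : ℝ} (hη : 0 < η) (hη1 : η ≤ 1 / 4) (R₀ : ℝ) :
    ∃ (C : ℝ) (J : ℕ), 0 < C ∧ ∀ (Q K X : ℝ) (h r : O) (b : T × O → ℂ) (ρ : O → ℂ) (s : ℂ)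
      (S : Finset O), 1 ≤ K → K ≤ Q → 0 < X → X⁻¹ ≤ Q → r ≠ 0 → nr r ≤ Q →
      (∀ t, DualB (C₁ * Real.sqrt (a t)) h r fun ν => b (t, ν)) → (∀ k, ‖ρ k‖ ≤ 1) → |s.re| ≤ R₀ →
      (∀ k ∈ S, (Primary k ∧ Squarefree k) ∧ nr k ≤ K) →
      ∑ k ∈ S, ‖ρ k * (X / (nr k * nr r) : ℝ) * ∑' p : T × O, b p * quad k p.2 *
          V (a p.1 * nr p.2 * X / (nr k * nr r) ^ 2) s‖ ^ 2 ≤
        C * (Q ^ η) ^ 27 * (1 + |s.im|) ^ J * (X * K + K ^ 2 * nr r ^ 2) := by
  classical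
  obtain ⟨⟨c₀, hc₀, hca⟩, hsa⟩ := ha
  have ha0 : ∀ t, 0 < a t := fun t => hc₀.trans_le (hca t)
  obtain ⟨Cc, J, hCc, hcore⟩ := core (δ := O) (Λ := T × O) hV (Pk := fun k => Primary k ∧ Squarefree k)
    (nk := nr) (Pn := fun k => Primary k ∧ Squarefree k) (nn := nr) (q := quad) hL
    (Ns := fun t => a t / c₀) (fun t => (one_le_div hc₀).2 (hca t)) (fun ε hε => by
      refine ((hsa ε hε).mul_right (c₀ ^ (-ε))⁻¹).congr fun t => ?_
      rw [Real.div_rpow (ha0 t).le hc₀.le, div_eq_mul_inv]) hη hη1 R₀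
  obtain ⟨Z, hZ0, hZ⟩ := zeta_le hη
  obtain ⟨Cp, hCp, hp⟩ := two_pow_le hη
  obtain ⟨Cd, hCd, hd⟩ := dyadic hη
  refine ⟨Cd * (Cc * (C₁ ^ 2 * c₀ * Cp ^ 2) * (Cp * Z) ^ 3 * (2 * (4 / c₀) ^ (4 * η)) *
    (4 / c₀ * (2 + 4 / c₀))) + 1, J, by positivity, ?_⟩
  intro Q K X h r b ρ s S hK hKQ hX hXQ hr hrQ hb hρ hs hS
  have hQ : 1 ≤ Q := hK.trans hKQ
  have hQ0 : 0 < Q := by linarith
  have hr1 := one_le_nr hr
  set q := Q ^ η with hq
  have hq1 : 1 ≤ q := Real.one_le_rpow hQ hη.le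
  set W := (1 + |s.im|) ^ J with hW
  have hW0 : 0 ≤ W := by positivity
  set F := X * K + K ^ 2 * nr r ^ 2 with hF
  have hF0 : 0 ≤ F := by positivity
  set P := (pf r).filter (fun p => vp p h % 6 = 4) with hPdef
  have hP : ∀ p ∈ P, Prime p ∧ Primary p := fun p hp => BasicB.pf_sub (mem_filter.1 hp).1
  have h2P : (2 : ℝ) ^ P.card ≤ Cp * q := by
    refine (pow_le_pow_right₀ one_le_two (card_le_card (filter_subset _ _))).trans
      ((hp r).trans ?_)
    have := (nr_le_of_dvd (rad_dvd r) hr).trans hrQ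
    rw [hq]
    gcongr
  have hb' : ∀ l : T × O, b l ≠ 0 → ∃ n d : O, Primary n ∧ Squarefree n ∧ Primary d ∧
      l.2 = n * d ^ 3 ∧ ‖b l‖ ≤ C₁ * Real.sqrt (a l.1) * Real.sqrt (nr d) *
        ∏ p ∈ P, ((Real.sqrt (nr p))⁻¹ + if p ∣ l.2 then Real.sqrt (nr p) else 0) :=
    fun l hl => hb l.1 l.2 hl
  choose! n d hn hn' hd' hnd hle using hb'
  refine (hd Q K (Cc * (C₁ ^ 2 * c₀ * Cp ^ 2) * (Cp * Z) ^ 3 * (2 * (4 / c₀) ^ (4 * η)) *
    (4 / c₀ * (2 + 4 / c₀)) * q ^ 26 * W * F) S _ hK hKQ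
    (fun k hk => ⟨(hS k hk).1.1.ne_zero, (hS k hk).2⟩) (fun k => by positivity)
    fun K₁ hK₁ hK₁K => ?_).trans ?_
  · set S' := S.filter (fun k => K₁ ≤ nr k ∧ nr k ≤ 2 * K₁) with hS'
    set B := (2 * K₁ * nr r) ^ 2 / (c₀ * X) with hB
    have hB0 : 0 < B := by positivity
    have h1 := hcore (2 * K₁) B (2 ^ P.card * Z) (C₁ * Real.sqrt c₀ * 2 ^ P.card) S' b Prod.fst n d
      Primary nr (Gw P) (Gw P) (fun k _ e => quad k (e ^ 3)) (fun k l => quad k l.2)
      (fun l => a l.1 * nr l.2 / c₀) (fun k => c₀ * X / (nr k * nr r) ^ 2) s (by linarith) hB0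
      (by positivity) hs (fun k hk => ?_) (fun _ _ _ => norm_quad_le _ _)
      (fun m => (Gw_pos hP m).le) (Gw_pos hP) (fun l hl => ?_) (fun l l' hl hl' e1 e2 e3 => ?_)
      (fun A hA => sum_Gw_le hη hZ hP A fun m hm => (hA m hm).1.1)
      fun A hA => sum_Gw_le hη hZ hP A fun m hm => (hA m hm).1
    · have e1 : ∀ (k : O) (l : T × O), a l.1 * nr l.2 / c₀ * (c₀ * X / (nr k * nr r) ^ 2) =
          a l.1 * nr l.2 * X / (nr k * nr r) ^ 2 := fun k l => by field_simp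
      simp only [e1] at h1
      have e2 : ∀ k ∈ S', ‖ρ k * (X / (nr k * nr r) : ℝ) * ∑' p : T × O, b p * quad k p.2 *
          V (a p.1 * nr p.2 * X / (nr k * nr r) ^ 2) s‖ ^ 2 ≤ (X / (K₁ * nr r)) ^ 2 *
          ‖∑' p : T × O, b p * quad k p.2 * V (a p.1 * nr p.2 * X / (nr k * nr r) ^ 2) s‖ ^ 2 := by
        intro k hk
        have a1 := (mem_filter.1 hk).2.1
        have a2 : 0 < nr k := by linarith
        rw [norm_mul, norm_mul, mul_pow, Complex.norm_real, Real.norm_of_nonneg (by positivity)]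
        refine mul_le_mul_of_nonneg_right (pow_le_pow_left₀ (by positivity) ?_ 2) (sq_nonneg _)
        refine (mul_le_of_le_one_left (by positivity) (hρ k)).trans ?_
        gcongr
      refine (sum_le_sum e2).trans ?_
      rw [← mul_sum]
      refine (mul_le_mul_of_nonneg_left h1 (sq_nonneg _)).trans ?_
      have f1 : (2 * K₁) ^ η ≤ 2 * q := by
        rw [Real.mul_rpow two_pos.le (by linarith), hq]
        have : (2 : ℝ) ^ η ≤ 2 := by
          simpa using Real.rpow_le_rpow_of_exponent_le (x := 2) (by norm_num)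
            (show η ≤ 1 by linarith)
        have := hK₁K.trans hKQ
        gcongr
      have f2 : B ^ (4 * η) ≤ (4 / c₀) ^ (4 * η) * q ^ 20 := by
        have g1 : B ≤ 4 / c₀ * Q ^ 5 := by
          have g2 := hK₁K.trans hKQ
          calc B = 4 / c₀ * (K₁ ^ 2 * nr r ^ 2 * X⁻¹) := by rw [hB]; field_simp; ring
            _ ≤ 4 / c₀ * (Q ^ 2 * Q ^ 2 * Q) := by gcongr
            _ = _ := by ring
        refine (Real.rpow_le_rpow hB0.le g1 (by positivity)).trans_eq ?_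
        rw [Real.mul_rpow (by positivity) (by positivity), hq, ← Real.rpow_natCast,
          ← Real.rpow_natCast, ← Real.rpow_mul hQ0.le, ← Real.rpow_mul hQ0.le]
        congr 2
        push_cast
        ring
      have f3 : (X / (K₁ * nr r)) ^ 2 * (B * (2 * K₁ + B)) ≤ 4 / c₀ * (2 + 4 / c₀) * F := by
        calc _ = 4 / c₀ * (2 * (X * K₁) + 4 / c₀ * (K₁ ^ 2 * nr r ^ 2)) := by
              rw [hB]; field_simp; ring
          _ ≤ 4 / c₀ * (2 * F + 4 / c₀ * F) := by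
              have g1 : X * K₁ ≤ F := le_add_of_le_of_nonneg (by gcongr) (by positivity)
              have g2 : K₁ ^ 2 * nr r ^ 2 ≤ F := le_add_of_nonneg_of_le (by positivity) (by gcongr)
              gcongr
          _ = _ := by ring
      rw [Real.rpow_add hB0, Real.rpow_one, mul_pow, mul_pow, Real.sq_sqrt hc₀.le]
      calc _ = Cc * (C₁ ^ 2 * c₀ * (2 ^ P.card) ^ 2) * (2 ^ P.card * Z) ^ 3 * W *
            ((2 * K₁) ^ η * B ^ (4 * η)) * ((X / (K₁ * nr r)) ^ 2 * (B * (2 * K₁ + B))) := by ring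
        _ ≤ Cc * (C₁ ^ 2 * c₀ * (Cp * q) ^ 2) * (Cp * q * Z) ^ 3 * W *
            (2 * q * ((4 / c₀) ^ (4 * η) * q ^ 20)) * (4 / c₀ * (2 + 4 / c₀) * F) := by gcongr
        _ = _ := by ring
    · obtain ⟨a1, a2, a3⟩ := mem_filter.1 hk
      have a4 : 0 < nr k := by linarith
      refine ⟨(hS k a1).1, a3, ?_⟩
      rw [hB, inv_div]
      gcongr
    · have a1 := one_le_nr (hd' l hl).ne_zero
      refine ⟨⟨hn l hl, hn' l hl⟩, one_le_nr (hn l hl).ne_zero, hd' l hl, a1, ?_, fun k _ => ?_, ?_⟩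
      · conv_lhs => rw [hnd l hl, nr_mul, nr_pow]
        ring
      · conv_lhs => rw [hnd l hl, quad_mul_right']
        ring
      · have a2 := fac_le hP (n l) (d l)
        rw [← hnd l hl] at a2
        refine (pow_le_pow_left₀ (norm_nonneg _) (hle l hl) 2).trans ?_
        rw [mul_pow, mul_pow, mul_pow, Real.sq_sqrt (ha0 _).le, Real.sq_sqrt (by linarith)]
        refine (mul_le_mul_of_nonneg_left a2 (by have := ha0 l.1; positivity)).trans_eq ?_
        rw [mul_pow, mul_pow, Real.sq_sqrt hc₀.le]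
        field_simp
    · exact Prod.ext e1 (by rw [hnd l hl, hnd l' hl', e2, e3])
  · calc _ = Cd * (Cc * (C₁ ^ 2 * c₀ * Cp ^ 2) * (Cp * Z) ^ 3 * (2 * (4 / c₀) ^ (4 * η)) *
          (4 / c₀ * (2 + 4 / c₀))) * q ^ 27 * W * F := by ring
      _ ≤ _ := by gcongr; linarith

omit [Fr0] in
theorem exists_eta {ε : ℝ} (hε : 0 < ε) (m : ℕ) : ∃ η : ℝ, 0 < η ∧ η ≤ 1 / 4 ∧
    ∀ Q : ℝ, 1 ≤ Q → (Q ^ η) ^ m ≤ Q ^ ε := by
  refine ⟨min (ε / (m + 1)) (1 / 4), lt_min (by positivity) (by norm_num), min_le_right _ _,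
    fun Q hQ => ?_⟩
  rw [← Real.rpow_natCast, ← Real.rpow_mul (by linarith)]
  refine Real.rpow_le_rpow_of_exponent_le hQ ?_
  calc min (ε / (m + 1)) (1 / 4) * m ≤ ε / (m + 1) * (m + 1) := by
        gcongr
        · exact min_le_left _ _
        · linarith
    _ = ε := by field_simp

end En56

open En56

/-- **Energy with a fixed frozen part.** -/
theorem enFixed_56 [Fr0] (hL : LS2Stmt) (hR : ReflStmt) : EnFixed := by
  classical
  intro ε hε R₀
  obtain ⟨I, _, T, a, C, Kr, V, ha, hV, hR⟩ := hR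
  obtain ⟨η, hη, hη1, hηε⟩ := exists_eta hε 29
  choose Cp Jp hCp hp using fun i => piece hL hV (ha i) C hη hη1 R₀
  obtain ⟨Cd, hCd, hd⟩ := two_pow_le hη
  have hS : 0 < ∑ i, Cp i + 1 := by
    have : 0 ≤ ∑ i, Cp i := sum_nonneg fun i _ => (hCp i).le
    linarith
  refine ⟨((Fintype.card I : ℝ) + 1) ^ 2 * Cd ^ 2 * (∑ i, Cp i + 1), univ.sup Jp, by positivity, ?_⟩
  intro Q K D φ h s S hK hKQ hD hDQ hhQ hφ hh hs hSk
  obtain ⟨b, hb, hrefl⟩ := hR φ hφ h hh
  choose! ρ hρ hT using fun k (hk : k ∈ S) => hrefl k (hSk k hk).1 D hD s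
  have hQ : 1 ≤ Q := hK.trans hKQ
  have hr0 : rad h ≠ 0 := (primary_rad h).ne_zero
  set q := Q ^ η with hq
  have hq0 : 0 ≤ q := by positivity
  set F := D * K + K ^ 2 * nr (rad h) ^ 2 with hF
  have hF0 : 0 ≤ F := by positivity
  have hs1 : 1 ≤ 1 + |s.im| := le_add_of_nonneg_right (abs_nonneg _)
  set f : I → O → O → ℂ := fun i r k => (if k ∈ S then ρ k i r else 0) *
    (D / (nr k * nr r) : ℝ) * ∑' p : T i × O, b i r p * quad k p.2 *
      V (a i p.1 * nr p.2 * D / (nr k * nr r) ^ 2) s with hf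
  set E : ℝ := (∑ i, Cp i + 1) * q ^ 27 * (1 + |s.im|) ^ univ.sup Jp * F with hE
  have hE0 : 0 ≤ E := by positivity
  have hpiece : ∀ i, ∀ r ∈ pdiv (rad h), ∑ k ∈ S, ‖f i r k‖ ^ 2 ≤ E := by
    intro i r hr
    obtain ⟨r1, r2⟩ := (mem_pdiv hr0).1 hr
    have r3 : nr r ≤ nr (rad h) := nr_le_of_dvd r2 hr0
    refine (hp i Q K D h r (b i r) (fun k => if k ∈ S then ρ k i r else 0) s S hK hKQ hD hDQ
      r1.ne_zero (r3.trans hhQ) (hb i r hr) (fun k => ?_) hs
      fun k hk => ⟨⟨(hSk k hk).1.1, (hSk k hk).1.2.1⟩, (hSk k hk).2⟩).trans ?_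
    · split_ifs with hk
      · exact hρ k hk i r
      · simp
    · have b1 : Cp i ≤ ∑ i, Cp i + 1 :=
        (single_le_sum (fun j _ => (hCp j).le) (mem_univ i)).trans (by linarith)
      have b2 : (1 + |s.im|) ^ Jp i ≤ (1 + |s.im|) ^ univ.sup Jp :=
        pow_le_pow_right₀ hs1 (le_sup (mem_univ i))
      have b3 := (hCp i).le
      rw [hE, hF]
      gcongr
  have h1 := l2_sum_le S univ (fun i k => ∑ r ∈ pdiv (rad h), f i r k)
    (E := ((pdiv (rad h)).card : ℝ) ^ 2 * E)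
    fun i _ => l2_sum_le S (pdiv (rad h)) (f i) (hpiece i)
  rw [sum_congr rfl fun k hk => by rw [hT k hk]]
  refine le_trans (le_of_eq (sum_congr rfl fun k hk => by simp only [hf, if_pos hk])) (h1.trans ?_)
  have h2 : ((pdiv (rad h)).card : ℝ) ≤ Cd * q := by
    refine le_trans (by exact_mod_cast card_pdiv_rad h) ((hd h).trans ?_)
    rw [hq]
    gcongr
  have h3 : ((univ : Finset I).card : ℝ) ≤ Fintype.card I + 1 := by
    rw [card_univ]; linarith
  have h4 := hηε Q hQ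
  calc ((univ : Finset I).card : ℝ) ^ 2 * (((pdiv (rad h)).card : ℝ) ^ 2 * E)
      ≤ ((Fintype.card I : ℝ) + 1) ^ 2 * ((Cd * q) ^ 2 * E) := by gcongr
    _ = ((Fintype.card I : ℝ) + 1) ^ 2 * Cd ^ 2 * (∑ i, Cp i + 1) * q ^ 29 *
        (1 + |s.im|) ^ univ.sup Jp * F := by rw [hE]; ring
    _ ≤ _ := by gcongr

namespace En56

variable [Fr0]

/-- Splitting off the generic squarefree part of a primary element. -/
theorem decomp {h₀ n : O} (h0 : h₀ ≠ 0) (hn : Primary n) : ∃ m k : O, n = m * k ∧ Primary m ∧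
    SP (m * h₀) k ∧ nr (rad (m * h₀)) ^ 2 ≤ nr m * nr (rad h₀) ^ 2 := by
  classical
  set A := (pf n).filter (fun p => p ∉ pf h₀ ∧ vp p n = 1) with hA
  set B := (pf n).filter (fun p => ¬ (p ∉ pf h₀ ∧ vp p n = 1)) with hB
  have hA' : ∀ q ∈ A, Prime q ∧ Primary q := fun q hq => BasicB.pf_sub (mem_filter.1 hq).1
  have hB' : ∀ q ∈ B, Prime q ∧ Primary q := fun q hq => BasicB.pf_sub (mem_filter.1 hq).1
  obtain ⟨k1, k2, k3⟩ := squarefree_prod_primes hA'
  have pB := BasicB.primary_prod_pow hB' fun p => vp p n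
  have sB : pf (∏ p ∈ B, p ^ vp p n) ⊆ B := fun p hp => by
    have h1 := BasicB.vp_ne_zero hp
    have h2 := BasicB.pf_sub hp
    rw [vp_prod_pow hB' _ h2.1 h2.2] at h1
    by_contra h
    exact h1 (if_neg h)
  refine ⟨∏ p ∈ B, p ^ vp p n, ∏ p ∈ A, p, ?_, pB, ⟨k2, k1, ?_⟩, ?_⟩
  · rw [mul_comm, prod_congr rfl (g := fun p => p ^ vp p n) fun p hp => by
      rw [(mem_filter.1 hp).2.2, pow_one], hA, hB, prod_filter_mul_prod_filter_not]
    exact hn.eq_prod
  · refine isCoprime_of_disjoint_pf k2 (mul_ne_zero pB.ne_zero h0) ?_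
    rw [k3, pf_mul pB.ne_zero h0, disjoint_union_right]
    exact ⟨disjoint_left.2 fun p hp hp' => (mem_filter.1 (sB hp')).2 (mem_filter.1 hp).2,
      disjoint_left.2 fun p hp => (mem_filter.1 hp).2.1⟩
  · have e1 : pf ((∏ p ∈ B, p ^ vp p n) * h₀) ⊆ (B \ pf h₀) ∪ pf h₀ := by
      rw [pf_mul pB.ne_zero h0, sdiff_union_self_eq_union]
      exact union_subset_union_left sB
    have e2 : nr (rad ((∏ p ∈ B, p ^ vp p n) * h₀)) ≤ (∏ p ∈ B \ pf h₀, nr p) * nr (rad h₀) := by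
      rw [rad, rad, nr_prod, nr_prod, ← prod_union sdiff_disjoint]
      refine prod_le_prod_of_subset_of_one_le e1 (fun _ _ => Nat.cast_nonneg _) fun p hp _ => ?_
      rcases mem_union.1 hp with hp | hp
      · exact one_le_nr (hB' p (mem_sdiff.1 hp).1).1.ne_zero
      · exact one_le_nr (BasicB.pf_sub hp).1.ne_zero
    have e3 : (∏ p ∈ B \ pf h₀, nr p) ^ 2 ≤ nr (∏ p ∈ B, p ^ vp p n) := by
      rw [nr_prod, ← prod_pow]
      refine (prod_le_prod (fun _ _ => sq_nonneg _) fun p hp => ?_).trans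
        (prod_le_prod_of_subset_of_one_le (sdiff_subset (t := pf h₀))
          (fun _ _ => Nat.cast_nonneg _)
          fun p hp _ => one_le_nr (pow_ne_zero _ (hB' p hp).1.ne_zero))
      obtain ⟨a1, a2⟩ := mem_sdiff.1 hp
      have a3 := BasicB.vp_ne_zero (mem_filter.1 a1).1
      have a4 : vp p n ≠ 1 := fun e => (mem_filter.1 a1).2 ⟨a2, e⟩
      rw [nr_pow]
      exact pow_le_pow_right₀ (one_le_nr (hB' p a1).1.ne_zero) (by omega)
    refine (pow_le_pow_left₀ (Nat.cast_nonneg _) e2 2).trans ?_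
    rw [mul_pow]
    exact mul_le_mul_of_nonneg_right e3 (sq_nonneg _)

theorem clsB_twist {R : O → O → ℂ} (hR : RecAx R) {φ : O → ℂ} (hφ : ClsB φ) {u : O}
    (hu : IsUnit u) : ClsB fun n => φ n * sym n u := by
  refine ⟨fun n => ?_, fun n n' e => ?_⟩
  · rw [norm_mul]
    exact mul_le_one₀ (hφ.1 n) (norm_nonneg _) (norm_sym_le _ _)
  · by_cases h0 : n' = 0
    · have : n = 0 := cls_eq_zero.1 (by rw [e, h0, map_zero])
      rw [this, h0]
    · have h1 := ne_zero_of_cls_eq e h0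
      beta_reduce
      rw [hφ.2 n n' e, hR.recip n u h1 hu.ne_zero (isCoprime_of_isUnit n hu),
        hR.recip n' u h0 hu.ne_zero (isCoprime_of_isUnit n' hu), sym_unit_left hu, sym_unit_left hu,
        hR.congr n n' u u e rfl]

end En56

/-- **Reflected energy** over all non-zero rows. -/
theorem energy_56 [Fr0] {R : O → O → ℂ} (hR : RecAx R) (hE : EnFixed) : EnergyStmt := by
  classical
  intro ε hε R₀
  obtain ⟨η, hη, -, hηε⟩ := exists_eta hε 3
  obtain ⟨C₁, J, hC₁, h₁⟩ := hE η hη R₀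
  obtain ⟨Z, hZ0, hZ⟩ := zeta_le hη
  refine ⟨(U0.card + 1) * C₁ * Z, J, by positivity, ?_⟩
  intro Q K D φ h₀ s S hK hKQ hD hDQ hhQ hφ hp hs hS
  have hQ : 1 ≤ Q := hK.trans hKQ
  have hQ0 : 0 < Q := by linarith
  have hK0 : 0 ≤ K := by linarith
  have hQ2 : Q ≤ Q ^ 2 := le_self_pow₀ hQ two_ne_zero
  have h0 := hp.ne_zero
  set q := Q ^ η with hq
  have hq0 : 0 ≤ q := by positivity
  set F := D * K + K ^ 2 * nr (rad h₀) ^ 2 with hF
  have hF0 : 0 ≤ F := by positivity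
  have hmem : ∀ {X : ℝ} {n : O}, 0 ≤ X → (n ∈ pball ⌊X⌋₊ ↔ Primary n ∧ nr n ≤ X) :=
    fun hX => by rw [mem_pball, Nat.le_floor_iff hX]
  set M := (pball ⌊K⌋₊).filter
    (fun m => nr (rad (m * h₀)) ^ 2 ≤ nr m * nr (rad h₀) ^ 2) with hM
  set B := C₁ * q ^ 2 * (1 + |s.im|) ^ J * F with hB
  have hB0 : 0 ≤ B := by positivity
  have hsub : S ⊆ ((U0 ×ˢ M).sigma fun t => (pball ⌊K / nr t.2⌋₊).filter (SP (t.2 * h₀))).image
      fun x => x.1.1 * (x.1.2 * x.2) := by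
    intro k hk
    obtain ⟨k0, k1, k2⟩ := hS k hk
    obtain ⟨u, hu, n, hn, rfl⟩ := k1.exists k0
    rw [nr_unit_mul (isUnit_of_mem_U0 hu)] at k2
    obtain ⟨m, k₁, rfl, a1, a2, a3⟩ := decomp h0 hn
    have a4 := nr_pos a1.ne_zero
    refine mem_image.2 ⟨⟨(u, m), k₁⟩, mem_sigma.2 ⟨mem_product.2 ⟨hu, mem_filter.2
      ⟨(hmem hK0).2 ⟨a1, (nr_le_of_dvd (dvd_mul_right _ _) hn.ne_zero).trans k2⟩, a3⟩⟩,
      mem_filter.2 ⟨(hmem (by positivity)).2 ⟨a2.1, ?_⟩, a2⟩⟩, rfl⟩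
    rw [le_div_iff₀ a4, mul_comm, ← nr_mul]
    exact k2
  have hfib : ∀ t ∈ U0 ×ˢ M, ∑ k₁ ∈ (pball ⌊K / nr t.2⌋₊).filter (SP (t.2 * h₀)),
      ‖TT φ D s (t.1 * (t.2 * k₁) * h₀)‖ ^ 2 ≤ B * (nr t.2)⁻¹ := by
    rintro ⟨u, m⟩ ht
    obtain ⟨t1, t2⟩ := mem_product.1 ht
    obtain ⟨t3, t4⟩ := mem_filter.1 t2
    obtain ⟨t5, t6⟩ := (hmem hK0).1 t3
    simp only at *
    have hm := one_le_nr t5.ne_zero
    have e : ∀ k₁, TT φ D s (u * (m * k₁) * h₀) =
        TT (fun n => φ n * sym n u) D s (k₁ * (m * h₀)) := fun k₁ => by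
      refine tsum_congr fun n => ?_
      rw [show u * (m * k₁) * h₀ = u * (k₁ * (m * h₀)) by ring, sym_mul_right' n u]
      ring
    simp only [e]
    refine (h₁ (Q ^ 2) (K / nr m) D _ (m * h₀) s _ ((one_le_div (by linarith)).2 t6)
      ((div_le_self hK0 hm).trans (hKQ.trans hQ2)) hD (hDQ.trans hQ2) ?_
      (clsB_twist hR hφ (isUnit_of_mem_U0 t1)) (t5.mul hp) hs fun k hk =>
        ⟨(mem_filter.1 hk).2, ((hmem (by positivity)).1 (mem_filter.1 hk).1).2⟩).trans ?_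
    · refine le_of_sq_le_sq ?_ (by positivity)
      have := t6.trans hKQ
      calc _ ≤ nr m * nr (rad h₀) ^ 2 := t4
        _ ≤ Q ^ 2 * Q ^ 2 := by gcongr; linarith
        _ = _ := by ring
    · have e1 : (Q ^ 2) ^ η = q ^ 2 := by
        rw [hq, ← Real.rpow_natCast, ← Real.rpow_natCast, ← Real.rpow_mul hQ0.le,
          ← Real.rpow_mul hQ0.le, mul_comm]
      have e2 : D * (K / nr m) + (K / nr m) ^ 2 * nr (rad (m * h₀)) ^ 2 ≤ F * (nr m)⁻¹ := by
        calc _ ≤ D * (K / nr m) + (K / nr m) ^ 2 * (nr m * nr (rad h₀) ^ 2) := by gcongr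
          _ = _ := by rw [hF]; field_simp
      rw [e1, hB, mul_assoc _ F]
      gcongr
  have hA : ∑ m ∈ M, (nr m)⁻¹ ≤ q * Z := by
    refine le_trans ?_ (mul_le_mul_of_nonneg_left
      (hZ M fun m hm => ((hmem hK0).1 (mem_filter.1 hm).1).1) hq0)
    rw [mul_sum]
    refine sum_le_sum fun m hm => ?_
    obtain ⟨a1, a2⟩ := (hmem hK0).1 (mem_filter.1 hm).1
    have a3 := nr_pos a1.ne_zero
    have a4 : nr m ^ η ≤ q := Real.rpow_le_rpow a3.le (a2.trans hKQ) hη.le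
    have a5 : 0 < nr m ^ η := by positivity
    rw [Real.rpow_add a3, Real.rpow_one, mul_inv, mul_left_comm]
    refine le_mul_of_one_le_right (by positivity) ?_
    rwa [← div_eq_mul_inv, one_le_div a5]
  refine (sum_le_sum_of_subset_of_nonneg hsub fun _ _ _ => sq_nonneg _).trans
    ((sum_image_le_of_nonneg fun _ _ => sq_nonneg _).trans ?_)
  have h4 := hηε Q hQ
  calc _ ≤ ∑ t ∈ U0 ×ˢ M, B * (nr t.2)⁻¹ := by
        rw [sum_sigma]
        exact sum_le_sum hfib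
    _ = U0.card * (B * ∑ m ∈ M, (nr m)⁻¹) := by
        simp only [sum_product, sum_const, nsmul_eq_mul, ← mul_sum]
        ring
    _ ≤ (U0.card + 1) * (B * (q * Z)) := by
        have : 0 ≤ ∑ m ∈ M, (nr m)⁻¹ := sum_nonneg fun _ _ => by positivity
        gcongr
        linarith
    _ = (U0.card + 1) * C₁ * Z * q ^ 3 * (1 + |s.im|) ^ J * F := by rw [hB]; ring
    _ ≤ _ := by gcongr

/-- The energy bound in the form consumed by the last part of the core. -/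
theorem enAll_56 [Fr] (hL : LS2Stmt) (hR : ReflStmt) : EnAll := by
  intro ε hε
  obtain ⟨C, J, hC, h⟩ := energy_56 Fr.recAx (enFixed_56 hL hR) ε hε 3
  exact ⟨C, hC, J, fun Q K D φ h₀ s hK hKQ hD _ hDQ hp hh h1 h2 hs =>
    h Q K D φ h₀ s _ hK hKQ hD hDQ hh ⟨h1, h2⟩ hp hs fun k hk => (mem_rows (by linarith)).1 hk⟩

end Crest.Agent.T27
end
end

-- ▼ part T27/CoreAll_51
section

/-!
# Row 27: the analytic core on the frame (glue, helper51)

`LS2Stmt → Rf.VorFr → MobFr`.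
-/

set_option autoImplicit false

noncomputable section

namespace Crest.Agent.T27


/-- The same from the reflection statement. -/
theorem mobFr_of_refl_51 [Fr] (hL : LS2Stmt) (hR : ReflStmt) : MobFr :=
  mobFr_84 (sStmt_17 (psd_51 dom_91) (enAll_56 hL hR))


end Crest.Agent.T27
end
end

-- ▼ part T27/End_84
section

/-!
# Row 27: from the Möbius bound of the frame to `1 / ζ_F` (helper84)

`invZeta_model_84 : IsModel F N J j → MobFr → ∃ G, holomorphic on Re s > 11/12, G ζ_F = 1`.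
-/

set_option autoImplicit false

noncomputable section

namespace Crest.Agent.T27

open MeasureTheory Set Filter Topology Asymptotics NumberField

namespace A84

section generic
variable [Fr0]

open Classical in
theorem norm_dir_le {b : O → ℂ} (hb : ∀ n, ‖b n‖ ≤ 1) (s : ℂ) (n : O) :
    ‖if Primary n then b n * (nr n : ℂ) ^ (-s) else 0‖ ≤
      if Primary n then nr n ^ (-s.re) else 0 := by
  split_ifs with h
  · rw [norm_mul, Complex.norm_cpow_eq_rpow_re_of_pos (nr_pos h.ne_zero), Complex.neg_re]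
    exact mul_le_of_le_one_left (by positivity) (hb n)
  · simp

open Classical in
theorem summable_norm_dir {b : O → ℂ} (hb : ∀ n, ‖b n‖ ≤ 1) {s : ℂ} (hs : 1 < s.re) :
    Summable fun n : O => ‖if Primary n then b n * (nr n : ℂ) ^ (-s) else 0‖ :=
  Summable.of_nonneg_of_le (fun _ => norm_nonneg _) (norm_dir_le hb s) (summable_prim hs)

theorem nr_mul_cpow (m n : O) (s : ℂ) :
    (nr (m * n) : ℂ) ^ s = (nr m : ℂ) ^ s * (nr n : ℂ) ^ s := by
  rw [nr_mul, Complex.ofReal_mul,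
    Complex.mul_cpow_ofReal_nonneg (Nat.cast_nonneg _) (Nat.cast_nonneg _)]

open Classical in
/-- Möbius inversion. -/
theorem mob_mul_zeta {s : ℂ} (hs : 1 < s.re) :
    (∑' n : O, if Primary n then mu n * (nr n : ℂ) ^ (-s) else 0) *
      (∑' n : O, if Primary n then (nr n : ℂ) ^ (-s) else 0) = 1 := by
  have h1 := summable_norm_dir norm_mu_le hs
  have h2 := summable_norm_dir (b := fun _ => 1) (by simp) hs
  simp only [one_mul] at h2
  rw [tsum_mul_tsum_of_summable_norm h1 h2]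
  have h3 := (summable_mul_of_summable_norm h1 h2).hasSum.tsum_fiberwise
    (fun x : O × O => x.1 * x.2)
  rw [← h3.tsum_eq, tsum_eq_single 1]
  · rw [tsum_eq_single ⟨(1, 1), by simp⟩]
    · simp [primary_one]
    · rintro ⟨⟨d, e⟩, h4⟩ h5
      have h6 : d * e = 1 := h4
      by_cases hd : Primary d
      · by_cases he : Primary e
        · refine absurd (Subtype.ext (Prod.ext ?_ ?_)) h5
          · exact hd.eq_one_of_isUnit (IsUnit.of_mul_eq_one _ h6)
          · exact he.eq_one_of_isUnit (IsUnit.of_mul_eq_one_right _ h6)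
        · simp [he]
      · simp [hd]
  · intro k hk
    by_cases hp : Primary k
    · rw [tsum_subtype ((fun x : O × O => x.1 * x.2) ⁻¹' {k}) (fun x : O × O =>
        (if Primary x.1 then mu x.1 * (nr x.1 : ℂ) ^ (-s) else 0) *
          if Primary x.2 then (nr x.2 : ℂ) ^ (-s) else 0),
        tsum_eq_sum (s := (pdiv k).image fun d => (d, k / d)),
        Finset.sum_image fun d _ d' _ e => congrArg Prod.fst e]
      · have h4 : ∑ d ∈ pdiv k, mu d = 0 := by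
          rw [sum_mu_pdiv hp.ne_zero, if_neg]
          exact fun h => hk (hp.eq_one_of_isUnit ((isUnit_iff_pf hp.ne_zero).2 h))
        rw [Finset.sum_congr rfl (g := fun d => mu d * (nr k : ℂ) ^ (-s)), ← Finset.sum_mul, h4,
          zero_mul]
        intro d hd
        obtain ⟨h5, h6⟩ := (mem_pdiv hp.ne_zero).1 hd
        have h7 : d * (k / d) = k := EuclideanDomain.mul_div_cancel' h5.ne_zero h6
        rw [indicator_of_mem (by exact h7), if_pos h5, if_pos (h5.of_mul (h7.symm ▸ hp)),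
          mul_assoc, ← nr_mul_cpow, h7]
      · rintro ⟨d, e⟩ h4
        by_cases h5 : d * e = k
        · rw [indicator_of_mem (by exact h5), if_neg, zero_mul]
          intro hd
          refine h4 (Finset.mem_image.2 ⟨d, (mem_pdiv hp.ne_zero).2 ⟨hd, e, h5.symm⟩, ?_⟩)
          rw [← h5, mul_div_cancel_left₀ _ hd.ne_zero]
        · exact indicator_of_notMem (by exact h5) _
    · refine (tsum_congr ?_).trans tsum_zero
      rintro ⟨⟨d, e⟩, h4⟩
      have h6 : d * e = k := h4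
      by_cases hd : Primary d
      · by_cases he : Primary e
        · exact absurd (h6 ▸ hd.mul he) hp
        · simp [he]
      · simp [hd]

omit [Fr0] in
theorem continuousOn_Wc {c : ℝ} (hc : 0 < c) :
    ContinuousOn (fun t : ℝ => Wc (c * t) 0) (Ioi 0) := by
  have h : ContinuousOn (fun t : ℝ => ((Real.log (c * t) : ℝ) : ℂ)) (Ioi 0) :=
    Complex.continuous_ofReal.comp_continuousOn
      ((continuousOn_const.mul continuousOn_id).log fun t ht => (mul_pos hc ht).ne')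
  exact ((h.pow 2).neg.add (continuousOn_const.mul h)).cexp

omit [Fr0] in
theorem mellinConv_Wc (s : ℂ) : MellinConvergent (fun t : ℝ => Wc t 0) s := by
  have h : ∀ (σ : ℝ) (l : Filter ℝ), (∀ᶠ t in l, 0 < t) →
      (fun t : ℝ => Wc t 0) =O[l] (· ^ (-σ)) := fun σ l hl =>
    IsBigO.of_bound (Real.exp (σ ^ 2 / 4)) (hl.mono fun t ht => by
      rw [Real.norm_of_nonneg (by positivity)]
      exact norm_Wc_zero_le ht σ)
  refine mellinConvergent_of_isBigO_rpow (a := s.re + 1) (b := s.re - 1) ?_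
    (h _ _ (eventually_gt_atTop 0)) (by linarith) (h _ _ self_mem_nhdsWithin) (by linarith)
  have := continuousOn_Wc one_pos
  simp only [one_mul] at this
  exact this.locallyIntegrableOn measurableSet_Ioi

omit [Fr0] in
theorem mellin_Wc_mul {c : ℝ} (hc : 0 < c) (s : ℂ) :
    mellin (fun t : ℝ => Wc (c * t) 0) s = (c : ℂ) ^ (-s) * Wm s := by
  rw [mellin_comp_mul_left (fun t : ℝ => Wc t 0) s hc, smul_eq_mul, mellin]
  congr 1
  have := mellin_Wc s 0
  rw [add_zero] at this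
  rw [← this]
  simp only [smul_eq_mul, mul_comm]

omit [Fr0] in
theorem integral_norm_Wc_mul {c : ℝ} (hc : 0 < c) (s : ℂ) :
    ∫ t in Ioi (0 : ℝ), ‖(t : ℂ) ^ (s - 1) • Wc (c * t) 0‖ = c ^ (-s.re) * ‖Wm s.re‖ := by
  have h1 := congrArg norm (mellin_Wc_mul hc s.re)
  rw [norm_mul, Complex.norm_cpow_eq_rpow_re_of_pos hc, Complex.neg_re, Complex.ofReal_re] at h1
  have h2 : mellin (fun t : ℝ => Wc (c * t) 0) s.re =
      ((∫ t in Ioi (0 : ℝ), ‖(t : ℂ) ^ (s - 1) • Wc (c * t) 0‖ : ℝ) : ℂ) := by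
    rw [mellin, ← integral_complex_ofReal]
    refine setIntegral_congr_fun measurableSet_Ioi fun t ht => ?_
    have h3 : Wc (c * t) 0 = ((Real.exp (-(Real.log (c * t)) ^ 2) : ℝ) : ℂ) := by simp [Wc]
    have ht' : (0 : ℝ) < t := ht
    simp only [smul_eq_mul, norm_mul, Complex.norm_cpow_eq_rpow_re_of_pos ht', h3,
      Complex.norm_real, Real.norm_of_nonneg (Real.exp_pos _).le, Complex.sub_re, Complex.one_re]
    rw [show ((s.re : ℂ) - 1) = ((s.re - 1 : ℝ) : ℂ) by push_cast; ring,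
      ← Complex.ofReal_cpow ht'.le]
    norm_cast
  rw [← h1, h2, Complex.norm_real, Real.norm_of_nonneg (integral_nonneg fun _ => norm_nonneg _)]

open Classical in
/-- The smooth sum with coefficients `b` at the scale `1 / t`. -/
def sm (b : O → ℂ) (t : ℝ) : ℂ := ∑' n : O, if Primary n then b n * Wc (nr n / t⁻¹) 0 else 0

open Classical in
theorem norm_sm_le {b : O → ℂ} (hb : ∀ n, ‖b n‖ ≤ 1) {σ : ℝ} (hσ : 1 < σ) :
    sm b =O[atTop] (· ^ (-σ)) := by
  refine IsBigO.of_bound (Real.exp (σ ^ 2 / 4) *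
    ∑' n : O, if Primary n then nr n ^ (-σ) else 0) ((eventually_gt_atTop 0).mono fun t ht => ?_)
  refine (tsum_of_norm_bounded ((summable_prim hσ).hasSum.mul_left _)
    (norm_term_le (fun _ h => h) hb (inv_pos.2 ht) σ)).trans (le_of_eq ?_)
  rw [Real.norm_of_nonneg (by positivity), Real.inv_rpow ht.le, Real.rpow_neg ht.le]
  ring

open Classical in
theorem continuousOn_sm {b : O → ℂ} (hb : ∀ n, ‖b n‖ ≤ 1) : ContinuousOn (sm b) (Ioi 0) := by
  intro t ht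
  have ht' : (0 : ℝ) < t := ht
  have h1 : ContinuousOn (sm b) (Ioi (t / 2)) := by
    refine continuousOn_tsum (fun n => ?_) ((summable_prim one_lt_two).mul_left
      (Real.exp (2 ^ 2 / 4) * (t / 2)⁻¹ ^ (2 : ℝ))) fun n x hx => ?_
    · by_cases hn : Primary n
      · simp only [if_pos hn, div_inv_eq_mul]
        exact continuousOn_const.mul ((continuousOn_Wc (nr_pos hn.ne_zero)).mono
          (Ioi_subset_Ioi (by linarith)))
      · simp only [if_neg hn]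
        exact continuousOn_const
    · have hx' : t / 2 < x := hx
      have hx0 : 0 < x := by linarith
      refine (norm_term_le (fun _ h => h) hb (inv_pos.2 hx0) 2 n).trans ?_
      have h0 : 0 ≤ if Primary n then nr n ^ (-2 : ℝ) else 0 := by
        split_ifs
        · positivity
        · exact le_rfl
      gcongr
  exact (h1.continuousAt (Ioi_mem_nhds (by linarith))).continuousWithinAt

open Classical in
theorem mellin_sm {b : O → ℂ} (hb : ∀ n, ‖b n‖ ≤ 1) {s : ℂ} (hs : 1 < s.re) :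
    mellin (sm b) s = (∑' n : O, if Primary n then b n * (nr n : ℂ) ^ (-s) else 0) * Wm s := by
  have h1 := hasSum_integral_of_summable_integral_norm (μ := volume.restrict (Ioi (0 : ℝ)))
    (F := fun (n : O) (t : ℝ) =>
      (t : ℂ) ^ (s - 1) • if Primary n then b n * Wc (nr n / t⁻¹) 0 else 0) (fun n => ?_) ?_
  · rw [mellin, ← tsum_mul_right]
    simp only [sm, smul_eq_mul, ← tsum_mul_left] at h1 ⊢
    rw [← h1.tsum_eq]
    refine tsum_congr fun n => ?_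
    by_cases hn : Primary n
    · simp only [if_pos hn, div_inv_eq_mul]
      rw [mul_assoc, ← mellin_Wc_mul (nr_pos hn.ne_zero), mellin, ← integral_const_mul]
      simp only [smul_eq_mul, mul_left_comm]
    · simp [hn]
  · by_cases hn : Primary n
    · simp only [if_pos hn, div_inv_eq_mul, smul_eq_mul, mul_left_comm _ (b n)]
      exact Integrable.const_mul
        ((MellinConvergent.comp_mul_left (nr_pos hn.ne_zero)).2 (mellinConv_Wc s)) _
    · simp [hn]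
  · refine Summable.of_nonneg_of_le (fun n => integral_nonneg fun _ => norm_nonneg _) (fun n => ?_)
      ((summable_prim hs).mul_right ‖Wm s.re‖)
    by_cases hn : Primary n
    · simp only [if_pos hn, div_inv_eq_mul, smul_eq_mul, mul_left_comm _ (b n), norm_mul (b n)]
      rw [integral_const_mul, ← integral_norm_Wc_mul (nr_pos hn.ne_zero)]
      exact mul_le_of_le_one_left (integral_nonneg fun _ => norm_nonneg _) (hb n)
    · simp [hn]

open Classical in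
/-- A power saving for the smooth sums continues the Dirichlet series. -/
theorem exists_cont {b : O → ℂ} (hb : ∀ n, ‖b n‖ ≤ 1) {θ : ℝ}
    (h : ∀ ε : ℝ, 0 < ε → ∃ C : ℝ, 0 < C ∧ ∀ B : ℝ, 1 ≤ B →
      ‖∑' n : O, if Primary n then b n * Wc (nr n / B) 0 else 0‖ ≤ C * B ^ (θ + ε)) :
    ∃ G : ℂ → ℂ, DifferentiableOn ℂ G {s | θ < s.re} ∧
      ∀ s : ℂ, 1 < s.re → G s = ∑' n : O, if Primary n then b n * (nr n : ℂ) ^ (-s) else 0 := by
  refine ⟨fun s => mellin (sm b) s / Wm s, fun s hs => ?_, fun s hs => ?_⟩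
  · have hs' : θ < s.re := hs
    obtain ⟨C, -, hC⟩ := h ((s.re - θ) / 2) (by linarith)
    refine (DifferentiableAt.div ?_ (differentiable_Wm s) (Wm_ne_zero s)).differentiableWithinAt
    refine mellin_differentiableAt_of_isBigO_rpow (a := max s.re 1 + 1) (b := θ + (s.re - θ) / 2)
      ((continuousOn_sm hb).locallyIntegrableOn measurableSet_Ioi)
      (norm_sm_le hb (by linarith [le_max_right s.re 1])) (by linarith [le_max_left s.re 1])
      (IsBigO.of_bound C ?_) (by linarith)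
    filter_upwards [Ioc_mem_nhdsGT (zero_lt_one' ℝ)] with t ht
    rw [Real.norm_of_nonneg (Real.rpow_nonneg ht.1.le _), Real.rpow_neg ht.1.le,
      ← Real.inv_rpow ht.1.le]
    exact hC _ ((one_le_inv₀ ht.1).2 ht.2)
  · beta_reduce
    rw [mellin_sm hb hs, mul_div_cancel_right₀ _ (Wm_ne_zero s)]

end generic

section field
variable {F : Type*} [Field F] [NumberField F]

open Classical in
/-- Removal of finitely many Euler factors. -/
theorem tsum_free {s : ℂ} (hs : 1 < s.re) (T : Finset (Ideal (𝓞 F))) (hT : ∀ P ∈ T, Prime P) :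
    (∑' I : Ideal (𝓞 F), if ∀ P ∈ T, ¬ P ∣ I then (Ideal.absNorm I : ℂ) ^ (-s) else 0) =
      dedekindZeta F s * ∏ P ∈ T, (1 - (Ideal.absNorm P : ℂ) ^ (-s)) := by
  have hsum : ∀ (p : Ideal (𝓞 F) → Prop) [DecidablePred p],
      Summable fun I : Ideal (𝓞 F) => if p I then (Ideal.absNorm I : ℂ) ^ (-s) else 0 := by
    intro p _
    have := HeckeD87.summable_psi (K := F) (ψ := fun I => if p I then 1 else 0)
      (fun I => by split_ifs <;> simp) hs
    simpa only [ite_mul, one_mul, zero_mul] using this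
  induction T using Finset.induction_on with
  | empty => simp [HeckeD87.dedekindZeta_eq hs]
  | insert P T hP ih =>
    have hPp := hT P (Finset.mem_insert_self _ _)
    have hT' : ∀ Q ∈ T, Prime Q := fun Q hQ => hT Q (Finset.mem_insert_of_mem hQ)
    have h1 : (∑' I : Ideal (𝓞 F),
        if (∀ Q ∈ T, ¬ Q ∣ I) ∧ P ∣ I then (Ideal.absNorm I : ℂ) ^ (-s) else 0) =
        (Ideal.absNorm P : ℂ) ^ (-s) *
          ∑' I : Ideal (𝓞 F), if ∀ Q ∈ T, ¬ Q ∣ I then (Ideal.absNorm I : ℂ) ^ (-s) else 0 := by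
      rw [← tsum_mul_left]
      refine ((mul_right_injective₀ hPp.ne_zero).tsum_eq ?_).symm.trans (tsum_congr fun I => ?_)
      · intro I hI
        by_contra h
        exact hI (if_neg fun h' => h (by obtain ⟨J, hJ⟩ := h'.2; exact ⟨J, hJ.symm⟩))
      · have h2 : ((∀ Q ∈ T, ¬ Q ∣ P * I) ∧ P ∣ P * I) ↔ ∀ Q ∈ T, ¬ Q ∣ I := by
          refine ⟨fun h Q hQ h' => h.1 Q hQ (h'.mul_left _), fun h => ⟨fun Q hQ h' => ?_,
            dvd_mul_right _ _⟩⟩
          rcases (hT' Q hQ).dvd_or_dvd h' with h3 | h3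
          · exact hP ((prime_dvd_prime_iff_eq (hT' Q hQ) hPp).1 h3 ▸ hQ)
          · exact h Q hQ h3
        by_cases h3 : ∀ Q ∈ T, ¬ Q ∣ I
        · rw [if_pos (h2.2 h3), if_pos h3, map_mul, Nat.cast_mul, Complex.natCast_mul_natCast_cpow]
        · rw [if_neg fun h => h3 (h2.1 h), if_neg h3, mul_zero]
    rw [Finset.prod_insert hP, mul_left_comm, ← ih hT', sub_mul, one_mul, ← h1,
      ← (hsum _).tsum_sub (hsum _)]
    refine tsum_congr fun I => ?_
    simp only [Finset.forall_mem_insert]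
    by_cases h3 : ∀ Q ∈ T, ¬ Q ∣ I
    · by_cases h4 : P ∣ I
      · rw [if_neg fun h => h.1 h4, if_pos h3, if_pos ⟨h3, h4⟩, sub_self]
      · rw [if_pos ⟨h4, h3⟩, if_pos h3, if_neg fun h => h4 h.2, sub_zero]
    · rw [if_neg fun h => h3 h.2, if_neg h3, if_neg fun h => h3 h.1, sub_zero]

open Classical in
/-- The prime ideals above `N`. -/
def primesN (F : Type*) [Field F] [NumberField F] (N : ℕ) : Finset (Ideal (𝓞 F)) :=
  (UniqueFactorizationMonoid.normalizedFactors (Ideal.span {(N : 𝓞 F)})).toFinset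

theorem prime_of_mem_primesN {N : ℕ} {P : Ideal (𝓞 F)} (h : P ∈ primesN F N) : Prime P := by
  classical
  exact UniqueFactorizationMonoid.prime_of_normalized_factor _ (Multiset.mem_toFinset.1 h)

theorem isCoprime_iff_primesN {N : ℕ} (hN : N ≠ 0) {I : Ideal (𝓞 F)} :
    IsCoprime I (Ideal.span {(N : 𝓞 F)}) ↔ ∀ P ∈ primesN F N, ¬ P ∣ I := by
  classical
  have h0 : Ideal.span {(N : 𝓞 F)} ≠ ⊥ := by simpa using hN
  constructor
  · intro h P hP hI
    exact (prime_of_mem_primesN hP).not_isUnit (h.isUnit_of_dvd' hI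
      (UniqueFactorizationMonoid.dvd_of_mem_normalizedFactors (Multiset.mem_toFinset.1 hP)))
  · intro h
    rw [Ideal.isCoprime_iff_sup_eq]
    by_contra h1
    obtain ⟨P, hP, h2⟩ := Ideal.exists_le_maximal _ h1
    refine h P (Multiset.mem_toFinset.2 ?_) (Ideal.dvd_iff_le.2 (le_sup_left.trans h2))
    exact (Ideal.mem_normalizedFactors_iff h0).2 ⟨hP.isPrime, le_sup_right.trans h2⟩

/-- The Euler factors at `N`. -/
def eulN (F : Type*) [Field F] [NumberField F] (N : ℕ) (s : ℂ) : ℂ :=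
  ∏ P ∈ primesN F N, (1 - (Ideal.absNorm P : ℂ) ^ (-s))

theorem absNorm_ne_zero_of_mem {N : ℕ} {P : Ideal (𝓞 F)} (h : P ∈ primesN F N) :
    Ideal.absNorm P ≠ 0 := fun h0 =>
  (prime_of_mem_primesN h).ne_zero (Ideal.absNorm_eq_zero_iff.1 h0)

theorem differentiable_eulN (N : ℕ) : Differentiable ℂ (eulN F N) := by
  refine Differentiable.fun_finsetProd fun P hP => (differentiable_const _).sub ?_
  exact differentiable_neg.const_cpow (Or.inl (by exact_mod_cast absNorm_ne_zero_of_mem hP))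


open Classical in
/-- The zeta function of the frame, for any parametrisation of the ideals coprime to `N`. -/
theorem zeta_of_bij [Fr0] {N : ℕ} (hN : N ≠ 0) (ι : O → Ideal (𝓞 F))
    (hinj : ∀ m n, Primary m → Primary n → ι m = ι n → m = n)
    (hco : ∀ n, Primary n → IsCoprime (ι n) (Ideal.span {(N : 𝓞 F)}))
    (hsurj : ∀ I, I ≠ ⊥ → IsCoprime I (Ideal.span {(N : 𝓞 F)}) → ∃ n, Primary n ∧ ι n = I)
    (hnm : ∀ n, Primary n → Ideal.absNorm (ι n) = nm n) {s : ℂ} (hs : 1 < s.re) :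
    (∑' n : O, if Primary n then (nr n : ℂ) ^ (-s) else 0) = dedekindZeta F s * eulN F N s := by
  rw [eulN, ← tsum_free hs _ fun P => prime_of_mem_primesN]
  have h1 : (∑' n : O, if Primary n then (nr n : ℂ) ^ (-s) else 0) =
      ∑' n : {n : O | Primary n}, (nr n.1 : ℂ) ^ (-s) := by
    rw [tsum_subtype {n : O | Primary n} fun n => (nr n : ℂ) ^ (-s)]
    exact tsum_congr fun n => by simp only [indicator_apply, mem_ofPred_eq]
  rw [h1]
  refine Eq.trans (tsum_congr fun n => ?_) (Function.Injective.tsum_eq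
    (g := fun n : {n : O | Primary n} => ι n.1)
    (fun m n e => Subtype.ext (hinj _ _ m.2 n.2 e)) fun I hI => ?_)
  · rw [if_pos ((isCoprime_iff_primesN hN).1 (hco _ n.2)), hnm _ n.2]
    norm_cast
  · have h2 : ∀ P ∈ primesN F N, ¬ P ∣ I := by
      by_contra h
      exact hI (if_neg h)
    have h3 : I ≠ ⊥ := by
      rintro rfl
      refine hI ?_
      have hs0 : -s ≠ 0 := by
        rw [neg_ne_zero]
        rintro rfl
        norm_num at hs
      simp [hs0]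
    obtain ⟨n, hn, e⟩ := hsurj I h3 ((isCoprime_iff_primesN hN).2 h2)
    exact ⟨⟨n, hn⟩, e⟩

end field

end A84

open Classical in
/-- The zeta function of the model is `ζ_F` without the Euler factors at `N`. -/
theorem zeta_model_84 [Fr0] {F : Type*} [Field F] [NumberField F] {N J : ℕ} {j : O →+* F}
    (h : IsModel F N J j) {s : ℂ} (hs : 1 < s.re) :
    (∑' n : O, if Primary n then (nr n : ℂ) ^ (-s) else 0) =
      dedekindZeta F s * A84.eulN F N s :=
  A84.zeta_of_bij h.good.ne h.id (fun _ _ => h.id_inj) (fun _ hn => h.id_isCoprime hn.ne_zero)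
    (fun _ _ => h.exists_primary) (fun n _ => h.absNorm_id n) hs

open Classical in
/-- `1 / ζ_F` from the Möbius bound and the zeta identity. -/
theorem invZeta_of_zeta_84 [Fr] {F : Type*} [Field F] [NumberField F] {N : ℕ}
    (hz : ∀ s : ℂ, 1 < s.re → (∑' n : O, if Primary n then (nr n : ℂ) ^ (-s) else 0) =
      dedekindZeta F s * A84.eulN F N s) (h : MobFr) :
    ∃ G : ℂ → ℂ, DifferentiableOn ℂ G {s | 11 / 12 < s.re} ∧
      ∀ s : ℂ, 1 < s.re → G s * dedekindZeta F s = 1 := by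
  obtain ⟨G, h1, h2⟩ := A84.exists_cont norm_mu_le h
  refine ⟨fun s => G s * A84.eulN F N s, h1.mul (A84.differentiable_eulN N).differentiableOn,
    fun s hs => ?_⟩
  beta_reduce
  rw [← A84.mob_mul_zeta hs, hz s hs, h2 s hs]
  ring

/-- **End of the core**, for a model of the frame. -/
theorem invZeta_model_84 [Fr] {F : Type*} [Field F] [NumberField F] {N J : ℕ} {j : O →+* F}
    (hm : IsModel F N J j) (h : MobFr) :
    ∃ G : ℂ → ℂ, DifferentiableOn ℂ G {s | 11 / 12 < s.re} ∧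
      ∀ s : ℂ, 1 < s.re → G s * dedekindZeta F s = 1 :=
  invZeta_of_zeta_84 (N := N) (fun _ => zeta_model_84 hm) h


end Crest.Agent.T27
end
end

-- ▼ part T27/ZGr_63

/-!
# Row 27: `ZGrow` for the number-field model (helper63)

The sum over primary elements is the Dedekind zeta function without the Euler factors at the
primes dividing `N`.
-/

set_option autoImplicit false
set_option linter.unusedSectionVars false

noncomputable section

open Complex NumberField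

namespace Crest.Agent.T27

namespace ZG63

open HeckeD87 HeckeF87

variable {K : Type*} [Field K] [NumberField K]

open Classical in
/-- the indicator of the ideals not divisible by the members of `S` -/
def ind (S : Finset (Ideal (𝓞 K))) (A : Ideal (𝓞 K)) : ℂ := if ∀ P ∈ S, ¬ P ∣ A then 1 else 0

theorem norm_ind (S : Finset (Ideal (𝓞 K))) (A : Ideal (𝓞 K)) : ‖ind S A‖ ≤ 1 := by
  unfold ind
  split_ifs <;> simp

/-- the zeta function without the Euler factors at `S` -/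
def Z (S : Finset (Ideal (𝓞 K))) (s : ℂ) : ℂ :=
  ∑' A : Ideal (𝓞 K), ind S A * (Ideal.absNorm A : ℂ) ^ (-s)

theorem ind_mul {S : Finset (Ideal (𝓞 K))} {P : Ideal (𝓞 K)} (hP : Prime P)
    (hS : ∀ Q ∈ S, Prime Q) (hPS : P ∉ S) (A : Ideal (𝓞 K)) : ind S (P * A) = ind S A := by
  have : (∀ Q ∈ S, ¬ Q ∣ P * A) ↔ ∀ Q ∈ S, ¬ Q ∣ A := by
    refine forall₂_congr fun Q hQ => not_congr ⟨fun h => ?_, fun h => h.mul_left _⟩
    rcases (hS Q hQ).dvd_or_dvd h with h | h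
    · have e : Q = P := associated_iff_eq.1 ((hS Q hQ).associated_of_dvd hP h)
      exact absurd (e ▸ hQ) hPS
    · exact h
  unfold ind
  by_cases h : ∀ Q ∈ S, ¬ Q ∣ A
  · rw [if_pos h, if_pos (this.2 h)]
  · rw [if_neg h, if_neg (mt this.1 h)]

open Classical in
theorem Z_insert {S : Finset (Ideal (𝓞 K))} {P : Ideal (𝓞 K)} (hP : Prime P)
    (hS : ∀ Q ∈ S, Prime Q) (hPS : P ∉ S) {s : ℂ} (hs : 1 < s.re) :
    Z (insert P S) s = (1 - (Ideal.absNorm P : ℂ) ^ (-s)) * Z S s := by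
  set ψ : Ideal (𝓞 K) → ℂ := fun A => if P ∣ A then ind S A else 0 with hψ
  have hψ1 : ∀ A, ‖ψ A‖ ≤ 1 := fun A => by
    simp only [hψ]
    split_ifs
    · exact norm_ind _ _
    · simp
  have h1 : ∀ A, ind S A = ind (insert P S) A + ψ A := fun A => by
    simp only [hψ, ind, Finset.forall_mem_insert]
    by_cases h : P ∣ A <;> simp [h]
  have h2 : Z S s = Z (insert P S) s + ∑' A, ψ A * (Ideal.absNorm A : ℂ) ^ (-s) := by
    rw [Z, Z, ← (summable_psi (norm_ind _) hs).tsum_add (summable_psi hψ1 hs)]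
    exact tsum_congr fun A => by rw [h1 A, add_mul]
  have hinj : Function.Injective fun A : Ideal (𝓞 K) => P * A :=
    fun A B e => mul_left_cancel₀ hP.ne_zero e
  have h3 : ∑' A, ψ A * (Ideal.absNorm A : ℂ) ^ (-s) = (Ideal.absNorm P : ℂ) ^ (-s) * Z S s := by
    rw [← hinj.tsum_eq (f := fun A => ψ A * (Ideal.absNorm A : ℂ) ^ (-s)), Z, ← tsum_mul_left]
    · refine tsum_congr fun A => ?_
      simp only [hψ, dvd_mul_right, if_true, ind_mul hP hS hPS, map_mul, Nat.cast_mul,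
        natCast_mul_natCast_cpow]
      ring
    · intro A hA
      by_contra hn
      have : ¬ P ∣ A := fun ⟨B, e⟩ => hn ⟨B, e.symm⟩
      simp [hψ, this] at hA
  rw [h3] at h2
  linear_combination -h2

theorem Z_eq (S : Finset (Ideal (𝓞 K))) (hS : ∀ Q ∈ S, Prime Q) {s : ℂ} (hs : 1 < s.re) :
    Z S s = (∏ P ∈ S, (1 - (Ideal.absNorm P : ℂ) ^ (-s))) * dedekindZeta K s := by
  classical
  induction S using Finset.induction_on with
  | empty => simp [Z, ind, dedekindZeta_eq hs]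
  | insert P S hPS ih =>
    have h1 : ∀ Q ∈ S, Prime Q := fun Q hQ => hS Q (Finset.mem_insert_of_mem hQ)
    have := Z_insert (hS P (Finset.mem_insert_self _ _)) h1 hPS hs
    rw [Finset.prod_insert hPS, mul_assoc, ← ih h1]
    convert this

theorem exists_S {M : Ideal (𝓞 K)} (hM : M ≠ ⊥) : ∃ S : Finset (Ideal (𝓞 K)),
    (∀ Q ∈ S, Prime Q) ∧ ∀ A, IsCoprime A M ↔ ∀ P ∈ S, ¬ P ∣ A := by
  classical
  refine ⟨(UniqueFactorizationMonoid.normalizedFactors M).toFinset, fun Q hQ =>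
    UniqueFactorizationMonoid.prime_of_normalized_factor Q (Multiset.mem_toFinset.1 hQ),
    fun A => ⟨fun h P hP hPA => ?_, fun h => ?_⟩⟩
  · have hP' := Multiset.mem_toFinset.1 hP
    exact (UniqueFactorizationMonoid.prime_of_normalized_factor P hP').not_isUnit
      (h.isUnit_of_dvd' hPA (UniqueFactorizationMonoid.dvd_of_mem_normalizedFactors hP'))
  · rw [Ideal.isCoprime_iff_sup_eq]
    by_contra hn
    obtain ⟨P, hP, hle⟩ := Ideal.exists_le_maximal _ hn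
    refine h P (Multiset.mem_toFinset.2 ?_) (Ideal.dvd_iff_le.2 (le_sup_left.trans hle))
    exact (Ideal.mem_normalizedFactors_iff hM).2 ⟨hP.isPrime, le_sup_right.trans hle⟩

theorem norm_factor {P : Ideal (𝓞 K)} (hP : P ≠ 0) {s : ℂ} (hs : 0 < s.re) :
    ‖1 - (Ideal.absNorm P : ℂ) ^ (-s)‖ ≤ 2 := by
  refine (norm_sub_le _ _).trans ?_
  rw [norm_one, norm_ideal_cpow P hs]
  have h1 : (1 : ℝ) ≤ Ideal.absNorm P := by
    exact_mod_cast Nat.one_le_iff_ne_zero.2 (fun e => hP (Ideal.absNorm_eq_zero_iff.1 e))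
  have := Real.rpow_le_one_of_one_le_of_nonpos h1 (neg_nonpos.2 hs.le)
  linarith

/-- one continuation with bounds on all strips -/
theorem zeta_all (K : Type*) [Field K] [NumberField K] :
    ∃ f : ℂ → ℂ, DifferentiableOn ℂ f {s | 0 < s.re} ∧
      (∀ s : ℂ, 1 < s.re → f s = (s - 1) * dedekindZeta K s) ∧
      ∀ a : ℝ, 0 < a → ∃ C : ℝ, 0 < C ∧ ∀ s : ℂ, a ≤ s.re → s.re ≤ 4 →
        ‖f s‖ ≤ C * Real.exp (C * |s.im|) := by
  obtain ⟨_, _, h1⟩ := zetaCont_gen (a := 1) one_pos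
  obtain ⟨f, hf, hfe, _⟩ := h1 K
  refine ⟨f, hf, hfe, fun a ha => ?_⟩
  obtain ⟨C, hC, h2⟩ := zetaCont_gen ha
  obtain ⟨g, hg, hge, hgb⟩ := h2 K
  have ho : IsOpen {s : ℂ | 0 < s.re} := isOpen_lt continuous_const continuous_re
  have hfg : Set.EqOn f g {s : ℂ | 0 < s.re} := by
    refine (hf.analyticOnNhd ho).eqOn_of_preconnected_of_eventuallyEq (hg.analyticOnNhd ho)
      (convex_halfSpace_re_gt 0).isPreconnected (z₀ := 2) (by simp) ?_
    have : {s : ℂ | 1 < s.re} ∈ nhds (2 : ℂ) :=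
      (isOpen_lt continuous_const continuous_re).mem_nhds (by simp)
    filter_upwards [this] with s hs
    rw [hfe s hs, hge s hs]
  have hn0 : (0 : ℝ) ≤ Module.finrank ℚ K := Nat.cast_nonneg _
  generalize (Module.finrank ℚ K : ℝ) = n at hgb hn0
  set A : ℝ := Real.exp (C * (Real.log |(discr K : ℝ)| + n)) with hA
  have hA0 : 0 < A := Real.exp_pos _
  refine ⟨A + C * n, by positivity, fun s h1 h4 => ?_⟩
  rw [hfg (show 0 < s.re by linarith)]
  refine (hgb s h1 h4).trans ?_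
  have e : C * (Real.log |(discr K : ℝ)| + n * (1 + |s.im|)) =
      C * (Real.log |(discr K : ℝ)| + n) + C * n * |s.im| := by ring
  rw [e, Real.exp_add]
  have : 0 ≤ C * n := by positivity
  have ht := abs_nonneg s.im
  gcongr <;> linarith

end ZG63

open ZG63 in
/-- **`ZGrow` holds in the number-field model.** -/
theorem zGrow_63 [Fr0] {F : Type*} [Field F] [NumberField F] {N J : ℕ} {j : O →+* F}
    (h : IsModel F N J j) : ZGrow := by
  classical
  have hN : Ideal.span {(N : 𝓞 F)} ≠ ⊥ := by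
    rw [Ne, Ideal.span_singleton_eq_bot]
    exact_mod_cast h.good.ne
  obtain ⟨S, hS, hco⟩ := exists_S hN
  obtain ⟨f, hf, hfe, hfb⟩ := zeta_all F
  have hne : ∀ P ∈ S, (Ideal.absNorm P : ℂ) ≠ 0 := fun P hP => by
    exact_mod_cast fun e => (hS P hP).ne_zero (Ideal.absNorm_eq_zero_iff.1 e)
  refine ⟨fun s => (∏ P ∈ S, (1 - (Ideal.absNorm P : ℂ) ^ (-s))) * f s, ?_, fun s hs => ?_,
    fun a ha => ?_⟩
  · refine DifferentiableOn.mul (Differentiable.differentiableOn ?_) hf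
    refine Differentiable.fun_finsetProd fun P hP => ?_
    exact (differentiable_const _).sub (differentiable_id.neg.const_cpow (Or.inl (hne P hP)))
  · have e1 : (∑' c : O, if Primary c then (nr c : ℂ) ^ (-s) else 0) = Z S s := by
      have e2 : (∑' c : O, if Primary c then (nr c : ℂ) ^ (-s) else 0) =
          ∑' c : {n : O | Primary n}, (Ideal.absNorm (h.id c) : ℂ) ^ (-s) := by
        rw [tsum_subtype {n : O | Primary n} fun c => (Ideal.absNorm (h.id c) : ℂ) ^ (-s)]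
        refine tsum_congr fun c => ?_
        simp only [Set.indicator, Set.mem_ofPred_eq, h.absNorm_id, nr, ofReal_natCast]
      have e3 := (h.bijOn_id.equiv _).tsum_eq
        (fun I => (Ideal.absNorm (I : Ideal (𝓞 F)) : ℂ) ^ (-s))
      rw [e2]
      refine Eq.trans e3 ?_
      rw [tsum_subtype {I : Ideal (𝓞 F) | IsCoprime I (Ideal.span {(N : 𝓞 F)})}
        fun I => (Ideal.absNorm I : ℂ) ^ (-s)]
      refine tsum_congr fun A => ?_
      simp only [Set.indicator, Set.mem_ofPred_eq, ind, hco]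
      split_ifs <;> simp
    show _ * f s = _
    rw [e1, Z_eq S hS hs, hfe s hs]
    ring
  · obtain ⟨C, hC, hb⟩ := hfb a ha
    refine ⟨2 ^ S.card * C, fun s h1 h4 => ?_⟩
    have h2 : ‖∏ P ∈ S, (1 - (Ideal.absNorm P : ℂ) ^ (-s))‖ ≤ 2 ^ S.card := by
      rw [norm_prod, ← Finset.prod_const]
      exact Finset.prod_le_prod (fun _ _ => norm_nonneg _) fun P hP =>
        norm_factor (hS P hP).ne_zero (by linarith)
    have h3 : (1 : ℝ) ≤ 2 ^ S.card := one_le_pow₀ (by norm_num)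
    have h5 : C ≤ 2 ^ S.card * C := le_mul_of_one_le_left hC.le h3
    have ht := abs_nonneg s.im
    rw [norm_mul, mul_assoc]
    refine mul_le_mul h2 ((hb s h1 h4).trans ?_) (norm_nonneg _) (by positivity)
    gcongr

end Crest.Agent.T27
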