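import Crest.Agent.T27.GsArg_79_Mg
import Crest.Agent.T27.Mdl_77
import Crest.Agent.T27.Cheb_52
import Crest.Agent.T27.HeckeG_87
import Crest.Agent.T27.LnkAr_60_Mg
import Crest.Agent.T27.ZGr_63_Mg
import Crest.Agent.T27.Cnt_21
import Crest.Agent.T27.KerGC_63
import Crest.Agent.T27.ThG1_80
import Crest.Agent.T27.ThAll0_54
import Crest.Agent.T27.MainB_94
import Crest.Agent.T27.MelC_71_Mg
import Crest.Agent.T27.Refl2_59

-- ▼ part T27/VorL_57
section

/-!
# Row 27, leaf R3 (helper57): the class map and the angular character of a model frame in the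
language of `TH.Ar`
-/

set_option autoImplicit false
set_option linter.unusedSectionVars false

noncomputable section

namespace Crest.Agent.T27.TH

open scoped ComplexConjugate
open NumberField

variable [Fr0] {F : Type} [Field F] [NumberField F] [Emb F] [A : Ar F]

/-- The dictionary together with the description of the classes and of `arg`. -/
structure Link (J : ℕ) (j : O →+* F) : Prop extends Dict j where
  one_le : 1 ≤ J
  cls_of : ∀ m n, m ≠ 0 → PJ J (j n / j m) → cls m = cls n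
  ex_of_cls : ∀ m n, m ≠ 0 → cls m = cls n → ∃ w, IsUnit w ∧ cls w = 1 ∧ PJ J (j (w * n) / j m)
  cc_one : ∀ v, IsUnit v → cls v = 1 → ∀ y : F, y ≠ 0 → Ar.cc (j v) y = 1
  arg_cls : ∀ n n', n ≠ 0 → PJ 1 (j n' / j n) →
    arg n' * conj (argF (j n')) = arg n * conj (argF (j n))

/-- A model frame is linked to the arithmetic data of `exists_ar60`. -/
theorem lk_of_model {N J : ℕ} {j : O →+* F} (h : IsModel F N J j) (hJ : 1 ≤ J) (hN : A.N = N)
    (hR : A.R = RS F N) (hL : A.L = LS F N)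
    (hsy : ∀ x n : O, n ≠ 0 → A.sy (j x) (j n) = conj (cub n x))
    (hpsi : ∀ x n : O, A.psi (j x / j n) = eq x n)
    (hcc : ∀ t ∈ Co F N J, ∀ y : F, y ≠ 0 → A.cc t y = 1)
    (hσ : ∀ v, Emb.σ v (j om) = omC) : Link J j := by
  have hG := h.good
  have hP : ∀ {K : ℕ} {x : F}, PJ K x ↔ ∃ l ∈ LS F N, x = 1 + (N : F) ^ K * l := fun {K x} => by
    rw [PJ, Deep, hN, hL]
    exact exists_congr fun l => and_congr_right fun _ => sub_eq_iff_eq_add'
  refine ⟨⟨h.inj, fun x => by rw [hR]; exact h.range x, hsy, fun x n _ => hpsi x n⟩, hJ,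
    fun m n hm hp => ?_, fun m n hm e => ?_, fun v hv h1 y hy => ?_, fun n n' hn hp => ?_⟩
  · obtain ⟨l, hl, e⟩ := hP.1 hp
    obtain ⟨h0, h1⟩ := one_add_pow_mul_LS (F := F) (N := N) (j := J) (by omega) hl
    refine h.cls_eq_of_mem_PJ hm (p := Units.mk0 _ h0) ⟨⟨add_mem (one_mem _)
      (mul_mem (pow_mem (natCast_mem _ N) J) hl), h1⟩, l, hl, rfl⟩ ?_
    rw [Units.val_mk0, ← e, mul_div_cancel₀ _ (h.ne_zero hm)]
  · obtain ⟨v, hv, h1, p, hp, e⟩ := h.exists_unit_of_cls_eq hm e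
    obtain ⟨w, hw⟩ := hv.exists_left_inv
    refine ⟨w, IsUnit.of_mul_eq_one v hw, ?_, hP.2 ?_⟩
    · have := congrArg cls hw
      rwa [map_mul, h1, mul_one, map_one] at this
    · obtain ⟨-, l, hl, e'⟩ := hp
      refine ⟨l, hl, ?_⟩
      rw [← e', map_mul, e, ← mul_assoc, ← mul_assoc, ← map_mul, hw, map_one, one_mul,
        mul_div_cancel_left₀ _ (h.ne_zero hm)]
  · obtain ⟨u, hu, e⟩ := h.unit_cls_iff.1 ⟨hv, h1⟩
    rw [e]
    exact hcc u (Up_le_Co hu) y hy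
  · obtain ⟨l, hl, e⟩ := hP.1 hp
    refine arg_class_79 ((by norm_num : 3 ∣ 6).trans hG.six) hG.ne j h.inj h.range hσ hl ?_
    rw [pow_one] at e
    rw [← e, mul_div_cancel₀ _ (h.ne_zero hn)]

end Crest.Agent.T27.TH
end
end

-- ▼ part T27/Final_49
section

/-!
# Row 27: assembly (helper49)

`ChebG` from the five remaining leaves.
-/

set_option autoImplicit false

noncomputable section

namespace Crest.Agent.T27

open NumberField

/-- the base kernel of the model -/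
def BaseModel : Prop :=
  ∀ [Fr0] (F : Type) [Field F] [NumberField F] (N J : ℕ) (j : O →+* F), IsModel F N J j →
    ∃ (G : ℝ → ℝ) (V : ℝ), K63.Base G ∧ 0 < V ∧ BasePoi G V

/-- the quadratic large sieve on every frame -/
def LS2All : Prop := ∀ [Fr], LS2Stmt

/-- the theta function over every field -/
def ThetaAll : Prop :=
  ∀ (F : Type) [Field F] [NumberField F] [TH.Emb F] [TH.Ar F], TH.AllB F

/-- the reflection formula of the model -/
def ReflModel : Prop :=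
  ∀ [Fr] (F : Type) [Field F] [NumberField F] [TH.Emb F] [TH.Ar F] (J : ℕ) (j : O →+* F),
    TH.Link J j → TH.AllB F → ReflStmt

theorem omC_sq_add_49 : omC ^ 2 + omC + 1 = 0 := by
  have h : Real.sqrt 3 * Real.sqrt 3 = 3 := Real.mul_self_sqrt (by norm_num)
  apply Complex.ext
  · simp [omC, sq]; nlinarith
  · simp [omC, sq]; ring

theorem mobFr_model_49 (hRec : Rc.RecStmt) (hL : LS2All) (hT : ThetaAll) (hR : ReflModel)
    [Fr] {F : Type} [Field F] [NumberField F] {N : ℕ} {j : O →+* F} (hm : IsModel F N 6 j) :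
    MobFr := by
  obtain ⟨e, he⟩ := TH.G.exists_Emb (F := F) (ω := j om) hm.om_sq omC_sq_add_49
  obtain ⟨A, h1, h2, h3, -, h5, h6, -, h8, -⟩ := exists_ar60 hRec hm (by norm_num)
  exact mobFr_of_refl_51 hL
    (hR F 6 j (TH.lk_of_model hm (by norm_num) h1 h2 h3 h5 h6 h8 he) (hT F))

theorem invZeta_49 (hRec : Rc.RecStmt) (hB : BaseModel) (hL : LS2All) (hT : ThetaAll)
    (hR : ReflModel) : InvZeta (1 / 12) := by
  intro F _ _ ⟨w, hw⟩
  obtain ⟨N, -, hN⟩ := exists_sgood F (M := 1) one_ne_zero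
  obtain ⟨fr, j, hm, -⟩ := model_77 F N 6 w hw
  obtain ⟨R, hRA⟩ := recAx_model hRec hm (by norm_num)
  obtain ⟨G₀, V, b1, b2, b3⟩ := hB F N 6 j hm
  obtain ⟨g, m, hKA⟩ := kerAx_of_base_63 b1 b2 b3 (zGrow_63 hm)
  let inst : Fr :=
    { toFr0 := fr, RsF := R, g4F := Qn, gwF := g, melF := m, recAx := hRA,
      gauAx := gauAx_model_58 hm le_rfl hRA, kerAx := hKA, cntAx := cntAx_21 hKA }
  have hm' : @IsModel inst.toFr0 F _ _ N 6 j := hm
  obtain ⟨G, hG, hG'⟩ := @invZeta_model_84 inst F _ _ N 6 j hm'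
    (@mobFr_model_49 hRec hL hT hR inst F _ _ N j hm')
  exact ⟨G, by simpa only [show (1 : ℝ) - 1 / 12 = 11 / 12 by norm_num] using hG, hG'⟩

theorem chebG_49 (hRec : Rc.RecStmt) (hB : BaseModel) (hL : LS2All) (hT : ThetaAll)
    (hR : ReflModel) : ChebG :=
  chebG_52 (by norm_num) (invZeta_49 hRec hB hL hT hR) zetaCont_87 lCont_87

end Crest.Agent.T27
end
end

-- ▼ part T27/VorR_57

/-!
# Row 27, leaf R3 (helper57): the twisted Voronoi formula `Rf.VorFr2` for a linked frame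
-/

set_option autoImplicit false
set_option linter.unusedSectionVars false

noncomputable section

namespace Crest.Agent.T27.TH

open scoped ComplexConjugate
open NumberField Rf T57 Mel

namespace R57

theorem tsum_fst {ι Q : Type*} [Fintype Q] [Nonempty Q] (φ : ι → ℂ) :
    ∑' p : ι × Q, φ p.1 = Fintype.card Q * ∑' i, φ i := by
  by_cases h : Summable φ
  · have := tsum_mul_tsum_of_summable_norm (f := φ) (g := fun _ : Q => (1 : ℂ)) h.norm
      (Summable.of_finite)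
    simp only [mul_one, tsum_fintype, Finset.sum_const, Finset.card_univ, nsmul_eq_mul] at this
    rw [← this, mul_comm]
  · obtain ⟨q⟩ := ‹Nonempty Q›
    rw [tsum_eq_zero_of_not_summable h, mul_zero, tsum_eq_zero_of_not_summable]
    exact fun h' => h (h'.comp_injective (i := fun i => (i, q)) fun i i' e => congrArg Prod.fst e)

variable {F : Type} [Field F] [NumberField F] [Emb F]

omit [NumberField F] [Emb F] in
theorem reps_refine {ι : Type*} {U U' : Subgroup Fˣ} (hle : U' ≤ U) {a : F → ℂ} {e : ι → F}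
    (h : Reps U a e) :
    Reps U' a fun p : ι × (U ⧸ U'.subgroupOf U) => (((p.2.out : U) : Fˣ) : F) * e p.1 where
  ne p := mul_ne_zero (Units.ne_zero _) (h.ne _)
  inj u hu := by
    rintro ⟨i, q⟩ ⟨i', q'⟩ e1
    simp only at e1
    obtain rfl : i = i' := h.inj ((q'.out : U)⁻¹ * (u * (q.out : U)))
      (U.mul_mem (U.inv_mem q'.out.2) (U.mul_mem (hle hu) q.out.2)) i i' (by
        rw [Units.val_mul, Units.val_mul, mul_assoc, mul_assoc, e1, ← mul_assoc, Subgroup.coe_inv,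
          Units.inv_mul, one_mul])
    rw [← mul_assoc] at e1
    have e2 : u * (q.out : U) = (q'.out : U) := Units.ext (mul_right_cancel₀ (h.ne i) e1)
    rw [Prod.mk.injEq, ← q.out_eq', ← q'.out_eq', QuotientGroup.eq, Subgroup.mem_subgroupOf,
      Subgroup.coe_mul, Subgroup.coe_inv, ← e2, mul_comm u, inv_mul_cancel_left]
    exact ⟨rfl, hu⟩
  surj x hx := by
    obtain ⟨u, hu, i, rfl⟩ := h.surj x hx
    obtain ⟨w, hw⟩ := QuotientGroup.mk_out_eq_mul (U'.subgroupOf U) ⟨u, hu⟩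
    refine ⟨((w : U) : Fˣ)⁻¹, U'.inv_mem w.2, (i, QuotientGroup.mk ⟨u, hu⟩), ?_⟩
    simp only [hw, Subgroup.coe_mul, Units.val_mul, Units.val_inv_eq_inv_val]
    have := ((w : U) : Fˣ).ne_zero
    field_simp
  inv u hu p := by
    rw [← mul_assoc, ← Units.val_mul, h.inv _ (U.mul_mem (hle hu) p.2.out.2), h.inv _ p.2.out.2]

variable [Ar F]

theorem PJ_one (K : ℕ) : PJ K (1 : F) := ⟨0, zero_mem _, by simp⟩

theorem PJ_mul {K : ℕ} {x y : F} (hx : PJ K x) (hy : PJ K y) : PJ K (x * y) := by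
  obtain ⟨l, hl, e⟩ := hx
  obtain ⟨m, hm, e'⟩ := hy
  exact ⟨l + m + (Ar.N F : F) ^ K * l * m, add_mem (add_mem hl hm)
    (mul_mem (mul_mem (pow_mem (natCast_mem _ _) K) hl) hm), by
      linear_combination y * e + (1 + (Ar.N F : F) ^ K * l) * e'⟩

theorem PJ_inv {K : ℕ} (hK : 1 ≤ K) {x : F} (hx : PJ K x) : PJ K x⁻¹ := by
  obtain ⟨h0, -, h2⟩ := M94.PJ_unit hK hx
  obtain ⟨l, hl, e⟩ := hx
  refine ⟨-(l * x⁻¹), neg_mem (mul_mem hl h2), ?_⟩
  field_simp
  linear_combination -e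

theorem PJ_mono {K K' : ℕ} (h : K ≤ K') {x : F} (hx : PJ K' x) : PJ K x := M94.deep_mono h hx

/-- The units congruent to `1` modulo `N^K`. -/
def UK (F : Type) [Field F] [NumberField F] [Emb F] [Ar F] {K : ℕ} (hK : 1 ≤ K) : Subgroup Fˣ where
  carrier := {u | UR (u : F) ∧ PJ K (u : F)}
  one_mem' := ⟨⟨one_ne_zero, one_mem _, by simp⟩, PJ_one K⟩
  mul_mem' := by
    rintro u v ⟨⟨-, h1, h2⟩, h3⟩ ⟨⟨-, h4, h5⟩, h6⟩
    exact ⟨⟨Units.ne_zero _, mul_mem h1 h4, by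
      rw [Units.val_mul, mul_inv]; exact mul_mem h2 h5⟩, PJ_mul h3 h6⟩
  inv_mem' := by
    rintro u ⟨⟨-, h1, h2⟩, h3⟩
    rw [Set.mem_ofPred_eq, Units.val_inv_eq_inv_val]
    exact ⟨⟨inv_ne_zero u.ne_zero, h2, by rwa [inv_inv]⟩, PJ_inv hK h3⟩

theorem UK_int {K : ℕ} (hK : 1 ≤ K) : ∀ u ∈ UK F hK, IsIntegral ℤ (u : F) := fun _ hu =>
  Ar.int_of _ hu.1.2.1 (M94.PJ_unit hK hu.2).2.1

theorem UK_le {J K : ℕ} (hJ : 1 ≤ J) (hK : 1 ≤ K) (h : J ≤ K) : UK F hK ≤ UK F hJ := fun _ hu =>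
  ⟨hu.1, PJ_mono h hu.2⟩

theorem mem_UK {K : ℕ} (hK : 1 ≤ K) (u : Fˣ) (h1 : IsIntegral ℤ (u : F))
    (h2 : IsIntegral ℤ (u : F)⁻¹) (h3 : ∃ y, IsIntegral ℤ y ∧ (u : F) = 1 + (Ar.N F ^ K : ℕ) * y) :
    u ∈ UK F hK := by
  obtain ⟨y, hy, e⟩ := h3
  exact ⟨⟨u.ne_zero, M94.mem_R_of_int h1, M94.mem_R_of_int h2⟩, y, M94.mem_L_of_int hy, by
    rw [e]; push_cast; ring⟩

theorem NK_ne (K : ℕ) : Ar.N F ^ K ≠ 0 := pow_ne_zero _ (by have := Ar.two_le (F := F); omega)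

theorem finite_UK {J K : ℕ} (hJ : 1 ≤ J) (hK : 1 ≤ K) :
    Finite (UK F hJ ⧸ (UK F hK).subgroupOf (UK F hJ)) := by
  have hI : Ideal.span {((Ar.N F ^ K : ℕ) : 𝓞 F)} ≠ ⊥ := by
    rw [Ne, Ideal.span_singleton_eq_bot]; exact Nat.cast_ne_zero.2 (NK_ne K)
  have := Ideal.finiteQuotientOfFreeOfNeBot _ hI
  refine Finite.of_injective (fun q => Ideal.Quotient.mk (Ideal.span {((Ar.N F ^ K : ℕ) : 𝓞 F)})
    (⟨_, UK_int hJ _ q.out.2⟩ : 𝓞 F)) fun q q' e => ?_
  obtain ⟨y, hy⟩ := Ideal.mem_span_singleton.1 (Ideal.Quotient.eq.1 e)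
  have hy' : (((q.out : UK F hJ) : Fˣ) : F) - (((q'.out : UK F hJ) : Fˣ) : F) =
      ((Ar.N F ^ K : ℕ) : F) * algebraMap (𝓞 F) F y := by
    rw [← map_natCast (algebraMap (𝓞 F) F), ← map_mul, ← hy]
    rfl
  rw [← q.out_eq', ← q'.out_eq', eq_comm, QuotientGroup.eq, Subgroup.mem_subgroupOf]
  have hm := ((q'.out)⁻¹ * q.out).2
  refine ⟨hm.1, (algebraMap (𝓞 F) F y) * (((q'.out : UK F hJ) : Fˣ) : F)⁻¹,
    mul_mem (M94.mem_L_of_int y.isIntegral_coe) (M94.PJ_unit hJ q'.out.2.2).2.2, ?_⟩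
  have := ((q'.out : UK F hJ) : Fˣ).ne_zero
  rw [Subgroup.coe_mul, Subgroup.coe_inv, Units.val_mul, Units.val_inv_eq_inv_val]
  push_cast at hy'
  field_simp
  linear_combination hy'

theorem tt_bound (hT : ThetaStmt F) (hA : TauStmt F) (hC : CuspStmt F) {f : F × F → ℂ}
    (hf : Test f) : ∃ (M : ℕ) (C : ℝ), M ≠ 0 ∧ 0 ≤ C ∧
      (∀ x, tt f x ≠ 0 → IsIntegral ℤ ((M : F) * x)) ∧
      ∀ x, x ≠ 0 → ‖tt f x‖ ≤ C * (1 + nF x) := by
  have hg := M94.good hC hf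
  obtain ⟨M, hM, hs⟩ := hA.supp _ hg
  obtain ⟨C, hb⟩ := hT.bound _ hg
  refine ⟨M, Real.sqrt C, hM, Real.sqrt_nonneg _, fun x hx => hs x (left_ne_zero_of_mul hx),
    fun x hx => ?_⟩
  have h0 := M94.nF_pos hx
  have h1 : ‖tt f x‖ ^ 2 ≤ C * (1 + nF x) := by
    rw [tt, norm_mul, Complex.norm_real, Real.norm_of_nonneg (by positivity), mul_pow,
      ← Real.rpow_natCast (nF x ^ _), ← Real.rpow_mul h0.le]
    convert hb x hx using 3
    norm_num
  refine (Real.le_sqrt_of_sq_le h1).trans ?_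
  rw [Real.sqrt_mul' _ (by positivity)]
  gcongr
  rw [Real.sqrt_le_left (by positivity)]
  nlinarith

theorem tt_zero (f : F × F → ℂ) : tt f 0 = 0 := by
  have : Nonempty (Pl F) := inferInstance
  simp [tt, nF, em]

/-- The `S`-units with bounded denominators, modulo `U_K`. -/
abbrev TK (F : Type) [Field F] [NumberField F] [Emb F] [Ar F] {K : ℕ} (hK : 1 ≤ K) (E : ℕ) : Type :=
  {q : Fˣ ⧸ UK F hK // UR (q.out : F) ∧ (Ar.N F : F) ^ (E + 1) * q.out ∈ (Ar.L : Subring F)}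

theorem TK_inj {K : ℕ} (hK : 1 ≤ K) {E : ℕ} {u : Fˣ} (hu : u ∈ UK F hK) {q q' : TK F hK E}
    (e : (u : F) * q.1.out = q'.1.out) : q = q' := by
  have e2 : u * q.1.out = q'.1.out := Units.ext e
  rw [Subtype.ext_iff, ← q.1.out_eq', ← q'.1.out_eq', QuotientGroup.eq, ← e2, mul_comm u,
    inv_mul_cancel_left]
  exact hu

theorem TK_surj {K : ℕ} (hK : 1 ≤ K) {E : ℕ} {w : F} (hw : UR w)
    (hw' : (Ar.N F : F) ^ (E + 1) * w ∈ (Ar.L : Subring F)) :
    ∃ u ∈ UK F hK, ∃ q : TK F hK E, w = u * q.1.out := by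
  obtain ⟨u, hu⟩ := QuotientGroup.mk_out_eq_mul (UK F hK) (Units.mk0 w hw.1)
  have hu' : (((QuotientGroup.mk (Units.mk0 w hw.1) : Fˣ ⧸ UK F hK).out : Fˣ) : F) = w * (u : Fˣ) := by
    rw [hu, Units.val_mul, Units.val_mk0]
  refine ⟨(u : Fˣ)⁻¹, (UK F hK).inv_mem u.2, ⟨QuotientGroup.mk (Units.mk0 w hw.1), ?_, ?_⟩, ?_⟩
  · rw [hu']
    exact ⟨mul_ne_zero hw.1 (Units.ne_zero _), mul_mem hw.2.1 u.2.1.2.1, by
      rw [mul_inv]; exact mul_mem hw.2.2 u.2.1.2.2⟩
  · rw [hu', ← mul_assoc]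
    exact mul_mem hw' (M94.PJ_unit hK u.2.2).2.1
  · rw [hu', mul_left_comm, Units.inv_mul, mul_one]

theorem idxOK {K : ℕ} (hK : 1 ≤ K) (E : ℕ) (T : Finset F) (hT : ∀ t ∈ T, t ≠ 0) {c : ℝ}
    (hc : 0 < c) : IdxOK fun i : T × TK F hK E => c * (nF (i.2.1.out : F) / absS (i.1 : F)) := by
  have hN : ((Ar.N F ^ (E + 1) : ℕ) : F) ∈ (Ar.R : Subring F) := natCast_mem _ _
  obtain ⟨⟨c₀, h0, h1⟩, h2⟩ := summable_Sparts (M := Ar.N F ^ (E + 1)) (K := Ar.N F ^ K)
    (NK_ne _) (NK_ne _) (x := fun q : TK F hK E => (q.1.out : F)) (fun q => Units.ne_zero _)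
    (fun q => Ar.int_of _ (mul_mem hN q.2.1.2.1) (by push_cast; exact q.2.2))
    (fun q => by
      obtain ⟨k, hk⟩ := (Ar.mem_R _).1 q.2.1.2.2
      refine ⟨k, ?_⟩
      rw [show ((Ar.N F ^ (E + 1) : ℕ) : F) ^ k / (q.1.out : F) =
        ((Ar.N F ^ (E * k) : ℕ) : F) * ((Ar.N F : F) ^ k * (q.1.out : F)⁻¹) by push_cast; ring]
      exact (isIntegral_natCast _).mul hk)
    (fun u h1 h2 h0 h3 q q' e => TK_inj hK (mem_UK hK (Units.mk0 u h0) h1 h2 h3) e)
  have hp : ∀ t : T, 0 < absS (t : F) := fun t => M94.absS_pos (hT t t.2)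
  refine ⟨⟨c * (c₀ / (1 + ∑ t : T, absS (t : F))), ?_, fun i => ?_⟩, fun η hη => ?_⟩
  · have := Finset.sum_nonneg (s := Finset.univ) fun t _ => (hp t).le
    positivity
  · have := Finset.single_le_sum (f := fun t : T => absS (t : F)) (fun t _ => (hp t).le)
      (Finset.mem_univ i.1)
    have := hp i.1
    have := h1 i.2
    exact mul_le_mul_of_nonneg_left (div_le_div₀ (by linarith) this ‹_› (by linarith)) hc.le
  · refine ((Summable.of_finite (f := fun t : T => (c / absS (t : F)) ^ (-η))).mul_of_nonneg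
      (h2 η hη) (fun t => Real.rpow_nonneg (div_pos hc (hp t)).le _)
      fun q => Real.rpow_nonneg (V57.nF_nonneg _) _).congr fun i => ?_
    rw [← Real.mul_rpow (div_pos hc (hp _)).le (V57.nF_nonneg _)]
    congr 1
    ring

variable [Fr0] {J : ℕ} {j : O →+* F} (h : Link J j)
include h

/-- `F^× / (U' P_K)` is finite. -/
theorem fin_fine (K : ℕ) : ∃ T : Finset F, (∀ t ∈ T, t ≠ 0) ∧ ∀ n : O, n ≠ 0 →
    ∃ τ ∈ T, ∃ v, IsUnit v ∧ cls v = 1 ∧ PJ K (j (n * v) / τ) := by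
  classical
  obtain ⟨T, hT, hT'⟩ := Ar.fin_cl (F := F) K
  refine ⟨Finset.image₂ (fun t u => t * j u) T U0, fun t ht => ?_, fun n hn => ?_⟩
  · obtain ⟨t', ht', u, hu, rfl⟩ := Finset.mem_image₂.1 ht
    exact mul_ne_zero (hT t' ht') (h.ne_zero (isUnit_of_mem_U0 hu).ne_zero)
  · obtain ⟨t, ht, u, h0, h1, h2, y, hy, e⟩ := hT' (j n) (h.ne_zero hn)
    obtain ⟨w, hw, rfl⟩ := h.exists_unit ⟨h0, h1, h2⟩
    obtain ⟨u, hu, hc⟩ := exists_U0 hw
    obtain ⟨w', hw'⟩ := hw.exists_left_inv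
    have hu' := isUnit_of_mem_U0 hu
    refine ⟨t * j u, Finset.mem_image₂_of_mem ht hu, w' * u, (IsUnit.of_mul_eq_one w hw').mul hu',
      by rw [map_mul, hc, ← map_mul, hw', map_one], y, hy, ?_⟩
    have e1 : j w' * j w = 1 := by rw [← map_mul, hw', map_one]
    have := hT t ht
    have := h.ne_zero hu'.ne_zero
    rw [map_mul, map_mul, e]
    field_simp
    linear_combination (1 + (Ar.N F : F) ^ K * y) * e1

theorem unit_facts {K : ℕ} (hK : 1 ≤ K) (hJK : J ≤ K) {u : Fˣ} (hu : u ∈ UK F hK) :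
    ∃ w, IsUnit w ∧ cls w = 1 ∧ j w = u ∧ argF (u : F) = 1 := by
  obtain ⟨w, hw, e⟩ := h.exists_unit hu.1
  have hp : PJ K (j w / j 1) := by rw [map_one, div_one, e]; exact hu.2
  refine ⟨w, hw, (h.cls_of 1 w one_ne_zero (PJ_mono hJK hp)).symm.trans (map_one cls), e, ?_⟩
  have := h.arg_cls 1 w one_ne_zero (PJ_mono hK hp)
  rw [arg_unit hw, arg_one, one_mul, one_mul, map_one, e] at this
  rw [star_injective this]
  simp [argF, em]

theorem dual_one {D v : O} {ψ : O → ℂ} (hD : D ≠ 0) (hv : IsUnit v) (h1 : cls v = 1)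
    (hψ : ψ v = 1) : Rf.dualChr D ψ v = 1 := by
  rw [Rf.dualChr, hψ, h.cub_unit hv hD, h.cc_one v hv h1 _ (h.ne_zero hD), map_one, one_mul]

open Classical in
/-- One class `c`, one fine class of moduli. -/
theorem core (hL : LatStmt F) (hT : ThetaStmt F) (hA : TauStmt F) (hO : OpStmt F)
    (hC : CuspStmt F) (hM : MainStmt F) {n0 : O} (hn0 : Primary n0) {f : F × F → ℂ} (hf : Test f)
    (hc : ∀ r : F, r ≠ 0 → tt f r = {r | PJ J (r / j n0)}.indicator thF r) {τ : F} (hτ : τ ≠ 0) :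
    ∃ (I : Type) (a : I → ℝ) (t : I → O) (C : ℝ) (B : I × O → ℂ), IdxOK a ∧ (∀ i, IsUnit (t i)) ∧
      (∀ i, DualA (C * Real.sqrt (a i)) fun ν => B (i, ν)) ∧
      ∀ (D v : O) (ψ : O → ℂ), D ≠ 0 → Rf.IsChr D ψ → (∀ v, IsUnit v → cls v = 1 → ψ v = 1) →
        IsUnit v → cls v = 1 → absS (j (D * v)) = absS τ → opW (j (D * v)) f = opW τ f →
        ∀ X : ℝ, 0 < X → ∀ s : ℂ, ∃ ω : ℂ, ‖ω‖ ≤ 1 ∧
          (∑' n : O, if cls n = cls n0 then th n * ft D ψ n * Wc (nr n / X) s else 0) =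
            ω * ((X / nr D : ℝ) : ℂ) * ∑' p : I × O, B p * ft D (Rf.dualChr D ψ) (-(t p.1 * p.2)) *
              VR (Fintype.card (Pl F)) (a p.1 * nr p.2 * X / nr D ^ 2) s := by
  have hJ := h.one_le
  have hα := h.ne_zero hn0.ne_zero
  have hf' : Test (opW τ f) := hO.test_rho f _ (by simp [gam, hτ]) hf
  set f' := opW τ f with hf'def
  obtain ⟨K0, hK0⟩ := hM.W_P f' hf'
  obtain ⟨J3, hJ3⟩ := hM.W_supp f' hf'
  obtain ⟨CW, hCW⟩ := hM.W_le f' hf'
  obtain ⟨K, hJK, hKW⟩ : ∃ K, J ≤ K ∧ ∀ r k : F, r ≠ 0 → PJ K k → WF f' (r * k) = WF f' r :=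
    ⟨max J K0, le_max_left _ _, fun r k hr hk => hK0 r k hr (PJ_mono (le_max_right _ _) hk)⟩
  have hK : 1 ≤ K := hJ.trans hJK
  obtain ⟨T, hT0, hT1⟩ := fin_fine h 1
  choose! k hk vν hv1 hv2 hv3 using hT1
  obtain ⟨E0, hE0⟩ : ∃ E0 : ℕ, ∀ t ∈ T, (Ar.N F : F) ^ E0 * t⁻¹ ∈ (Ar.L : Subring F) := by
    choose e he using fun t : F => Ar.pow_mem_L t⁻¹
    exact ⟨T.sup e, fun t ht => M94.pow_mem_L_mono (Finset.le_sup ht) (he t)⟩
  choose! vL hL1 hL2 hL3 using fun n (hn : cls n0 = cls n) => h.ex_of_cls n0 n hn0.ne_zero hn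
  have := finite_UK (F := F) hJ hK
  have := Fintype.ofFinite (UK F hJ ⧸ (UK F hK).subgroupOf (UK F hJ))
  set q := Fintype.card (UK F hJ ⧸ (UK F hK).subgroupOf (UK F hJ)) with hq
  have hq0 : (0 : ℝ) < q := Nat.cast_pos.2 Fintype.card_pos
  have hpi := Real.pi_pos
  set P : ℝ := ∏ _i : Pl F, 4 * Real.pi ^ 2 with hP
  have hP0 : 0 < P := Finset.prod_pos fun _ _ => by positivity
  have a0 := M94.absS_pos hα
  have a1 := M94.absS_pos hτ
  set c1 : ℝ := absS τ * P / (absS (j n0) * q) with hc1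
  set c2 : ℝ := P ^ 2 * absS τ ^ 2 / absS (j n0) with hc2
  have c10 : 0 < c1 := by positivity
  have c20 : 0 < c2 := by positivity
  have hab : ∀ {x y : F}, y ≠ 0 → PJ 1 (x / y) → absS x = absS y := fun {x y} hy hp => by
    rw [← mul_div_cancel₀ x hy, M94.absS_mul, M94.absS_PJ le_rfl hp, mul_one]
  have ht : ∀ i : TK F hK (J3 + E0), IsUnit (jinv j i.1.out) ∧ j (jinv j i.1.out) = i.1.out :=
    fun i => ⟨h.isUnit_of_ur (by rw [h.j_jinv i.2.1.2.1]; exact i.2.1), h.j_jinv i.2.1.2.1⟩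
  set y : TK F hK (J3 + E0) → O → F := fun i ν => j (jinv j i.1.out * vν ν * ν) with hy
  have hy1 : ∀ i ν, y i ν = i.1.out * j (ν * vν ν) := fun i ν => by
    simp only [hy, map_mul, (ht i).2]; ring
  have hy2 : ∀ i ν, ν ≠ 0 → absS (y i ν) = absS (k ν) / nF (i.1.out : F) := fun i ν hν => by
    rw [hy1, M94.absS_mul, M94.absS_ur i.2.1, hab (hT0 _ (hk ν hν)) (hv3 ν hν), div_eq_inv_mul]
  have hy0 : ∀ i ν, ν ≠ 0 → y i ν ≠ 0 := fun i ν hν =>
    h.ne_zero (mul_ne_zero ((ht i).1.mul (hv1 ν hν)).ne_zero hν)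
  refine ⟨T × TK F hK (J3 + E0), fun i => c2 * (nF (i.2.1.out : F) / absS (i.1 : F)),
    fun i => jinv j i.2.1.out, c1 * CW / Real.sqrt c2, fun p => if Primary p.2 ∧ k p.2 = p.1.1 then
      c1 * (tt f' (y p.1.2 p.2) * argF (y p.1.2 p.2)) else 0, idxOK hK _ T hT0 c20,
    fun i => (ht i.2).1, fun i ν hν => ?_, fun D v ψ hD hψ hψ1 hv hv' hDa hDo X hX s => ?_⟩
  · by_cases hp : Primary ν ∧ k ν = i.1
    swap
    · exact absurd (if_neg hp) hν
    simp only [if_pos hp] at hν ⊢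
    have h0 := hy0 i.2 ν hp.1.ne_zero
    rw [hM.main f' hf' _ h0] at hν ⊢
    obtain ⟨n, d, h1, h2, h3, h4, h5⟩ := h.shape_primary ((ht i.2).1.mul (hv1 ν hp.1.ne_zero)) hp.1
      (left_ne_zero_of_mul (left_ne_zero_of_mul (right_ne_zero_of_mul hν)))
    refine ⟨n, d, h1, h2, h3, h4, ?_⟩
    have h6 := hCW _ h0
    rw [hy2 _ _ hp.1.ne_zero, hp.2, ← Real.sqrt_inv, inv_div] at h6
    rw [norm_mul, norm_mul, norm_mul, norm_argF_79 h0, mul_one, h5, Complex.norm_real,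
      Real.norm_of_nonneg c10.le, Real.sqrt_mul c20.le]
    have := Real.sqrt_pos.2 c20
    calc _ ≤ c1 * (Real.sqrt (nr d) * (CW * Real.sqrt (nF (i.2.1.out : F) / absS (i.1 : F)))) := by
          gcongr
      _ = _ := by field_simp
  have hD' : D * v ≠ 0 := mul_ne_zero hD hv.ne_zero
  have hψ' := chr_mul_unit hψ hv
  have hd := chr_dual hψ hD
  have fa : ∀ m, ft (D * v) ψ m = ft D ψ m := fun m => (ft_unit_one hψ hD hv (hψ1 v hv hv') m).2
  have fb : ∀ m, ft (D * v) (Rf.dualChr (D * v) ψ) m = ft D (Rf.dualChr D ψ) m := fun m => by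
    rw [dualChr_mul_unit ψ hv, (ft_unit_one hd hD hv (dual_one h hD hv hv' (hψ1 v hv hv')) m).2]
  have fa' : ∀ w m, IsUnit w → cls w = 1 → ft D ψ (w * m) = ft D ψ m := fun w m hw hw' => by
    rw [mul_comm, (ft_unit_one hψ hD hw (hψ1 w hw hw') m).1]
  have fb' : ∀ w m, IsUnit w → cls w = 1 →
      ft D (Rf.dualChr D ψ) (-(w * m)) = ft D (Rf.dualChr D ψ) (-m) := fun w m hw hw' => by
    rw [mul_comm, ← neg_mul, (ft_unit_one hd hD hw (dual_one h hD hw hw' (hψ1 w hw hw')) _).1]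
  -- left representatives
  have hleft : Reps (UK F hJ) (aT j f (D * v) ψ)
      fun n : {n : O // Primary n ∧ cls n = cls n0} => j (vL n * n) := by
    refine ⟨fun n => h.ne_zero (mul_ne_zero (hL1 _ n.2.2.symm).ne_zero n.2.1.ne_zero),
      fun u hu n n' e => ?_, fun x hx => ?_, fun u hu n => ?_⟩
    · obtain ⟨w, hw, -, e', -⟩ := unit_facts h hJ le_rfl hu
      rw [← e', ← map_mul, ← mul_assoc] at e
      refine Subtype.ext (n.2.1.eq_of_associated n'.2.1 ?_)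
      refine (associated_unit_mul_right _ _ (hw.mul (hL1 _ n.2.2.symm))).trans ?_
      rw [h.inj e]
      exact associated_unit_mul_left _ _ (hL1 _ n'.2.2.symm)
    · have h1 : tt f x ≠ 0 := left_ne_zero_of_mul (left_ne_zero_of_mul hx)
      have hx0 : x ≠ 0 := fun h0 => h1 (h0 ▸ tt_zero f)
      rw [hc x hx0] at h1
      have h2 : PJ J (x / j n0) := Set.mem_of_indicator_ne_zero (s := {r | PJ J (r / j n0)}) h1
      rw [Set.indicator_of_mem (s := {r | PJ J (r / j n0)}) h2] at h1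
      obtain ⟨m, rfl⟩ := h.exists_eq (x := x) (by_contra fun hr => h1 (M94.thF_of_not_mem hr))
      obtain ⟨u, n, hu, hn, rfl⟩ := exists_eq_unit_mul_primary (n := m) fun h0 => hx0 (by simp [h0])
      have h3 := h.cls_of n0 _ hn0.ne_zero h2
      have h4 : cls n = cls n0 := by
        rw [h3, map_mul, cls_unit_primary hn hn0 hu h3.symm, one_mul]
      have h5 := hL1 n h4.symm
      have h6 := h.ne_zero h5.ne_zero
      have h7 := h.ne_zero hn.ne_zero
      refine ⟨Units.mk0 (j u / j (vL n)) (div_ne_zero (h.ne_zero hu.ne_zero) h6),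
        ⟨⟨Units.ne_zero _, ?_, ?_⟩, ?_⟩, ⟨n, hn, h4⟩, ?_⟩
      · exact mul_mem (h.mem _) (h.ur h5).2.2 |> fun hh => by rwa [Units.val_mk0, div_eq_mul_inv]
      · rw [Units.val_mk0, inv_div, div_eq_mul_inv]; exact mul_mem (h.mem _) (h.ur hu).2.2
      · have := PJ_mul h2 (PJ_inv hJ (hL3 n h4.symm))
        rw [Units.val_mk0]
        convert this using 1
        rw [map_mul, map_mul]
        field_simp
      · simp only [Units.val_mk0, map_mul]
        field_simp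
    · obtain ⟨w, hw, hw', e', ea⟩ := unit_facts h hJ le_rfl hu
      have h0 := h.ne_zero (mul_ne_zero (hL1 _ n.2.2.symm).ne_zero n.2.1.ne_zero)
      have h2 := hL3 _ n.2.2.symm
      have h3 : PJ J (u * j (vL n * n) / j n0) := by rw [mul_div_assoc]; exact PJ_mul hu.2 h2
      rw [aT, aT, hc _ h0, hc _ (mul_ne_zero u.ne_zero h0), argF_mul_79, ea, one_mul,
        Set.indicator_of_mem (s := {r | PJ J (r / j n0)}) h2,
        Set.indicator_of_mem (s := {r | PJ J (r / j n0)}) h3, ← e', ← map_mul, h.jinv_j, h.jinv_j,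
        h.thF_unit_mul hw (h.cc_one w hw hw'), fa, fa, fa' w _ hw hw']
  -- right representatives
  have hright : Reps (UK F hK) (bT j f (D * v) ψ)
      fun p : TK F hK (J3 + E0) × {ν : O // Primary ν} => y p.1 p.2 := by
    refine ⟨fun p => hy0 _ _ p.2.2.ne_zero, fun u hu p p' e => ?_, fun x hx => ?_,
      fun u hu p => ?_⟩
    · obtain ⟨w, hw, -, e', -⟩ := unit_facts h hK hJK hu
      have e1 : p.2 = p'.2 := by
        simp only [hy] at e
        rw [← e', ← map_mul, ← mul_assoc] at e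
        refine Subtype.ext (p.2.2.eq_of_associated p'.2.2 ?_)
        refine (associated_unit_mul_right _ _
          (hw.mul ((ht p.1).1.mul (hv1 _ p.2.2.ne_zero)))).trans ?_
        rw [h.inj e]
        exact associated_unit_mul_left _ _ ((ht p'.1).1.mul (hv1 _ p'.2.2.ne_zero))
      rw [hy1, hy1, ← e1, ← mul_assoc] at e
      exact Prod.ext (TK_inj hK hu (mul_right_cancel₀
        (h.ne_zero (mul_ne_zero p.2.2.ne_zero (hv1 _ p.2.2.ne_zero).ne_zero)) e)) e1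
    · have h1 : tt f' x ≠ 0 := hDo ▸ left_ne_zero_of_mul (left_ne_zero_of_mul hx)
      have hx0 : x ≠ 0 := fun h0 => h1 (h0 ▸ tt_zero f')
      rw [hM.main f' hf' x hx0] at h1
      have h2 := hJ3 x hx0 (right_ne_zero_of_mul h1)
      obtain ⟨m, rfl⟩ := h.exists_eq (x := x)
        (by_contra fun hr => left_ne_zero_of_mul h1 (M94.thF_of_not_mem hr))
      obtain ⟨u, ν, hu, hν, rfl⟩ := exists_eq_unit_mul_primary (n := m) fun h0 => hx0 (by simp [h0])
      have h5 := hv1 ν hν.ne_zero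
      have h6 := h.ne_zero h5.ne_zero
      have h7 := h.ne_zero hν.ne_zero
      have h8 := hT0 _ (hk ν hν.ne_zero)
      obtain ⟨u', hu', i, e⟩ := TK_surj hK (E := J3 + E0) (w := j u / j (vν ν))
        ⟨div_ne_zero (h.ne_zero hu.ne_zero) h6,
          by rw [div_eq_mul_inv]; exact mul_mem (h.mem _) (h.ur h5).2.2,
          by rw [inv_div, div_eq_mul_inv]; exact mul_mem (h.mem _) (h.ur hu).2.2⟩
        (M94.pow_mem_L_mono (Nat.le_succ _) (by
          have := mul_mem (mul_mem h2 (hE0 _ (hk ν hν.ne_zero)))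
            (M94.PJ_unit le_rfl (hv3 ν hν.ne_zero)).2.2
          convert this using 1
          rw [map_mul, map_mul]
          field_simp
          ring))
      refine ⟨u', hu', (i, ⟨ν, hν⟩), ?_⟩
      simp only [hy1]
      rw [← mul_assoc, ← e, map_mul, map_mul]
      field_simp
    · obtain ⟨w, hw, hw', e', ea⟩ := unit_facts h hK hJK hu
      have h0 := fun i => hy0 i _ p.2.2.ne_zero
      rw [bT, bT, hDo, hM.main f' hf' _ (h0 p.1), hM.main f' hf' _ (mul_ne_zero u.ne_zero (h0 p.1)),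
        argF_mul_79, ea, one_mul, mul_comm (u : F), hKW _ _ (h0 p.1) hu.2, mul_comm _ (u : F)]
      simp only [hy]
      rw [← e', ← map_mul, h.jinv_j, h.jinv_j, h.thF_unit_mul hw (h.cc_one w hw hw'), fb, fb,
        fb' w _ hw hw']
  obtain ⟨M1, C1, m1, c1', s1, b1⟩ := tt_bound hT hA hC hf
  obtain ⟨M2, C2, m2, c2', s2, b2⟩ := tt_bound hT hA hC hf'
  have hjD := h.ne_zero hD'
  have nD := nr_pos hD
  have bd : ∀ {g : F × F → ℂ} {C : ℝ} {z w : ℂ} {x : F}, ‖tt g x‖ ≤ C * (1 + nF x) → 0 ≤ C →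
      C ≤ C1 + C2 → ‖z‖ ≤ 1 → ‖w‖ ≤ nr D → ‖tt g x * z * w‖ ≤ (C1 + C2) * nr D * (1 + nF x) :=
    fun {g C z w x} h1 h2 h3 h4 h5 => by
      have := V57.nF_nonneg x
      rw [norm_mul, norm_mul]
      calc _ ≤ (C1 + C2) * (1 + nF x) * 1 * nr D := by
            gcongr
            exact h1.trans (by gcongr)
        _ = _ := by ring
  have key := transfer_F' (UK_int hK) (NK_ne K) (mem_UK hK) (reps_refine (UK_le hJ hK hJK) hleft)
    hright (mul_ne_zero m1 m2) (fun x hx => by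
      rw [Nat.cast_mul, mul_comm (M1 : F), mul_assoc]
      exact (isIntegral_natCast _).mul (s1 x (left_ne_zero_of_mul (left_ne_zero_of_mul hx))))
    (fun x hx => by
      rw [Nat.cast_mul, mul_assoc]
      exact (isIntegral_natCast _).mul
        (s2 x (hDo ▸ left_ne_zero_of_mul (left_ne_zero_of_mul hx))))
    (C := (C1 + C2) * nr D) (fun x hx => bd (b1 x hx) c1' (by linarith)
      (by rw [Complex.norm_conj]; exact V57.norm_argF_le x)
      (by rw [fa]; exact T57.norm_ft_le hψ hD _))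
    (fun x hx => bd (hDo ▸ b2 x hx) c2' (by linarith) (V57.norm_argF_le x)
      (by rw [fb]; exact T57.norm_ft_le hd hD _))
    (fun _ => by positivity) (fun i => by
      have := norm_pos_iff.2 (V57.em_ne hjD i)
      positivity)
    (h.vor_twist hL hT hA hO hC hf hD' hψ') (div_pos hX a0) s
  set κ := arg n0 * conj (argF (j n0)) with hκ
  have hκ1 : ‖κ‖ = 1 := by
    rw [hκ, norm_mul, Complex.norm_conj, norm_arg hn0.ne_zero, norm_argF_79 hα, one_mul]
  have hnF : ∀ {n : O}, n ≠ 0 → nF (j n) = nr n / absS (j n) := fun {n} hn => by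
    have := nr_pos hn
    have := M94.nF_pos (h.ne_zero hn)
    rw [absS, h.nm hn]
    field_simp
  have eL : ∀ p : {n : O // Primary n ∧ cls n = cls n0} ×
      (UK F hJ ⧸ (UK F hK).subgroupOf (UK F hJ)),
      aT j f (D * v) ψ ((((p.2.out : UK F hJ) : Fˣ) : F) * j (vL p.1 * p.1)) *
        R17.Wc (nF ((((p.2.out : UK F hJ) : Fˣ) : F) * j (vL p.1 * p.1)) / (X / absS (j n0))) s =
      κ * (th p.1 * ft D ψ p.1 * Wc (nr p.1 / X) s) := by
    rintro ⟨⟨n, hn, hn'⟩, u⟩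
    have h1 := hL1 n hn'.symm
    have h2 := hL3 n hn'.symm
    have h0 := mul_ne_zero h1.ne_zero hn.ne_zero
    have h3 := h.arg_cls n0 _ hn0.ne_zero (PJ_mono hJ h2)
    rw [arg_mul, arg_unit h1, one_mul] at h3
    have h4 := conj_mul_self (norm_arg hn.ne_zero)
    rw [hleft.inv _ u.out.2 ⟨n, hn, hn'⟩, M94.nF_mul, nF_unit (UK_int hJ) u.out.2, one_mul]
    simp only
    rw [aT, hc _ (h.ne_zero h0), Set.indicator_of_mem (s := {r | PJ J (r / j n0)}) h2, h.jinv_j,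
      h.thF_unit_mul h1 (h.cc_one _ h1 (hL2 n hn'.symm)), fa, fa' _ _ h1 (hL2 n hn'.symm),
      h.th_eq hn, hnF h0, hab hα (PJ_mono hJ h2), nr_unit_mul h1, div_div_div_cancel_right₀ a0.ne',
      hκ, ← h3]
    show _ * Wc _ _ = _
    linear_combination (-(thF (j n) * conj (argF (j (vL n * n))) * ft D ψ n * Wc (nr n / X) s)) * h4
  have hDn : nF (j (D * v)) = nr D / absS τ := by
    rw [hnF hD', hDa, mul_comm, nr_unit_mul hv]
  have hB : ∏ i, 4 * Real.pi ^ 2 / ‖em (j (D * v)) i‖ ^ 4 = P * (absS τ / nr D) ^ 2 := by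
    rw [Finset.prod_div_distrib, ← inv_div (nr D), ← hDn, nF, inv_pow, ← Finset.prod_pow, div_eq_mul_inv]
    simp only [← pow_mul]
    rfl
  simp only [eL] at key
  rw [tsum_mul_left, tsum_fst (φ := fun n : {n : O // Primary n ∧ cls n = cls n0} =>
    th n * ft D ψ n * Wc (nr n / X) s), ← hq, ← hP, hB] at key
  set ω0 := ∏ i, (-(em (j (D * v)) i ^ 2))⁻¹ with hω0
  have hω : ‖ω0‖ = absS τ / nr D := by
    rw [hω0, norm_prod, ← inv_div, ← hDn, nF, ← Finset.prod_inv_distrib]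
    simp only [norm_inv, norm_neg, norm_pow]
  refine ⟨conj κ * (ω0 * ((nr D / absS τ : ℝ) : ℂ)), ?_, ?_⟩
  · rw [norm_mul, norm_mul, Complex.norm_conj, hκ1, hω, Complex.norm_real,
      Real.norm_of_nonneg (by positivity), one_mul]
    exact le_of_eq (by field_simp)
  have eS : (∑' n : O, if cls n = cls n0 then th n * ft D ψ n * Wc (nr n / X) s else 0) =
      ∑' n : {n : O // Primary n ∧ cls n = cls n0}, th n * ft D ψ n * Wc (nr n / X) s := by
    refine (tsum_congr fun n => ?_).trans (tsum_subtype {n : O | Primary n ∧ cls n = cls n0}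
      fun n => th n * ft D ψ n * Wc (nr n / X) s).symm
    by_cases h1 : cls n = cls n0
    · by_cases h2 : Primary n
      · rw [if_pos h1, Set.indicator_of_mem (s := {n : O | Primary n ∧ cls n = cls n0}) ⟨h2, h1⟩]
      · rw [if_pos h1, Set.indicator_of_notMem fun h' => h2 h'.1, th_of_not h2, zero_mul, zero_mul]
    · rw [if_neg h1, Set.indicator_of_notMem fun h' => h1 h'.2]
  have hinj : Function.Injective fun p : TK F hK (J3 + E0) × {ν : O // Primary ν} =>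
      (((⟨k p.2, hk _ p.2.2.ne_zero⟩, p.1), p.2) : (T × TK F hK (J3 + E0)) × O) := fun p p' e =>
    Prod.ext (congrArg (fun z => z.1.2) e) (Subtype.ext (congrArg Prod.snd e))
  rw [eS, ← hinj.tsum_eq]
  · have eR : ∀ p : TK F hK (J3 + E0) × {ν : O // Primary ν},
        (if Primary p.2.1 ∧ k p.2 = k p.2 then
          (c1 : ℂ) * (tt f' (y p.1 p.2) * argF (y p.1 p.2)) else 0) *
          ft D (Rf.dualChr D ψ) (-(jinv j p.1.1.out * p.2)) *
          VR (Fintype.card (Pl F))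
            (c2 * (nF (p.1.1.out : F) / absS (k p.2)) * nr p.2 * X / nr D ^ 2) s =
        c1 * (bT j f (D * v) ψ (y p.1 p.2) * VR (Fintype.card (Pl F))
          (P * (P * (absS τ / nr D) ^ 2) * (X / absS (j n0)) * nF (y p.1 p.2)) s) := by
      rintro ⟨i, ν, hν⟩
      have h5 := hv1 ν hν.ne_zero
      have h6 : nF (y i ν) = nr ν / (absS (k ν) / nF (i.1.out : F)) := by
        rw [← hy2 i ν hν.ne_zero, hy, hnF (mul_ne_zero ((ht i).1.mul h5).ne_zero hν.ne_zero),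
          nr_unit_mul ((ht i).1.mul h5)]
      have := M94.absS_pos (hT0 _ (hk ν hν.ne_zero))
      have := M94.nF_pos i.1.out.ne_zero
      rw [if_pos ⟨hν, rfl⟩, bT, hDo, fb, h6, show P * (P * (absS τ / nr D) ^ 2) *
        (X / absS (j n0)) * (nr ν / (absS (k ν) / nF (i.1.out : F))) =
        c2 * (nF (i.1.out : F) / absS (k ν)) * nr ν * X / nr D ^ 2 by rw [hc2]; field_simp]
      simp only [hy]
      rw [h.jinv_j, mul_right_comm _ (vν ν), mul_comm _ (vν ν), fb' _ _ h5 (hv2 ν hν.ne_zero)]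
      ring
    rw [tsum_congr eR, tsum_mul_left]
    generalize (∑' p : TK F hK (J3 + E0) × {ν : O // Primary ν}, bT j f (D * v) ψ (y p.1 p.2) *
      VR (Fintype.card (Pl F))
        (P * (P * (absS τ / nr D) ^ 2) * (X / absS (j n0)) * nF (y p.1 p.2)) s) = S at key ⊢
    have hq' : (q : ℂ) ≠ 0 := by exact_mod_cast hq0.ne'
    have h1 : ((absS τ : ℝ) : ℂ) ≠ 0 := Complex.ofReal_ne_zero.2 a1.ne'
    have h2 : ((absS (j n0) : ℝ) : ℂ) ≠ 0 := Complex.ofReal_ne_zero.2 a0.ne'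
    have h3 : ((nr D : ℝ) : ℂ) ≠ 0 := Complex.ofReal_ne_zero.2 nD.ne'
    refine mul_left_cancel₀ hq' ?_
    rw [← one_mul ((q : ℂ) * _), ← conj_mul_self hκ1, mul_assoc, key, hc1]
    push_cast at h1 h2 h3 ⊢
    field_simp
  · rintro ⟨⟨t, i⟩, ν⟩ hp
    by_cases h1 : Primary ν ∧ k ν = t
    · exact ⟨(i, ⟨ν, h1.1⟩), Prod.ext (Prod.ext (Subtype.ext h1.2) rfl) rfl⟩
    · exact absurd (by simp only [if_neg h1, zero_mul]) hp

end R57

open R57 in
/-- **Leaf R3.** -/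
theorem vorFr_57 [Fr0] {F : Type} [Field F] [NumberField F] [Emb F] [Ar F] {J : ℕ} {j : O →+* F}
    (h : Link J j) (hL : LatStmt F) (hT : ThetaStmt F) (hA : TauStmt F) (hO : OpStmt F)
    (hC : CuspStmt F) (hM : MainStmt F) : VorFr2 := by
  classical
  refine ⟨KrR (Fintype.card (Pl F)), VR (Fintype.card (Pl F)), kernelOK_R _, fun c => ?_⟩
  by_cases hc : ∃ n0, Primary n0 ∧ cls n0 = (c : WithZero Cl)
  swap
  · refine ⟨Empty, inferInstance, fun _ => Empty, fun g => g.elim, fun g => g.elim, 0,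
      fun g => g.elim, fun g => g.elim, fun g => g.elim, fun g => g.elim,
      fun D ψ _ _ _ X _ s => ⟨fun _ => 0, fun g => g.elim, ?_⟩⟩
    rw [Finset.univ_eq_empty, Finset.sum_empty]
    refine (tsum_congr fun n => ?_).trans tsum_zero
    split_ifs with h1
    · rw [th_of_not fun h2 => hc ⟨n, h2, h1⟩, zero_mul, zero_mul]
    · rfl
  obtain ⟨n0, hn0, hc⟩ := hc
  obtain ⟨f, hf, hf'⟩ := hM.cls J (j n0) h.one_le (h.ne_zero hn0.ne_zero)
  obtain ⟨J2, hJ2⟩ := hO.opW_P f hf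
  obtain ⟨T, hT0, hT1⟩ := fin_fine h (max 1 J2)
  choose I a t C B h1 h2 h3 h4 using fun τ : T =>
    core h hL hT hA hO hC hM hn0 hf hf' (hT0 τ τ.2)
  refine ⟨T, inferInstance, I, a, t, ∑ g, |C g|, B, h1, h2, fun g i ν hν => ?_,
    fun D ψ hD hψ hψ1 X hX s => ?_⟩
  · obtain ⟨n, d, e1, e2, e3, e4, e5⟩ := h3 g i ν hν
    refine ⟨n, d, e1, e2, e3, e4, e5.trans ?_⟩
    gcongr
    exact (le_abs_self _).trans
      (Finset.single_le_sum (f := fun g => |C g|) (fun _ _ => abs_nonneg _) (Finset.mem_univ g))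
  · obtain ⟨τ, hτ, v, hv, hv', hp⟩ := hT1 D hD.ne_zero
    have h0 := hT0 τ hτ
    obtain ⟨ω, hω, e⟩ := h4 ⟨τ, hτ⟩ D v ψ hD.ne_zero hψ hψ1 hv hv' (by
      rw [← mul_div_cancel₀ (j (D * v)) h0, M94.absS_mul,
        M94.absS_PJ (le_max_left _ _) hp, mul_one]) (by
      rw [← mul_div_cancel₀ (j (D * v)) h0, hJ2 _ _ h0 (PJ_mono (le_max_right _ _) hp)]) X hX s
    refine ⟨Pi.single ⟨τ, hτ⟩ ω, fun g => ?_, ?_⟩
    · rw [Pi.single_apply]
      split_ifs
      · exact hω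
      · simp
    · rw [Finset.sum_eq_single ⟨τ, hτ⟩ (fun g _ hg => by rw [Pi.single_eq_of_ne hg]; simp)
        (fun h' => absurd (Finset.mem_univ _) h'), Pi.single_eq_same, ← e, hc]

end Crest.Agent.T27.TH
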