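import Crest.Agent.T27.Recip_55
import Crest.Agent.T27.Count_55
import Crest.Agent.T27.Plug_65_Mg
import Crest.Agent.T27.ReflDefs_56
import Crest.Agent.T27.VorR_57_Mg
import Crest.Agent.T27.ThOp_83_Mg
import Crest.Agent.T27.MelC_71_Mg

-- ▼ part T27/LS2Ad_93
section

/-!
# Row 27: the analytic inputs of the quadratic large sieve on the frame `Fr`
-/

set_option autoImplicit false

noncomputable section

namespace Crest.Agent.T27

open scoped ComplexConjugate

variable [Fr]

namespace LS2Ad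

theorem ft_quad {q : O} (hq : Primary q) (hs : Squarefree q) (h : O) :
    ft q (quad q) h = quad q h * (Real.sqrt (nr q) : ℂ) * g4 q := by
  have e1 : ∀ k, ft q (quad q) k = gs 3 q k := by
    intro k
    unfold ft gs
    refine Finset.sum_congr rfl fun x _ => ?_
    rw [sym_pow_add_six hq x (by norm_num), sym_pow_three hq]
  have hpos : (0 : ℝ) < nr q := nr_pos hq.ne_zero
  have hne : (Real.sqrt (nr q) : ℂ) ≠ 0 := by
    exact_mod_cast (Real.sqrt_pos.2 hpos).ne'
  rw [e1, gs_sqfree (by norm_num) hq.po hs, sym_pow_three hq, conj_quad, ← gam_three hq.po hs, gam]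
  field_simp

theorem g4_pair {m₁ m₂ : O} (h₁ : m₁ ≠ 0) (hc : cls m₁ = cls m₂) : g4 (m₁ * m₂) = 1 := by
  have e : cls (m₁ * m₂) = cls (1 * m₁ ^ 2) := by
    rw [map_mul, ← hc, one_mul, map_pow, sq]
  rw [g4_congr e, g4_mul_sq one_ne_zero h₁, g4_one]

/-- Poisson summation for a primitive quadratic character. -/
theorem poisson_quad {q : O} (hq : Primary q) (hs : Squarefree q) {X : ℝ} (hX : 0 < X) :
    ∑' k : O, quad q k * (gr k (nr k / X) : ℂ) =
      g4 q * ((X / Real.sqrt (nr q) : ℝ) : ℂ) * ∑' k : O, quad q k * (gr k (X * nr k / nr q) : ℂ) := by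
  have hpos : (0 : ℝ) < nr q := nr_pos hq.ne_zero
  have h := Fr.kerAx.poisson q (quad q) X hq.ne_zero
    (fun x y hxy => quad_congr ((rad_dvd q).trans hxy)) (uinv_quad q) hX
  have e : ∀ k : O, ft q (quad q) k * (grp Fr.gwF k (X * nr k / nr q) : ℂ) =
      ((Real.sqrt (nr q) : ℂ) * g4 q) * (quad q k * (gr k (X * nr k / nr q) : ℂ)) := by
    intro k
    rw [ft_quad hq hs]
    show _ * ((gr k (X * nr k / nr q) : ℝ) : ℂ) = _
    ring
  simp only [e] at h
  rw [tsum_mul_left] at h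
  have hs0 : Real.sqrt (nr q) ≠ 0 := (Real.sqrt_pos.2 hpos).ne'
  have e2 : ((X / nr q : ℝ) : ℂ) * (Real.sqrt (nr q) : ℂ) = ((X / Real.sqrt (nr q) : ℝ) : ℂ) := by
    rw [← Complex.ofReal_mul]
    congr 1
    have := Real.mul_self_sqrt hpos.le
    field_simp
    rw [sq, this]
  refine h.trans ?_
  rw [← e2]; ring

/-- Item (4) of the list: the pair `m₁, m₂` in the same class. -/
theorem poisson_pair {m₁ m₂ : O} (h₁ : Primary m₁) (h₂ : Primary m₂) (hs : Squarefree (m₁ * m₂))
    (hc : cls m₁ = cls m₂) {X : ℝ} (hX : 0 < X) :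
    ∑' k : O, quad (m₁ * m₂) k * (gr k (nr k / X) : ℂ) =
      ((X / Real.sqrt (nr (m₁ * m₂)) : ℝ) : ℂ) *
        ∑' k : O, quad (m₁ * m₂) k * (gr k (X * nr k / nr (m₁ * m₂)) : ℂ) := by
  rw [poisson_quad (h₁.mul h₂) hs hX, g4_pair h₁.ne_zero hc, one_mul]

open Classical in
/-- The two forms of a sum over the primary elements. -/
theorem tsum_primary {E : Type} [NormedAddCommGroup E] (f : O → E) :
    ∑' c : {c : O // Primary c}, f c = ∑' c : O, if Primary c then f c else 0 := by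
  have := tsum_subtype {c : O | Primary c} f
  refine this.trans (tsum_congr fun c => ?_)
  by_cases h : Primary c
  · rw [if_pos h, Set.indicator_of_mem (by exact h)]
  · rw [if_neg h, Set.indicator_of_notMem (by exact h)]

open Classical in
/-- The two forms of a sum over the rows. -/
theorem tsum_rep (f : O → ℂ) (x : O → ℝ) :
    ∑' k : {k : O // Rep k}, f k * (gw (x k) : ℂ) = ∑' k : O, f k * (gr k (x k) : ℂ) := by
  have := tsum_subtype {k : O | Rep k} fun k => f k * (gw (x k) : ℂ)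
  refine this.trans (tsum_congr fun c => ?_)
  by_cases h : Rep c
  · rw [Set.indicator_of_mem (by exact h), gr, grp, if_pos h]
  · rw [Set.indicator_of_notMem (by exact h), gr, grp, if_neg h]; simp

/-- Item (4) with sums over the subtype of rows. -/
theorem poisson_pair' {m₁ m₂ : O} (h₁ : Primary m₁) (h₂ : Primary m₂) (hs : Squarefree (m₁ * m₂))
    (hc : cls m₁ = cls m₂) {X : ℝ} (hX : 0 < X) :
    ∑' k : {k : O // Rep k}, quad (m₁ * m₂) k * (gw (nr (k : O) / X) : ℂ) =
      ((X / Real.sqrt (nr (m₁ * m₂)) : ℝ) : ℂ) *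
        ∑' k : {k : O // Rep k}, quad (m₁ * m₂) k * (gw (X * nr (k : O) / nr (m₁ * m₂)) : ℂ) := by
  rw [tsum_rep (quad (m₁ * m₂)) fun k => nr k / X,
    tsum_rep (quad (m₁ * m₂)) fun k => X * nr k / nr (m₁ * m₂), poisson_pair h₁ h₂ hs hc hX]

/-- Item (5): the theta series over the squares. -/
theorem th2_asymp : ∃ κ : ℝ, ∀ η : ℝ, 0 < η → η ≤ 1 / 2 → ∃ C : ℝ, 0 < C ∧ ∀ y : ℝ, 0 < y →
    |(∑' c : {c : O // Primary c}, gw (y * nr (c : O) ^ 2)) - κ / Real.sqrt y| ≤ C * y ^ (-η) := by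
  obtain ⟨κ, h⟩ := Fr.kerAx.er
  refine ⟨κ, fun η h0 h1 => ?_⟩
  obtain ⟨C, hC, h⟩ := h η h0 h1
  refine ⟨C, hC, fun y hy => ?_⟩
  rw [tsum_primary fun c => gw (y * nr c ^ 2)]
  exact (h y hy).trans (mul_le_mul_of_nonneg_left (min_le_left _ _) hC.le)

end LS2Ad

end Crest.Agent.T27
end
end

-- ▼ part T27/LS2Fr_81
section

/-!
# Row 27: the quadratic large sieve on the frame `Fr`
-/

set_option autoImplicit false

noncomputable section

namespace Crest.Agent.T27

variable [Fr]

open Classical in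
/-- The frame `Fr` gives the data used by the proof of the quadratic large sieve. -/
@[reducible] def lf81 : LS.LF where
  O := O
  nm := nm
  nm_mul' := nm_mul
  nm_eq_zero' := fun _ => nm_eq_zero
  nm_eq_one' := fun _ => isUnit_iff_nm.symm
  Primary := Primary
  prim_one := Fr0.prim_one
  prim_mul := Fr0.prim_mul
  prim_ne := Fr0.prim_ne
  prim_eq := Fr0.prim_assoc
  prim_ex := fun a ha => by
    obtain ⟨u, hu, h⟩ := Fr0.prim_ex a ha
    exact ⟨u * a, h, associated_unit_mul_left a u hu⟩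
  U0 := U0
  U0_unit := Fr0.unit_U0F
  one_mem := Fr0.one_mem_U0F
  Rep := Rep
  rep_iff := fun _ => Iff.rfl
  count := ⟨Fr0.kp, fun X S hS => by
    have h : S ⊆ pball X := fun n hn => mem_pball.2 (hS n hn)
    exact_mod_cast (Finset.card_le_card h).trans (card_pball_le X)⟩
  quad := quad
  quad_mul_left' := fun _ _ a hm hn => quad_mul_left hm.ne_zero hn.ne_zero a
  quad_mul_right' := fun n a b _ => quad_mul_right' n a b
  quad_sq' := fun _ _ hn h => quad_sq hn h
  quad_zero' := fun _ _ hn h => (Symbol_quad_eq_zero_iff hn).2 h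
  norm_quad_le' := norm_quad_le
  conj_quad' := conj_quad
  Cl := WithZero Cl
  fin := Fintype.ofFinite _
  cls := fun n => cls n
  cls_cancel := fun g a b hg _ _ h => by
    rw [map_mul, map_mul] at h
    exact mul_left_cancel₀ (cls_ne_zero hg.ne_zero) h
  Rs := fun x y => if x ≠ 0 ∧ y ≠ 0 then
    Rq (Function.surjInv cls_surjective x) (Function.surjInv cls_surjective y) else 0
  norm_Rs := fun x y => by
    split_ifs with h
    · refine (norm_Rq (fun h0 => h.1 ?_) (fun h0 => h.2 ?_)).le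
      · rw [← Function.surjInv_eq cls_surjective x, h0, map_zero]
      · rw [← Function.surjInv_eq cls_surjective y, h0, map_zero]
    · simp
  recip := fun n k hn hk => by
    rw [if_pos ⟨cls_ne_zero hn.ne_zero, cls_ne_zero hk.ne_zero⟩, quad_recip' hn.ne_zero hk.ne_zero,
      Rq_congr (Function.surjInv_eq cls_surjective (cls n))
        (Function.surjInv_eq cls_surjective (cls k))]
  gw := gw
  gw_pos' := Fr.kerAx.pos
  gw_anti' := fun _ _ hx h => Fr.kerAx.anti hx (lt_of_lt_of_le hx h) h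
  gw_le' := fun A hA => by
    obtain ⟨C, -, h⟩ := Fr.kerAx.le_rpow A (by linarith)
    exact ⟨C, h⟩
  pois := fun _ _ h₁ h₂ hs hc _ hX => LS2Ad.poisson_pair' h₁ h₂ hs hc hX
  th2_asymp := by
    obtain ⟨κ, h⟩ := LS2Ad.th2_asymp
    refine ⟨κ, fun η h0 h1 => ?_⟩
    obtain ⟨C, -, h⟩ := h η h0 h1.le
    exact ⟨C, h⟩

/-- **Heath-Brown's quadratic large sieve** on the frame. -/
theorem ls2_81 : LS2Stmt := by
  intro ε hε
  obtain ⟨C, hC, h⟩ := @LS.quad_large_sieve' lf81 ε hε
  exact ⟨C, hC, fun K N S A β hK hN hS hA => h K N S A β hK hN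
    (fun k hk => ⟨(hS k hk).1.1, (hS k hk).1.2, (hS k hk).2⟩)
    (fun n hn => ⟨(hA n hn).1.1, (hA n hn).1.2, (hA n hn).2⟩)⟩

end Crest.Agent.T27
end
end

-- ▼ part T27/Final2_49

/-!
# Row 27: `ChebG` from sextic reciprocity (helper49)
-/

set_option autoImplicit false

namespace Crest.Agent.T27

theorem baseModel_49 : BaseModel := fun _ _ _ _ _ _ h => basePoi_65 h (thetaO_87 h)

theorem ls2All_49 : LS2All := ls2_81

theorem thetaAll_49 : ThetaAll := fun F _ _ _ _ =>
  have hA := TH.allA_of_geom F (TH.geomStmt_80 F)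
  TH.allB_of F hA (TH.opStmt_83 F hA.row) fun hO hI hC => TH.hecke_50 F hO hI hC hA.tau hA.theta

theorem reflModel_49 : ReflModel := fun _ _ _ _ _ _ _ h H =>
  Rf.refl2_59 (TH.vorFr_57 h H.lat H.theta H.tau H.op H.cusp H.main)


theorem chebG_of_rec_49 (hRec : Rc.RecStmt) : ChebG :=
  chebG_49 hRec baseModel_49 ls2All_49 thetaAll_49 reflModel_49

end Crest.Agent.T27
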