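import Crest.Agent.PVc.R17.Basic

-- ▼ part T27/GsJac_79
section

/-!
# Row 27: the cubic Jacobi sum of a finite field over `ℤ[ω]`

If `φ : ℤ[ω] → K` is a ring homomorphism to a finite field with kernel generated by the primary
prime `π` and `#K = (N π)^f`, then the Jacobi sum of the cubic residue character is `-π^f`.
-/

set_option autoImplicit false

noncomputable section

namespace Crest.Agent.T27

open R17 Finset
open scoped ComplexConjugate

theorem omC_prim_79 : IsPrimitiveRoot omC 3 := by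
  have h : omC ^ 2 + omC + 1 = 0 := by linear_combination omC_mul
  refine (IsPrimitiveRoot.iff three_pos).2 ⟨by linear_combination (omC - 1) * h, fun l h0 h3 e => ?_⟩
  interval_cases l
  · rw [pow_one] at e
    norm_num [e] at h
  · have : omC = -2 := by linear_combination h - e
    norm_num [this] at h

theorem conj_omC_79 : conj omC = omC ^ 2 := by
  rw [pow_two, omC_mul]
  apply Complex.ext
  · simp [omC]; norm_num
  · simp [omC]

/-- the ring homomorphism `ℤ[ω] → S` given by a root of `X² + X + 1` -/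
def phiO {S : Type*} [CommRing S] (w : S) (hw : w ^ 2 + w + 1 = 0) : O →+* S where
  toFun z := (z.re : S) + (z.im : S) * w
  map_one' := by simp [QuadraticAlgebra.re_one, QuadraticAlgebra.im_one]
  map_mul' z y := by
    simp only [QuadraticAlgebra.re_mul, QuadraticAlgebra.im_mul]
    push_cast
    linear_combination (-(z.im : S) * y.im) * hw
  map_zero' := by simp
  map_add' z y := by
    simp only [QuadraticAlgebra.re_add, QuadraticAlgebra.im_add]; push_cast; ring

theorem phiO_om {S : Type*} [CommRing S] (w : S) (hw : w ^ 2 + w + 1 = 0) : phiO w hw om = w := by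
  simp [phiO, om]

theorem hom_apply_79 {S : Type*} [CommRing S] (φ : O →+* S) (z : O) :
    φ z = (z.re : S) + (z.im : S) * φ om := by
  have : z = (z.re : O) + (z.im : O) * om := by
    ext <;> simp [om]
  conv_lhs => rw [this]
  simp

theorem hom_ext_79 {S : Type*} [CommRing S] {φ ψ : O →+* S} (h : φ om = ψ om) : φ = ψ :=
  RingHom.ext fun z => by rw [hom_apply_79 φ, hom_apply_79 ψ, h]

/-- `χ` is the cubic residue character of `K` attached to the cube root of unity `w` -/
def IsCub {K : Type*} [Field K] [Fintype K] (w : K) (χ : MulChar K ℂ) : Prop :=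
  ∀ a : K, a ≠ 0 → ∃ k : ℕ, a ^ ((Fintype.card K - 1) / 3) = w ^ k ∧ χ a = omC ^ k

theorem sum_pow_79 (K : Type*) [Field K] [Fintype K] {i : ℕ} (hi : i ≠ 0) :
    ∑ x : K, x ^ i = if Fintype.card K - 1 ∣ i then -1 else 0 := by
  classical
  let φ : Kˣ ↪ K := ⟨fun x ↦ x, Units.val_injective⟩
  have : univ.map φ = univ \ {0} := by
    ext x
    simpa only [mem_map, mem_univ, Function.Embedding.coeFn_mk, true_and, mem_sdiff,
      mem_singleton, φ] using! isUnit_iff_ne_zero
  calc
    ∑ x : K, x ^ i = ∑ x ∈ univ \ {(0 : K)}, x ^ i := by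
      rw [← sum_sdiff ({0} : Finset K).subset_univ, sum_singleton, zero_pow hi, add_zero]
    _ = ∑ x : Kˣ, (x ^ i : K) := by simp [φ, ← this, univ.sum_map φ]
    _ = _ := FiniteField.sum_pow_units K i

theorem sum_poly_79 (K : Type*) [Field K] [Fintype K] {m : ℕ} (hm : m ≠ 0)
    (h : Fintype.card K - 1 = 3 * m) :
    ∑ x : K, x ^ (2 * m) * (1 - x) ^ (2 * m) = (-1) ^ (m + 1) * ((2 * m).choose m : K) := by
  simp only [sub_pow, mul_sum]
  rw [sum_comm, sum_eq_single m]
  · have := sum_pow_79 K (i := 2 * m + (2 * m - m)) (by omega)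
    rw [h, if_pos ⟨1, by omega⟩] at this
    simp only [pow_add] at this
    calc _ = (-1) ^ (m + 2 * m) * ((2 * m).choose m : K) * ∑ x : K, x ^ (2 * m) * x ^ (2 * m - m) := by
          rw [mul_sum]
          exact sum_congr rfl fun x _ => by ring
      _ = _ := by rw [this, pow_add, pow_mul]; ring
  · intro i hi him
    have hi' := mem_range.1 hi
    have := sum_pow_79 K (i := 2 * m + (2 * m - i)) (by omega)
    rw [h, if_neg] at this
    · simp only [pow_add] at this
      calc _ = (-1) ^ (i + 2 * m) * ((2 * m).choose i : K) *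
              ∑ x : K, x ^ (2 * m) * x ^ (2 * m - i) := by
            rw [mul_sum]
            exact sum_congr rfl fun x _ => by ring
        _ = 0 := by rw [this, mul_zero]
    · rintro ⟨c, hc⟩
      rcases Nat.lt_trichotomy c 1 with h1 | h1 | h1
      · have : c = 0 := by omega
        subst this; omega
      · subst h1; omega
      · have : 3 * m * 2 ≤ 3 * m * c := Nat.mul_le_mul_left _ h1
        omega
  · intro h1
    exact absurd (mem_range.2 (by omega)) h1

theorem not_dvd_choose_79 {p t : ℕ} (hp : p.Prime) (ht : p = 3 * t + 1) :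
    ∀ (f m : ℕ), p ^ f = 3 * m + 1 → ¬ p ∣ (2 * m).choose m := by
  have := Fact.mk hp
  intro f
  induction f with
  | zero =>
    intro m hm
    rw [pow_zero] at hm
    have : m = 0 := by omega
    subst this
    simpa using hp.one_lt.ne'
  | succ f ih =>
    intro m hm
    obtain ⟨n, hn⟩ : ∃ n, p ^ f = 3 * n + 1 := by
      have h1 : p ^ f % 3 = 1 := by
        rw [Nat.pow_mod, show p % 3 = 1 by omega]; simp
      exact ⟨p ^ f / 3, by omega⟩
    have hmn : m = t + p * n := by
      rw [pow_succ, hn] at hm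
      have : (3 * n + 1) * p = 3 * (p * n) + p := by ring
      omega
    have h1 := Choose.choose_modEq_choose_mod_mul_choose_div_nat (p := p) (n := 2 * m) (k := m)
    have e1 : 2 * m = 2 * t + p * (2 * n) := by rw [hmn]; ring
    have e2 : (2 * m) % p = 2 * t := by
      rw [e1, Nat.add_mul_mod_self_left, Nat.mod_eq_of_lt (by omega)]
    have e3 : (2 * m) / p = 2 * n := by
      rw [e1, Nat.add_mul_div_left _ _ hp.pos, Nat.div_eq_of_lt (by omega), zero_add]
    have e4 : m % p = t := by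
      rw [hmn, Nat.add_mul_mod_self_left, Nat.mod_eq_of_lt (by omega)]
    have e5 : m / p = n := by
      rw [hmn, Nat.add_mul_div_left _ _ hp.pos, Nat.div_eq_of_lt (by omega), zero_add]
    rw [e2, e3, e4, e5] at h1
    intro hd
    have h2 : p ∣ (2 * t).choose t * (2 * n).choose n :=
      (Nat.modEq_zero_iff_dvd.1 (h1.symm.trans (Nat.modEq_zero_iff_dvd.2 hd)))
    rcases (Nat.Prime.dvd_mul hp).1 h2 with h3 | h3
    · have h4 : (2 * t).choose t ∣ (2 * t).factorial :=
        Dvd.intro _ (by rw [← mul_assoc]; exact Nat.choose_mul_factorial_mul_factorial (by omega))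
      have := (Nat.Prime.dvd_factorial hp).1 (h3.trans h4)
      omega
    · exact ih n hn h3

section
variable {K : Type*} [Field K] [Fintype K]

theorem card_mod_79 {w : K} (hw : w ^ 2 + w + 1 = 0) (h3 : (3 : K) ≠ 0) :
    ∃ m, m ≠ 0 ∧ Fintype.card K - 1 = 3 * m := by
  classical
  have hw1 : w ≠ 1 := by
    rintro rfl
    apply h3; linear_combination hw
  have hw3 : w ^ 3 = 1 := by linear_combination (w - 1) * hw
  have hw0 : w ≠ 0 := by rintro rfl; simp at hw3
  have := Fact.mk Nat.prime_three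
  have h1 : orderOf (Units.mk0 w hw0) = 3 :=
    orderOf_eq_prime (Units.ext (by simpa using hw3)) fun h => hw1 (congrArg Units.val h)
  have h2 := orderOf_dvd_card (x := Units.mk0 w hw0)
  rw [h1, Fintype.card_units] at h2
  obtain ⟨m, hm⟩ := h2
  have := Fintype.one_lt_card (α := K)
  exact ⟨m, by omega, hm⟩

theorem IsCub.orderOf {w : K} (hw : w ^ 2 + w + 1 = 0) (h3 : (3 : K) ≠ 0) {χ : MulChar K ℂ}
    (hχ : IsCub w χ) : orderOf χ = 3 := by
  classical
  obtain ⟨m, hm0, hm⟩ := card_mod_79 hw h3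
  have := Fact.mk Nat.prime_three
  refine orderOf_eq_prime ?_ fun h => ?_
  · refine MulChar.ext fun a => ?_
    obtain ⟨k, -, hk⟩ := hχ a a.ne_zero
    rw [MulChar.pow_apply_coe, hk, MulChar.one_apply_coe, ← pow_mul, mul_comm, pow_mul,
      omC_prim_79.pow_eq_one, one_pow]
  · obtain ⟨g, hg⟩ := IsCyclic.exists_generator (α := Kˣ)
    have ho : _root_.orderOf g = 3 * m := by
      rw [orderOf_eq_card_of_forall_mem_zpowers hg, Nat.card_eq_fintype_card, Fintype.card_units, hm]
    obtain ⟨k, hk1, hk2⟩ := hχ g g.ne_zero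
    rw [h, MulChar.one_apply_coe] at hk2
    obtain ⟨j, rfl⟩ := (omC_prim_79.pow_eq_one_iff_dvd k).1 hk2.symm
    have hw3 : w ^ 3 = 1 := by linear_combination (w - 1) * hw
    rw [hm, Nat.mul_div_cancel_left _ three_pos, pow_mul, hw3, one_pow] at hk1
    have h4 : g ^ m = 1 := Units.ext (by simpa using hk1)
    have := Nat.le_of_dvd (Nat.pos_of_ne_zero hm0) (orderOf_dvd_of_pow_eq_one h4)
    omega


/-- the cubic Jacobi sum -/
theorem jacobi_79 (φ : O →+* K) {π : O} (hπ : Prime π) (hp : Primary π) (hφ : φ π = 0) {f : ℕ}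
    (hf : Fintype.card K = nm π ^ f) {χ : MulChar K ℂ} (hχ : IsCub (φ om) χ) :
    jacobiSum χ χ = -ι π ^ f := by
  classical
  have hker : ∀ z, φ z = 0 → π ∣ z := fun z hz => by
    by_contra h
    obtain ⟨u, v, huv⟩ := hπ.irreducible.coprime_iff_not_dvd.2 h
    have := congrArg φ huv
    simp [hφ, hz] at this
  have hw : φ om ^ 2 + φ om + 1 = 0 := by simpa using congrArg φ om_sq_add
  have h3 : (3 : K) ≠ 0 := fun h => by
    have h1 : π ∣ 3 := hker 3 (by rw [map_ofNat]; exact h)
    exact hπ.not_isUnit (hp.isCoprime_three.isUnit_of_dvd h1)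
  obtain ⟨m, hm0, hm⟩ := card_mod_79 hw h3
  have ho := hχ.orderOf hw h3
  have hχ3 : χ ^ 3 = 1 := ho ▸ pow_orderOf_eq_one χ
  have hc : ∀ x, ∃ c : O, ι c = χ x ∧ φ c = x ^ m ∧ ι (c ^ 2) = conj (χ x) := fun x => by
    by_cases hx : x = 0
    · exact ⟨0, by simp [hx, χ.map_zero], by simp [hx, hm0], by simp [hx, χ.map_zero]⟩
    · obtain ⟨k, hk1, hk2⟩ := hχ x hx
      rw [hm, Nat.mul_div_cancel_left _ three_pos] at hk1
      refine ⟨om ^ k, by rw [map_pow, ι_om, hk2], by rw [map_pow, hk1], ?_⟩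
      rw [hk2, map_pow, map_pow, map_pow, ι_om, conj_omC_79, ← pow_mul, ← pow_mul, mul_comm]
  choose c hc hc' hc'' using hc
  set J := ∑ x, c x * c (1 - x) with hJ
  set J' := ∑ x, c x ^ 2 * c (1 - x) ^ 2 with hJ'
  have h1 : ι J = jacobiSum χ χ := by simp only [hJ, map_sum, map_mul, hc, jacobiSum]
  have h1' : J' = cj J := ι_injective (by
    rw [ι_cj, h1]
    simp only [hJ', map_sum, map_mul, hc'', jacobiSum])
  have h2 : φ J' = (-1) ^ (m + 1) * ((2 * m).choose m : K) := by
    rw [← sum_poly_79 K hm0 hm]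
    simp only [hJ', map_sum, map_mul, map_pow, hc', ← pow_mul, mul_comm m 2]
  have h4 : Primary (-J) := by
    obtain ⟨z, hz, e⟩ := exists_jacobiSum_eq_neg_one_add (χ := χ) (ψ := χ) (n := 3) (by omega)
      hχ3 hχ3 ⟨m, hm⟩ omC_prim_79
    obtain ⟨w, rfl⟩ : z ∈ ι.toIntAlgHom.range :=
      Algebra.adjoin_le (Set.singleton_subset_iff.2 (ι.toIntAlgHom.mem_range.2 ⟨om, ι_om⟩)) hz
    have : J = -1 + w * (om - 1) ^ 2 := ι_injective (by simpa [h1, ι_om] using e)
    exact ⟨w * om, by linear_combination -this - w * om_sq_add⟩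
  have hne : ∀ j, 0 < j → j < 3 → χ ^ j ≠ 1 := fun j h0 hj =>
    pow_ne_one_of_lt_orderOf h0.ne' (ho ▸ hj)
  obtain ⟨e, hpp, he⟩ := FiniteField.card K (ringChar K)
  have h5 : nm J = nm π ^ f := by
    have hinv : χ⁻¹ = χ ^ 2 := by
      rw [inv_eq_iff_mul_eq_one, ← pow_succ', hχ3]
    have e1 := jacobiSum_mul_jacobiSum_inv (χ := χ) (φ := χ)
      (by rw [ringChar.eq_zero]; exact hpp.ne_zero.symm)
      (pow_one χ ▸ hne 1 one_pos (by omega)) (pow_one χ ▸ hne 1 one_pos (by omega))
      (pow_two χ ▸ hne 2 two_pos (by omega))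
    have e2 : ι J' = jacobiSum χ⁻¹ χ⁻¹ := by
      simp only [hJ', map_sum, map_mul, map_pow, hc, jacobiSum, hinv,
        MulChar.pow_apply' _ two_ne_zero]
    rw [← h1, ← e2, ← map_mul, h1', mul_cj, map_natCast, hf] at e1
    exact_mod_cast e1
  have h6 : J * J' = (π * cj π) ^ f := by
    rw [h1', mul_cj, h5, mul_cj]; push_cast; rfl
  have hπp : π ∣ (ringChar K : O) := hker _ (by rw [map_natCast]; exact ringChar.Nat.cast_ringChar)
  have hn1 : nm π ≠ 1 := fun h => hπ.not_isUnit (isUnit_iff_nm.2 h)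
  have hn0 : nm π ≠ 0 := fun h => hπ.ne_zero (nm_eq_zero.1 h)
  have hass : Associated J (π ^ f) := by
    have h7 : nm π ∣ ringChar K ^ 2 := by rw [← nm_natCast]; exact nm_dvd_of_dvd hπp
    obtain ⟨j, hj, hj'⟩ := (Nat.dvd_prime_pow hpp).1 h7
    interval_cases j
    · exact absurd hj' hn1
    · rw [pow_one] at hj'
      have h8 : ¬ π ∣ J' := by
        rintro ⟨t, ht⟩
        rw [ht, map_mul, hφ, zero_mul] at h2
        have h9 : (((2 * m).choose m : ℕ) : K) = 0 := by
          rcases mul_eq_zero.1 h2.symm with h | h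
          · exact absurd h (pow_ne_zero _ (neg_ne_zero.2 one_ne_zero))
          · exact h
        have h10 := nm_prime_mod hπ hp
        have h11 := Fintype.one_lt_card (α := K)
        refine not_dvd_choose_79 hpp (t := ringChar K / 3) (by omega) f m (by rw [← hj']; omega) ?_
        exact (ringChar.spec K _).1 h9
      have h9 : π ^ f ∣ J := by
        refine (hπ.irreducible.coprime_iff_not_dvd.2 h8).pow_left.dvd_of_dvd_mul_right ?_
        rw [h6, mul_pow]; exact dvd_mul_right _ _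
      obtain ⟨t, ht⟩ := h9
      have h10 : IsUnit t := by
        rw [ht, nm_mul, nm_pow] at h5
        exact isUnit_iff_nm.2 ((mul_eq_left₀ (pow_ne_zero _ hn0)).1 h5)
      rw [ht]; exact (associated_mul_unit_right _ _ h10).symm
    · obtain ⟨t, ht⟩ := hπp
      have h8 : IsUnit t := by
        have := congrArg nm ht
        rw [nm_natCast, nm_mul, ← hj'] at this
        exact isUnit_iff_nm.2 ((mul_eq_left₀ hn0).1 this.symm)
      have h9 : J ∣ π ^ (2 * f) := by
        have e1 : J * J' = π ^ (2 * f) * t ^ (2 * f) := by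
          rw [h6, mul_cj, hj', ← mul_pow, ← ht]; push_cast; rw [← pow_mul]
        exact (h8.pow _).dvd_mul_right.1 (e1 ▸ dvd_mul_right J J')
      obtain ⟨i, -, hi⟩ := (dvd_prime_pow hπ _).1 h9
      have h10 : nm J = nm π ^ i := by
        rw [← nm_pow]
        exact Nat.dvd_antisymm (nm_dvd_of_dvd hi.dvd) (nm_dvd_of_dvd hi.symm.dvd)
      have h11 : i = f := Nat.pow_right_injective (by omega) (h10.symm.trans h5)
      rwa [h11] at hi
  rw [← h1, ← map_pow, ← h4.eq_of_associated (hp.pow f) hass.neg_left, map_neg, neg_neg]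

/-- the cube of the cubic Gauss sum -/
theorem gauss_cube_79 (φ : O →+* K) {π : O} (hπ : Prime π) (hp : Primary π) (hφ : φ π = 0) {f : ℕ}
    (hf : Fintype.card K = nm π ^ f) {χ : MulChar K ℂ} (hχ : IsCub (φ om) χ)
    {ψ : AddChar K ℂ} (hψ : ψ ≠ 1) :
    gaussSum χ ψ ^ 3 = -(ι π ^ f) * (Fintype.card K : ℂ) := by
  have hw : φ om ^ 2 + φ om + 1 = 0 := by simpa using congrArg φ om_sq_add
  have h3 : (3 : K) ≠ 0 := fun h => by
    obtain ⟨u, v, huv⟩ := hp.isCoprime_three
    have := congrArg φ huv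
    simp [hφ, map_ofNat, h] at this
  have ho := hχ.orderOf hw h3
  have := gaussSum_pow_eq_prod_jacobiSum (χ := χ) (by omega) (AddChar.IsPrimitive.of_ne_one hψ)
  have e : χ (-1) = 1 := by
    have h1 : χ (-1) ^ 3 = 1 := by
      rw [← MulChar.pow_apply' _ three_ne_zero, ← ho, pow_orderOf_eq_one,
        MulChar.one_apply (isUnit_one.neg)]
    rw [← map_pow, show (-1 : K) ^ 3 = -1 by norm_num] at h1
    exact h1
  rw [ho, e] at this
  rw [this, ← jacobi_79 φ hπ hp hφ hf hχ]
  simp [mul_comm]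

end

end Crest.Agent.T27
end
end

-- ▼ part T27/GsNorm_79

/-!
# Row 27: the relative norm to `ℤ[ω]` and the Jacobi sum character of a number field `F ∋ ω`

`alphaF w x = ∏_{σ w = ω} σ x`; `nu w hw : 𝓞 F →* ℤ[ω]` is the relative norm; `AI w hw I` is the
product of the numbers `π ^ f` (minus the cubic Jacobi sums) over the prime factors of `I`.
Main result: `nu x = AI (x)` for `x ≡ 1 (mod 3)`.
-/

set_option autoImplicit false

noncomputable section

namespace Crest.Agent.T27

open R17 Finset NumberField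
open scoped ComplexConjugate nonZeroDivisors

theorem dvd_of_integral_79 {a b : O} (hb : b ≠ 0) {α : ℂ} (hα : IsIntegral ℤ α)
    (h : ι a = ι b * α) : b ∣ a := by
  obtain ⟨k, _, _, _⟩ : ∃ (k : Type) (_ : Field k) (_ : Algebra O k), IsFractionRing O k :=
    ⟨FractionRing O, inferInstance, inferInstance, inferInstance⟩
  let j : k →+* ℂ := IsFractionRing.lift ι_injective
  have hj : ∀ z : O, j (algebraMap O k z) = ι z := IsFractionRing.lift_algebraMap ι_injective
  have hb' : ι b ≠ 0 := (map_ne_zero_iff ι ι_injective).2 hb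
  have hbk : algebraMap O k b ≠ 0 := (map_ne_zero_iff _ (IsFractionRing.injective O k)).2 hb
  have h1 : j (algebraMap O k a / algebraMap O k b) = α := by
    rw [map_div₀, hj, hj, h, mul_div_cancel_left₀ _ hb']
  have h2 : IsIntegral ℤ (algebraMap O k a / algebraMap O k b) :=
    (isIntegral_algHom_iff j.toIntAlgHom j.injective).1 (by
      show IsIntegral ℤ (j _)
      rw [h1]; exact hα)
  obtain ⟨y, hy⟩ := IsIntegrallyClosed.isIntegral_iff.1 (h2.tower_top (A := O))
  refine ⟨y, IsFractionRing.injective O k ?_⟩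
  rw [map_mul, hy, mul_div_cancel₀ _ hbk]

theorem hom_inj_79 {S : Type*} [CommRing S] [IsDomain S] [CharZero S] (φ : O →+* S) :
    Function.Injective φ := by
  refine (injective_iff_map_eq_zero _).2 fun z hz => ?_
  have h := congrArg φ (mul_cj z)
  rw [map_mul, hz, zero_mul, map_natCast] at h
  exact nm_eq_zero.1 (Nat.cast_eq_zero.1 h.symm)

theorem prod_sub_prod_79 {α : Type*} (s : Finset α) (a b : α → ℂ) (c : ℂ)
    (ha : ∀ i, IsIntegral ℤ (a i)) (hb : ∀ i, IsIntegral ℤ (b i))
    (h : ∀ i ∈ s, ∃ β, IsIntegral ℤ β ∧ a i - b i = c * β) :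
    ∃ β, IsIntegral ℤ β ∧ ∏ i ∈ s, a i - ∏ i ∈ s, b i = c * β := by
  classical
  induction s using Finset.induction_on with
  | empty => exact ⟨0, isIntegral_zero, by simp⟩
  | insert i s hi ih =>
    obtain ⟨β, hβ, e⟩ := ih fun j hj => h j (mem_insert_of_mem hj)
    obtain ⟨γ, hγ, e'⟩ := h i (mem_insert_self _ _)
    refine ⟨a i * β + γ * ∏ j ∈ s, b j,
      ((ha i).mul hβ).add (hγ.mul (IsIntegral.prod _ fun j _ => hb j)), ?_⟩
    rw [prod_insert hi, prod_insert hi]
    linear_combination a i * e + (∏ j ∈ s, b j) * e'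

variable {F : Type*} [Field F] [NumberField F]

open Classical in
/-- the embeddings sending `w` to `ω` -/
def emb3 (w : F) : Finset (F →+* ℂ) := univ.filter fun σ => σ w = omC

/-- the product of the conjugates over the embeddings sending `w` to `ω` -/
def alphaF (w x : F) : ℂ := ∏ σ ∈ emb3 w, σ x

theorem mem_emb3 {w : F} {σ : F →+* ℂ} : σ ∈ emb3 w ↔ σ w = omC := by simp [emb3]

theorem alphaF_mul (w x y : F) : alphaF w (x * y) = alphaF w x * alphaF w y := by
  simp only [alphaF, map_mul, prod_mul_distrib]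

theorem alphaF_one (w : F) : alphaF w 1 = 1 := by simp [alphaF]


theorem omC_ne_conj_79 : conj omC ≠ omC := by
  rw [conj_omC_79]
  intro h
  have := omC_prim_79.pow_inj (i := 2) (j := 1) (by norm_num) (by norm_num) (by rwa [pow_one])
  omega

theorem emb_cases_79 {w : F} (hw : w ^ 2 + w + 1 = 0) (σ : F →+* ℂ) :
    σ w = omC ∨ conj (σ w) = omC := by
  have h1 : σ w ^ 2 + σ w + 1 = 0 := by simpa using congrArg σ hw
  have h2 : (σ w - omC) * (σ w - conj omC) = 0 := by
    rw [conj_omC_79]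
    linear_combination h1 + (omC - 1 - σ w) * omC_mul
  rcases mul_eq_zero.1 h2 with h | h
  · exact Or.inl (sub_eq_zero.1 h)
  · exact Or.inr (by rw [sub_eq_zero.1 h, Complex.conj_conj])

theorem alphaF_mul_conj {w : F} (hw : w ^ 2 + w + 1 = 0) (x : F) :
    alphaF w x * conj (alphaF w x) = (Algebra.norm ℚ x : ℂ) := by
  classical
  have h1 : ((Algebra.norm ℚ x : ℚ) : ℂ) = ∏ σ : F →+* ℂ, σ x := by
    have := Algebra.norm_eq_prod_embeddings ℚ ℂ x
    rw [eq_ratCast] at this
    rw [this, ← Fintype.prod_equiv (RingHom.equivRatAlgHom F ℂ) (fun f => f x) (fun φ => φ x)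
      fun _ => by simp [RingHom.equivRatAlgHom_apply]]
  rw [h1, ← prod_filter_mul_prod_filter_not univ (fun σ : F →+* ℂ => σ w = omC), alphaF, map_prod]
  congr 1
  refine prod_nbij' ComplexEmbedding.conjugate ComplexEmbedding.conjugate ?_ ?_ ?_ ?_ ?_
  · intro σ hσ
    simp only [mem_filter, mem_univ, true_and, ComplexEmbedding.conjugate_coe_eq,
      mem_emb3.1 hσ]
    exact omC_ne_conj_79
  · intro σ hσ
    exact mem_emb3.2 ((emb_cases_79 hw σ).resolve_left (mem_filter.1 hσ).2)
  · intro σ _; exact ComplexEmbedding.involutive_conjugate F σ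
  · intro σ _; exact ComplexEmbedding.involutive_conjugate F σ
  · intro σ _; rfl

theorem norm_alphaF_sq {w : F} (hw : w ^ 2 + w + 1 = 0) (x : F) :
    ‖alphaF w x‖ ^ 2 = (Algebra.norm ℚ x : ℝ) := by
  have := alphaF_mul_conj hw x
  rw [Complex.mul_conj, Complex.normSq_eq_norm_sq] at this
  exact_mod_cast this

theorem exists_alphaF {w : F} (hw : w ^ 2 + w + 1 = 0) {x : F} (hx : IsIntegral ℤ x) :
    ∃ z : O, ι z = alphaF w x := by
  classical
  obtain ⟨k, _, _, _⟩ : ∃ (k : Type) (_ : Field k) (_ : Algebra O k), IsFractionRing O k :=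
    ⟨FractionRing O, inferInstance, inferInstance, inferInstance⟩
  let φ : O →+* F := phiO w hw
  let jF : k →+* F := IsFractionRing.lift (hom_inj_79 φ)
  let jC : k →+* ℂ := IsFractionRing.lift ι_injective
  have hF : ∀ z : O, jF (algebraMap O k z) = φ z := IsFractionRing.lift_algebraMap _
  have hC : ∀ z : O, jC (algebraMap O k z) = ι z := IsFractionRing.lift_algebraMap _
  let _ : Algebra k F := jF.toAlgebra
  let _ : Algebra k ℂ := jC.toAlgebra
  have : CharZero k := jC.charZero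
  have : IsScalarTower ℚ k F := IsScalarTower.of_algebraMap_eq' (RingHom.ext_rat _ _)
  have : FiniteDimensional k F := Module.Finite.of_restrictScalars_finite ℚ k F
  have h1 := Algebra.norm_eq_prod_embeddings k ℂ x
  have h2 : ∏ σ : F →ₐ[k] ℂ, σ x = alphaF w x := by
    refine prod_bij (fun σ _ => (σ : F →+* ℂ)) (fun σ _ => mem_emb3.2 ?_)
      (fun σ _ τ _ h => AlgHom.coe_ringHom_injective h) (fun σ hσ => ?_) fun _ _ => rfl
    · have := σ.commutes (algebraMap O k om)
      change σ (jF _) = jC _ at this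
      rw [hF, hC, ι_om, phiO_om] at this
      exact this
    · have h3 : σ.comp φ = ι := hom_ext_79 (by
        rw [RingHom.comp_apply, phiO_om, ι_om]; exact mem_emb3.1 hσ)
      have h4 : σ.comp jF = jC := IsFractionRing.ringHom_ext (A := O) fun z => by
        rw [RingHom.comp_apply, hF, hC, ← h3, RingHom.comp_apply]
      exact ⟨{ σ with commutes' := fun r => DFunLike.congr_fun h4 r }, mem_univ _, rfl⟩
  have h3 : IsIntegral ℤ (Algebra.norm k x) := Algebra.isIntegral_norm k hx
  obtain ⟨y, hy⟩ := IsIntegrallyClosed.isIntegral_iff.1 (h3.tower_top (A := O))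
  exact ⟨y, by rw [← h2, ← h1, ← hy, ← hC]; rfl⟩

omit [NumberField F] in
theorem hw_coe_79 {w : 𝓞 F} (hw : w ^ 2 + w + 1 = 0) : (w : F) ^ 2 + w + 1 = 0 := by
  simpa using congrArg (algebraMap (𝓞 F) F) hw

/-- the relative norm `𝓞 F → ℤ[ω]` -/
def nu (w : 𝓞 F) (hw : w ^ 2 + w + 1 = 0) : 𝓞 F →* O where
  toFun x := (exists_alphaF (hw_coe_79 hw) x.isIntegral_coe).choose
  map_one' := ι_injective (by
    rw [(exists_alphaF (hw_coe_79 hw) (1 : 𝓞 F).isIntegral_coe).choose_spec, map_one, map_one,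
      alphaF_one])
  map_mul' x y := ι_injective (by
    rw [map_mul ι, (exists_alphaF (hw_coe_79 hw) (x * y).isIntegral_coe).choose_spec,
      (exists_alphaF (hw_coe_79 hw) x.isIntegral_coe).choose_spec,
      (exists_alphaF (hw_coe_79 hw) y.isIntegral_coe).choose_spec, map_mul, alphaF_mul])

variable {w : 𝓞 F} (hw : w ^ 2 + w + 1 = 0)

theorem ι_nu (x : 𝓞 F) : ι (nu w hw x) = alphaF (w : F) x :=
  (exists_alphaF (hw_coe_79 hw) x.isIntegral_coe).choose_spec

theorem emb_phiO {σ : F →+* ℂ} (hσ : σ ∈ emb3 (w : F)) (z : O) :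
    σ (phiO w hw z : 𝓞 F) = ι z := by
  have : (σ.comp (algebraMap (𝓞 F) F)).comp (phiO w hw) = ι := hom_ext_79 (by
    rw [RingHom.comp_apply, phiO_om, ι_om]; exact mem_emb3.1 hσ)
  exact DFunLike.congr_fun this z

theorem nu_phiO (z : O) : nu w hw (phiO w hw z) = z ^ (emb3 (w : F)).card := ι_injective (by
  rw [ι_nu, alphaF, prod_congr rfl fun σ hσ => emb_phiO hw hσ z, prod_const, map_pow])

theorem nm_nu (x : 𝓞 F) : nm (nu w hw x) = Ideal.absNorm (Ideal.span {x}) := by
  have h1 := norm_ι_sq (nu w hw x)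
  rw [ι_nu, norm_alphaF_sq (hw_coe_79 hw), ← Algebra.coe_norm_int] at h1
  have h2 : Algebra.norm ℤ x = nm (nu w hw x) := by
    unfold nr at h1
    exact_mod_cast h1
  rw [Ideal.absNorm_span_singleton, h2, Int.natAbs_natCast]

theorem nu_congr {m : O} (hm : m ≠ 0) {x y : 𝓞 F} (h : phiO w hw m ∣ x - y) :
    m ∣ nu w hw x - nu w hw y := by
  obtain ⟨t, ht⟩ := h
  obtain ⟨β, hβ, e⟩ := prod_sub_prod_79 (emb3 (w : F)) (fun σ => σ x) (fun σ => σ y) (ι m)
    (fun σ => x.isIntegral_coe.map σ.toIntAlgHom) (fun σ => y.isIntegral_coe.map σ.toIntAlgHom)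
    fun σ hσ => ⟨σ t, t.isIntegral_coe.map σ.toIntAlgHom, by
      rw [← emb_phiO hw hσ, ← map_sub, ← map_mul]
      exact congrArg (fun z : 𝓞 F => σ z) ht⟩
  exact dvd_of_integral_79 hm hβ (by rw [map_sub, ι_nu, ι_nu]; exact e)

theorem primary_nu {x : 𝓞 F} (h : (3 : 𝓞 F) ∣ x - 1) : Primary (nu w hw x) := by
  have := nu_congr hw (m := 3) (x := x) (y := 1) (fun h => by
      have h1 := nm_natCast 3
      rw [Nat.cast_ofNat, h, nm_zero] at h1
      omega)
    (by rwa [map_ofNat])
  rwa [map_one] at this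

omit [NumberField F] in
/-- the primary prime below a finite field -/
theorem exists_below_79 {K : Type*} [Field K] [Finite K] (φ : O →+* K) (h3 : (3 : K) ≠ 0) :
    ∃ (π : O) (f : ℕ), Prime π ∧ Primary π ∧ φ π = 0 ∧ Nat.card K = nm π ^ f := by
  have hP : (RingHom.ker φ).IsPrime := RingHom.ker_isPrime φ
  obtain ⟨g, hg⟩ := (IsPrincipalIdealRing.principal (RingHom.ker φ)).principal
  rw [Ideal.submodule_span_eq] at hg
  have hg0 : g ≠ 0 := by
    rintro rfl
    have h1 : ((Nat.card K : ℕ) : O) ∈ RingHom.ker φ := by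
      have := Fintype.ofFinite K
      rw [RingHom.mem_ker, map_natCast, Nat.card_eq_fintype_card]
      exact FiniteField.cast_card_eq_zero K
    rw [hg, Ideal.mem_span_singleton, zero_dvd_iff] at h1
    have h2 := congrArg nm h1
    rw [nm_natCast, nm_zero] at h2
    exact (Nat.card_pos (α := K)).ne' (pow_eq_zero_iff two_ne_zero |>.1 h2)
  have hgp : Prime g := (Ideal.span_singleton_prime hg0).1 (hg ▸ hP)
  have hφg : φ g = 0 := by
    rw [← RingHom.mem_ker, hg]; exact Ideal.mem_span_singleton_self g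
  have hl : ¬ lam ∣ g := fun h => by
    have h1 : g ∣ lam := (prime_lam.associated_of_dvd hgp h).symm.dvd
    obtain ⟨t, ht⟩ := h1
    have h2 := congrArg φ lam_sq
    rw [ht, map_pow, map_mul, hφg, map_neg, map_ofNat] at h2
    apply h3
    linear_combination h2
  obtain ⟨u, hu, hug⟩ := exists_unit_primary hl
  have hπ : Prime (u * g) := (associated_unit_mul_right g u hu).prime hgp
  have hφ : φ (u * g) = 0 := by rw [map_mul, hφg, mul_zero]
  have := PrincipalIdealRing.isMaximal_of_irreducible hπ.irreducible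
  let _ := Ideal.Quotient.field (Ideal.span {u * g})
  let _ : Algebra (O ⧸ Ideal.span {u * g}) K := (Ideal.Quotient.lift _ φ fun a ha => by
    obtain ⟨t, rfl⟩ := Ideal.mem_span_singleton.1 ha
    rw [map_mul, hφ, zero_mul]).toAlgebra
  refine ⟨u * g, Module.finrank (O ⧸ Ideal.span {u * g}) K, hπ, hug, hφ, ?_⟩
  rw [← card_quot hπ.ne_zero]
  exact Module.natCard_eq_pow_finrank

/-- `π` is the primary prime below `P` and `f` the residue degree -/
def Below (P : Ideal (𝓞 F)) (π : O) (f : ℕ) : Prop :=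
  Prime π ∧ Primary π ∧ phiO w hw π ∈ P ∧ Ideal.absNorm P = nm π ^ f

theorem exists_below {P : Ideal (𝓞 F)} (hP : P.IsMaximal) (h3 : (3 : 𝓞 F) ∉ P) :
    ∃ π f, Below hw P π f := by
  let _ := Ideal.Quotient.field P
  have : Finite (𝓞 F ⧸ P) := Ideal.finiteQuotientOfFreeOfNeBot P
    (Ring.ne_bot_of_isMaximal_of_not_isField hP (RingOfIntegers.not_isField F))
  obtain ⟨π, f, h1, h2, h4, h5⟩ := exists_below_79 ((Ideal.Quotient.mk P).comp (phiO w hw))
    (fun h => h3 (by rw [← Ideal.Quotient.eq_zero_iff_mem, map_ofNat]; exact h))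
  exact ⟨π, f, h1, h2, Ideal.Quotient.eq_zero_iff_mem.1 h4, h5⟩

theorem Below.unique {P : Ideal (𝓞 F)} (hP : P ≠ ⊤) {π π' : O} {f f' : ℕ} (h : Below hw P π f)
    (h' : Below hw P π' f') : π = π' ∧ f = f' := by
  have h1 : π = π' := by
    by_contra hne
    have h2 : ¬ π ∣ π' := fun hd =>
      hne (h.2.1.eq_of_associated h'.2.1 (h.1.associated_of_dvd h'.1 hd))
    obtain ⟨u, v, huv⟩ := h.1.irreducible.coprime_iff_not_dvd.2 h2
    apply hP
    rw [Ideal.eq_top_iff_one, ← map_one (phiO w hw), ← huv, map_add, map_mul, map_mul]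
    exact P.add_mem (P.mul_mem_left _ h.2.2.1) (P.mul_mem_left _ h'.2.2.1)
  subst h1
  have hn1 : nm π ≠ 1 := fun e => h.1.not_isUnit (isUnit_iff_nm.2 e)
  have hn0 : nm π ≠ 0 := fun e => h.1.ne_zero (nm_eq_zero.1 e)
  exact ⟨rfl, Nat.pow_right_injective (a := nm π) (by omega) (h.2.2.2.symm.trans h'.2.2.2)⟩

open Classical in
/-- minus the cubic Jacobi sum of a prime ideal (`1` for the primes above `3`) -/
def AP (P : Ideal (𝓞 F)) : O :=
  if h : ∃ x : O × ℕ, Below hw P x.1 x.2 then h.choose.1 ^ h.choose.2 else 1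

theorem AP_eq {P : Ideal (𝓞 F)} (hP : P ≠ ⊤) {π : O} {f : ℕ} (h : Below hw P π f) :
    AP hw P = π ^ f := by
  have h1 : ∃ x : O × ℕ, Below hw P x.1 x.2 := ⟨(π, f), h⟩
  obtain ⟨e1, e2⟩ := h1.choose_spec.unique hw hP h
  rw [AP, dif_pos h1, e1, e2]

theorem primary_AP (P : Ideal (𝓞 F)) : Primary (AP hw P) := by
  unfold AP
  split_ifs with h
  · exact h.choose_spec.2.1.pow _
  · exact primary_one

open Classical in
/-- the Jacobi sum character -/
def AI (I : Ideal (𝓞 F)) : O :=
  ((UniqueFactorizationMonoid.normalizedFactors I).map (AP hw)).prod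

theorem AI_mul {I J : Ideal (𝓞 F)} (hI : I ≠ 0) (hJ : J ≠ 0) :
    AI hw (I * J) = AI hw I * AI hw J := by
  rw [AI, UniqueFactorizationMonoid.normalizedFactors_mul hI hJ, Multiset.map_add,
    Multiset.prod_add, AI, AI]

theorem AI_one : AI hw 1 = 1 := by
  rw [AI, UniqueFactorizationMonoid.normalizedFactors_one]; rfl

theorem AI_prime {P : Ideal (𝓞 F)} (hP : Prime P) : AI hw P = AP hw P := by
  rw [AI, UniqueFactorizationMonoid.normalizedFactors_irreducible hP.irreducible, normalize_eq]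
  simp

theorem AI_pow {I : Ideal (𝓞 F)} (hI : I ≠ 0) (n : ℕ) : AI hw (I ^ n) = AI hw I ^ n := by
  induction n with
  | zero => rw [pow_zero, pow_zero, AI_one]
  | succ n ih => rw [pow_succ, AI_mul hw (pow_ne_zero _ hI) hI, ih, pow_succ]

theorem AI_prod {α : Type*} (s : Finset α) (I : α → Ideal (𝓞 F)) (hI : ∀ i ∈ s, I i ≠ 0) :
    AI hw (∏ i ∈ s, I i) = ∏ i ∈ s, AI hw (I i) := by
  classical
  induction s using Finset.induction_on with
  | empty => simpa using AI_one hw
  | insert i s hi ih =>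
    have h1 := fun j hj => hI j (mem_insert_of_mem hj)
    rw [prod_insert hi, prod_insert hi,
      AI_mul hw (hI i (mem_insert_self _ _)) (prod_ne_zero_iff.2 h1), ih h1]

theorem primary_AI (I : Ideal (𝓞 F)) : Primary (AI hw I) := by
  unfold AI
  refine Multiset.prod_induction _ _ (fun a b => Primary.mul) primary_one fun a ha => ?_
  obtain ⟨P, -, rfl⟩ := Multiset.mem_map.1 ha
  exact primary_AP hw P

theorem nu_assoc {x y : 𝓞 F} (h : Ideal.span {x} = Ideal.span {y}) :
    Associated (nu w hw x) (nu w hw y) := by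
  obtain ⟨u, hu⟩ := Ideal.span_singleton_eq_span_singleton.1 h
  rw [← hu, map_mul]
  exact associated_mul_unit_right _ _ (u.isUnit.map _)

theorem exists_pow_gen (I : Ideal (𝓞 F)) : I ≠ 0 → IsCoprime I (Ideal.span {3}) →
    ∃ y, I ^ Fintype.card (ClassGroup (𝓞 F)) = Ideal.span {y} ∧
      Associated (nu w hw y) (AI hw I ^ Fintype.card (ClassGroup (𝓞 F))) := by
  set h := Fintype.card (ClassGroup (𝓞 F)) with hh
  have hh0 : h ≠ 0 := Fintype.card_ne_zero
  refine UniqueFactorizationMonoid.induction_on_prime I (fun h => absurd rfl h) ?_ ?_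
  · intro I hI _ _
    rw [Ideal.isUnit_iff, ← Ideal.one_eq_top] at hI
    subst hI
    exact ⟨1, by simp, by rw [AI_one, one_pow, map_one]⟩
  · intro I P hI hP ih _ hc
    obtain ⟨y, hy1, hy2⟩ := ih hI hc.of_mul_left_right
    have hPm : P.IsMaximal := (Ideal.isPrime_of_prime hP).isMaximal hP.ne_zero
    have h3 : (3 : 𝓞 F) ∉ P := fun h3 => by
      have := Ideal.isCoprime_iff_sup_eq.1 hc.of_mul_left_left
      rw [sup_eq_left.2 ((Ideal.span_singleton_le_iff_mem _).2 h3)] at this
      exact hPm.ne_top this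
    obtain ⟨π, f, hb⟩ := exists_below hw hPm h3
    have hmem : P ∈ (Ideal (𝓞 F))⁰ := mem_nonZeroDivisors_of_ne_zero hP.ne_zero
    have h1 : ClassGroup.mk0 (⟨P, hmem⟩ ^ h) = 1 := by rw [map_pow, pow_card_eq_one]
    obtain ⟨x, hx⟩ := ((ClassGroup.mk0_eq_one_iff (pow_mem hmem h)).1 h1).principal
    rw [Ideal.submodule_span_eq] at hx
    have h2 : x ∣ phiO w hw (π ^ h) := by
      rw [← Ideal.mem_span_singleton, ← hx, map_pow]
      exact Ideal.pow_mem_pow hb.2.2.1 h
    have h4 : nu w hw x ∣ π ^ (h * (emb3 (w : F)).card) := by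
      rw [pow_mul, ← nu_phiO hw]; exact map_dvd _ h2
    obtain ⟨i, -, hi⟩ := (dvd_prime_pow hb.1 _).1 h4
    have hn1 : nm π ≠ 1 := fun e => hb.1.not_isUnit (isUnit_iff_nm.2 e)
    have hn0 : nm π ≠ 0 := fun e => hb.1.ne_zero (nm_eq_zero.1 e)
    have h5 : nm π ^ i = nm π ^ (f * h) := by
      rw [← nm_pow, ← Nat.dvd_antisymm (nm_dvd_of_dvd hi.dvd) (nm_dvd_of_dvd hi.symm.dvd), nm_nu,
        ← hx, map_pow, hb.2.2.2, pow_mul]
    have h6 : i = f * h := Nat.pow_right_injective (a := nm π) (by omega) h5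
    refine ⟨x * y, by rw [mul_pow, hx, hy1, Ideal.span_singleton_mul_span_singleton], ?_⟩
    rw [map_mul, AI_mul hw hP.ne_zero hI, mul_pow, AI_prime hw hP, AP_eq hw hPm.ne_top hb,
      ← pow_mul, ← h6]
    exact hi.mul_mul hy2

/-- the relative norm generates the same ideal as the Jacobi sum character -/
theorem nu_assoc_AI {x : 𝓞 F} (hx : IsCoprime x 3) :
    Associated (nu w hw x) (AI hw (Ideal.span {x})) := by
  have hx0 : x ≠ 0 := by
    rintro rfl
    have h1 := (isCoprime_zero_left.1 hx).map (nu w hw)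
    have h2 := nu_phiO hw 3
    rw [map_ofNat] at h2
    have h3 := nm_nu hw 3
    rw [isUnit_iff_nm.1 h1] at h3
    have h4 := Ideal.absNorm_span_natCast (S := 𝓞 F) 3
    rw [Nat.cast_ofNat, ← h3, RingOfIntegers.rank] at h4
    have : 1 < 3 ^ Module.finrank ℚ F := Nat.one_lt_pow Module.finrank_pos.ne' (by norm_num)
    omega
  obtain ⟨y, hy1, hy2⟩ := exists_pow_gen hw (Ideal.span {x})
    (by rwa [Ne, Ideal.zero_eq_bot, Ideal.span_singleton_eq_bot])
    ((Ideal.isCoprime_span_singleton_iff _ _).2 hx)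
  rw [Ideal.span_singleton_pow] at hy1
  have h1 := (nu_assoc hw hy1).trans hy2
  rw [map_pow] at h1
  exact associated_of_dvd_dvd ((IsIntegrallyClosed.pow_dvd_pow_iff Fintype.card_ne_zero).1 h1.dvd)
    ((IsIntegrallyClosed.pow_dvd_pow_iff Fintype.card_ne_zero).1 h1.symm.dvd)

/-- **Main theorem**: for `x ≡ 1 (mod 3)` the Jacobi sum character is the relative norm. -/
theorem nu_eq_AI {x : 𝓞 F} (hx : (3 : 𝓞 F) ∣ x - 1) : nu w hw x = AI hw (Ideal.span {x}) := by
  refine (primary_nu hw hx).eq_of_associated (primary_AI hw _) (nu_assoc_AI hw ?_)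
  obtain ⟨t, ht⟩ := hx
  exact ⟨1, -t, by linear_combination ht⟩

theorem ι_AI {x : 𝓞 F} (hx : (3 : 𝓞 F) ∣ x - 1) :
    ι (AI hw (Ideal.span {x})) = alphaF (w : F) x := by rw [← nu_eq_AI hw hx, ι_nu]

/-- the cubic Jacobi sum of a prime ideal -/
theorem jacobi_AP {P : Ideal (𝓞 F)} [hP : P.IsMaximal] (h3 : (3 : 𝓞 F) ∉ P) {K : Type*} [Field K]
    [Fintype K] (ρ : 𝓞 F →+* K) (hρ : ∀ x ∈ P, ρ x = 0) (hc : Fintype.card K = Ideal.absNorm P)
    {χ : MulChar K ℂ} (hχ : IsCub (ρ w) χ) :
    jacobiSum χ χ = -ι (AP hw P) ∧ nm (AP hw P) = Fintype.card K ∧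
      ∀ ψ : AddChar K ℂ, ψ ≠ 1 → gaussSum χ ψ ^ 3 = -ι (AP hw P) * (Fintype.card K : ℂ) := by
  obtain ⟨π, f, hb⟩ := exists_below hw hP h3
  have hχ' : IsCub ((ρ.comp (phiO w hw)) om) χ := by rwa [RingHom.comp_apply, phiO_om]
  rw [AP_eq hw hP.ne_top hb, map_pow, nm_pow, hc]
  refine ⟨jacobi_79 _ hb.1 hb.2.1 (hρ _ hb.2.2.1) (hc.trans hb.2.2.2) hχ', hb.2.2.2.symm,
    fun ψ hψ => ?_⟩
  rw [← hc]
  exact gauss_cube_79 _ hb.1 hb.2.1 (hρ _ hb.2.2.1) (hc.trans hb.2.2.2) hχ' hψ

end Crest.Agent.T27
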