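import Mathlib

/-!
# Row 27, S-arithmetic, part 1 (helper77)

For a number field `F` and `N : ℕ`:
* `RS F N = O_F[1/N]`, `LS F N = O_F[1/d : gcd(d,N)=1]` (subrings of `F`),
* `SGood F N` : `6 ∣ N`, `disc F ∣ N`, `N ≠ 0`, `RS F N` is a principal ideal domain,
* `PJ F N j = 1 + N^j LS` (subgroup of `Fˣ`), `UR F N`, `UL F N` the unit groups inside `Fˣ`,
* approximation `F = RS + y LS`, `RS ∩ LS = O_F`.
-/

set_option autoImplicit false
set_option linter.unusedSectionVars false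

noncomputable section

open NumberField
open scoped nonZeroDivisors

namespace Crest.Agent.T27

/-- The elements of `F` whose denominator divides an element of `M`. -/
def LocS (F : Type*) [Field F] (M : Submonoid ℕ) : Subring F where
  carrier := {x | ∃ d ∈ M, IsIntegral ℤ ((d : F) * x)}
  mul_mem' := by
    rintro x y ⟨d, hd, hx⟩ ⟨e, he, hy⟩
    refine ⟨d * e, M.mul_mem hd he, ?_⟩
    have : ((d * e : ℕ) : F) * (x * y) = (d * x) * (e * y) := by push_cast; ring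
    rw [this]; exact hx.mul hy
  one_mem' := ⟨1, M.one_mem, by simpa using isIntegral_one⟩
  add_mem' := by
    rintro x y ⟨d, hd, hx⟩ ⟨e, he, hy⟩
    refine ⟨d * e, M.mul_mem hd he, ?_⟩
    have : ((d * e : ℕ) : F) * (x + y) = e * (d * x) + d * (e * y) := by push_cast; ring
    rw [this]
    exact ((isIntegral_natCast e).mul hx).add ((isIntegral_natCast d).mul hy)
  zero_mem' := ⟨1, M.one_mem, by simpa using isIntegral_zero⟩
  neg_mem' := by
    rintro x ⟨d, hd, hx⟩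
    exact ⟨d, hd, by simpa using hx.neg⟩

/-- The natural numbers coprime to `N`. -/
def copM (N : ℕ) : Submonoid ℕ where
  carrier := {d | d.Coprime N}
  mul_mem' := fun h1 h2 => Nat.Coprime.mul_left h1 h2
  one_mem' := Nat.coprime_one_left N

/-- `R = O_F[1/N]`. -/
abbrev RS (F : Type*) [Field F] (N : ℕ) : Subring F := LocS F (Submonoid.powers N)

/-- `Λ = O_S`, the elements of `F` that are integral at all primes above `N`. -/
abbrev LS (F : Type*) [Field F] (N : ℕ) : Subring F := LocS F (copM N)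

/-- Admissible `N`. -/
class SGood (F : Type*) [Field F] [NumberField F] (N : ℕ) : Prop where
  ne : N ≠ 0
  six : 6 ∣ N
  disc : (discr F).natAbs ∣ N
  pid : IsPrincipalIdealRing (RS F N)

section loc

variable {F : Type*} [Field F] {M : Submonoid ℕ}


theorem mem_LocS_of_isIntegral {x : F} (hx : IsIntegral ℤ x) : x ∈ LocS F M :=
  ⟨1, M.one_mem, by simpa using hx⟩

theorem coe_mem_LocS (a : 𝓞 F) : (a : F) ∈ LocS F M := mem_LocS_of_isIntegral a.isIntegral_coe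


instance algLocS : Algebra (𝓞 F) (LocS F M) :=
  ((algebraMap (𝓞 F) F).codRestrict (LocS F M) coe_mem_LocS).toAlgebra

@[simp] theorem coe_algebraMap_LocS (a : 𝓞 F) :
    ((algebraMap (𝓞 F) (LocS F M) a : LocS F M) : F) = a := rfl

instance towerLocS : IsScalarTower (𝓞 F) (LocS F M) F :=
  IsScalarTower.of_algebraMap_eq fun _ => rfl

theorem algebraMap_LocS_injective : Function.Injective (algebraMap (𝓞 F) (LocS F M)) :=
  fun a b h => RingOfIntegers.ext (by simpa using congrArg (fun x : LocS F M => (x : F)) h)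

theorem exists_eq_of_mem_LocS {x : F} (hx : x ∈ LocS F M) :
    ∃ d ∈ M, ∃ a : 𝓞 F, (d : F) * x = a := by
  obtain ⟨d, hd, h⟩ := hx
  exact ⟨d, hd, ⟨_, h⟩, rfl⟩

variable [CharZero F]

theorem inv_mem_LocS {d e : ℕ} (he : e ∈ M) (he0 : e ≠ 0) (h : d ∣ e) :
    (d : F)⁻¹ ∈ LocS F M := by
  obtain ⟨c, rfl⟩ := h
  have hd : (d : F) ≠ 0 := by exact_mod_cast left_ne_zero_of_mul he0
  refine ⟨d * c, he, ?_⟩
  have : ((d * c : ℕ) : F) * (d : F)⁻¹ = c := by push_cast; field_simp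
  rw [this]; exact isIntegral_natCast c

/-- the image of `M` in `𝓞 F` -/
abbrev castM (F : Type*) [Field F] (M : Submonoid ℕ) : Submonoid (𝓞 F) :=
  M.map (Nat.castRingHom (𝓞 F))

theorem castM_le (h0 : 0 ∉ M) : castM F M ≤ (𝓞 F)⁰ := by
  rintro _ ⟨d, hd, rfl⟩
  refine mem_nonZeroDivisors_of_ne_zero ?_
  have : d ≠ 0 := fun h => h0 (h ▸ hd)
  simpa using this

theorem isUnit_natCast_LocS (h0 : 0 ∉ M) {d e : ℕ} (he : e ∈ M) (h : d ∣ e) :
    IsUnit (d : LocS F M) := by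
  have he0 : e ≠ 0 := fun h => h0 (h ▸ he)
  have hd : (d : F) ≠ 0 := by exact_mod_cast ne_zero_of_dvd_ne_zero he0 h
  refine IsUnit.of_mul_eq_one ⟨_, inv_mem_LocS he he0 h⟩ (Subtype.ext ?_)
  simp [hd]

theorem isLocalization_LocS (h0 : 0 ∉ M) : IsLocalization (castM F M) (LocS F M) where
  map_units := by
    rintro ⟨_, d, hd, rfl⟩
    simpa using isUnit_natCast_LocS (F := F) h0 hd dvd_rfl
  surj := by
    rintro ⟨x, hx⟩
    obtain ⟨d, hd, a, h⟩ := exists_eq_of_mem_LocS hx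
    refine ⟨⟨a, ⟨d, d, hd, rfl⟩⟩, Subtype.ext ?_⟩
    simp [← h, mul_comm]
  exists_of_eq := fun h => ⟨1, by rw [algebraMap_LocS_injective h]⟩

end loc

section nf

variable {F : Type*} [Field F] [NumberField F] {M : Submonoid ℕ}

theorem exists_nat_mul_eq (x : F) : ∃ m : ℕ, m ≠ 0 ∧ ∃ a : 𝓞 F, (m : F) * x = a := by
  obtain ⟨a, b, hb, rfl⟩ := IsFractionRing.div_surjective (A := 𝓞 F) x
  have hb0 : b ≠ 0 := nonZeroDivisors.ne_zero hb
  obtain ⟨c, hc⟩ := Ideal.mem_span_singleton'.1 (Ideal.absNorm_mem (Ideal.span {b}))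
  refine ⟨Ideal.absNorm (Ideal.span {b}), by simpa using hb0, c * a, ?_⟩
  have h1 : (algebraMap (𝓞 F) F b) ≠ 0 := by simpa using hb0
  have h2 := congrArg (algebraMap (𝓞 F) F) hc
  rw [map_mul, map_natCast] at h2
  rw [← h2]
  change _ = algebraMap (𝓞 F) F (c * a)
  rw [map_mul]; field_simp

instance isFractionRing_LocS : IsFractionRing (LocS F M) F where
  map_units := fun y => IsUnit.mk0 _ (by
    have := nonZeroDivisors.ne_zero y.2
    simp [this])
  surj := fun x => by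
    obtain ⟨m, hm, a, h⟩ := exists_nat_mul_eq x
    refine ⟨⟨⟨a, coe_mem_LocS a⟩, ⟨m, mem_nonZeroDivisors_of_ne_zero (by exact_mod_cast hm)⟩⟩, ?_⟩
    change x * (m : F) = (a : F)
    rw [← h, mul_comm]
  exists_of_eq := fun h => ⟨1, by rw [Subtype.ext h]⟩

theorem isDedekindDomain_LocS (h0 : 0 ∉ M) : IsDedekindDomain (LocS F M) :=
  haveI := isLocalization_LocS (F := F) h0
  IsLocalization.isDedekindDomain (𝓞 F) (castM_le h0) (LocS F M)

end nf

section two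

variable {F : Type*} [Field F] {N : ℕ}

theorem mem_RS {x : F} : x ∈ RS F N ↔ ∃ k : ℕ, IsIntegral ℤ ((N : F) ^ k * x) := by
  constructor
  · rintro ⟨_, ⟨k, rfl⟩, h⟩
    exact ⟨k, by simpa using h⟩
  · rintro ⟨k, h⟩
    exact ⟨N ^ k, ⟨k, rfl⟩, by simpa using h⟩

theorem mem_LS {x : F} : x ∈ LS F N ↔ ∃ d : ℕ, d.Coprime N ∧ IsIntegral ℤ ((d : F) * x) := Iff.rfl

theorem exists_eq_of_mem_RS {x : F} (hx : x ∈ RS F N) :
    ∃ (k : ℕ) (a : 𝓞 F), (N : F) ^ k * x = a := by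
  obtain ⟨k, h⟩ := mem_RS.1 hx
  exact ⟨k, ⟨_, h⟩, rfl⟩

theorem exists_eq_of_mem_LS {x : F} (hx : x ∈ LS F N) :
    ∃ d : ℕ, d.Coprime N ∧ ∃ a : 𝓞 F, (d : F) * x = a := exists_eq_of_mem_LocS hx

theorem zero_notMem_powers (hN : N ≠ 0) : 0 ∉ Submonoid.powers N := by
  rintro ⟨k, h⟩
  exact pow_ne_zero k hN h

theorem zero_notMem_copM (hN : N ≠ 1) : 0 ∉ copM N := fun h => hN (by
  simpa using (show Nat.Coprime 0 N from h))

theorem bezout_cast {a b : ℕ} (h : a.Coprime b) (A : Type*) [CommRing A] :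
    ∃ u v : ℤ, (u : A) * a + (v : A) * b = 1 := by
  obtain ⟨u, v, huv⟩ := (Nat.isCoprime_iff_coprime.2 h : IsCoprime (a : ℤ) b)
  refine ⟨u, v, ?_⟩
  have := congrArg (Int.cast : ℤ → A) huv
  simpa using this

/-- `R ∩ Λ = O`. -/
theorem isIntegral_of_mem_RS_LS {x : F} (h1 : x ∈ RS F N) (h2 : x ∈ LS F N) :
    IsIntegral ℤ x := by
  obtain ⟨k, hk⟩ := mem_RS.1 h1
  obtain ⟨d, hd, hx⟩ := mem_LS.1 h2
  obtain ⟨u, v, h⟩ := bezout_cast (hd.pow_right k) F
  have : x = u * (d * x) + v * ((N : F) ^ k * x) := by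
    push_cast at h
    linear_combination (-x) * h
  rw [this]
  exact ((isIntegral_intCast u).mul hx).add ((isIntegral_intCast v).mul hk)

theorem exists_coe_of_mem_RS_LS {x : F} (h1 : x ∈ RS F N) (h2 : x ∈ LS F N) :
    ∃ a : 𝓞 F, (a : F) = x := ⟨⟨x, isIntegral_of_mem_RS_LS h1 h2⟩, rfl⟩

theorem exists_split (N : ℕ) {m : ℕ} (hm : m ≠ 0) :
    ∃ k a b : ℕ, m = a * b ∧ a ∣ N ^ k ∧ b.Coprime N := by
  induction m using Nat.recOnMul with
  | zero => exact absurd rfl hm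
  | one => exact ⟨0, 1, 1, rfl, by simp, by simp⟩
  | prime p hp =>
    by_cases h : p ∣ N
    · exact ⟨1, p, 1, by simp, by simpa using h, by simp⟩
    · exact ⟨0, 1, p, by simp, by simp, (Nat.Prime.coprime_iff_not_dvd hp).2 h⟩
  | mul a b iha ihb =>
    obtain ⟨k, a1, a2, rfl, h1, h2⟩ := iha (left_ne_zero_of_mul hm)
    obtain ⟨l, b1, b2, rfl, h3, h4⟩ := ihb (right_ne_zero_of_mul hm)
    exact ⟨k + l, a1 * b1, a2 * b2, by ring, by rw [pow_add]; exact mul_dvd_mul h1 h3,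
      Nat.Coprime.mul_left h2 h4⟩

variable [NumberField F]

theorem exists_denoms (_hN : N ≠ 0) (x : F) :
    ∃ (k d : ℕ), d ≠ 0 ∧ d.Coprime N ∧ IsIntegral ℤ ((N : F) ^ k * d * x) := by
  obtain ⟨m, hm, a, h⟩ := exists_nat_mul_eq x
  obtain ⟨k, a1, b, rfl, ⟨c, hc⟩, h2⟩ := exists_split N hm
  refine ⟨k, b, right_ne_zero_of_mul hm, h2, ?_⟩
  have : (N : F) ^ k * b * x = c * a := by
    rw [← h, ← Nat.cast_pow, hc]; push_cast; ring
  rw [this]
  exact (isIntegral_natCast c).mul a.isIntegral_coe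

theorem exists_pow_mul_mem_LS (hN : N ≠ 0) (x : F) : ∃ k : ℕ, (N : F) ^ k * x ∈ LS F N := by
  obtain ⟨k, d, -, hd, h⟩ := exists_denoms hN x
  exact ⟨k, d, hd, by rwa [← mul_assoc, mul_comm (d : F)]⟩

theorem exists_cop_mul_mem_RS (hN : N ≠ 0) (x : F) :
    ∃ d : ℕ, d ≠ 0 ∧ d.Coprime N ∧ (d : F) * x ∈ RS F N := by
  obtain ⟨k, d, h0, hd, h⟩ := exists_denoms hN x
  exact ⟨d, h0, hd, mem_RS.2 ⟨k, by rwa [← mul_assoc]⟩⟩

/-- `F = R + N^j Λ`. -/
theorem exists_add_pow (hN : N ≠ 0) (j : ℕ) (x : F) :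
    ∃ r ∈ RS F N, ∃ l ∈ LS F N, x = r + (N : F) ^ j * l := by
  obtain ⟨k, hk⟩ := exists_pow_mul_mem_LS hN x
  obtain ⟨d, -, hd, hx⟩ := exists_cop_mul_mem_RS hN x
  obtain ⟨u, v, h⟩ := bezout_cast (hd.pow_right (j + k)) F
  refine ⟨u * (d * x), Subring.mul_mem _ (intCast_mem _ u) hx, v * ((N : F) ^ k * x),
    Subring.mul_mem _ (intCast_mem _ v) hk, ?_⟩
  push_cast at h
  rw [pow_add] at h
  linear_combination (-x) * h

/-- `F = R + y Λ` for `y ≠ 0`. -/
theorem exists_add_mul (hN : N ≠ 0) {y : F} (hy : y ≠ 0) (x : F) :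
    ∃ r ∈ RS F N, ∃ l ∈ LS F N, x = r + y * l := by
  obtain ⟨k, hk⟩ := exists_pow_mul_mem_LS hN y⁻¹
  obtain ⟨r, hr, l, hl, h⟩ := exists_add_pow hN k x
  refine ⟨r, hr, (N : F) ^ k * y⁻¹ * l, Subring.mul_mem _ hk hl, ?_⟩
  rw [h]; field_simp

/-- Strong approximation: `x ≡ a mod m R`, `x ≡ b mod y Λ` is solvable in `F`. -/
theorem exists_approx (hN : N ≠ 0) {m y : F} (hm : m ≠ 0) (hy : y ≠ 0) (a b : F) :
    ∃ x : F, (∃ r ∈ RS F N, x = a + m * r) ∧ ∃ l ∈ LS F N, x = b + y * l := by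
  obtain ⟨r, hr, l, hl, h⟩ := exists_add_mul hN (div_ne_zero hy hm) ((a - b) / m)
  refine ⟨a - m * r, ⟨-r, neg_mem hr, by ring⟩, l, hl, ?_⟩
  field_simp at h
  linear_combination h

/-- Strong approximation inside `O`. -/
theorem exists_approx_int (hN : N ≠ 0) {m y a b : F} (hm : m ≠ 0) (hy : y ≠ 0)
    (hmR : m ∈ RS F N) (hyL : y ∈ LS F N) (ha : a ∈ RS F N) (hb : b ∈ LS F N) :
    ∃ x : 𝓞 F, (∃ r ∈ RS F N, (x : F) = a + m * r) ∧ ∃ l ∈ LS F N, (x : F) = b + y * l := by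
  obtain ⟨x, ⟨r, hr, h1⟩, l, hl, h2⟩ := exists_approx hN hm hy a b
  obtain ⟨x, rfl⟩ := exists_coe_of_mem_RS_LS (N := N) (x := x)
    (h1 ▸ add_mem ha (mul_mem hmR hr)) (h2 ▸ add_mem hb (mul_mem hyL hl))
  exact ⟨x, ⟨r, hr, h1⟩, l, hl, h2⟩

theorem exists_dvd_pow_sub_one {c e : 𝓞 F} (hc : c ≠ 0) (h : IsCoprime c e) :
    ∃ k : ℕ, 0 < k ∧ c ∣ e ^ k - 1 := by
  have hI : Ideal.span {c} ≠ ⊥ := by simpa using hc
  have : Finite (𝓞 F ⧸ Ideal.span {c}) := Ideal.finiteQuotientOfFreeOfNeBot _ hI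
  obtain ⟨u, v, huv⟩ := h
  have hu : IsUnit (Ideal.Quotient.mk (Ideal.span {c}) e) := by
    refine IsUnit.of_mul_eq_one (Ideal.Quotient.mk _ v) ?_
    rw [← map_mul, ← map_one (Ideal.Quotient.mk _), Ideal.Quotient.eq, Ideal.mem_span_singleton]
    exact ⟨-u, by linear_combination huv⟩
  obtain ⟨k, hk, h1⟩ := (isOfFinOrder_of_finite hu.unit).exists_pow_eq_one
  refine ⟨k, hk, ?_⟩
  rw [← Ideal.mem_span_singleton, ← Ideal.Quotient.eq, map_pow, map_one]
  simpa using congrArg Units.val h1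

/-- An algebraic integer coprime to `N` is invertible in `Λ`. -/
theorem inv_mem_LS_of_isCoprime (hN : N ≠ 0) {c : 𝓞 F} (h : IsCoprime c (N : 𝓞 F)) :
    (c : F)⁻¹ ∈ LS F N := by
  by_cases hc : c = 0
  · simp [hc]
  obtain ⟨k, hk, c', h1⟩ := exists_dvd_pow_sub_one hc h
  have h2 : 1 ≤ N ^ k := Nat.one_le_iff_ne_zero.2 (pow_ne_zero k hN)
  refine ⟨N ^ k - 1, ?_, ?_⟩
  · have h3 : (N ^ k - 1).Coprime (N ^ k) := by
      rw [Nat.coprime_comm]
      exact (Nat.coprime_self_sub_right h2).2 (Nat.coprime_one_right _)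
    exact h3.of_dvd_right (dvd_pow_self N hk.ne')
  · have hc' : (c : F) ≠ 0 := by simpa using hc
    have h4 : ((N : F) ^ k - 1) = c * c' := by
      have := congrArg (fun x : 𝓞 F => (x : F)) h1
      simpa using this
    have : ((N ^ k - 1 : ℕ) : F) * (c : F)⁻¹ = c' := by
      rw [Nat.cast_sub h2]; push_cast; rw [h4]; field_simp
    rw [this]; exact c'.isIntegral_coe


end two

section good

variable {F : Type*} [Field F] [NumberField F] {N : ℕ} [hG : SGood F N]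

include hG

variable (F N) in
theorem SGood.one_lt : 1 < N := by
  have := Nat.le_of_dvd (Nat.pos_of_ne_zero hG.ne) hG.six
  omega

variable (F N) in
theorem SGood.cast_ne : (N : F) ≠ 0 := by exact_mod_cast hG.ne

instance : IsPrincipalIdealRing (RS F N) := hG.pid

instance isLoc_RS : IsLocalization (castM F (Submonoid.powers N)) (RS F N) :=
  isLocalization_LocS (zero_notMem_powers hG.ne)

instance isLoc_LS : IsLocalization (castM F (copM N)) (LS F N) :=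
  isLocalization_LocS (zero_notMem_copM (SGood.one_lt F N).ne')

theorem inv_mem_RS_of_dvd {d k : ℕ} (h : d ∣ N ^ k) : (d : F)⁻¹ ∈ RS F N :=
  inv_mem_LocS (⟨k, rfl⟩ : N ^ k ∈ Submonoid.powers N) (pow_ne_zero k hG.ne) h

theorem inv_N_mem_RS : (N : F)⁻¹ ∈ RS F N := inv_mem_RS_of_dvd (k := 1) (by simp)

theorem isUnit_RS_of_dvd {d k : ℕ} (h : d ∣ N ^ k) : IsUnit (d : RS F N) :=
  isUnit_natCast_LocS (zero_notMem_powers hG.ne) (⟨k, rfl⟩ : N ^ k ∈ Submonoid.powers N) h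


theorem isUnit_six_RS : IsUnit (6 : RS F N) := by
  simpa using isUnit_RS_of_dvd (F := F) (N := N) (d := 6) (k := 1) (by simpa using hG.six)

variable (F) in
theorem ne_zero_of_coprime {d : ℕ} (h : d.Coprime N) : d ≠ 0 := by
  rintro rfl
  exact zero_notMem_copM (SGood.one_lt F N).ne' h

theorem inv_mem_LS_of_coprime {d : ℕ} (h : d.Coprime N) : (d : F)⁻¹ ∈ LS F N :=
  inv_mem_LocS (show d ∈ copM N from h) (ne_zero_of_coprime F h) dvd_rfl

/-- `N` lies in the Jacobson radical of `Λ`. -/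
theorem one_add_mul_LS {l : F} (hl : l ∈ LS F N) :
    1 + (N : F) * l ≠ 0 ∧ (1 + (N : F) * l)⁻¹ ∈ LS F N := by
  obtain ⟨d, hd, a, ha⟩ := exists_eq_of_mem_LS hl
  have hd0 : (d : F) ≠ 0 := by exact_mod_cast ne_zero_of_coprime F hd
  obtain ⟨u, v, huv⟩ := bezout_cast hd (𝓞 F)
  have hc : IsCoprime ((d : 𝓞 F) + N * a) (N : 𝓞 F) := ⟨u, v - u * a, by rw [← huv]; ring⟩
  have he : (((d : 𝓞 F) + N * a : 𝓞 F) : F) = d * (1 + (N : F) * l) := by
    change (d : F) + (N : F) * (a : F) = _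
    rw [← ha]; ring
  have hc0 : (d : 𝓞 F) + N * a ≠ 0 := by
    intro h0
    rw [h0, isCoprime_zero_left] at hc
    have h1 := hc.map (Algebra.norm ℤ)
    rw [show (N : 𝓞 F) = algebraMap ℤ (𝓞 F) N by simp, Algebra.norm_algebraMap,
      isUnit_pow_iff (Module.finrank_pos (R := ℤ) (M := 𝓞 F)).ne', Int.isUnit_iff] at h1
    have := SGood.one_lt F N
    omega
  have hne : 1 + (N : F) * l ≠ 0 := by
    intro h0
    rw [h0, mul_zero] at he
    exact hc0 (RingOfIntegers.ext he)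
  refine ⟨hne, ?_⟩
  have h2 := inv_mem_LS_of_isCoprime hG.ne hc
  rw [he] at h2
  have : (1 + (N : F) * l)⁻¹ = d * (d * (1 + (N : F) * l))⁻¹ := by field_simp
  rw [this]
  exact mul_mem (natCast_mem _ d) h2

theorem one_add_pow_mul_LS {j : ℕ} (hj : j ≠ 0) {l : F} (hl : l ∈ LS F N) :
    1 + (N : F) ^ j * l ≠ 0 ∧ (1 + (N : F) ^ j * l)⁻¹ ∈ LS F N := by
  obtain ⟨i, rfl⟩ := Nat.exists_eq_succ_of_ne_zero hj
  have := one_add_mul_LS (F := F) (N := N) (l := (N : F) ^ i * l)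
    (mul_mem (pow_mem (natCast_mem _ N) i) hl)
  rwa [← mul_assoc, ← pow_succ'] at this

theorem inv_N_notMem_LS : (N : F)⁻¹ ∉ LS F N := fun h => by
  have := (one_add_mul_LS (neg_mem h)).1
  simp [SGood.cast_ne F N] at this

end good

/-! ## unit groups inside `Fˣ` -/

section units

/-- The units of a subring, as a subgroup of `Fˣ`. -/
def unitsIn {F : Type*} [Field F] (A : Subring F) : Subgroup Fˣ where
  carrier := {x | (x : F) ∈ A ∧ (x : F)⁻¹ ∈ A}
  mul_mem' := by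
    rintro x y ⟨h1, h2⟩ ⟨h3, h4⟩
    exact ⟨by simpa using mul_mem h1 h3, by simpa using mul_mem h4 h2⟩
  one_mem' := by simp
  inv_mem' := by
    rintro x ⟨h1, h2⟩
    exact ⟨by simpa using h2, by simpa using h1⟩

/-- `Rˣ` inside `Fˣ`. -/
abbrev UR (F : Type*) [Field F] (N : ℕ) : Subgroup Fˣ := unitsIn (RS F N)

/-- `Λˣ` inside `Fˣ`. -/
abbrev UL (F : Type*) [Field F] (N : ℕ) : Subgroup Fˣ := unitsIn (LS F N)

/-- `P_j = 1 + N^j Λ` (for `j = 0` it is `Λˣ`). -/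
def PJ (F : Type*) [Field F] (N j : ℕ) : Subgroup Fˣ where
  carrier := {x | x ∈ UL F N ∧ ∃ l ∈ LS F N, (x : F) = 1 + (N : F) ^ j * l}
  mul_mem' := by
    rintro x y ⟨h1, l, hl, hx⟩ ⟨h2, m, hm, hy⟩
    refine ⟨mul_mem h1 h2, l + m + (N : F) ^ j * l * m, add_mem (add_mem hl hm)
      (mul_mem (mul_mem (pow_mem (natCast_mem _ N) j) hl) hm), ?_⟩
    rw [Units.val_mul, hx, hy]; ring
  one_mem' := ⟨one_mem _, 0, zero_mem _, by simp⟩
  inv_mem' := by
    rintro x ⟨h1, l, hl, hx⟩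
    refine ⟨inv_mem h1, -(l * (x : F)⁻¹), neg_mem (mul_mem hl h1.2), ?_⟩
    have h0 : (x : F) ≠ 0 := x.ne_zero
    rw [Units.val_inv_eq_inv_val]
    field_simp
    linear_combination -hx

variable {F : Type*} [Field F] {N : ℕ}


theorem isUnit_iff_subring {A : Subring F} {x : A} :
    IsUnit x ↔ (x : F) ≠ 0 ∧ (x : F)⁻¹ ∈ A := by
  constructor
  · intro h
    obtain ⟨y, hy⟩ := h.exists_right_inv
    have h1 : (x : F) * y = 1 := by simpa using congrArg (fun z : A => (z : F)) hy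
    refine ⟨left_ne_zero_of_mul_eq_one h1, ?_⟩
    rw [← eq_inv_of_mul_eq_one_right h1]; exact y.2
  · rintro ⟨h0, h1⟩
    exact IsUnit.of_mul_eq_one ⟨_, h1⟩ (Subtype.ext (by simp [h0]))


theorem dvd_iff_subring {A : Subring F} {x y : A} (h0 : (x : F) ≠ 0) :
    x ∣ y ↔ (y : F) / x ∈ A := by
  constructor
  · rintro ⟨c, rfl⟩
    simp [h0]
  · intro h
    exact ⟨⟨_, h⟩, Subtype.ext (by simp [mul_div_cancel₀, h0])⟩

/-- The units of a subring `A` of `F` and the subgroup `unitsIn A` of `Fˣ`. -/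
def unitsInEquiv (A : Subring F) : Aˣ ≃* unitsIn A where
  toFun u := ⟨Units.map (A.subtype : A →* F) u, u.1.2, by
    have : ((Units.map (A.subtype : A →* F) u : Fˣ) : F)⁻¹ = ((u⁻¹ : Aˣ) : A) := by
      rw [← Units.val_inv_eq_inv_val, ← map_inv]; rfl
    rw [this]; exact (u⁻¹).1.2⟩
  invFun x := ⟨⟨_, x.2.1⟩, ⟨_, x.2.2⟩, Subtype.ext (by simp), Subtype.ext (by simp)⟩
  left_inv u := by ext; rfl
  right_inv x := by ext; rfl
  map_mul' u v := by ext; simp



theorem PJ_anti {i j : ℕ} (h : i ≤ j) : PJ F N j ≤ PJ F N i := by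
  rintro x ⟨h1, l, hl, hx⟩
  obtain ⟨k, rfl⟩ := Nat.exists_eq_add_of_le h
  exact ⟨h1, (N : F) ^ k * l, mul_mem (pow_mem (natCast_mem _ N) k) hl, by rw [hx]; ring⟩

variable [NumberField F] [hG : SGood F N]



end units

end Crest.Agent.T27
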