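import Crest.Agent.T27.VorDefs_59
import Crest.Agent.T27.Gauss_55
import Crest.Agent.T27.MainA_94
import Crest.Agent.T27.Vor3_57
import Crest.Agent.T27.GsNorm_79
import Crest.Agent.T27.Sar_77
import Crest.Agent.T27.ThA_54

-- ▼ part T27/VorT_57
section

/-!
# Row 27, leaf R3 (helper57): the Voronoi formula twisted by a character modulo `D`, and the
dictionary between the frame `Fr0` and the arithmetic data `TH.Ar`
-/

set_option autoImplicit false
set_option linter.unusedSectionVars false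

noncomputable section

namespace Crest.Agent.T27

open scoped ComplexConjugate
open NumberField

namespace T57

open Rf

variable [Fr0]

theorem conj_mul_self {z : ℂ} (h : ‖z‖ = 1) : conj z * z = 1 := by
  rw [Complex.conj_mul', h]; simp

theorem chr_one {D : O} {ψ : O → ℂ} (h : IsChr D ψ) : ψ 1 = 1 := by
  have h1 := h.mul 1 1
  have h2 : ψ 1 ≠ 0 := fun h0 => by
    have := h.norm 1 isCoprime_one_left
    rw [h0, norm_zero] at this
    exact zero_ne_one this
  rw [mul_one] at h1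
  exact (mul_eq_left₀ h2).1 h1.symm

theorem chr_norm_le {D : O} {ψ : O → ℂ} (h : IsChr D ψ) (x : O) : ‖ψ x‖ ≤ 1 := by
  by_cases hx : IsCoprime x D
  · exact (h.norm x hx).le
  · rw [h.zero x hx, norm_zero]; exact zero_le_one

theorem chr_mul_unit {D v : O} {ψ : O → ℂ} (h : IsChr D ψ) (hv : IsUnit v) :
    IsChr (D * v) ψ where
  mul := h.mul
  per x y hxy := h.per x y ((dvd_mul_right D v).trans hxy)
  zero x hx := h.zero x fun h' => hx (h'.mul_right (isCoprime_of_isUnit x hv))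
  norm x hx := h.norm x hx.of_mul_right_left

theorem dualChr_mul_unit {D v : O} (ψ : O → ℂ) (hv : IsUnit v) :
    dualChr (D * v) ψ = dualChr D ψ := by
  funext x
  rw [dualChr, dualChr, mul_comm D v, cub_unit_mul_left hv]

theorem chr_dual {D : O} {ψ : O → ℂ} (h : IsChr D ψ) (hD : D ≠ 0) : IsChr D (dualChr D ψ) where
  mul x y := by rw [dualChr, dualChr, dualChr, h.mul, map_mul, cub_mul_right]; ring
  per x y hxy := by rw [dualChr, dualChr, h.per x y hxy, cub_congr ((rad_dvd D).trans hxy)]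
  zero x hx := by rw [dualChr, h.zero x hx, map_zero, zero_mul]
  norm x hx := by
    rw [dualChr, norm_mul, Complex.norm_conj, h.norm x hx, norm_cub' hD hx.symm, one_mul]

theorem ft_per {D : O} {ψ : O → ℂ} (h : IsChr D ψ) (k x y : O) (hxy : D ∣ x - y) :
    ψ x * eq (k * x) D = ψ y * eq (k * y) D := by
  rw [h.per x y hxy, eq_congr (x := k * x) (y := k * y) (by rw [← mul_sub]; exact hxy.mul_left k)]

/-- Scaling the frequency. -/
theorem ft_mul_cop {D v : O} {ψ : O → ℂ} (h : IsChr D ψ) (hD : D ≠ 0) (hv : IsCoprime v D)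
    (k : O) : ft D ψ (k * v) = conj (ψ v) * ft D ψ k := by
  have h1 : ft D ψ k = ψ v * ft D ψ (k * v) := by
    rw [ft, ← sum_res_affine hD _ (ft_per h k) hv 0, ft, Finset.mul_sum]
    refine Finset.sum_congr rfl fun x _ => ?_
    rw [add_zero, h.mul, mul_assoc, mul_assoc k]
  rw [h1, ← mul_assoc, conj_mul_self (h.norm v hv), one_mul]

/-- Changing the generator of the modulus. -/
theorem ft_mul_unit {D v : O} {ψ : O → ℂ} (h : IsChr D ψ) (hD : D ≠ 0) (hv : IsUnit v) (k : O) :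
    ft (D * v) ψ (k * v) = ft D ψ k := by
  rw [ft, ft, sum_res_assoc hD (associated_mul_unit_right D v hv) _ (ft_per h k)]
  refine Finset.sum_congr rfl fun x _ => ?_
  rw [show k * v * x = v * (k * x) by ring, mul_comm D v, eq_mul_mul hv.ne_zero]

/-- A unit on which the character is trivial changes nothing. -/
theorem ft_unit_one {D v : O} {ψ : O → ℂ} (h : IsChr D ψ) (hD : D ≠ 0) (hv : IsUnit v)
    (h1 : ψ v = 1) (k : O) : ft D ψ (k * v) = ft D ψ k ∧ ft (D * v) ψ k = ft D ψ k := by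
  have e : ∀ k, ft D ψ (k * v) = ft D ψ k := fun k => by
    rw [ft_mul_cop h hD (isCoprime_of_isUnit D hv).symm, h1, map_one, one_mul]
  refine ⟨e k, ?_⟩
  obtain ⟨w, hw⟩ := hv.exists_left_inv
  have h2 := ft_mul_unit h hD hv (k * w)
  rw [mul_assoc, hw, mul_one] at h2
  rw [h2, ← e (k * w), mul_assoc, hw, mul_one]

theorem norm_ft_le {D : O} {ψ : O → ℂ} (h : IsChr D ψ) (hD : D ≠ 0) (k : O) :
    ‖ft D ψ k‖ ≤ nr D := by
  refine (norm_sum_le _ _).trans ?_
  calc _ ≤ ∑ _x ∈ res D, (1 : ℝ) := Finset.sum_le_sum fun x _ => by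
        rw [norm_mul, norm_eq, mul_one]; exact chr_norm_le h x
    _ = _ := by rw [Finset.sum_const, card_res hD, nsmul_eq_mul, mul_one]

open Classical in
/-- An inverse modulo `D`. -/
def minv (D a : O) : O := if h : IsCoprime a D then h.choose else a

theorem minv_spec {D a : O} (h : IsCoprime a D) : ∃ y, a * minv D a - y * D = 1 := by
  obtain ⟨v, hv⟩ := h.choose_spec
  exact ⟨-v, by rw [minv, dif_pos h]; linear_combination hv⟩

theorem minv_cop {D a : O} (h : IsCoprime a D) : IsCoprime (minv D a) D := by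
  obtain ⟨y, hy⟩ := minv_spec h
  exact ⟨a, -y, by linear_combination hy⟩

theorem cop_congr {D a b : O} (h : D ∣ a - b) (ha : IsCoprime a D) : IsCoprime b D := by
  obtain ⟨t, ht⟩ := h
  obtain ⟨u, v, huv⟩ := ha
  exact ⟨u, v + u * t, by linear_combination huv - u * ht⟩

theorem minv_dvd_iff {D a x : O} : D ∣ x - minv D a ↔ D ∣ minv D x - a := by
  have key : ∀ {a x : O}, D ∣ x - minv D a → D ∣ minv D x - a := fun {a x} h => by
    by_cases ha : IsCoprime a D
    · have hx : IsCoprime x D := cop_congr (by rwa [← dvd_neg, neg_sub]) (minv_cop ha)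
      obtain ⟨y, hy⟩ := minv_spec ha
      obtain ⟨z, hz⟩ := minv_spec hx
      obtain ⟨t, ht⟩ := h
      exact ⟨z * a - y * minv D x - a * minv D x * t, by
        linear_combination a * hz - minv D x * hy - a * minv D x * ht⟩
    · rw [minv, dif_neg ha] at h
      rw [minv, dif_neg fun hx => ha (cop_congr h hx)]
      exact h
  refine ⟨key, fun h => ?_⟩
  rw [← dvd_neg, neg_sub] at h ⊢
  exact key h

/-- The dual transform. -/
theorem sum_minv {D : O} {ψ : O → ℂ} (h : IsChr D ψ) (hD : D ≠ 0) (k : O) :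
    ∑ a ∈ res D, ψ a * conj (cub D a) * eq (k * minv D a) D = ft D (dualChr D ψ) k := by
  rw [ft, sum_res_param hD _ (ft_per (chr_dual h hD) k) (res D) (minv D) fun x => by
    simp only [minv_dvd_iff]; exact exists_unique_res hD _]
  refine Finset.sum_congr rfl fun a _ => ?_
  congr 1
  by_cases ha : IsCoprime a D
  · obtain ⟨y, hy⟩ := minv_spec ha
    have hd := chr_dual h hD
    have h1 : dualChr D ψ a * dualChr D ψ (minv D a) = 1 := by
      rw [← hd.mul, hd.per _ 1 ⟨y, by linear_combination hy⟩, chr_one hd]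
    have h2 : ψ a * conj (cub D a) = conj (dualChr D ψ a) := by
      rw [dualChr, map_mul, Complex.conj_conj]
    rw [h2]
    linear_combination dualChr D ψ (minv D a) * conj_mul_self (hd.norm a ha) -
      conj (dualChr D ψ a) * h1
  · rw [minv, dif_neg ha, (chr_dual h hD).zero a ha, h.zero a ha, zero_mul]

end T57

namespace TH

open Rf T57 Vor57 V57

section summ

variable {F : Type} [Field F] [NumberField F] [Emb F]

theorem V57.norm_argF_le (r : F) : ‖argF r‖ ≤ 1 := by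
  rw [argF, norm_prod]
  refine Finset.prod_le_one (fun _ _ => norm_nonneg _) fun j _ => ?_
  rw [norm_div, Complex.norm_real, norm_norm]
  exact div_self_le_one _

/-- Absolute convergence of both sides of the Voronoi formula. -/
theorem V57.summable_U1 (hL : LatStmt F) (hT : ThetaStmt F) (hA : TauStmt F) {ξ : F × F → ℂ}
    (hξ : Good ξ) {φ : F → ℂ} (hφ : ∀ r, ‖φ r‖ ≤ 1) {x : Pl F → ℝ} (hx : ∀ j, 0 < x j) :
    Summable fun r : F => tau ξ r * ((nF r ^ (1 / 6 : ℝ) : ℝ) : ℂ) * φ r *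
      (U1V (fun j => bb r j * x j) : ℂ) := by
  obtain ⟨M, hM, hs⟩ := hA.supp ξ hξ
  obtain ⟨C, hC⟩ := hT.bound ξ hξ
  have hpi := Real.pi_pos
  have h := ((smN hL hM hs hC).vec (y := fun j => x j / 4) fun j => by
    have := hx j; positivity).mul_left (∏ j, (4 * Real.pi ^ 2 * x j) ^ (1 / 3 : ℝ))
  refine .of_norm_bounded h fun r => ?_
  have hW : ∀ j, 0 ≤ R17.W0 (bb r j * x j) := fun j =>
    W0_nonneg (by have := hx j; rw [bb]; positivity)
  have hU : ∀ j, 0 ≤ R17.U1 (bb r j * x j) := fun j =>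
    mul_nonneg (by have := hx j; rw [bb]; positivity) (hW j)
  rw [norm_mul, norm_mul, norm_mul, Complex.norm_real, Complex.norm_real,
    Real.norm_of_nonneg (Real.rpow_nonneg (nF_nonneg r) _), U1V,
    Real.norm_of_nonneg (Finset.prod_nonneg fun j _ => hU j), mul_left_comm (∏ j, _),
    ← Finset.prod_mul_distrib, nF, ← Real.finsetProd_rpow _ _ (fun j _ => by positivity),
    mul_assoc, mul_assoc]
  refine mul_le_mul_of_nonneg_left ?_ (norm_nonneg _)
  calc _ ≤ (∏ j, (‖em r j‖ ^ 2) ^ (1 / 6 : ℝ)) * (1 * ∏ j, R17.U1 (bb r j * x j)) := by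
        have := Finset.prod_nonneg (s := Finset.univ) fun j _ => hU j
        have := hφ r
        gcongr
    _ ≤ _ := by
        rw [one_mul, ← Finset.prod_mul_distrib]
        refine Finset.prod_le_prod (fun j _ => mul_nonneg (by positivity) (hU j)) fun j _ => ?_
        have hxj := hx j
        have e1 : x j / 4 * ‖((4 * Real.pi : ℝ) : ℂ) * em r j‖ ^ 2 = bb r j * x j := by
          rw [norm_mul, Complex.norm_real, Real.norm_of_nonneg (by positivity), bb]; ring
        have e2 : (‖em r j‖ ^ 2) ^ (1 / 6 : ℝ) * (‖em r j‖ ^ 2) ^ (1 / 3 : ℝ) = ‖em r j‖ := by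
          rw [← Real.rpow_add' (by positivity) (by norm_num), ← Real.rpow_natCast,
            ← Real.rpow_mul (norm_nonneg _)]
          norm_num
        have e3 : (bb r j * x j) ^ (1 / 3 : ℝ) =
            (4 * Real.pi ^ 2 * x j) ^ (1 / 3 : ℝ) * (‖em r j‖ ^ 2) ^ (1 / 3 : ℝ) := by
          rw [← Real.mul_rpow (by positivity) (by positivity), bb]; congr 1; ring
        have e4 : ‖em r j‖ ≤ 1 + ‖((4 * Real.pi : ℝ) : ℂ) * em r j‖ := by
          rw [norm_mul, Complex.norm_real, Real.norm_of_nonneg (by positivity)]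
          nlinarith [norm_nonneg (em r j), Real.pi_gt_three]
        rw [e1, R17.U1, e3]
        have := hW j
        calc _ = (4 * Real.pi ^ 2 * x j) ^ (1 / 3 : ℝ) * (‖em r j‖ * R17.W0 (bb r j * x j)) := by
              rw [← e2]; simp only [e2]; linear_combination
                (4 * Real.pi ^ 2 * x j) ^ (1 / 3 : ℝ) * R17.W0 (bb r j * x j) * e2
          _ ≤ _ := by gcongr

end summ

variable [Fr0] {F : Type} [Field F] [NumberField F] [Emb F] [Ar F]

/-- The frame is the ring `R` of the arithmetic data, `sy` is the conjugate cubic symbol. -/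
structure Dict (j : O →+* F) : Prop where
  inj : Function.Injective j
  range : ∀ x, x ∈ j.range ↔ x ∈ (Ar.R : Subring F)
  sy : ∀ x n, n ≠ 0 → Ar.sy (j x) (j n) = conj (cub n x)
  psi : ∀ x n, n ≠ 0 → Ar.psi (j x / j n) = eq x n

/-- A left inverse of `j`. -/
def jinv (j : O →+* F) (r : F) : O := Function.invFun j r

/-- The coefficients on the left. -/
def aT (j : O →+* F) (f : F × F → ℂ) (D : O) (ψ : O → ℂ) (r : F) : ℂ :=
  tt f r * conj (argF r) * ft D ψ (jinv j r)

/-- The coefficients on the right. -/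
def bT (j : O →+* F) (f : F × F → ℂ) (D : O) (ψ : O → ℂ) (ν : F) : ℂ :=
  tt (opW (j D) f) ν * argF ν * ft D (dualChr D ψ) (-jinv j ν)

theorem V57.norm_psi (x : F) : ‖(Ar.psi x : ℂ)‖ = 1 := by
  obtain ⟨r, hr, l, hl, e⟩ := Ar.approx x 1 one_ne_zero
  rw [e, Ar.psi_add, Ar.psi_R r hr, one_mul, one_mul, Ar.psi_L l hl, norm_eF]

namespace Dict

variable {j : O →+* F} (h : Dict j)
include h

theorem mem (x : O) : j x ∈ (Ar.R : Subring F) := (h.range _).1 ⟨x, rfl⟩

theorem exists_eq {x : F} (hx : x ∈ (Ar.R : Subring F)) : ∃ a : O, j a = x := (h.range x).2 hx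

theorem ne_zero {x : O} (hx : x ≠ 0) : j x ≠ 0 := (map_ne_zero_iff j h.inj).2 hx

theorem jinv_j (x : O) : jinv j (j x) = x := Function.leftInverse_invFun h.inj x

theorem j_jinv {x : F} (hx : x ∈ (Ar.R : Subring F)) : j (jinv j x) = x := by
  obtain ⟨a, rfl⟩ := h.exists_eq hx
  rw [h.jinv_j]

/-- The ring isomorphism `O ≃ R`. -/
def equiv : O ≃+* RR F :=
  RingEquiv.ofBijective (j.codRestrict (Ar.R : Subring F) h.mem)
    ⟨fun _ _ e => h.inj (congrArg Subtype.val e), fun x => by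
      obtain ⟨a, ha⟩ := h.exists_eq x.2
      exact ⟨a, Subtype.ext ha⟩⟩

theorem coe_equiv (x : O) : (h.equiv x : F) = j x := rfl

theorem nm {n : O} (hn : n ≠ 0) : Ar.nm (j n) = nr n := by
  rw [← h.coe_equiv, Ar.nm_eq _ ((map_ne_zero_iff _ h.equiv.injective).2 hn)]
  exact congrArg Nat.cast
    (Nat.card_congr (Ideal.quotientEquiv _ _ h.equiv (by simp [Ideal.map_span])).toEquiv).symm

theorem sqf {m : O} : Squarefree (h.equiv m) ↔ Squarefree m := by
  refine ⟨fun hm x hx => (MulEquiv.isUnit_map h.equiv).1 (hm _ ?_), fun hm x hx => ?_⟩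
  · rw [← map_mul]; exact map_dvd _ hx
  · obtain ⟨x, rfl⟩ := h.equiv.surjective x
    rw [← map_mul, map_dvd_iff] at hx
    exact (hm x hx).map _

theorem ur {v : O} (hv : IsUnit v) : UR (j v) := M94.ur_of_isUnit (hv.map h.equiv)

theorem isUnit_of_ur {v : O} (hv : UR (j v)) : IsUnit v :=
  (MulEquiv.isUnit_map h.equiv).1 (M94.isUnit_of_ur hv)

theorem exists_unit {u : F} (hu : UR u) : ∃ v, IsUnit v ∧ j v = u := by
  obtain ⟨v, rfl⟩ := h.exists_eq hu.2.1
  exact ⟨v, h.isUnit_of_ur hu, rfl⟩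

/-- The symbol of a unit is given by the reciprocity bicharacter. -/
theorem cub_unit {v n : O} (hv : IsUnit v) (hn : n ≠ 0) :
    cub n v = conj (Ar.cc (j v) (j n)) := by
  have h1 := Ar.cc_eq (h.equiv v) (h.equiv n) ((map_ne_zero_iff _ h.equiv.injective).2 hv.ne_zero)
    ((map_ne_zero_iff _ h.equiv.injective).2 hn) ((isCoprime_of_isUnit n hv).symm.map h.equiv.toRingHom)
  rw [h.coe_equiv, h.coe_equiv, h.sy _ _ hn, h.sy _ _ hv.ne_zero, cub_unit_left hv, map_one,
    map_one, mul_one] at h1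
  rw [h1, Complex.conj_conj]

theorem gn_one {m : O} (hm : m ≠ 0) :
    gn 1 (h.equiv m) = gc m 1 / (Real.sqrt (nr m) : ℂ) := by
  have hm' : h.equiv m ≠ 0 := (map_ne_zero_iff _ h.equiv.injective).2 hm
  have hp := M94.gt_per (1 : RR F) hm'
  rw [OneMemClass.coe_one] at hp
  rw [M94.gn_eq, h.coe_equiv, h.nm hm, div_eq_inv_mul, M94.GS,
    M94.sumI_eq hp (fun x : res m => h.equiv x), finsum_eq_sum_of_fintype, gc,
    ← Finset.sum_coe_sort (res m)]
  · congr 1
    refine Finset.sum_congr rfl fun x _ => ?_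
    rw [M94.gt, h.coe_equiv, h.coe_equiv, h.sy _ _ hm, Complex.conj_conj, one_mul, one_mul,
      h.psi _ _ hm]
  · constructor
    · intro x y hxy
      simp only [Ideal.Quotient.eq, Ideal.mem_span_singleton, ← map_sub, map_dvd_iff] at hxy
      exact Subtype.ext ((exists_unique_res hm x.1).unique ⟨x.2, by simp⟩ ⟨y.2, hxy⟩)
    · intro q
      obtain ⟨x, rfl⟩ := Ideal.Quotient.mk_surjective q
      obtain ⟨x, rfl⟩ := h.equiv.surjective x
      obtain ⟨r, ⟨hr, hr'⟩, -⟩ := exists_unique_res hm x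
      refine ⟨⟨r, hr⟩, ?_⟩
      simp only [Ideal.Quotient.eq, Ideal.mem_span_singleton, ← map_sub, map_dvd_iff]
      rwa [← dvd_neg, neg_sub]

theorem thF_spec {m d : O} (hm : Squarefree m) (hd : d ≠ 0) :
    thF (j (m * d ^ 3)) = gc m 1 / (Real.sqrt (nr m) : ℂ) * (Real.sqrt (nr d) : ℂ) := by
  have h1 := M94.thF_spec (h.equiv m) (h.equiv d)
    (h.sqf.2 hm) ((map_ne_zero_iff _ h.equiv.injective).2 hd)
  rw [h.gn_one hm.ne_zero, h.coe_equiv, h.coe_equiv, h.nm hd] at h1
  rw [map_mul, map_pow, h1]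

theorem shape {n : O} (hn : thF (j n) ≠ 0) : ∃ m d : O, Squarefree m ∧ d ≠ 0 ∧ n = m * d ^ 3 := by
  by_contra hs
  refine hn (M94.thF_of_not_shape (r := h.equiv n) ?_)
  rintro ⟨m, d, hm, hd, e⟩
  obtain ⟨m, rfl⟩ := h.equiv.surjective m
  obtain ⟨d, rfl⟩ := h.equiv.surjective d
  exact hs ⟨m, d, h.sqf.1 hm,
    (map_ne_zero_iff _ h.equiv.injective).1 hd, h.equiv.injective (by rw [e, map_mul, map_pow])⟩

omit h in
theorem gc_unit_mul {v m : O} (hv : IsUnit v) (hm : m ≠ 0) : gc (v * m) 1 = cub m v * gc m 1 := by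
  have hp : ∀ (k x y : O), m ∣ x - y → cub m x * eq (k * x) m = cub m y * eq (k * y) m :=
    fun k x y hxy => by
      rw [cub_congr ((rad_dvd m).trans hxy),
        eq_congr (x := k * x) (y := k * y) (by rw [← mul_sub]; exact hxy.mul_left k)]
  obtain ⟨w, hw⟩ := hv.exists_left_inv
  have h1 : gc (v * m) 1 = ∑ x ∈ res m, cub m x * eq (w * x) m := by
    rw [gc, sum_res_assoc hm (associated_unit_mul_right m v hv) _ (hp w)]
    refine Finset.sum_congr rfl fun x _ => ?_
    rw [cub_unit_mul_left hv, ← eq_mul_mul hv.ne_zero (w * x) m, ← mul_assoc, mul_comm v w, hw]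
  rw [h1, ← sum_res_affine hm _ (hp w) (isCoprime_of_isUnit m hv).symm 0, gc, Finset.mul_sum]
  refine Finset.sum_congr rfl fun x _ => ?_
  rw [add_zero, cub_mul_right, ← mul_assoc w, hw, mul_assoc]

/-- Multiplication by a unit in the kernel of the reciprocity bicharacter. -/
theorem thF_unit_mul {v : O} (hv : IsUnit v) (hc : ∀ y : F, y ≠ 0 → Ar.cc (j v) y = 1) (n : O) :
    thF (j (v * n)) = thF (j n) := by
  have key : ∀ {m d : O}, Squarefree m → d ≠ 0 →
      thF (j (v * (m * d ^ 3))) = thF (j (m * d ^ 3)) := fun {m d} hm hd => by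
    rw [← mul_assoc, h.thF_spec hm hd,
      h.thF_spec ((associated_unit_mul_right m v hv).squarefree_iff.1 hm) hd,
      gc_unit_mul hv hm.ne_zero, h.cub_unit hv hm.ne_zero, hc _ (h.ne_zero hm.ne_zero), map_one,
      one_mul, nr_unit_mul hv]
  by_cases h1 : thF (j n) = 0
  · by_contra h2
    rw [h1] at h2
    obtain ⟨m, d, hm, hd, e⟩ := h.shape h2
    obtain ⟨w, hw⟩ := hv.exists_left_inv
    have hw' : IsUnit w := IsUnit.of_mul_eq_one v hw
    have e' : n = w * m * d ^ 3 := by rw [mul_assoc, ← e, ← mul_assoc, hw, one_mul]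
    have := key ((associated_unit_mul_right m w hw').squarefree_iff.1 hm) hd
    rw [← e', h1] at this
    exact h2 this
  · obtain ⟨m, d, hm, hd, rfl⟩ := h.shape h1
    exact key hm hd

/-- The shape of the support, with primary parts. -/
theorem shape_primary {t ν : O} (ht : IsUnit t) (hν : Primary ν) (h0 : thF (j (t * ν)) ≠ 0) :
    ∃ n d : O, Primary n ∧ Squarefree n ∧ Primary d ∧ ν = n * d ^ 3 ∧
      ‖thF (j (t * ν))‖ = Real.sqrt (nr d) := by
  obtain ⟨m, d, hm, hd, e⟩ := h.shape h0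
  obtain ⟨u, n, hu, hn, rfl⟩ := exists_eq_unit_mul_primary hm.ne_zero
  obtain ⟨w, d, hw, hd', rfl⟩ := exists_eq_unit_mul_primary hd
  have hs : Squarefree n := (associated_unit_mul_right n u hu).squarefree_iff.2 hm
  refine ⟨n, d, hn, hs, hd', ?_, ?_⟩
  · refine hν.eq_of_associated (hn.mul (hd'.pow 3)) ?_
    refine (associated_unit_mul_right ν t ht).trans ?_
    rw [e, show u * n * (w * d) ^ 3 = u * w ^ 3 * (n * d ^ 3) by ring]
    exact associated_unit_mul_left _ _ (hu.mul (hw.pow 3))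
  · have h1 := M94.norm_gn _ (h.sqf.2 hm)
    rw [h.gn_one hm.ne_zero] at h1
    rw [e, h.thF_spec hm hd, norm_mul, h1, one_mul, Complex.norm_real,
      Real.norm_of_nonneg (Real.sqrt_nonneg _), nr_unit_mul hw]

/-- The coefficient of the frame. -/
theorem th_eq {n : O} (hn : Primary n) : th n = thF (j n) * conj (arg n) := by
  by_cases hs : ∀ p ∈ pf n, vp p n % 3 ≠ 2
  · obtain ⟨e, -, h2, h3⟩ := eq_sq1_mul_cu hn hs
    rw [th, if_pos ⟨hn, hs⟩, ← h.thF_spec h2 h3.ne_zero, ← e]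
  · rw [th, if_neg fun h' => hs h'.2]
    by_contra h0
    have h1 : thF (j (1 * n)) ≠ 0 := by
      rw [one_mul]; exact left_ne_zero_of_mul (Ne.symm h0)
    obtain ⟨m, d, hm, hm', hd, rfl, -⟩ := h.shape_primary isUnit_one hn h1
    exact hs (sq1_cu hm hm' hd).2.2


/-- **The twisted Voronoi formula**, in the shape of the hypothesis of `Mel.transfer_F`. -/
theorem vor_twist (hL : LatStmt F) (hT : ThetaStmt F) (hA : TauStmt F) (hO : OpStmt F)
    (hC : CuspStmt F) {f : F × F → ℂ} (hf : Test f) {D : O} (hD : D ≠ 0) {ψ : O → ℂ}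
    (hψ : IsChr D ψ) (x : Pl F → ℝ) (hx : ∀ i, 0 < x i) :
    ∑' r : F, aT j f D ψ r * ∏ i, (R17.U1 (4 * Real.pi ^ 2 * ‖em r i‖ ^ 2 * x i) : ℂ) =
      (∏ i, (-(em (j D) i ^ 2))⁻¹) * ((∏ i, x i : ℝ) : ℂ)⁻¹ * ∑' ν : F, bT j f D ψ ν *
        ∏ i, (R17.U1 (4 * Real.pi ^ 2 / ‖em (j D) i‖ ^ 4 * ‖em ν i‖ ^ 2 / x i) : ℂ) := by
  have hV := vor_57 F hL hT hA hO hC
  obtain ⟨κ₀, -, hC⟩ := hC
  have hD' := h.ne_zero hD
  have hf' : Test (opW (j D) f) := hO.test_rho f _ (by simp [gam, hD']) hf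
  obtain ⟨hg, -, -, -, hR⟩ := hC f hf
  obtain ⟨hg', -, -, -, hR'⟩ := hC _ hf'
  have hx' : ∀ i, 0 < (‖em (j D) i‖ ^ 4 * x i)⁻¹ := fun i => by
    have := norm_pos_iff.2 (em_ne hD' i)
    have := hx i
    positivity
  have s1 : ∀ a : O, Summable fun r : F => tt f r * conj (argF r) * Ar.psi (r * j a / j D) *
      (U1V (fun i => bb r i * x i) : ℂ) := fun a =>
    (summable_U1 hL hT hA hg (φ := fun r => conj (argF r) * Ar.psi (r * j a / j D)) (fun r => by
      rw [norm_mul, norm_psi, mul_one, Complex.norm_conj]; exact norm_argF_le r) hx).congr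
      fun r => by rw [tt]; ring
  have s2 : ∀ a : O, Summable fun ν : F => tt (opW (j D) f) ν * argF ν *
      Ar.psi (-(ν * j a / j D)) * (U1V (fun i => bb ν i / (‖em (j D) i‖ ^ 4 * x i)) : ℂ) := fun a =>
    (summable_U1 hL hT hA hg' (φ := fun r => argF r * Ar.psi (-(r * j a / j D))) (fun r => by
      rw [norm_mul, norm_psi, mul_one]; exact norm_argF_le r) hx').congr
      fun r => by simp only [tt, div_eq_mul_inv]; ring
  have e1 : ∀ r : F, aT j f D ψ r * ∏ i, (R17.U1 (4 * Real.pi ^ 2 * ‖em r i‖ ^ 2 * x i) : ℂ) =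
      ∑ a ∈ res D, ψ a * (tt f r * conj (argF r) * Ar.psi (r * j a / j D) *
        (U1V (fun i => bb r i * x i) : ℂ)) := fun r => by
    by_cases h0 : tau (xiF f) r = 0
    · simp [aT, tt, h0]
    obtain ⟨n, rfl⟩ := h.exists_eq (hR r h0)
    rw [aT, h.jinv_j, ft, Finset.mul_sum, Finset.sum_mul, U1V, Complex.ofReal_prod]
    refine Finset.sum_congr rfl fun a _ => ?_
    rw [← map_mul, h.psi _ _ hD]
    simp only [bb]
    ring
  have e2 : ∀ ν : F, bT j f D ψ ν *
      ∏ i, (R17.U1 (4 * Real.pi ^ 2 / ‖em (j D) i‖ ^ 4 * ‖em ν i‖ ^ 2 / x i) : ℂ) =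
      ∑ a ∈ res D, ψ a * conj (cub D a) * (tt (opW (j D) f) ν * argF ν *
        Ar.psi (-(ν * j (minv D a) / j D)) *
        (U1V (fun i => bb ν i / (‖em (j D) i‖ ^ 4 * x i)) : ℂ)) := fun ν => by
    by_cases h0 : tau (xiF (opW (j D) f)) ν = 0
    · simp [bT, tt, h0]
    obtain ⟨n, rfl⟩ := h.exists_eq (hR' ν h0)
    rw [bT, h.jinv_j, ← sum_minv hψ hD, Finset.mul_sum, Finset.sum_mul, U1V, Complex.ofReal_prod,
      Finset.prod_congr rfl fun i _ => show (R17.U1 (4 * Real.pi ^ 2 / ‖em (j D) i‖ ^ 4 *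
          ‖em (j n) i‖ ^ 2 / x i) : ℂ) = R17.U1 (bb (j n) i / (‖em (j D) i‖ ^ 4 * x i)) by
          rw [bb]; congr 2; ring]
    refine Finset.sum_congr rfl fun a _ => ?_
    rw [← map_mul, ← neg_div, ← map_neg, h.psi _ _ hD, neg_mul]
    ring
  simp only [e1, e2]
  rw [Summable.tsum_finsetSum fun a _ => (s1 a).mul_left _,
    Summable.tsum_finsetSum fun a _ => (s2 _).mul_left _, Finset.mul_sum]
  refine Finset.sum_congr rfl fun a _ => ?_
  by_cases ha : IsCoprime a D
  · obtain ⟨y, hy⟩ := minv_spec ha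
    rw [tsum_mul_left, tsum_mul_left, hV f hf (j D) (j a) (j (minv D a)) (j y) hD' (h.mem _)
      (h.mem _) (h.mem _) (h.mem _) (by rw [← map_mul, ← map_mul, ← map_sub, hy, map_one]) x hx,
      h.sy _ _ hD, Complex.ofReal_prod, ← Finset.prod_inv_distrib,
      Finset.prod_congr rfl fun i _ => show (-(em (j D) i ^ 2 * (x i : ℂ)))⁻¹ =
        (-(em (j D) i ^ 2))⁻¹ * (x i : ℂ)⁻¹ by rw [← neg_mul, mul_inv], Finset.prod_mul_distrib]
    ring
  · simp [hψ.zero a ha]

end Dict

end TH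

end Crest.Agent.T27
end
end

-- ▼ part T27/GsArg_79

/-!
# Row 27: the angular character `arg` of the frame is the archimedean argument on `1 + N Λ`
-/

set_option autoImplicit false

noncomputable section

namespace Crest.Agent.T27

open Finset NumberField
open scoped ComplexConjugate

variable {F : Type} [Field F] [NumberField F]

theorem alphaF_eq_prod_79 [TH.Emb F] {w : F} (hσ : ∀ v, TH.Emb.σ v w = omC) (x : F) :
    alphaF w x = ∏ v, TH.em x v := by
  symm
  refine prod_bij (fun v _ => TH.Emb.σ v) (fun v _ => mem_emb3.2 (hσ v)) (fun v _ v' _ h => ?_)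
    (fun τ hτ => ⟨InfinitePlace.mk τ, mem_univ _, ?_⟩) fun _ _ => rfl
  · rw [← TH.Emb.mk_σ v, ← TH.Emb.mk_σ v', h]
  · rcases InfinitePlace.mk_eq_iff.1 (TH.Emb.mk_σ (InfinitePlace.mk τ)) with h | h
    · exact h
    · exfalso
      have h1 := mem_emb3.1 hτ
      rw [← h, ComplexEmbedding.conjugate_coe_eq, hσ] at h1
      exact omC_ne_conj_79 h1

theorem argF_eq_79 [TH.Emb F] {w : F} (hσ : ∀ v, TH.Emb.σ v w = omC) (x : F) :
    TH.argF x = alphaF w x / (‖alphaF w x‖ : ℂ) := by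
  rw [alphaF_eq_prod_79 hσ, TH.argF, prod_div_distrib, norm_prod, Complex.ofReal_prod]

theorem argF_mul_79 [TH.Emb F] (x y : F) : TH.argF (x * y) = TH.argF x * TH.argF y := by
  rw [TH.argF, TH.argF, TH.argF, ← prod_mul_distrib]
  refine prod_congr rfl fun v _ => ?_
  simp only [TH.em, map_mul, norm_mul, Complex.ofReal_mul, mul_div_mul_comm]

theorem norm_argF_79 [TH.Emb F] {x : F} (hx : x ≠ 0) : ‖TH.argF x‖ = 1 := by
  rw [TH.argF, norm_prod]
  refine prod_eq_one fun v _ => ?_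
  rw [norm_div, Complex.norm_real, norm_norm]
  exact div_self (norm_ne_zero_iff.2 ((map_ne_zero (TH.Emb.σ v)).2 hx))

variable [Fr0]

omit [NumberField F] in
theorem exists_hom_79 {N : ℕ} (j : O →+* F) (hj : Function.Injective j)
    (hr : ∀ x, x ∈ j.range ↔ x ∈ RS F N) : ∃ i : 𝓞 F →+* O, ∀ x, j (i x) = x := by
  have h : ∀ x : 𝓞 F, ∃ y, j y = x := fun x => (hr x).2 (coe_mem_LocS x)
  choose i hi using h
  exact ⟨{ toFun := i
           map_one' := hj (by simp [hi])
           map_mul' := fun x y => hj (by simp [hi])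
           map_zero' := hj (by simp [hi])
           map_add' := fun x y => hj (by simp [hi]) }, hi⟩

/-- the normalised Jacobi sum of a prime of the frame -/
theorem arg1_eq_79 (i : 𝓞 F →+* O) {w : 𝓞 F} (hw : w ^ 2 + w + 1 = 0) (hiw : i w = om) {p : O}
    (hp : Prime p) (hp' : Primary p) (hs : ∀ y : O, ∃ x, p ∣ y - i x) :
    arg1 p = R17.arg (AP hw ((Ideal.span {p}).comap i)) := by
  obtain ⟨χ, -, hχ⟩ := exists_mulChar_cub hp hp'
  have := Fact.mk hp.ne_zero
  let _ := Fintype.ofFinite (O ⧸ Ideal.span {p})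
  have hm := PrincipalIdealRing.isMaximal_of_irreducible hp.irreducible
  let _ := Ideal.Quotient.field (Ideal.span {p})
  have hq : Fintype.card (O ⧸ Ideal.span {p}) = nm p := by
    rw [← card_quot hp.ne_zero, Nat.card_eq_fintype_card]
  let ρ : 𝓞 F →+* O ⧸ Ideal.span {p} := (Ideal.Quotient.mk _).comp i
  have hρ : Function.Surjective ρ := fun y => by
    obtain ⟨y, rfl⟩ := Ideal.Quotient.mk_surjective y
    obtain ⟨x, hx⟩ := hs y
    exact ⟨x, (Ideal.Quotient.eq.2 (Ideal.mem_span_singleton.2 hx)).symm⟩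
  have hker : RingHom.ker ρ = (Ideal.span {p}).comap i := by
    rw [← RingHom.comap_ker, Ideal.mk_ker]
  have hP : ((Ideal.span {p}).comap i).IsMaximal := hker ▸ RingHom.ker_isMaximal_of_surjective ρ hρ
  have hc : Fintype.card (O ⧸ Ideal.span {p}) = Ideal.absNorm ((Ideal.span {p}).comap i) := by
    rw [← hker, Ideal.absNorm_apply, Submodule.cardQuot_apply, ← Nat.card_eq_fintype_card]
    exact (Nat.card_congr (RingHom.quotientKerEquivOfSurjective hρ).toEquiv).symm
  have h3 : (3 : 𝓞 F) ∉ (Ideal.span {p}).comap i := fun h => by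
    rw [Ideal.mem_comap, map_ofNat, Ideal.mem_span_singleton] at h
    exact hp.not_isUnit (isUnit_of_dvd_unit h isUnit_three)
  have hcub : IsCub (ρ w) χ := fun a ha => by
    obtain ⟨a, rfl⟩ := Ideal.Quotient.mk_surjective a
    have h1 : ¬ p ∣ a := fun h =>
      ha (Ideal.Quotient.eq_zero_iff_mem.2 (Ideal.mem_span_singleton.2 h))
    obtain ⟨k, hk⟩ := SymbolAux.exists_cub hp hp' h1
    refine ⟨k, ?_, by rw [hχ, cub_prime hp hp', SymbolAux.cub1_of_dvd hp hp' hk]; rfl⟩
    rw [hq, RingHom.comp_apply, hiw, ← map_pow, ← map_pow]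
    exact Ideal.Quotient.eq.2 (Ideal.mem_span_singleton.2 hk)
  obtain ⟨h1, h2, -⟩ := jacobi_AP hw h3 ρ (fun x hx => by rwa [← hker] at hx) hc hcub
  have h4 : ∑ x ∈ res p, cub1 p x * cub1 p (1 - x) = jacobiSum χ χ := by
    rw [jacobiSum, ← sum_res_eq_quot hp.ne_zero]
    refine sum_congr rfl fun x _ => ?_
    rw [← map_one (Ideal.Quotient.mk (Ideal.span {p})), ← map_sub, hχ, hχ, cub_prime hp hp',
      cub_prime hp hp']
  rw [arg1, h4, h1, neg_neg, R17.arg, R17.norm_ι, R17.nr, h2, hq]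

omit [Fr0] in
theorem R17_arg_prod_79 {α : Type*} (s : Finset α) (f : α → R17.O) (e : α → ℕ) :
    R17.arg (∏ a ∈ s, f a ^ e a) = ∏ a ∈ s, R17.arg (f a) ^ e a := by
  simp only [R17.arg, map_prod, map_pow, norm_prod, norm_pow, Complex.ofReal_prod,
    Complex.ofReal_pow, prod_div_distrib, div_pow]

/-- `arg` on integers `≡ 1 (mod N)` -/
theorem arg_eq_alpha_79 {N : ℕ} (h3 : 3 ∣ N) (hN : N ≠ 0) (j : O →+* F)
    (hj : Function.Injective j) (hr : ∀ x, x ∈ j.range ↔ x ∈ RS F N) {n : O} {t : F}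
    (ht : IsIntegral ℤ t) (hn : j n = 1 + N * t) :
    arg n = alphaF (j om) (j n) / (‖alphaF (j om) (j n)‖ : ℂ) := by
  obtain ⟨i, hi⟩ := exists_hom_79 j hj hr
  have hwi : IsIntegral ℤ (j om) := by
    refine IsIntegral.of_pow three_pos ?_
    rw [← map_pow, om_cube, map_one]; exact isIntegral_one
  let w : 𝓞 F := ⟨j om, hwi⟩
  have hiw : i w = om := hj (hi w)
  have hii : Function.Injective i := fun x y h => RingOfIntegers.ext (by rw [← hi, ← hi, h])
  have hw : w ^ 2 + w + 1 = 0 := hii (by simpa [hiw] using om_sq_add)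
  have hNF : (N : F) ≠ 0 := Nat.cast_ne_zero.2 hN
  have hNu : IsUnit (N : O) := by
    obtain ⟨y, hy⟩ := (hr (N : F)⁻¹).2 (mem_RS.2 ⟨1, by
      rw [pow_one, mul_inv_cancel₀ hNF]; exact isIntegral_one⟩)
    exact IsUnit.of_mul_eq_one y (hj (by rw [map_mul, map_natCast, hy, map_one,
      mul_inv_cancel₀ hNF]))
  have hden : ∀ y : O, ∃ (k : ℕ) (a : 𝓞 F), (N : O) ^ k * y = i a := fun y => by
    obtain ⟨k, a, h⟩ := exists_eq_of_mem_RS ((hr (j y)).1 ⟨y, rfl⟩)
    exact ⟨k, a, hj (by rw [hi, ← h, map_mul, map_pow, map_natCast])⟩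
  let _ : Algebra (𝓞 F) O := i.toAlgebra
  have hloc : IsLocalization (Submonoid.powers (N : 𝓞 F)) O :=
    { map_units := by
        rintro ⟨_, k, rfl⟩
        show IsUnit (i _)
        rw [map_pow, map_natCast]; exact hNu.pow k
      surj := fun y => by
        obtain ⟨k, a, h⟩ := hden y
        refine ⟨⟨a, ⟨_, k, rfl⟩⟩, ?_⟩
        show y * i _ = i a
        rw [← h, map_pow, map_natCast, mul_comm]
      exists_of_eq := fun h => ⟨1, by rw [hii h]⟩ }
  have hcm : ∀ I : Ideal (𝓞 F), IsCoprime I (Ideal.span {(N : 𝓞 F)}) →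
      (I.map i).comap i = I := fun I hI => by
    refine le_antisymm (fun x hx => ?_) Ideal.le_comap_map
    obtain ⟨_, ⟨k, rfl⟩, h⟩ := (IsLocalization.algebraMap_mem_map_algebraMap_iff
      (Submonoid.powers (N : 𝓞 F)) O I x).1 hx
    have h1 := Ideal.isCoprime_iff_exists.1 (hI.pow_right (n := k))
    obtain ⟨a, ha, b, hb, hab⟩ := h1
    rw [Ideal.span_singleton_pow, Ideal.mem_span_singleton] at hb
    obtain ⟨c, rfl⟩ := hb
    have : x = x * a + c * ((N : 𝓞 F) ^ k * x) := by linear_combination (-x) * hab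
    rw [this]
    exact I.add_mem (I.mul_mem_left _ ha) (I.mul_mem_left _ h)
  -- the primes below
  have hmax : ∀ p : O, Prime p → ((Ideal.span {p}).comap i).IsMaximal ∧
      (N : 𝓞 F) ∉ (Ideal.span {p}).comap i := fun p hp => by
    have h1 : (Ideal.span {p}).IsPrime := (Ideal.span_singleton_prime hp.ne_zero).2 hp
    refine ⟨(Ideal.comap_isPrime i _).isMaximal fun h => ?_, fun h => ?_⟩
    · obtain ⟨k, a, ha⟩ := hden p
      have h2 : a ∈ (Ideal.span {p}).comap i := by
        rw [Ideal.mem_comap, ← ha]; exact Ideal.mem_span_singleton.2 (dvd_mul_left _ _)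
      rw [h, Ideal.mem_bot] at h2
      rw [h2, map_zero] at ha
      exact mul_ne_zero (hNu.pow k).ne_zero hp.ne_zero ha
    · rw [Ideal.mem_comap, map_natCast, Ideal.mem_span_singleton] at h
      exact hp.not_isUnit (isUnit_of_dvd_unit h hNu)
  have hcop : ∀ p : O, Prime p →
      IsCoprime ((Ideal.span {p}).comap i) (Ideal.span {(N : 𝓞 F)}) := fun p hp => by
    obtain ⟨h1, h2⟩ := hmax p hp
    rw [Ideal.isCoprime_iff_sup_eq]
    exact h1.out.2 _ (lt_of_le_of_ne le_sup_left fun h => h2 (h ▸ Ideal.mem_sup_right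
      (Ideal.mem_span_singleton_self _)))
  have hs : ∀ p : O, Prime p → ∀ y : O, ∃ x, p ∣ y - i x := fun p hp y => by
    obtain ⟨k, a, ha⟩ := hden y
    obtain ⟨b, hb, c, hc, hbc⟩ := Ideal.isCoprime_iff_exists.1 ((hcop p hp).pow_right (n := k))
    rw [Ideal.span_singleton_pow, Ideal.mem_span_singleton] at hc
    obtain ⟨d, rfl⟩ := hc
    have h1 := congrArg i hbc
    rw [map_add, map_mul, map_pow, map_natCast, map_one] at h1
    refine ⟨d * a, ?_⟩
    have : y - i (d * a) = i b * y := by rw [map_mul, ← ha]; linear_combination (-y) * h1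
    rw [this]
    exact (Ideal.mem_span_singleton.1 (Ideal.mem_comap.1 hb)).mul_right _
  let x : 𝓞 F := 1 + N * ⟨t, ht⟩
  have hx : i x = n := hj (by rw [hi, hn]; rfl)
  have hxF : (x : F) = j n := by rw [← hx, hi]
  have hx3 : (3 : 𝓞 F) ∣ x - 1 := by
    obtain ⟨c, rfl⟩ := h3
    exact ⟨c * ⟨t, ht⟩, by simp only [x]; push_cast; ring⟩
  have hn0 : n ≠ 0 := by
    rintro rfl
    have h1 := (primary_nu hw hx3).ne_zero
    have h2 := R17.ι_injective.ne h1
    rw [ι_nu, map_zero, hxF, map_zero] at h2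
    have h4 := norm_alphaF_sq (hw_coe_79 hw) (0 : F)
    rw [Algebra.norm_zero, Rat.cast_zero] at h4
    exact h2 (norm_eq_zero.1 (pow_eq_zero_iff two_ne_zero |>.1 h4))
  obtain ⟨u, hu, hun⟩ := exists_eq_unit_prod hn0
  have hfac : Ideal.span {x} = ∏ p ∈ pf n, ((Ideal.span {p}).comap i) ^ vp p n := by
    rw [← hcm (Ideal.span {x}) ((Ideal.isCoprime_span_singleton_iff _ _).2
      ⟨1, -⟨t, ht⟩, by simp only [x]; ring⟩), ← hcm (∏ p ∈ pf n, _)
      (IsCoprime.prod_left fun p hp => (hcop p (BasicB.pf_sub hp).1).pow_left)]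
    congr 1
    rw [Ideal.map_span, Set.image_singleton, hx]
    have h1 : ∀ p : O, ((Ideal.span {p}).comap i).map i = Ideal.span {p} := fun p =>
      IsLocalization.map_under (Submonoid.powers (N : 𝓞 F)) O (Ideal.span {p})
    have h2 : (∏ p ∈ pf n, ((Ideal.span {p}).comap i) ^ vp p n).map i =
        ∏ p ∈ pf n, (Ideal.span {p}) ^ vp p n := by
      rw [← Ideal.mapHom_apply, map_prod]
      exact prod_congr rfl fun p _ => by rw [map_pow, Ideal.mapHom_apply, h1]
    rw [h2]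
    simp only [Ideal.span_singleton_pow, Ideal.prod_span_singleton]
    conv_lhs => rw [hun]
    exact Ideal.span_singleton_mul_left_unit hu _
  have hne : ∀ p ∈ pf n, (Ideal.span {p}).comap i ≠ 0 := fun p hp =>
    Ring.ne_bot_of_isMaximal_of_not_isField (hmax p (BasicB.pf_sub hp).1).1
      (RingOfIntegers.not_isField F)
  have hA : AI hw (Ideal.span {x}) = ∏ p ∈ pf n, AP hw ((Ideal.span {p}).comap i) ^ vp p n := by
    rw [hfac, AI_prod hw _ _ fun p hp => pow_ne_zero _ (hne p hp)]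
    refine prod_congr rfl fun p hp => ?_
    rw [AI_pow hw (hne p hp), AI_prime hw (Ideal.prime_of_isPrime (hne p hp)
      (hmax p (BasicB.pf_sub hp).1).1.isPrime)]
  have h5 : alphaF (j om) (j n) = R17.ι (AI hw (Ideal.span {x})) := by
    rw [ι_AI hw hx3, hxF]; rfl
  rw [h5, arg, if_neg hn0, hA]
  refine Eq.trans (prod_congr rfl fun p hp => ?_) (R17_arg_prod_79 _ _ _).symm
  rw [arg1_eq_79 i hw hiw (BasicB.pf_sub hp).1 (BasicB.pf_sub hp).2 (hs p (BasicB.pf_sub hp).1)]

variable [TH.Emb F]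

theorem arg_eq_argF_79 {N : ℕ} (h3 : 3 ∣ N) (hN : N ≠ 0) (j : O →+* F)
    (hj : Function.Injective j) (hr : ∀ x, x ∈ j.range ↔ x ∈ RS F N)
    (hσ : ∀ v, TH.Emb.σ v (j om) = omC) {n : O} {t : F}
    (ht : IsIntegral ℤ t) (hn : j n = 1 + N * t) : arg n = TH.argF (j n) := by
  rw [argF_eq_79 hσ, arg_eq_alpha_79 h3 hN j hj hr ht hn]

/-- `arg / argF` is invariant under `1 + N Λ` -/
theorem arg_class_79 {N : ℕ} (h3 : 3 ∣ N) (hN : N ≠ 0) (j : O →+* F)
    (hj : Function.Injective j) (hr : ∀ x, x ∈ j.range ↔ x ∈ RS F N)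
    (hσ : ∀ v, TH.Emb.σ v (j om) = omC) {n n' : O} {l : F} (hl : l ∈ LS F N)
    (h : j n' = j n * (1 + N * l)) :
    arg n' * conj (TH.argF (j n')) = arg n * conj (TH.argF (j n)) := by
  obtain ⟨d, hd, hdl⟩ := mem_LS.1 hl
  obtain ⟨u, v, huv⟩ := bezout_cast hd F
  obtain ⟨a, ha⟩ := (hr (d * l)).2 (mem_LocS_of_isIntegral hdl)
  have h1 : j (u * d) = 1 + N * (-v : F) := by
    rw [map_mul, map_intCast, map_natCast]; linear_combination huv
  have h2 : j (u * d + N * (u * a)) = 1 + N * (-v + u * (d * l)) := by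
    rw [map_add, h1, map_mul, map_mul, map_natCast, map_intCast, ha]; ring
  have hv : IsIntegral ℤ (-v : F) := (isIntegral_algebraMap (R := ℤ)).neg
  have e1 := arg_eq_argF_79 h3 hN j hj hr hσ hv h1
  have e2 := arg_eq_argF_79 h3 hN j hj hr hσ
    (hv.add ((isIntegral_algebraMap (R := ℤ)).mul hdl)) h2
  have h4 : n' * (u * d) = n * (u * d + N * (u * a)) := hj (by
    simp only [map_mul, map_add, map_intCast, map_natCast, h, ha]; ring)
  have hz : ∀ {y : O} {t : F}, IsIntegral ℤ t → j y = 1 + N * t → j y ≠ 0 := by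
    intro y t ht hy h0
    have h5 : IsIntegral ℤ ((N : F)⁻¹) := by
      have : (N : F)⁻¹ = -t := by
        rw [hy] at h0
        exact inv_eq_of_mul_eq_one_right (by linear_combination -h0)
      rw [this]; exact ht.neg
    have h6 : IsIntegral ℤ ((N : ℚ)⁻¹) :=
      (isIntegral_algebraMap_iff (algebraMap ℚ F).injective).1 (by simpa using h5)
    obtain ⟨c, hc⟩ := IsIntegrallyClosed.isIntegral_iff.1 h6
    have h7 : (N : ℤ) * c = 1 := by
      have : (N : ℚ) * c = 1 := by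
        rw [show (c : ℚ) = (N : ℚ)⁻¹ from hc, mul_inv_cancel₀ (Nat.cast_ne_zero.2 hN)]
      exact_mod_cast this
    have h8 : (3 : ℤ) ∣ 1 := h7 ▸ (Int.natCast_dvd_natCast.2 h3).mul_right c
    omega
  have k1 : ∀ {y : O}, j y ≠ 0 → TH.argF (j y) * conj (TH.argF (j y)) = 1 := fun hy => by
    rw [Complex.mul_conj, Complex.normSq_eq_norm_sq, norm_argF_79 hy]; simp
  have k2 := k1 (hz hv h1)
  have k3 := k1 (hz (hv.add ((isIntegral_algebraMap (R := ℤ)).mul hdl)) h2)
  have e3 := congrArg arg h4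
  have e4 := congrArg (fun y => conj (TH.argF (j y))) h4
  simp only [map_mul j n', map_mul j n, argF_mul_79, map_mul (starRingEnd ℂ)] at e4
  rw [arg_mul, arg_mul n, e1, e2] at e3
  calc arg n' * conj (TH.argF (j n'))
      = (arg n' * TH.argF (j (u * d))) * (conj (TH.argF (j n')) * conj (TH.argF (j (u * d)))) := by
        linear_combination (-(arg n' * conj (TH.argF (j n')))) * k2
    _ = _ := by
        rw [e3, e4]
        linear_combination (arg n * conj (TH.argF (j n))) * k3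

end Crest.Agent.T27
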