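import Mathlib
import Crest.Agent.T27.Gauss_55
import Crest.Agent.T27.Sar2_77

-- ▼ part T27/GsAvg_58
section

/-!
# Row 27: averages of periodic functions on abelian groups (for Milgram's formula)

`HasAvg f c`: `f` factors through a finite quotient and `c` is its mean value there.
-/

set_option autoImplicit false

noncomputable section

namespace Crest.Agent.T27.G58

/-- Mean value of a function on a finite type. -/
def mean {A : Type} [Fintype A] (g : A → ℂ) : ℂ := (∑ a, g a) / (Fintype.card A : ℂ)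

theorem mean_comp_surj {A B : Type} [AddCommGroup A] [AddCommGroup B] [Fintype A] [Fintype B]
    (π : A →+ B) (hπ : Function.Surjective π) (g : B → ℂ) : mean (fun a => g (π a)) = mean g := by
  classical
  set c : ℕ := (Finset.univ.filter fun a => π a = 0).card with hc
  have hf : ∀ b, (Finset.univ.filter fun a => π a = b).card = c := fun b =>
    AddMonoidHom.card_fiber_eq_of_mem_range π (hπ b) ⟨0, map_zero π⟩
  have key : ∀ h : B → ℂ, ∑ a, h (π a) = c * ∑ b, h b := fun h => by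
    rw [← Finset.sum_fiberwise' Finset.univ π h, Finset.mul_sum]
    refine Finset.sum_congr rfl fun b _ => ?_
    rw [Finset.sum_const, hf, nsmul_eq_mul]
  have h1 : (Fintype.card A : ℂ) = c * Fintype.card B := by
    simpa using key fun _ => 1
  have hc0 : (c : ℂ) ≠ 0 := by
    intro h
    rw [h, zero_mul] at h1
    exact Fintype.card_ne_zero (by exact_mod_cast h1)
  rw [mean, mean, key, h1, mul_div_mul_left _ _ hc0]

theorem mean_prod {A B : Type} [Fintype A] [Fintype B] (g : A → ℂ) (h : B → ℂ) :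
    mean (fun x : A × B => g x.1 * h x.2) = mean g * mean h := by
  rw [mean, mean, mean, Fintype.sum_prod_type, Fintype.card_prod, div_mul_div_comm,
    Finset.sum_mul_sum]
  push_cast
  rfl


/-- `f` factors through a finite quotient, on which its mean value is `c`. -/
def HasAvg {M : Type} [AddCommGroup M] (f : M → ℂ) (c : ℂ) : Prop :=
  ∃ (A : Type) (_ : AddCommGroup A) (_ : Fintype A) (π : M →+ A) (g : A → ℂ),
    Function.Surjective π ∧ (∀ x, f x = g (π x)) ∧ mean g = c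

theorem HasAvg.mk' {M A : Type} [AddCommGroup M] [AddCommGroup A] [Fintype A] (π : M →+ A)
    (hπ : Function.Surjective π) {f : M → ℂ} (g : A → ℂ) (h : ∀ x, f x = g (π x)) :
    HasAvg f (mean g) := ⟨A, _, _, π, g, hπ, h, rfl⟩

theorem HasAvg.unique {M : Type} [AddCommGroup M] {f : M → ℂ} {c d : ℂ} (hc : HasAvg f c)
    (hd : HasAvg f d) : c = d := by
  classical
  obtain ⟨A, _, _, π, g, hπ, hg, rfl⟩ := hc
  obtain ⟨B, _, _, ρ, h, hρ, hh, rfl⟩ := hd
  set C := (π.prod ρ).range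
  have : Fintype C := Fintype.ofFinite C
  let p1 : C →+ A := (AddMonoidHom.fst A B).comp C.subtype
  let p2 : C →+ B := (AddMonoidHom.snd A B).comp C.subtype
  have s1 : Function.Surjective p1 := fun a => by
    obtain ⟨x, rfl⟩ := hπ a
    exact ⟨⟨(π.prod ρ) x, x, rfl⟩, rfl⟩
  have s2 : Function.Surjective p2 := fun b => by
    obtain ⟨x, rfl⟩ := hρ b
    exact ⟨⟨(π.prod ρ) x, x, rfl⟩, rfl⟩
  rw [← mean_comp_surj p1 s1, ← mean_comp_surj p2 s2]
  congr 1
  funext z
  obtain ⟨_, x, rfl⟩ := z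
  exact (hg x).symm.trans (hh x)

theorem HasAvg.comp {M M' : Type} [AddCommGroup M] [AddCommGroup M'] {f : M → ℂ} {c : ℂ}
    (hc : HasAvg f c) (p : M' →+ M) (hp : Function.Surjective p) : HasAvg (fun x => f (p x)) c := by
  obtain ⟨A, _, _, π, g, hπ, hg, rfl⟩ := hc
  exact HasAvg.mk' (π.comp p) (hπ.comp hp) g fun x => hg _

theorem HasAvg.congr {M : Type} [AddCommGroup M] {f f' : M → ℂ} {c : ℂ} (hc : HasAvg f c)
    (h : ∀ x, f' x = f x) : HasAvg f' c := by
  rw [show f' = f from funext h]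
  exact hc

/-- Transfer to the range of an injective homomorphism. -/
theorem HasAvg.range {M V : Type} [AddCommGroup M] [AddCommGroup V] (p : M →+ V)
    (hp : Function.Injective p) {φ : V → ℂ} {c : ℂ} (hc : HasAvg (fun x => φ (p x)) c) :
    HasAvg (fun y : p.range => φ y) c := by
  let e := AddMonoidHom.ofInjective hp
  refine (hc.comp e.symm.toAddMonoidHom e.symm.surjective).congr fun y => ?_
  obtain ⟨x, rfl⟩ := e.surjective y
  simp [e, AddMonoidHom.ofInjective_apply]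


/-- Chinese remainder theorem for averages. -/
theorem hasAvg_mul {M A B : Type} [AddCommGroup M] [AddCommGroup A] [AddCommGroup B] [Fintype A]
    [Fintype B] (π : M →+ A) (hπ : Function.Surjective π) (ρ : M →+ B)
    (hρ : Function.Surjective ρ) (hcrt : ∀ x, ∃ k, π k = 0 ∧ ρ k = ρ x) (g : A → ℂ) (h : B → ℂ) :
    HasAvg (fun x => g (π x) * h (ρ x)) (mean g * mean h) := by
  rw [← mean_prod]
  refine HasAvg.mk' (π.prod ρ) (fun ⟨a, b⟩ => ?_) _ fun x => rfl
  obtain ⟨x, rfl⟩ := hπ a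
  obtain ⟨y, rfl⟩ := hρ b
  obtain ⟨k, h1, h2⟩ := hcrt (y - x)
  refine ⟨x + k, Prod.ext ?_ ?_⟩
  · simp [h1]
  · simp [h2]

/-- A quadratic character of an abelian group. -/
structure QCh (V : Type) [AddCommGroup V] where
  φ : V → ℂ
  β : V → V → ℂ
  φ_zero : φ 0 = 1
  φ_add : ∀ x y, φ (x + y) = φ x * φ y * β x y
  β_add : ∀ x x' y, β (x + x') y = β x y * β x' y

namespace QCh

variable {V : Type} [AddCommGroup V] (q : QCh V)

/-- The orthogonal of an isotropic subgroup. -/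
def orth (L : AddSubgroup V) (hL : ∀ h ∈ L, q.φ h = 1) : AddSubgroup V where
  carrier := {y | ∀ h ∈ L, q.β y h = 1}
  zero_mem' := fun h hh => by
    have := q.φ_add 0 h
    rw [zero_add, q.φ_zero, hL h hh] at this
    simpa using this.symm
  add_mem' := fun {a b} ha hb h hh => by rw [q.β_add, ha h hh, hb h hh, one_mul]
  neg_mem' := fun {a} ha h hh => by
    have h0 := q.φ_add 0 h
    rw [zero_add, q.φ_zero, hL h hh] at h0
    have := q.β_add (-a) a h
    rw [neg_add_cancel, ha h hh, mul_one] at this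
    rw [← this]
    simpa using h0.symm

theorem le_orth (L : AddSubgroup V) (hL : ∀ h ∈ L, q.φ h = 1) : L ≤ q.orth L hL := by
  intro a ha h hh
  have := q.φ_add a h
  rw [hL _ (L.add_mem ha hh), hL a ha, hL h hh] at this
  simpa using this.symm

/-- `M` contains the orthogonal of an isotropic subgroup. -/
def Large (M : AddSubgroup V) : Prop :=
  ∃ L : AddSubgroup V, (∀ h ∈ L, q.φ h = 1) ∧ ∀ y, (∀ h ∈ L, q.β y h = 1) → y ∈ M

/-- Isotropic reduction. -/
theorem red (L : AddSubgroup V) (hL : ∀ h ∈ L, q.φ h = 1) (M : AddSubgroup V)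
    (hM : q.orth L hL ≤ M) {c : ℂ} (hc : HasAvg (fun y : M => q.φ y) c) :
    ∃ r : ℝ, 0 < r ∧ ∃ d, HasAvg (fun y : q.orth L hL => q.φ y) d ∧ c = r * d := by
  classical
  obtain ⟨A, _, _, π, g, hπ, hg, rfl⟩ := hc
  set D := q.orth L hL with hD
  have hLM : L ≤ M := (q.le_orth L hL).trans hM
  let j : D →+ A := π.comp (AddSubgroup.inclusion hM)
  let l : L →+ A := π.comp (AddSubgroup.inclusion hLM)
  have : Fintype j.range := Fintype.ofFinite _
  have : Fintype l.range := Fintype.ofFinite _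
  have hker : ∀ y : M, π y ∈ j.range → (y : V) ∈ D := by
    rintro y ⟨d, hd⟩
    have hk : π (y - AddSubgroup.inclusion hM d) = 0 := by rw [map_sub, sub_eq_zero]; exact hd.symm
    set k := y - AddSubgroup.inclusion hM d with hk'
    have h1 : (k : V) ∈ D := fun h hh => by
      have e1 : q.φ k = 1 := by
        have := hg k
        rw [hk, ← map_zero π, ← hg 0] at this
        exact this.trans q.φ_zero
      have e2 := hg (k + ⟨h, hLM hh⟩)
      rw [map_add, hk, zero_add, ← hg] at e2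
      simp only [AddSubgroup.coe_add] at e2
      rw [q.φ_add, e1, hL h hh] at e2
      simpa using e2
    have : (y : V) = k + d := by simp [hk']
    rw [this]
    exact D.add_mem h1 d.2
  have hlj : ∀ b : l.range, (b : A) ∈ j.range := by
    rintro ⟨_, h, rfl⟩
    exact ⟨⟨h, q.le_orth L hL h.2⟩, rfl⟩
  have inner : ∀ a, a ∉ j.range → ∑ b : l.range, g (a + b) = 0 := by
    intro a ha
    obtain ⟨y, rfl⟩ := hπ a
    have hy : (y : V) ∉ D := fun h => ha ⟨⟨y, h⟩, rfl⟩
    obtain ⟨h0, hh0, hζ⟩ : ∃ h0 ∈ L, q.β y h0 ≠ 1 := by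
      by_contra hcon
      push Not at hcon
      exact hy hcon
    set b0 : l.range := ⟨l ⟨h0, hh0⟩, _, rfl⟩
    have e1 : ∑ b : l.range, g (π y + (b + b0 : l.range)) = ∑ b : l.range, g (π y + b) :=
      Equiv.sum_comp (Equiv.addRight b0) fun b : l.range => g (π y + b)
    have e2 : ∀ b : l.range, g (π y + (b + b0 : l.range)) = q.β y h0 * g (π y + b) := by
      rintro ⟨_, h, rfl⟩
      have a1 := hg (y + ⟨h, hLM h.2⟩ + ⟨h0, hLM hh0⟩)
      have a2 := hg (y + ⟨h, hLM h.2⟩)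
      simp only [map_add, AddSubgroup.coe_add] at a1 a2
      rw [q.φ_add, q.β_add, hL h0 hh0, q.le_orth L hL h.2 h0 hh0, a2, add_assoc] at a1
      refine a1.symm.trans ?_
      change _ = _ * g (π y + π ⟨h, hLM h.2⟩)
      ring
    rw [Finset.sum_congr rfl fun b _ => e2 b, ← Finset.mul_sum] at e1
    have : (q.β y h0 - 1) * ∑ b : l.range, g (π y + b) = 0 := by rw [sub_mul, e1, one_mul, sub_self]
    exact (mul_eq_zero.1 this).resolve_left (sub_ne_zero.2 hζ)
  have outer : ∑ a ∈ Finset.univ.filter (fun a => a ∉ j.range), g a = 0 := by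
    have e1 : ∀ b : l.range, ∑ a ∈ Finset.univ.filter (fun a => a ∉ j.range), g (a + b) =
        ∑ a ∈ Finset.univ.filter (fun a => a ∉ j.range), g a := fun b => by
      refine Finset.sum_equiv (Equiv.addRight (b : A)) (fun a => ?_) fun a _ => rfl
      simp only [Finset.mem_filter, Finset.mem_univ, true_and, Equiv.coe_addRight]
      rw [j.range.add_mem_cancel_right (hlj b)]
    have e2 : ∑ b : l.range, ∑ a ∈ Finset.univ.filter (fun a => a ∉ j.range), g (a + b) = 0 := by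
      rw [Finset.sum_comm]
      exact Finset.sum_eq_zero fun a ha => inner a (Finset.mem_filter.1 ha).2
    rw [Finset.sum_congr rfl fun b _ => e1 b, Finset.sum_const, Finset.card_univ, nsmul_eq_mul] at e2
    exact (mul_eq_zero.1 e2).resolve_left (by exact_mod_cast Fintype.card_ne_zero)
  have h1 : (0 : ℝ) < Fintype.card j.range := by exact_mod_cast Fintype.card_pos
  have h2 : (0 : ℝ) < Fintype.card A := by exact_mod_cast Fintype.card_pos
  refine ⟨Fintype.card j.range / Fintype.card A, div_pos h1 h2, mean fun a : j.range => g a,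
    HasAvg.mk' j.rangeRestrict j.rangeRestrict_surjective _ fun y => hg ⟨y, hM y.2⟩, ?_⟩
  have e3 : ∑ a, g a = ∑ a : j.range, g a := by
    rw [← Finset.sum_filter_add_sum_filter_not Finset.univ (fun a => a ∈ j.range), outer, add_zero]
    exact Finset.sum_subtype _ (by simp) _
  have h1' : (Fintype.card j.range : ℂ) ≠ 0 := by exact_mod_cast h1.ne'
  rw [mean, mean, e3]
  push_cast
  field_simp

/-- The averages over two large subgroups differ by a positive factor. -/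
theorem two_large {M M' : AddSubgroup V} (hM : q.Large M) (h : M ≤ M') {c c' : ℂ}
    (hc : HasAvg (fun y : M => q.φ y) c) (hc' : HasAvg (fun y : M' => q.φ y) c') :
    ∃ r : ℝ, 0 < r ∧ c = r * c' := by
  obtain ⟨L, hL, hD⟩ := hM
  obtain ⟨r, hr, d, hd, rfl⟩ := q.red L hL M hD hc
  obtain ⟨r', hr', d', hd', rfl⟩ := q.red L hL M' (fun y hy => h (hD y hy)) hc'
  rw [hd.unique hd']
  refine ⟨r / r', div_pos hr hr', ?_⟩
  have : (r' : ℂ) ≠ 0 := by exact_mod_cast hr'.ne'
  push_cast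
  field_simp

end QCh

end Crest.Agent.T27.G58
end
end

-- ▼ part R017/QSh_411
section

/-!
# Row 17: the sign of the rational quadratic Gauss sum (via the theta function)

`landsberg : Σ_{r < n} exp(2πi r²/n) = √n (1 + i) (1 + (-i)^n) / 2` for `n ≥ 1`.
-/

set_option autoImplicit false

noncomputable section

open Complex Filter Topology
open scoped Real

namespace Crest.Agent.R017.QS411

/-- Theta series over a residue class. -/
def Th (z : ℂ) (N : ℕ) (r : ℤ) : ℂ := ∑' j : ℤ, cexp (-π * z * ((r : ℂ) + N * j) ^ 2)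

lemma summable_gauss {c : ℝ} (hc : 0 < c) : Summable (fun n : ℤ => Real.exp (-π * (c * (n : ℝ) ^ 2))) := by
  have h := summable_pow_mul_jacobiTheta₂_term_bound 0 hc 0
  simpa using h

lemma norm_term (a b : ℂ) (hb : b.re = 0) (n : ℤ) :
    ‖cexp (-π * a * (n : ℂ) ^ 2 + 2 * π * b * n)‖ = Real.exp (-π * (a.re * (n : ℝ) ^ 2)) := by
  rw [Complex.norm_exp]
  congr 1
  have h1 : (n : ℂ) ^ 2 = (((n : ℝ) ^ 2 : ℝ) : ℂ) := by push_cast; rfl
  have h2 : (n : ℂ) = ((n : ℝ) : ℂ) := by push_cast; rfl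
  rw [Complex.add_re, h1, Complex.re_mul_ofReal, h2, Complex.re_mul_ofReal]
  have e1 : (-(π : ℂ) * a).re = -π * a.re := by
    rw [← ofReal_neg, Complex.re_ofReal_mul]
  have e2 : (2 * (π : ℂ) * b).re = 0 := by
    have : (2 * (π : ℂ) * b) = ((2 * π : ℝ) : ℂ) * b := by push_cast; ring
    rw [this, Complex.re_ofReal_mul, hb, mul_zero]
  rw [e1, e2]
  ring

lemma summable_term {a b : ℂ} (ha : 0 < a.re) (hb : b.re = 0) :
    Summable (fun n : ℤ => cexp (-π * a * (n : ℂ) ^ 2 + 2 * π * b * n)) := by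
  refine Summable.of_norm ?_
  simp_rw [norm_term a b hb]
  exact summable_gauss ha

/-- The constant. -/
def C0 : ℝ := ∑' n : ℤ, Real.exp (-π * ((1 / 2 : ℝ) * (n : ℝ) ^ 2))

lemma tail_bound {a b : ℂ} (ha : 1 ≤ a.re) (hb : b.re = 0) :
    ‖(∑' n : ℤ, cexp (-π * a * (n : ℂ) ^ 2 + 2 * π * b * n)) - 1‖ ≤
      C0 * Real.exp (-π * (a.re / 2)) := by
  have hs := summable_term (a := a) (b := b) (by linarith) hb
  have h0 : (∑' n : ℤ, cexp (-π * a * (n : ℂ) ^ 2 + 2 * π * b * n)) - 1 =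
      ∑' n : ℤ, (if n = 0 then 0 else cexp (-π * a * (n : ℂ) ^ 2 + 2 * π * b * n)) := by
    rw [hs.tsum_eq_add_tsum_ite 0]
    simp
  rw [h0]
  have hg := (summable_gauss (c := 1 / 2) (by norm_num)).mul_right (Real.exp (-π * (a.re / 2)))
  have hle : ∀ n : ℤ, ‖(if n = 0 then (0 : ℂ) else cexp (-π * a * (n : ℂ) ^ 2 + 2 * π * b * n))‖ ≤
      Real.exp (-π * ((1 / 2 : ℝ) * (n : ℝ) ^ 2)) * Real.exp (-π * (a.re / 2)) := by
    intro n
    split_ifs with hn
    · rw [norm_zero]; positivity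
    · rw [norm_term a b hb, ← Real.exp_add, Real.exp_le_exp]
      have h1 : (1 : ℝ) ≤ (n : ℝ) ^ 2 := by
        have : (1 : ℤ) ≤ n ^ 2 := by
          have := Int.one_le_abs hn
          nlinarith [sq_abs n]
        exact_mod_cast this
      have hpi := Real.pi_pos
      have h2 : a.re / 2 + 1 / 2 * (n : ℝ) ^ 2 ≤ a.re * (n : ℝ) ^ 2 := by nlinarith
      nlinarith
  have hsn : Summable (fun n : ℤ =>
      ‖(if n = 0 then (0 : ℂ) else cexp (-π * a * (n : ℂ) ^ 2 + 2 * π * b * n))‖) :=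
    Summable.of_nonneg_of_le (fun _ => norm_nonneg _) hle hg
  refine (norm_tsum_le_tsum_norm hsn).trans ?_
  refine (hsn.tsum_le_tsum hle hg).trans ?_
  rw [tsum_mul_right]
  rfl

/-- Functional equation for the class theta series. -/
lemma Th_eq {z : ℂ} {N : ℕ} (hN : 0 < N) (r : ℤ) (ha : 0 < (1 / (z * (N : ℂ) ^ 2)).re) :
    Th z N r = (1 / (z * (N : ℂ) ^ 2)) ^ (1 / 2 : ℂ) *
      ∑' n : ℤ, cexp (-π * (1 / (z * (N : ℂ) ^ 2)) * (n : ℂ) ^ 2 +
        2 * π * (-I * ((r : ℂ) / N)) * n) := by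
  have h := Complex.tsum_exp_neg_quadratic ha (-I * ((r : ℂ) / N))
  rw [h]
  have hz0 : z ≠ 0 := by
    rintro rfl
    simp at ha
  have hN0 : (N : ℂ) ≠ 0 := by exact_mod_cast hN.ne'
  have ha0 : (1 / (z * (N : ℂ) ^ 2)) ≠ 0 := by
    rw [one_div]
    exact inv_ne_zero (mul_ne_zero hz0 (pow_ne_zero 2 hN0))
  have hp : (1 / (z * (N : ℂ) ^ 2)) ^ (1 / 2 : ℂ) ≠ 0 := by
    rw [Ne, Complex.cpow_eq_zero_iff]
    exact fun h => ha0 h.1
  rw [← mul_assoc, mul_one_div_cancel hp, one_mul]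
  unfold Th
  refine tsum_congr fun j => ?_
  congr 1
  have hI : I * (-I * ((r : ℂ) / N)) = (r : ℂ) / N := by
    rw [← mul_assoc, mul_neg, I_mul_I]; ring
  rw [hI]
  field_simp
  ring

/-- Splitting a sum over `ℤ` into residue classes. -/
lemma tsum_classes {f : ℤ → ℂ} (hf : Summable f) (N : ℕ) [NeZero N] :
    ∑' k : ℤ, f k = ∑ r ∈ Finset.range N, ∑' j : ℤ, f ((r : ℤ) + N * j) := by
  have e := (Int.divModEquiv N).symm
  have h1 : ∑' k : ℤ, f k = ∑' p : ℤ × Fin N, f ((Int.divModEquiv N).symm p) :=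
    ((Int.divModEquiv N).symm.tsum_eq f).symm
  have hs : Summable (fun p : ℤ × Fin N => f ((Int.divModEquiv N).symm p)) :=
    (Int.divModEquiv N).symm.summable_iff.2 hf
  rw [h1]
  have hs2 : Summable (fun p : Fin N × ℤ => f ((Int.divModEquiv N).symm (p.2, p.1))) :=
    (Equiv.prodComm (Fin N) ℤ).summable_iff.2 hs
  have h2 : ∑' p : ℤ × Fin N, f ((Int.divModEquiv N).symm p) =
      ∑' p : Fin N × ℤ, f ((Int.divModEquiv N).symm (p.2, p.1)) :=
    ((Equiv.prodComm (Fin N) ℤ).tsum_eq (fun p : ℤ × Fin N => f ((Int.divModEquiv N).symm p))).symm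
  rw [h2, hs2.tsum_prod, tsum_fintype, Finset.sum_range]
  refine Finset.sum_congr rfl fun r _ => tsum_congr fun j => ?_
  rw [Int.divModEquiv_symm_apply]
  congr 1
  push_cast
  ring

/-- Asymptotics of the class theta series. -/
lemma Th_tendsto {ι : Type} {l : Filter ι} (z : ι → ℂ) {N : ℕ} (hN : 0 < N) (r : ℤ)
    (hz : Tendsto (fun i => (1 / (z i * (N : ℂ) ^ 2)).re) l atTop) {c : ι → ℂ} {L : ℂ}
    (hc : Tendsto (fun i => c i * (1 / (z i * (N : ℂ) ^ 2)) ^ (1 / 2 : ℂ)) l (𝓝 L)) :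
    Tendsto (fun i => c i * Th (z i) N r) l (𝓝 L) := by
  have h1 : Tendsto (fun i => ∑' n : ℤ, cexp (-π * (1 / (z i * (N : ℂ) ^ 2)) * (n : ℂ) ^ 2 +
        2 * π * (-I * ((r : ℂ) / N)) * n)) l (𝓝 1) := by
    rw [tendsto_iff_norm_sub_tendsto_zero]
    have h2 : Tendsto (fun i => C0 * Real.exp (-π * ((1 / (z i * (N : ℂ) ^ 2)).re / 2))) l
        (𝓝 (C0 * 0)) := by
      refine Tendsto.const_mul _ (Real.tendsto_exp_atBot.comp ?_)
      have h3 : Tendsto (fun i => (1 / (z i * (N : ℂ) ^ 2)).re / 2) l atTop :=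
        hz.atTop_div_const (by norm_num)
      have h4 := h3.const_mul_atTop Real.pi_pos
      have h5 := tendsto_neg_atTop_atBot.comp h4
      refine h5.congr fun i => ?_
      simp only [Function.comp_apply]
      ring
    rw [mul_zero] at h2
    refine squeeze_zero' (Eventually.of_forall fun _ => norm_nonneg _) ?_ h2
    filter_upwards [hz.eventually_ge_atTop 1] with i hi
    refine tail_bound hi ?_
    have : -I * ((r : ℂ) / N) = ((-(r / N : ℝ) : ℝ) : ℂ) * I := by push_cast; ring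
    rw [this, Complex.re_ofReal_mul, I_re, mul_zero]
  have h3 := hc.mul h1
  rw [mul_one] at h3
  refine h3.congr' ?_
  filter_upwards [hz.eventually_gt_atTop 0] with i hi
  rw [Th_eq hN r hi, mul_assoc]

lemma exp_period {x : ℂ} {k : ℤ} : cexp (x + 2 * π * I * k) = cexp x := by
  have : (2 * π * I * k : ℂ) = (k : ℂ) * (2 * π * I) := by ring
  rw [this, Complex.exp_add, Complex.exp_int_mul_two_pi_mul_I, mul_one]

/-- **Landsberg–Schaar** (case `p = 1`). -/
theorem landsberg {n : ℕ} (hn : 0 < n) :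
    ∑ r ∈ Finset.range n, cexp (2 * π * I * (r : ℂ) ^ 2 / n) =
      (1 / (-2 * I / n) ^ (1 / 2 : ℂ)) * (1 + cexp (-(π * I * n / 2))) := by
  have hn0 : (n : ℂ) ≠ 0 := by exact_mod_cast hn.ne'
  have hnr : (0 : ℝ) < n := by exact_mod_cast hn
  have : NeZero n := ⟨hn.ne'⟩
  have hI2 : (I : ℂ) ^ 2 = -1 := I_sq
  -- parameters
  set a : ℝ → ℂ := fun e => (e : ℂ) - 2 * I / n with ha
  set w : ℝ → ℂ := fun e => 1 / a e - I * n / 2 with hw
  have ha0 : ∀ e : ℝ, a e ≠ 0 := by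
    intro e h
    have h1 := congrArg Complex.im h
    have h2 : (a e).im = -(2 / n) := by
      have : a e = ((e : ℝ) : ℂ) + ((-(2 / n) : ℝ) : ℂ) * I := by
        simp only [ha]; push_cast; ring
      rw [this]; simp
    rw [h2] at h1
    simp at h1
    exact hn.ne' h1
  have hare : ∀ e : ℝ, (a e).re = e := by
    intro e
    have : a e = ((e : ℝ) : ℂ) + ((-(2 / n) : ℝ) : ℂ) * I := by
      simp only [ha]; push_cast; ring
    rw [this]; simp
  have hwa : ∀ e : ℝ, w e * a e = -(I * n * e / 2) := by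
    intro e
    simp only [hw]
    rw [sub_mul, one_div_mul_cancel (ha0 e)]
    simp only [ha]
    field_simp
    linear_combination (2 : ℂ) * hI2
  have hw0 : ∀ e : ℝ, 0 < e → w e ≠ 0 := by
    intro e he h
    have h1 := hwa e
    rw [h, zero_mul] at h1
    have h2 : (I * n * e / 2 : ℂ) ≠ 0 := by
      refine div_ne_zero (mul_ne_zero (mul_ne_zero I_ne_zero hn0) ?_) two_ne_zero
      exact_mod_cast he.ne'
    exact h2 (by rw [← neg_eq_zero]; exact h1.symm)
  -- 1 / (4 w)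
  have hinv : ∀ e : ℝ, 0 < e → 1 / (w e * (2 : ℕ) ^ 2) = ((1 / e : ℝ) : ℂ) * (I * a e / (2 * n)) := by
    intro e he
    have he0 : (e : ℂ) ≠ 0 := by exact_mod_cast he.ne'
    have h1 := hwa e
    have h2 := hw0 e he
    push_cast
    rw [div_eq_iff (mul_ne_zero h2 (by norm_num))]
    have h3 : (1 / (e : ℂ)) * (I * a e / (2 * n)) * (w e * 2 ^ 2) =
        (1 / (e : ℂ)) * (2 * I * (w e * a e) / n) := by ring
    rw [h3, h1]
    field_simp
    linear_combination (1 : ℂ) * hI2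
  have hexpr : ∀ e : ℝ, I * a e / (2 * n) = ((1 / (n : ℝ) ^ 2 : ℝ) : ℂ) + ((e / (2 * n) : ℝ) : ℂ) * I := by
    intro e
    simp only [ha]
    push_cast
    field_simp
    linear_combination (-2 : ℂ) * hI2
  -- the two evaluations of the theta series
  set E : ℝ → ℂ := fun e => ∑' k : ℤ, cexp (-π * a e * (k : ℂ) ^ 2) with hE
  have hsum : ∀ e : ℝ, 0 < e → Summable (fun k : ℤ => cexp (-π * a e * (k : ℂ) ^ 2)) := by
    intro e he
    have := summable_term (a := a e) (b := 0) (by rw [hare]; exact he) (by simp)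
    simpa using this
  have hleft : ∀ e : ℝ, 0 < e → E e =
      ∑ r ∈ Finset.range n, cexp (2 * π * I * (r : ℂ) ^ 2 / n) * Th e n r := by
    intro e he
    simp only [hE]
    rw [tsum_classes (hsum e he) n]
    refine Finset.sum_congr rfl fun r _ => ?_
    unfold Th
    rw [← tsum_mul_left]
    refine tsum_congr fun j => ?_
    rw [← Complex.exp_add, ← exp_period (k := -(j * (2 * r + n * j)))]
    congr 1
    simp only [ha]
    push_cast
    field_simp
    ring
  have hright : ∀ e : ℝ, 0 < e → E e = 1 / (a e) ^ (1 / 2 : ℂ) *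
      (Th (w e) 2 0 + cexp (-(π * I * n / 2)) * Th (w e) 2 1) := by
    intro e he
    simp only [hE]
    rw [Complex.tsum_exp_neg_mul_int_sq (by rw [hare]; exact he)]
    congr 1
    have hs2 : Summable (fun k : ℤ => cexp (-π / a e * (k : ℂ) ^ 2)) := by
      have h1 : 0 < (1 / a e).re := by
        rw [one_div, Complex.inv_re, hare]
        exact div_pos he (Complex.normSq_pos.2 (ha0 e))
      have := summable_term (a := 1 / a e) (b := 0) h1 (by simp)
      refine this.congr fun k => ?_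
      congr 1
      ring
    rw [tsum_classes hs2 2, Finset.sum_range_succ, Finset.sum_range_one]
    congr 1
    · unfold Th
      refine tsum_congr fun j => ?_
      rw [← exp_period (x := -π / a e * ((((0 : ℕ) : ℤ) + ((2 : ℕ) : ℤ) * j : ℤ) : ℂ) ^ 2)
        (k := n * j ^ 2)]
      congr 1
      simp only [hw]
      push_cast
      ring
    · unfold Th
      rw [← tsum_mul_left]
      refine tsum_congr fun j => ?_
      rw [← exp_period (x := -π / a e * ((((1 : ℕ) : ℤ) + ((2 : ℕ) : ℤ) * j : ℤ) : ℂ) ^ 2)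
        (k := n * (j ^ 2 + j)), ← Complex.exp_add]
      congr 1
      simp only [hw]
      push_cast
      ring
  -- limits
  have hpos : ∀ᶠ e : ℝ in 𝓝[>] 0, 0 < e := eventually_mem_nhdsWithin
  have hid : Tendsto (fun e : ℝ => (e : ℂ)) (𝓝[>] 0) (𝓝 0) := by
    have : Tendsto (fun e : ℝ => (e : ℂ)) (𝓝 0) (𝓝 ((0 : ℝ) : ℂ)) :=
      Complex.continuous_ofReal.tendsto 0
    rw [ofReal_zero] at this
    exact this.mono_left nhdsWithin_le_nhds
  have hinvtop : Tendsto (fun e : ℝ => 1 / e) (𝓝[>] 0) atTop := by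
    simpa using tendsto_inv_nhdsGT_zero (𝕜 := ℝ)
  have limL : ∀ r : ℤ, Tendsto (fun e : ℝ => ((e : ℝ) : ℂ) ^ (1 / 2 : ℂ) * Th e n r) (𝓝[>] 0)
      (𝓝 (1 / n)) := by
    intro r
    have hval : ∀ e : ℝ, (1 / ((e : ℂ) * (n : ℂ) ^ 2)) = ((1 / (e * (n : ℝ) ^ 2) : ℝ) : ℂ) := by
      intro e; push_cast; rfl
    refine Th_tendsto (fun e : ℝ => (e : ℂ)) hn r ?_ ?_
    · simp_rw [hval, ofReal_re]
      have h1 : Tendsto (fun e : ℝ => 1 / e * (1 / (n : ℝ) ^ 2)) (𝓝[>] 0) atTop :=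
        hinvtop.atTop_mul_const (by positivity)
      refine h1.congr fun e => ?_
      rw [one_div_mul_one_div]
    · refine tendsto_const_nhds.congr' ?_
      filter_upwards [hpos] with e he
      rw [hval, ← Complex.mul_cpow_ofReal_nonneg he.le (by positivity), ← ofReal_mul]
      have : e * (1 / (e * (n : ℝ) ^ 2)) = (1 / (n : ℝ)) ^ 2 := by field_simp
      rw [this]
      have h2 : ((((1 / (n : ℝ)) ^ 2 : ℝ)) : ℂ) ^ (1 / 2 : ℂ) = ((((1 / (n : ℝ)) ^ 2 : ℝ) ^ (1 / 2 : ℝ) : ℝ) : ℂ) := by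
        rw [ofReal_cpow (by positivity)]; push_cast; rfl
      rw [h2, ← Real.rpow_natCast, ← Real.rpow_mul (by positivity)]
      norm_num
  have limR : ∀ r : ℤ, Tendsto (fun e : ℝ => ((e : ℝ) : ℂ) ^ (1 / 2 : ℂ) * Th (w e) 2 r) (𝓝[>] 0)
      (𝓝 (1 / n)) := by
    intro r
    refine Th_tendsto w (by norm_num) r ?_ ?_
    · have h1 : Tendsto (fun e : ℝ => 1 / e * (1 / (n : ℝ) ^ 2)) (𝓝[>] 0) atTop :=
        hinvtop.atTop_mul_const (by positivity)
      refine h1.congr' ?_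
      filter_upwards [hpos] with e he
      rw [hinv e he, Complex.re_ofReal_mul, hexpr, Complex.add_re, Complex.ofReal_re,
        Complex.re_ofReal_mul, Complex.I_re, mul_zero, add_zero]
    · have h1 : Tendsto (fun e : ℝ => (I * a e / (2 * n)) ^ (1 / 2 : ℂ)) (𝓝[>] 0)
          (𝓝 ((((1 / (n : ℝ) ^ 2 : ℝ)) : ℂ) ^ (1 / 2 : ℂ))) := by
        refine Tendsto.cpow ?_ tendsto_const_nhds ?_
        · simp_rw [hexpr]
          have h2 : Tendsto (fun e : ℝ => (((1 / (n : ℝ) ^ 2 : ℝ)) : ℂ) + ((e / (2 * n) : ℝ) : ℂ) * I)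
              (𝓝[>] 0) (𝓝 ((((1 / (n : ℝ) ^ 2 : ℝ)) : ℂ) + 0)) := by
            refine tendsto_const_nhds.add ?_
            have h3 : Tendsto (fun e : ℝ => (e : ℂ) * (1 / (2 * n) * I)) (𝓝[>] 0) (𝓝 (0 * (1 / (2 * n) * I))) :=
              hid.mul_const _
            rw [zero_mul] at h3
            refine h3.congr fun e => ?_
            push_cast; ring
          rw [add_zero] at h2
          exact h2
        · rw [Complex.ofReal_mem_slitPlane]
          positivity
      have h2 : ((((1 / (n : ℝ) ^ 2 : ℝ)) : ℂ) ^ (1 / 2 : ℂ)) = 1 / n := by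
        have h3 : (1 / (n : ℝ) ^ 2 : ℝ) = (1 / (n : ℝ)) ^ 2 := by field_simp
        have h2 : ((((1 / (n : ℝ)) ^ 2 : ℝ)) : ℂ) ^ (1 / 2 : ℂ) = ((((1 / (n : ℝ)) ^ 2 : ℝ) ^ (1 / 2 : ℝ) : ℝ) : ℂ) := by
          rw [ofReal_cpow (by positivity)]; push_cast; rfl
        rw [h3, h2, ← Real.rpow_natCast, ← Real.rpow_mul (by positivity)]
        norm_num
      rw [h2] at h1
      refine h1.congr' ?_
      filter_upwards [hpos] with e he
      rw [hinv e he]
      have he0 : (I * a e / (2 * n)) ≠ 0 :=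
        div_ne_zero (mul_ne_zero I_ne_zero (ha0 e)) (mul_ne_zero two_ne_zero hn0)
      have h3 : (((1 / e : ℝ) : ℂ) * (I * a e / (2 * n))) ^ (1 / 2 : ℂ) =
          ((1 / e : ℝ) : ℂ) ^ (1 / 2 : ℂ) * (I * a e / (2 * n)) ^ (1 / 2 : ℂ) := by
        have h1e : (0 : ℝ) < 1 / e := by positivity
        rw [Complex.cpow_def_of_ne_zero (mul_ne_zero (by exact_mod_cast h1e.ne') he0),
          Complex.cpow_def_of_ne_zero he0,
          Complex.cpow_def_of_ne_zero (by exact_mod_cast h1e.ne'),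
          Complex.log_ofReal_mul h1e he0, ← Complex.ofReal_log h1e.le, ← Complex.exp_add]
        congr 1
        ring
      rw [h3, ← mul_assoc, ← Complex.mul_cpow_ofReal_nonneg he.le (by positivity), ← ofReal_mul]
      have : e * (1 / e) = 1 := by field_simp
      rw [this, ofReal_one, Complex.one_cpow, one_mul]
  have lim1 : Tendsto (fun e : ℝ => ((e : ℝ) : ℂ) ^ (1 / 2 : ℂ) * E e) (𝓝[>] 0)
      (𝓝 ((∑ r ∈ Finset.range n, cexp (2 * π * I * (r : ℂ) ^ 2 / n)) * (1 / n))) := by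
    have h1 : Tendsto (fun e : ℝ => ∑ r ∈ Finset.range n, cexp (2 * π * I * (r : ℂ) ^ 2 / n) *
        (((e : ℝ) : ℂ) ^ (1 / 2 : ℂ) * Th e n r)) (𝓝[>] 0)
        (𝓝 (∑ r ∈ Finset.range n, cexp (2 * π * I * (r : ℂ) ^ 2 / n) * (1 / n))) :=
      tendsto_finsetSum _ fun r _ => (limL r).const_mul _
    rw [Finset.sum_mul]
    refine h1.congr' ?_
    filter_upwards [hpos] with e he
    rw [hleft e he, Finset.mul_sum]
    exact Finset.sum_congr rfl fun r _ => by ring
  have hacont : Tendsto a (𝓝[>] 0) (𝓝 (-2 * I / n)) := by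
    have h1 : Tendsto (fun e : ℝ => (e : ℂ) - 2 * I / n) (𝓝[>] 0) (𝓝 (0 - 2 * I / n)) :=
      hid.sub_const _
    have : (0 - 2 * I / n : ℂ) = -2 * I / n := by ring
    rwa [this] at h1
  have hslit : (-2 * I / n : ℂ) ∈ Complex.slitPlane := by
    rw [Complex.mem_slitPlane_iff]
    right
    have : (-2 * I / n : ℂ) = ((-(2 / n) : ℝ) : ℂ) * I := by push_cast; ring
    rw [this]
    simp
    exact hn.ne'
  have lim2 : Tendsto (fun e : ℝ => ((e : ℝ) : ℂ) ^ (1 / 2 : ℂ) * E e) (𝓝[>] 0)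
      (𝓝 ((1 / (-2 * I / n) ^ (1 / 2 : ℂ)) * (1 / n + cexp (-(π * I * n / 2)) * (1 / n)))) := by
    have h0 : Tendsto (fun e : ℝ => 1 / (a e) ^ (1 / 2 : ℂ)) (𝓝[>] 0)
        (𝓝 (1 / (-2 * I / n) ^ (1 / 2 : ℂ))) := by
      refine Tendsto.div tendsto_const_nhds (Tendsto.cpow hacont tendsto_const_nhds hslit) ?_
      rw [Ne, Complex.cpow_eq_zero_iff]
      exact fun h => Complex.slitPlane_ne_zero hslit h.1
    have h1 := h0.mul ((limR 0).add ((limR 1).const_mul (cexp (-(π * I * n / 2)))))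
    refine h1.congr' ?_
    filter_upwards [hpos] with e he
    rw [hright e he]
    ring
  have huniq := tendsto_nhds_unique lim1 lim2
  have hn1 : (1 / n : ℂ) ≠ 0 := one_div_ne_zero hn0
  apply mul_right_cancel₀ hn1
  rw [huniq]
  ring

end Crest.Agent.R017.QS411
end
end

-- ▼ part T27/GsMil_58
section

/-!
# Row 27: Milgram's formula (phase form) for rational quadratic forms of signature zero
-/

set_option autoImplicit false

noncomputable section

namespace Crest.Agent.T27.G58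

open Complex
open scoped Real ComplexConjugate

/-- `e(t) = exp(2 π i t)`. -/
def e (t : ℚ) : ℂ := cexp (2 * π * I * (t : ℂ))

theorem e_add (s t : ℚ) : e (s + t) = e s * e t := by
  rw [e, e, e, ← Complex.exp_add]
  congr 1
  push_cast
  ring

theorem e_zero : e 0 = 1 := by simp [e]

theorem e_int (k : ℤ) : e k = 1 := by
  rw [e, show (2 * π * I * ((k : ℚ) : ℂ) : ℂ) = k * (2 * π * I) by push_cast; ring]
  exact Complex.exp_int_mul_two_pi_mul_I k

theorem e_add_int (t : ℚ) (k : ℤ) : e (t + k) = e t := by rw [e_add, e_int, mul_one]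

theorem e_eq_one_iff {t : ℚ} : e t = 1 ↔ ∃ k : ℤ, t = k := by
  refine ⟨fun h => ?_, by rintro ⟨k, rfl⟩; exact e_int k⟩
  obtain ⟨k, hk⟩ := Complex.exp_eq_one_iff.1 h
  refine ⟨k, ?_⟩
  have h2 : (2 * π * I : ℂ) ≠ 0 := by simp [Real.pi_ne_zero]
  have : (t : ℂ) = k := mul_left_cancel₀ h2 (by rw [hk]; ring)
  exact_mod_cast this

theorem e_neg (t : ℚ) : e (-t) = conj (e t) := by
  rw [e, e, ← Complex.exp_conj]
  congr 1
  simp [map_ofNat]

theorem norm_e (t : ℚ) : ‖e t‖ = 1 := by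
  rw [e, show (2 * π * I * (t : ℂ) : ℂ) = ((2 * π * t : ℝ) : ℂ) * I by push_cast; ring]
  exact Complex.norm_exp_ofReal_mul_I _

theorem e_sum {ι : Type} (s : Finset ι) (t : ι → ℚ) : e (∑ i ∈ s, t i) = ∏ i ∈ s, e (t i) := by
  classical
  induction s using Finset.induction_on with
  | empty => simp [e_zero]
  | insert a s ha ih => rw [Finset.sum_insert ha, Finset.prod_insert ha, e_add, ih]

theorem HasAvg.conj {M : Type} [AddCommGroup M] {f : M → ℂ} {c : ℂ} (hc : HasAvg f c) :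
    HasAvg (fun x => conj (f x)) (conj c) := by
  obtain ⟨A, _, _, p, g, hp, hg, rfl⟩ := hc
  have : (starRingEnd ℂ) (mean g) = mean fun a => (starRingEnd ℂ) (g a) := by simp [mean]
  rw [this]
  exact HasAvg.mk' p hp _ fun x => by rw [hg]

theorem HasAvg.pi {ι : Type} [Fintype ι] [DecidableEq ι] {M : Type} [AddCommGroup M]
    {f : ι → M → ℂ} {c : ι → ℂ} (h : ∀ i, HasAvg (f i) (c i)) :
    HasAvg (fun x : ι → M => ∏ i, f i (x i)) (∏ i, c i) := by
  choose A i1 i2 p g hp hg hc using h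
  have key : mean (fun x : ∀ i, A i => ∏ i, g i (x i)) = ∏ i, c i := by
    simp only [← hc, mean]
    rw [Finset.prod_div_distrib, Finset.prod_univ_sum, Fintype.piFinset_univ, Fintype.card_pi]
    push_cast
    rfl
  rw [← key]
  refine HasAvg.mk' (AddMonoidHom.pi fun i => (p i).comp (Pi.evalAddMonoidHom (fun _ => M) i))
    (fun a => ?_) _ fun x => Finset.prod_congr rfl fun i _ => hg i _
  choose x hx using fun i => hp i (a i)
  exact ⟨x, funext hx⟩

theorem avg_pos {m : ℕ} (hm : 0 < m) :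
    ∃ r : ℝ, 0 < r ∧ HasAvg (fun k : ℤ => e ((k : ℚ) ^ 2 / (4 * m))) (r * (1 + I)) := by
  have hn : 0 < 4 * m := by omega
  have : NeZero (4 * m) := ⟨hn.ne'⟩
  have hnr : (0 : ℝ) < (4 * m : ℕ) := by exact_mod_cast hn
  have hmq : (m : ℚ) ≠ 0 := by exact_mod_cast hm.ne'
  have hL := Crest.Agent.R017.QS411.landsberg hn
  set n := 4 * m with hndef
  have hs : (Real.sqrt n : ℝ) ≠ 0 := (Real.sqrt_pos.2 hnr).ne'
  have hsC : ((Real.sqrt n : ℝ) : ℂ) ≠ 0 := by exact_mod_cast hs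
  have hsq : ((Real.sqrt n : ℝ) : ℂ) ^ 2 = n := by
    rw [← ofReal_pow, Real.sq_sqrt hnr.le]; push_cast; rfl
  have hI2 : (I : ℂ) ^ 2 = -1 := I_sq
  have h1 : (-2 * I / n : ℂ) = ((1 - I) / (Real.sqrt n : ℝ)) ^ 2 := by
    rw [div_pow, hsq]
    congr 1
    linear_combination -hI2
  have h2 : (-2 * I / n : ℂ) ^ (1 / 2 : ℂ) = (1 - I) / (Real.sqrt n : ℝ) := by
    rw [h1]
    have : (1 / 2 : ℂ) = (2⁻¹ : ℂ) := by norm_num
    rw [this]
    refine Complex.sq_cpow_two_inv ?_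
    rw [Complex.div_ofReal_re]
    simp
    exact hn
  have h1I : (1 - I : ℂ) ≠ 0 := by
    intro h
    have := congrArg Complex.re h
    simp at this
  have h3 : cexp (-(π * I * n / 2)) = 1 := by
    rw [show (-(π * I * n / 2) : ℂ) = ((-m : ℤ) : ℂ) * (2 * π * I) by
      rw [hndef]; push_cast; ring]
    exact Complex.exp_int_mul_two_pi_mul_I _
  rw [h2, one_div_div, h3] at hL
  have hL' : ∑ a : ZMod n, e (((a.val : ℕ) : ℚ) ^ 2 / (4 * m)) = Real.sqrt n * (1 + I) := by
    have e1 : ∑ a : ZMod n, e (((a.val : ℕ) : ℚ) ^ 2 / (4 * m)) =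
        ∑ r ∈ Finset.range n, cexp (2 * π * I * (r : ℂ) ^ 2 / n) := by
      refine Finset.sum_bij (fun a _ => a.val) (fun a _ => Finset.mem_range.2 a.val_lt)
        (fun a _ b _ h => ZMod.val_injective n h) (fun r hr => ⟨r, Finset.mem_univ _, ?_⟩)
        fun a _ => ?_
      · exact ZMod.val_cast_of_lt (Finset.mem_range.1 hr)
      · have hn4 : (n : ℂ) = 4 * m := by rw [hndef]; push_cast; rfl
        rw [e, hn4]
        congr 1
        push_cast
        ring
    rw [e1, hL]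
    field_simp
    linear_combination hI2
  refine ⟨Real.sqrt n / n, div_pos (Real.sqrt_pos.2 hnr) hnr, ?_⟩
  have hmean : ((Real.sqrt n / n : ℝ) : ℂ) * (1 + I) =
      mean fun a : ZMod n => e (((a.val : ℕ) : ℚ) ^ 2 / (4 * m)) := by
    rw [mean, hL', ZMod.card]
    push_cast
    ring
  rw [hmean]
  refine HasAvg.mk' (Int.castAddHom (ZMod n)) (ZMod.intCast_surjective) _ fun k => ?_
  obtain ⟨j, hj⟩ : (n : ℤ) ∣ k - ((k : ZMod n).val : ℤ) := by
    rw [← ZMod.intCast_zmod_eq_zero_iff_dvd]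
    simp
  have hk : (k : ℚ) = (((k : ZMod n).val : ℕ) : ℚ) + 4 * m * j := by
    have : k = ((k : ZMod n).val : ℤ) + 4 * m * j := by
      rw [hndef] at hj
      push_cast at hj
      linear_combination hj
    exact_mod_cast this
  set v : ℕ := (k : ZMod n).val
  change e _ = e (((v : ℕ) : ℚ) ^ 2 / (4 * m))
  rw [hk, ← e_add_int (((v : ℕ) : ℚ) ^ 2 / (4 * m)) (2 * v * j + 4 * m * j ^ 2)]
  congr 1
  push_cast
  field_simp
  ring

/-- The phase attached to a weight. -/
def ph (a : ℚ) : ℂ := if 0 < a then 1 + I else if a < 0 then 1 - I else 1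

theorem avg_one {a : ℚ} (h : a ≠ 0 → ∃ m : ℤ, 1 / (4 * a) = m) :
    ∃ r : ℝ, 0 < r ∧ HasAvg (fun k : ℤ => e (a * (k : ℚ) ^ 2)) (r * ph a) := by
  rcases lt_trichotomy a 0 with ha | rfl | ha
  · obtain ⟨m, hm⟩ := h ha.ne
    have h0 : (m : ℚ) < 0 := by rw [← hm]; exact div_neg_of_pos_of_neg one_pos (by linarith)
    have h1 : 0 < (-m).toNat := by
      have : m < 0 := by exact_mod_cast h0
      omega
    have h2 : (((-m).toNat : ℕ) : ℚ) = -m := by
      have : m < 0 := by exact_mod_cast h0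
      have : (((-m).toNat : ℕ) : ℤ) = -m := by omega
      exact_mod_cast this
    obtain ⟨r, hr, hc⟩ := avg_pos h1
    refine ⟨r, hr, ?_⟩
    have := hc.conj
    simp only [map_mul, conj_ofReal, map_add, map_one, conj_I] at this
    rw [ph, if_neg ha.not_gt, if_pos ha, sub_eq_add_neg]
    refine this.congr fun k => ?_
    rw [← e_neg, h2, ← hm]
    congr 1
    have := ha.ne
    field_simp
  · refine ⟨1, one_pos, ?_⟩
    have := HasAvg.mk' (M := ℤ) (0 : ℤ →+ PUnit) (fun _ => ⟨0, rfl⟩)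
      (f := fun k : ℤ => e (0 * (k : ℚ) ^ 2)) (fun _ => 1) fun k => by simp [e_zero]
    simpa [mean, ph] using this
  · obtain ⟨m, hm⟩ := h ha.ne'
    have h0 : (0 : ℚ) < m := by rw [← hm]; positivity
    have h1 : 0 < m.toNat := by
      have : 0 < m := by exact_mod_cast h0
      omega
    have h2 : ((m.toNat : ℕ) : ℚ) = m := by
      have : 0 < m := by exact_mod_cast h0
      have : ((m.toNat : ℕ) : ℤ) = m := by omega
      exact_mod_cast this
    obtain ⟨r, hr, hc⟩ := avg_pos h1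
    refine ⟨r, hr, ?_⟩
    rw [ph, if_pos ha]
    refine hc.congr fun k => ?_
    rw [h2, ← hm]
    congr 1
    have := ha.ne'
    field_simp

theorem prod_ph {ι : Type} [Fintype ι] (a : ι → ℚ)
    (h : {i | 0 < a i}.ncard = {i | a i < 0}.ncard) :
    ∏ i, ph (a i) = (2 : ℂ) ^ {i | 0 < a i}.ncard := by
  classical
  have e1 : ∀ i, ph (a i) = (if 0 < a i then 1 + I else 1) * (if a i < 0 then 1 - I else 1) := by
    intro i
    rw [ph]
    by_cases h1 : 0 < a i
    · simp [h1, h1.not_gt]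
    · simp [h1]
  have c1 : ∀ (p : ι → Prop) [DecidablePred p],
      (Finset.univ.filter p).card = {i | p i}.ncard := fun p _ => by
    rw [← Set.ncard_coe_finset]
    congr 1
    ext i
    simp
  simp only [e1, Finset.prod_mul_distrib, Finset.prod_ite, Finset.prod_const, one_pow, mul_one, c1]
  rw [← h, ← mul_pow]
  congr 1
  linear_combination -I_sq

theorem exists_den {ι : Type} [Finite ι] (x : ι → ℚ) :
    ∃ K : ℕ, 0 < K ∧ ∀ i, ∃ z : ℤ, K * x i = z := by
  have := Fintype.ofFinite ι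
  refine ⟨∏ i, (x i).den, Finset.prod_pos fun i _ => (x i).pos, fun i => ?_⟩
  obtain ⟨c, hc⟩ := Finset.dvd_prod_of_mem (fun i => (x i).den) (Finset.mem_univ i)
  refine ⟨c * (x i).num, ?_⟩
  rw [hc]
  push_cast
  rw [← Rat.mul_den_eq_num]
  ring

variable {V : Type} [AddCommGroup V] [Module ℚ V]

/-- The quadratic character of a rational quadratic form. -/
def qch (Q : QuadraticForm ℚ V) : QCh V where
  φ x := e (Q x)
  β x y := e (QuadraticMap.polar Q x y)
  φ_zero := by simp [e_zero]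
  φ_add x y := by
    rw [← e_add, ← e_add, QuadraticMap.polar]
    congr 1
    ring
  β_add x x' y := by rw [QuadraticMap.polar_add_left, e_add]

/-- **Milgram's formula** (phase form, signature zero). -/
theorem milgram [FiniteDimensional ℚ V] (Q : QuadraticForm ℚ V) (T : V ≃ₗ[ℚ] V) {a : ℚ}
    (ha : 0 < a) (hT : ∀ x, Q (T x) = -a * Q x) {M : AddSubgroup V} (hfg : M.FG)
    (hM : (qch Q).Large M) {c : ℂ} (hc : HasAvg (fun y : M => e (Q y)) c) :
    ∃ r : ℝ, 0 < r ∧ c = r := by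
  classical
  obtain ⟨w, ⟨E⟩⟩ := Q.equivalent_weightedSumSquares
  have hE : ∀ x, Q x = ∑ i, w i * (E x i) ^ 2 := fun x => by
    rw [← E.map_app, QuadraticMap.weightedSumSquares_apply]
    simp [sq]
  have hsig : {i | 0 < w i}.ncard = {i | w i < 0}.ncard := by
    have h1 := QuadraticForm.sigPos_of_equiv_weightedSumSquares (Q := Q) (w := w) ⟨E⟩
    have h2 := QuadraticForm.sigPos_of_equiv_weightedSumSquares (Q := Q) (w := fun i => -a * w i)
      ⟨⟨T.symm.trans E.toLinearEquiv, fun x => by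
        obtain ⟨y, rfl⟩ := T.surjective x
        rw [hT, hE, QuadraticMap.weightedSumSquares_apply, Finset.mul_sum]
        refine Finset.sum_congr rfl fun i _ => ?_
        simp [sq, mul_assoc]⟩⟩
    rw [← h1, h2]
    congr 1
    ext i
    simp only [Set.mem_ofPred_eq]
    constructor
    · intro h
      by_contra h'
      nlinarith [mul_nonneg ha.le (not_lt.1 h')]
    · intro h
      nlinarith [mul_pos ha (neg_pos.2 h)]
  obtain ⟨S, hS⟩ := hfg
  obtain ⟨K, hK, hz⟩ := exists_den (ι := (S × Fin (Module.finrank ℚ V)) ⊕ Fin (Module.finrank ℚ V))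
    (Sum.elim (fun p => E p.1 p.2) fun i => 1 / (4 * w i))
  have hKq : (K : ℚ) ≠ 0 := by exact_mod_cast hK.ne'
  let p : (Fin (Module.finrank ℚ V) → ℤ) →+ V :=
    { toFun := fun x => E.symm fun i => x i / K
      map_zero' := by
        simp only [Pi.zero_apply, Int.cast_zero, zero_div]
        exact map_zero E.symm
      map_add' := fun x y => by
        rw [← map_add]
        congr 1
        funext i
        simp [add_div] }
  have hp : ∀ x, E (p x) = fun i => (x i : ℚ) / K := fun x => E.apply_symm_apply _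
  have hpi : Function.Injective p := fun x y h => by
    funext i
    have := congrFun ((hp x).symm.trans ((congrArg E h).trans (hp y))) i
    simpa [hKq] using this
  have hle : M ≤ p.range := by
    rw [← hS, AddSubgroup.closure_le]
    intro y hy
    choose z hz' using fun i => hz (Sum.inl (⟨y, hy⟩, i))
    refine ⟨z, E.injective ?_⟩
    change E (p z) = E y
    rw [hp]
    funext i
    rw [← hz' i]
    simp [hKq]
  have h1 : ∀ i, ∃ r : ℝ, 0 < r ∧
      HasAvg (fun k : ℤ => e (w i / K ^ 2 * (k : ℚ) ^ 2)) (r * ph (w i / K ^ 2)) := fun i => by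
    refine avg_one fun h => ?_
    obtain ⟨z, hz'⟩ := hz (Sum.inr i)
    have hw : w i ≠ 0 := fun h0 => h (by simp [h0])
    refine ⟨K * z, ?_⟩
    push_cast
    rw [← hz']
    simp only [Sum.elim_inr]
    field_simp
  choose r hr hav using h1
  have h2 : HasAvg (fun x => e (Q (p x))) (∏ i, (r i * ph (w i / K ^ 2))) :=
    (HasAvg.pi hav).congr fun x => by
      rw [hE, e_sum, hp]
      refine Finset.prod_congr rfl fun i _ => ?_
      congr 1
      field_simp
  obtain ⟨s, hs, rfl⟩ := (qch Q).two_large hM hle hc (h2.range p hpi (φ := fun x => e (Q x)))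
  have hK2 : (0 : ℚ) < K ^ 2 := by positivity
  have e1 : {i | 0 < w i / K ^ 2} = {i | 0 < w i} := by
    ext i
    simp [div_pos_iff_of_pos_right hK2]
  have e2 : {i | w i / K ^ 2 < 0} = {i | w i < 0} := by
    ext i
    simp [div_neg_iff, hK2, hK2.not_gt]
  rw [Finset.prod_mul_distrib, prod_ph _ (by rw [e1, e2, hsig])]
  refine ⟨s * ((∏ i, r i) * 2 ^ {i | 0 < w i / K ^ 2}.ncard),
    mul_pos hs (mul_pos (Finset.prod_pos fun i _ => hr i) (by positivity)), ?_⟩
  push_cast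
  rfl

end Crest.Agent.T27.G58
end
end

-- ▼ part T27/GsO_58
section

/-!
# Row 27: Milgram's formula for the trace forms `Tr(c x²)` of a number field containing `ω`
-/

set_option autoImplicit false

noncomputable section

namespace Crest.Agent.T27.G58

open NumberField
open scoped ComplexConjugate

/-- The quadratic character `x ↦ χ(c x²)` of a commutative ring. -/
def qc {A : Type} [CommRing A] (χ : A → ℂ) (h0 : χ 0 = 1) (hadd : ∀ x y, χ (x + y) = χ x * χ y)
    (c : A) : QCh A where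
  φ x := χ (c * x ^ 2)
  β x y := χ (2 * c * x * y)
  φ_zero := by simpa using h0
  φ_add x y := by
    rw [← hadd, ← hadd]
    congr 1
    ring
  β_add x x' y := by
    rw [← hadd]
    congr 1
    ring

/-- The modulus of a non-degenerate Gauss sum. -/
theorem QCh.norm_sum {A : Type} [AddCommGroup A] [Fintype A] (q : QCh A) (h1 : ∀ x, ‖q.φ x‖ = 1)
    (hnd : ∀ h, h ≠ 0 → ∃ y, q.β y h ≠ 1) : ‖∑ x, q.φ x‖ = Real.sqrt (Fintype.card A) := by
  classical
  have hc : ∀ x, q.φ x * conj (q.φ x) = 1 := fun x => by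
    rw [Complex.mul_conj, Complex.normSq_eq_norm_sq, h1]
    simp
  have h0 : ∀ y, q.β y 0 = 1 := fun y => by
    have := q.φ_add y 0
    rw [add_zero, q.φ_zero, mul_one] at this
    have hy : q.φ y ≠ 0 := by rw [← norm_ne_zero_iff, h1]; exact one_ne_zero
    exact (mul_eq_left₀ hy).1 this.symm
  have inner : ∀ h, h ≠ 0 → ∑ y, q.β y h = 0 := fun h hh => by
    obtain ⟨y0, hy0⟩ := hnd h hh
    have e1 : ∑ y, q.β (y + y0) h = ∑ y, q.β y h :=
      Equiv.sum_comp (Equiv.addRight y0) fun y => q.β y h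
    simp only [q.β_add] at e1
    rw [← Finset.sum_mul] at e1
    have : (∑ y, q.β y h) * (q.β y0 h - 1) = 0 := by rw [mul_sub, e1, mul_one, sub_self]
    exact (mul_eq_zero.1 this).resolve_right (sub_ne_zero.2 hy0)
  have key : (∑ x, q.φ x) * conj (∑ x, q.φ x) = Fintype.card A := by
    calc (∑ x, q.φ x) * conj (∑ x, q.φ x) = ∑ y, (∑ x, q.φ x) * conj (q.φ y) := by
          rw [map_sum, Finset.mul_sum]
      _ = ∑ y, ∑ h, q.φ h * q.β y h := by
          refine Finset.sum_congr rfl fun y _ => ?_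
          rw [← Equiv.sum_comp (Equiv.addLeft y) q.φ, Finset.sum_mul]
          refine Finset.sum_congr rfl fun h _ => ?_
          simp only [Equiv.coe_addLeft, q.φ_add]
          linear_combination (q.φ h * q.β y h) * hc y
      _ = ∑ h, q.φ h * ∑ y, q.β y h := by
          rw [Finset.sum_comm]
          simp only [Finset.mul_sum]
      _ = Fintype.card A := by
          rw [Finset.sum_eq_single 0 (fun h _ hh => by rw [inner h hh, mul_zero]) (by simp)]
          simp [q.φ_zero, h0]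
  rw [Complex.mul_conj, Complex.normSq_eq_norm_sq] at key
  have : ‖∑ x, q.φ x‖ ^ 2 = Fintype.card A := by exact_mod_cast key
  rw [← this, Real.sqrt_sq (norm_nonneg _)]

variable {F : Type} [Field F] [NumberField F]

/-- The standard additive character `exp(2 π i Tr y)`. -/
def eT (y : F) : ℂ := e (Algebra.trace ℚ F y)

theorem eT_zero : eT (0 : F) = 1 := by simp [eT, e_zero]

theorem eT_add (x y : F) : eT (x + y) = eT x * eT y := by rw [eT, map_add, e_add, eT, eT]

theorem norm_eT (x : F) : ‖eT x‖ = 1 := norm_e _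

theorem trace_int {y : F} (hy : IsIntegral ℤ y) : ∃ k : ℤ, Algebra.trace ℚ F y = k := by
  obtain ⟨k, hk⟩ := (IsIntegrallyClosed.isIntegral_iff (R := ℤ) (K := ℚ)).1
    (Algebra.isIntegral_trace (L := ℚ) hy)
  exact ⟨k, hk.symm⟩

theorem eT_int {y : F} (hy : IsIntegral ℤ y) : eT y = 1 := e_eq_one_iff.2 (trace_int hy)

theorem discr_mul_int {y : F} (hy : ∀ z, IsIntegral ℤ z → eT (y * z) = 1) :
    IsIntegral ℤ ((discr F : F) * y) := by
  have h1 : (discr F : F) ∈ IsLocalization.coeSubmodule F (differentIdeal ℤ (𝓞 F)) :=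
    ⟨_, discr_mem_differentIdeal F (𝓞 F), by simp⟩
  rw [coeSubmodule_differentIdeal ℤ ℚ (L := F), Submodule.mem_div_iff_forall_mul_mem] at h1
  have h2 : y ∈ Submodule.traceDual ℤ ℚ (1 : Submodule (𝓞 F) F) := by
    rw [Submodule.mem_traceDual]
    intro a ha
    obtain ⟨b, rfl⟩ := Submodule.mem_one.1 ha
    obtain ⟨k, hk⟩ := e_eq_one_iff.1 (hy _ b.isIntegral_coe)
    exact ⟨k, by rw [Algebra.traceForm_apply]; exact hk.symm⟩
  obtain ⟨b, hb⟩ := Submodule.mem_one.1 (h1 y h2)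
  rw [← hb]
  exact b.isIntegral_coe

theorem nd_eT {N : ℕ} (hN : 2 * discr F ∣ (N : ℤ)) {y : F}
    (hy : ∀ z, IsIntegral ℤ z → eT (2 * y * z) = 1) : IsIntegral ℤ ((N : F) * y) := by
  obtain ⟨a, ha⟩ := hN
  have h1 : (N : F) = 2 * discr F * a := by exact_mod_cast congrArg (Int.cast : ℤ → F) ha
  have h2 := (discr_mul_int hy).mul (isIntegral_algebraMap (R := ℤ) (A := F) (x := a))
  rw [eq_intCast] at h2
  rwa [h1, show (2 * discr F * a : F) * y = discr F * (2 * y) * a by ring]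

/-- The inclusion of the ring of integers, as an additive map. -/
def incl (F : Type) [Field F] [NumberField F] : 𝓞 F →+ F := (algebraMap (𝓞 F) F).toAddMonoidHom


theorem mem_incl {y : F} : y ∈ (incl F).range ↔ IsIntegral ℤ y :=
  ⟨by rintro ⟨u, rfl⟩; exact u.isIntegral_coe, fun h => ⟨⟨y, h⟩, rfl⟩⟩

/-- Milgram's formula on the ring of integers. -/
theorem mil_O {w : F} (hw : w ^ 2 + w + 1 = 0) {N : ℕ} (hN0 : N ≠ 0) (hN : 2 * discr F ∣ (N : ℤ))
    {m : F} (hm : IsIntegral ℤ m) (hm0 : m ≠ 0) {d : ℂ}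
    (hd : HasAvg (fun u : 𝓞 F => eT ((m * N ^ 2)⁻¹ * (u : F) ^ 2)) d) :
    ∃ r : ℝ, 0 < r ∧ d = r := by
  set c : F := (m * N ^ 2)⁻¹ with hc
  have hNF : (N : F) ≠ 0 := by exact_mod_cast hN0
  let B : LinearMap.BilinForm ℚ F := (Algebra.traceForm ℚ F).compLeft (LinearMap.mulLeft ℚ c)
  let Q : QuadraticForm ℚ F := LinearMap.BilinMap.toQuadraticMap B
  have hQ : ∀ x, Q x = Algebra.trace ℚ F (c * x ^ 2) := fun x => by
    simp [Q, B, sq, mul_assoc]
  have hP : ∀ x y, QuadraticMap.polar Q x y = Algebra.trace ℚ F (2 * c * x * y) := fun x y => by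
    rw [QuadraticMap.polar, hQ, hQ, hQ, ← map_sub, ← map_sub]
    congr 1
    ring
  have hθ : (2 * w + 1) ^ 2 = -3 := by linear_combination 4 * hw
  have hθ0 : 2 * w + 1 ≠ 0 := fun h => by
    rw [h] at hθ
    norm_num at hθ
  refine milgram Q (LinearEquiv.ofBijective (LinearMap.mulLeft ℚ (2 * w + 1))
    (mulLeft_bijective₀ _ hθ0)) (a := 3) (by norm_num) (fun x => ?_) (M := (incl F).range) ?_ ?_ ?_
  · change Q ((2 * w + 1) * x) = _
    rw [hQ, hQ, mul_pow, hθ,
      show c * (-3 * x ^ 2) = (-3 : ℚ) • (c * x ^ 2) by rw [Algebra.smul_def]; simp; ring,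
      map_smul, smul_eq_mul]
  · rw [← AddGroup.fg_iff_addSubgroup_fg]
    infer_instance
  · refine ⟨((AddMonoidHom.mulLeft (m * N)).comp (incl F)).range, ?_, fun y hy => ?_⟩
    · rintro _ ⟨u, rfl⟩
      change e (Q (m * N * u)) = 1
      rw [hQ]
      refine eT_int ?_
      rw [show c * (m * N * u) ^ 2 = m * u ^ 2 by rw [hc]; field_simp]
      exact hm.mul (u.isIntegral_coe.pow 2)
    · rw [mem_incl]
      have := nd_eT hN (y := y / N) fun z hz => by
        have h := hy _ ⟨⟨z, hz⟩, rfl⟩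
        change e (QuadraticMap.polar Q y (m * N * z)) = 1 at h
        rw [hP] at h
        rw [eT, ← h]
        congr 2
        rw [hc]
        field_simp
      rwa [mul_div_cancel₀ _ hNF] at this
  · refine (HasAvg.range (incl F) ?_ (φ := fun x => e (Q x)) (hd.congr fun u => ?_))
    · exact RingOfIntegers.coe_injective
    · rw [hQ]
      rfl

theorem finite_of_surj {A : Type} [AddCommGroup A] (p : 𝓞 F →+ A) (hp : Function.Surjective p)
    {m : 𝓞 F} (hm : m ≠ 0) (h : ∀ u, p (m * u) = 0) : Finite A := by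
  have : Finite (𝓞 F ⧸ Ideal.span {m}) :=
    Ideal.finiteQuotientOfFreeOfNeBot _ (by simpa using hm)
  refine Finite.of_surjective (fun q : 𝓞 F ⧸ Ideal.span {m} => p q.out) fun a => ?_
  obtain ⟨u, rfl⟩ := hp a
  refine ⟨Ideal.Quotient.mk _ u, ?_⟩
  obtain ⟨v, hv⟩ := Ideal.mem_span_singleton'.1
    (Ideal.Quotient.eq.1 (Ideal.Quotient.mk_out (Ideal.Quotient.mk (Ideal.span {m}) u)))
  have := h v
  rw [mul_comm, hv, map_sub, sub_eq_zero] at this
  exact this

theorem exists_sq_mul {A : Type} [CommMonoidWithZero A] [WfDvdMonoid A] (a : A) (ha : a ≠ 0) :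
    ∃ b d, a = b ^ 2 * d ∧ Squarefree d := by
  induction a using (wellFounded_dvdNotUnit (α := A)).induction with
  | _ a ih =>
    by_cases hs : Squarefree a
    · exact ⟨1, a, by simp, hs⟩
    · simp only [Squarefree, not_forall] at hs
      obtain ⟨x, ⟨a', rfl⟩, hx⟩ := hs
      have ha' : a' ≠ 0 := right_ne_zero_of_mul ha
      obtain ⟨b, d, h1, h2⟩ := ih a' ⟨ha', x * x, fun h => hx (isUnit_of_mul_isUnit_left h),
        mul_comm _ _⟩ ha'
      refine ⟨x * b, d, ?_, h2⟩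
      rw [h1, mul_pow, sq x, mul_assoc (x * x)]

end Crest.Agent.T27.G58
end
end

-- ▼ part T27/GsCls_58
section

/-!
# Row 27: the normalised quadratic Gauss sum over `R = O_F[1/N]` is a class function

`SAr R Λ N ψ` collects the properties of `R = O[1/N]`, `Λ = O_S` and `ψ = ψ^S` that are used.
`gq ψ n = (#R/n)^{-1/2} ∑_{x mod n} ψ(x²/n)`; `norm_gq`, `gq_class`.
-/

set_option autoImplicit false
set_option linter.unusedSectionVars false

noncomputable section

namespace Crest.Agent.T27.G58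

open NumberField
open scoped ComplexConjugate

variable {F : Type} [Field F] [NumberField F]

/-- The `S`-arithmetic setting. -/
structure SAr (R Λ : Subring F) (N : ℕ) (ψ : F → ℂ) : Prop where
  intR : ∀ y, IsIntegral ℤ y → y ∈ R
  intL : ∀ y, IsIntegral ℤ y → y ∈ Λ
  inter : ∀ y, y ∈ R → y ∈ Λ → IsIntegral ℤ y
  split : ∀ y, ∃ l ∈ Λ, y - l ∈ R
  pow : ∀ y, ∃ k : ℕ, (N : F) ^ k * y ∈ Λ
  invN : (N : F)⁻¹ ∈ R
  ne : N ≠ 0
  dvd : 2 * discr F ∣ (N : ℤ)
  pid : IsPrincipalIdealRing Λ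
  psi : ∀ l ∈ Λ, ∀ r ∈ R, ψ (l + r) = eT l

/-- The normalised quadratic Gauss sum. -/
def gq (ψ : F → ℂ) {R : Subring F} (n : R) : ℂ :=
  (∑ᶠ x : R ⧸ Ideal.span {n}, ψ (((x.out : R) : F) ^ 2 / n)) /
    (Real.sqrt (Nat.card (R ⧸ Ideal.span {n})) : ℂ)

/-- The complementary character. -/
def co (ψ : F → ℂ) (y : F) : ℂ := eT y * ψ (-y)

namespace SAr

variable {R Λ : Subring F} {N : ℕ} {ψ : F → ℂ} (h : SAr R Λ N ψ)

include h

theorem castne : (N : F) ≠ 0 := by exact_mod_cast h.ne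

theorem psi' {y l : F} (hl : l ∈ Λ) (hr : y - l ∈ R) : ψ y = eT l := by
  rw [← h.psi l hl _ hr, add_sub_cancel]

theorem psi_add (x y : F) : ψ (x + y) = ψ x * ψ y := by
  obtain ⟨l, hl, hr⟩ := h.split x
  obtain ⟨l', hl', hr'⟩ := h.split y
  rw [h.psi' hl hr, h.psi' hl' hr', ← eT_add]
  exact h.psi' (add_mem hl hl') (by convert add_mem hr hr' using 1; ring)

theorem psi_R {r : F} (hr : r ∈ R) : ψ r = 1 := by
  rw [h.psi' (zero_mem _) (by simpa using hr), eT_zero]

theorem psi_zero : ψ 0 = 1 := h.psi_R (zero_mem _)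

theorem psi_L {l : F} (hl : l ∈ Λ) : ψ l = eT l := h.psi' hl (by simp)

theorem norm_psi (y : F) : ‖ψ y‖ = 1 := by
  obtain ⟨l, hl, hr⟩ := h.split y
  rw [h.psi' hl hr, norm_eT]

theorem psi_congr {x y : F} (hr : x - y ∈ R) : ψ x = ψ y := by
  rw [show x = y + (x - y) by ring, h.psi_add, h.psi_R hr, mul_one]

theorem co_add (x y : F) : co ψ (x + y) = co ψ x * co ψ y := by
  rw [co, co, co, neg_add, h.psi_add, eT_add]
  ring

theorem co_L {l : F} (hl : l ∈ Λ) : co ψ l = 1 := by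
  rw [co, h.psi_L (neg_mem hl), ← eT_add, add_neg_cancel, eT_zero]

theorem co_zero : co ψ 0 = 1 := h.co_L (zero_mem _)

theorem co_R {r : F} (hr : r ∈ R) : co ψ r = eT r := by
  rw [co, h.psi_R (neg_mem hr), mul_one]

theorem co_congr {x y : F} (hl : x - y ∈ Λ) : co ψ x = co ψ y := by
  rw [show x = y + (x - y) by ring, h.co_add, h.co_L hl, mul_one]

theorem psi_mul_co (y : F) : ψ y * co ψ y = eT y := by
  rw [co, mul_left_comm, ← h.psi_add, add_neg_cancel, h.psi_zero, mul_one]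

theorem nd_psi {y : F} (hy : ∀ z, IsIntegral ℤ z → ψ (2 * y * z) = 1) : y ∈ R := by
  obtain ⟨l, hl, hr⟩ := h.split y
  have h1 := nd_eT h.dvd (y := l) fun z hz => by
    rw [← hy z hz, eq_comm]
    refine h.psi' (mul_mem (mul_mem (ofNat_mem _ 2) hl) (h.intL z hz)) ?_
    convert mul_mem (mul_mem (ofNat_mem _ 2) hr) (h.intR z hz) using 1
    ring
  have h2 : l ∈ R := by
    have := mul_mem h.invN (h.intR _ h1)
    rwa [inv_mul_cancel_left₀ h.castne] at this
  simpa using add_mem hr h2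

theorem nd_co {y : F} (hy : ∀ z, IsIntegral ℤ z → co ψ (2 * y * z) = 1) : (N : F) * y ∈ Λ := by
  obtain ⟨l, hl, hr⟩ := h.split y
  have h1 := nd_eT h.dvd (y := y - l) fun z hz => by
    rw [← hy z hz, ← h.co_R (mul_mem (mul_mem (ofNat_mem _ 2) hr) (h.intR z hz))]
    refine h.co_congr ?_
    convert neg_mem (mul_mem (mul_mem (ofNat_mem _ 2) hl) (h.intL z hz)) using 1
    ring
  convert add_mem (h.intL _ h1) (mul_mem (natCast_mem Λ N) hl) using 1
  ring

theorem pow_le {y : F} {k j : ℕ} (hy : (N : F) ^ k * y ∈ Λ) (hkj : k ≤ j) : (N : F) ^ j * y ∈ Λ := by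
  obtain ⟨i, rfl⟩ := Nat.exists_eq_add_of_le' hkj
  rw [pow_add, mul_assoc]
  exact mul_mem (pow_mem (natCast_mem Λ N) i) hy

/-- `F = n R + m Λ`. -/
theorem split2 {n m : F} (hn : n ≠ 0) (hm : m ≠ 0) (x : F) :
    ∃ r ∈ R, ∃ l ∈ Λ, x = n * r + m * l := by
  obtain ⟨k, hk⟩ := h.pow (n / m)
  obtain ⟨l, hl, hr⟩ := h.split (x / (n * N ^ k))
  refine ⟨_, mul_mem (pow_mem (natCast_mem R N) k) hr, _, mul_mem hk hl, ?_⟩
  have := h.castne
  field_simp
  ring

/-- The map `u ↦ u / N^j` from `O` to `R`. -/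
def toR (j : ℕ) : 𝓞 F →+ R where
  toFun u := ⟨(N : F)⁻¹ ^ j * u, mul_mem (pow_mem h.invN j) (h.intR _ u.isIntegral_coe)⟩
  map_zero' := Subtype.ext (by simp)
  map_add' u v := Subtype.ext (by simp [mul_add])

/-- The inclusion of `O` in `Λ`. -/
def toL : 𝓞 F →+ Λ where
  toFun u := ⟨u, h.intL _ u.isIntegral_coe⟩
  map_zero' := Subtype.ext (by simp)
  map_add' u v := Subtype.ext (by simp)

/-- The reduction `O → R / n`. -/
def pA (n : R) (j : ℕ) : 𝓞 F →+ R ⧸ Ideal.span {n} :=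
  (Ideal.Quotient.mk (Ideal.span {n})).toAddMonoidHom.comp (h.toR j)

/-- The reduction `O → Λ / m`. -/
def pB (m : Λ) : 𝓞 F →+ Λ ⧸ Ideal.span {m} :=
  (Ideal.Quotient.mk (Ideal.span {m})).toAddMonoidHom.comp h.toL

omit h in
theorem mk_eq {S : Subring F} {n x y : S} (r : F) (hr : r ∈ S) (e : (x : F) = y + n * r) :
    Ideal.Quotient.mk (Ideal.span {n}) x = Ideal.Quotient.mk (Ideal.span {n}) y := by
  rw [Ideal.Quotient.eq, Ideal.mem_span_singleton]
  exact ⟨⟨r, hr⟩, Subtype.ext (by simp [e])⟩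

omit h in
theorem out_eq {S : Subring F} (n x : S) :
    ∃ r ∈ S, (((Ideal.Quotient.mk (Ideal.span {n}) x).out : S) : F) = x + n * r := by
  obtain ⟨r, hr⟩ := Ideal.mem_span_singleton.1
    (Ideal.Quotient.eq.1 (Ideal.Quotient.mk_out (Ideal.Quotient.mk (Ideal.span {n}) x)))
  refine ⟨r, r.2, ?_⟩
  have := congrArg (fun z : S => (z : F)) hr
  simp only [AddSubgroupClass.coe_sub, Subring.coe_mul] at this
  linear_combination this

theorem pA_surj {n : R} (hn : n ≠ 0) (j : ℕ) : Function.Surjective (h.pA n j) := by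
  intro a
  obtain ⟨x, rfl⟩ := Ideal.Quotient.mk_surjective a
  have hn' : (n : F) ≠ 0 := by simpa using hn
  obtain ⟨r, hr, l, hl, e⟩ := h.split2 hn' one_ne_zero ((N : F) ^ j * x)
  have hu : IsIntegral ℤ l := h.inter _ (by
    rw [show l = (N : F) ^ j * x - n * r by rw [e]; ring]
    exact sub_mem (mul_mem (pow_mem (natCast_mem R N) j) x.2) (mul_mem n.2 hr)) hl
  refine ⟨⟨l, hu⟩, (mk_eq ((N : F)⁻¹ ^ j * r) (mul_mem (pow_mem h.invN j) hr) ?_).symm⟩
  change (x : F) = (N : F)⁻¹ ^ j * l + _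
  have := h.castne
  rw [inv_pow]
  field_simp
  linear_combination e

theorem pB_surj {m : Λ} (hm : m ≠ 0) : Function.Surjective (h.pB m) := by
  intro a
  obtain ⟨x, rfl⟩ := Ideal.Quotient.mk_surjective a
  have hm' : (m : F) ≠ 0 := by simpa using hm
  obtain ⟨r, hr, l, hl, e⟩ := h.split2 one_ne_zero hm' (x : F)
  have hu : IsIntegral ℤ r := h.inter _ hr (by
    rw [show r = x - m * l by rw [e]; ring]
    exact sub_mem x.2 (mul_mem m.2 hl))
  refine ⟨⟨r, hu⟩, (mk_eq l hl ?_).symm⟩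
  change (x : F) = r + _
  rw [e, one_mul]

theorem crt {n : R} (hn : n ≠ 0) (j : ℕ) {m : Λ} (hm : m ≠ 0) (x : 𝓞 F) :
    ∃ k, h.pA n j k = 0 ∧ h.pB m k = h.pB m x := by
  have hm' : (m : F) ≠ 0 := by simpa using hm
  have hn' : (n : F) ≠ 0 := by simpa using hn
  obtain ⟨r, hr, l, hl, e⟩ := h.split2 hn' hm' (x : F)
  have hu : IsIntegral ℤ ((n : F) * r) := h.inter _ (mul_mem n.2 hr) (by
    rw [show (n : F) * r = x - m * l by rw [e]; ring]
    exact sub_mem (h.intL _ x.isIntegral_coe) (mul_mem m.2 hl))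
  refine ⟨⟨_, hu⟩, ?_, (mk_eq l hl e).symm⟩
  rw [← map_zero (Ideal.Quotient.mk (Ideal.span {n}))]
  refine mk_eq ((N : F)⁻¹ ^ j * r) (mul_mem (pow_mem h.invN j) hr) ?_
  change (N : F)⁻¹ ^ j * (n * r) = _
  simp only [ZeroMemClass.coe_zero]
  ring

theorem finite_R {n : R} (hn : n ≠ 0) : Finite (R ⧸ Ideal.span {n}) := by
  have hn' : (n : F) ≠ 0 := by simpa using hn
  obtain ⟨k, hk⟩ := h.pow (n : F)
  have hu := h.inter _ (mul_mem (pow_mem (natCast_mem R N) k) n.2) hk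
  refine finite_of_surj _ (h.pA_surj hn 0) (m := ⟨_, hu⟩) (fun e => ?_) fun u => ?_
  · exact mul_ne_zero (pow_ne_zero k h.castne) hn' (congrArg (fun z : 𝓞 F => (z : F)) e)
  · rw [← map_zero (Ideal.Quotient.mk (Ideal.span {n}))]
    refine mk_eq ((N : F) ^ k * u)
      (mul_mem (pow_mem (natCast_mem R N) k) (h.intR _ u.isIntegral_coe)) ?_
    change (N : F)⁻¹ ^ 0 * ((N : F) ^ k * n * u) = _
    simp only [ZeroMemClass.coe_zero]
    ring

theorem finite_L (J : ℕ) : Finite (Λ ⧸ Ideal.span {(N : Λ) ^ J}) := by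
  have hN : (N : Λ) ^ J ≠ 0 := pow_ne_zero _ (by exact_mod_cast h.ne)
  refine finite_of_surj _ (h.pB_surj hN) (m := (N : 𝓞 F) ^ J)
    (pow_ne_zero _ (by exact_mod_cast h.ne)) fun u => ?_
  rw [← map_zero (Ideal.Quotient.mk (Ideal.span {(N : Λ) ^ J}))]
  refine mk_eq u (h.intL _ u.isIntegral_coe) ?_
  change (((N : 𝓞 F) ^ J * u : 𝓞 F) : F) = _
  simp

/-- The quadratic character on `Λ / N^J`. -/
def gB (ψ : F → ℂ) (c : F) (m : Λ) (b : Λ ⧸ Ideal.span {m}) : ℂ := co ψ (c * ((b.out : Λ) : F) ^ 2)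

theorem gB_mk {c : F} {m : Λ} (hc : m * c ∈ Λ) (x : Λ) :
    gB ψ c m (Ideal.Quotient.mk _ x) = co ψ (c * (x : F) ^ 2) := by
  obtain ⟨r, hr, e⟩ := out_eq m x
  rw [gB, e]
  refine h.co_congr ?_
  convert mul_mem hc (add_mem (mul_mem (mul_mem (ofNat_mem Λ 2) x.2) hr)
    (mul_mem m.2 (pow_mem hr 2))) using 1
  ring

theorem avgL {c : F} {J : ℕ} (hc : (N : F) ^ J * c ∈ Λ)
    [Fintype (Λ ⧸ Ideal.span {(N : Λ) ^ J})] :
    HasAvg (fun u : Λ => co ψ (c * (u : F) ^ 2)) (mean (gB ψ c ((N : Λ) ^ J))) :=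
  HasAvg.mk' (Ideal.Quotient.mk (Ideal.span {(N : Λ) ^ J})).toAddMonoidHom
    Ideal.Quotient.mk_surjective (gB ψ c ((N : Λ) ^ J)) fun x =>
    (h.gB_mk (m := (N : Λ) ^ J) (by simpa using hc) x).symm

theorem exists_avgL (c : F) : ∃ d, HasAvg (fun u : Λ => co ψ (c * (u : F) ^ 2)) d := by
  obtain ⟨J, hJ⟩ := h.pow c
  have := h.finite_L J
  have := Fintype.ofFinite (Λ ⧸ Ideal.span {(N : Λ) ^ J})
  exact ⟨_, h.avgL hJ⟩

/-- The additive character on `R / n`. -/
def gA (ψ : F → ℂ) (n : R) (a : R ⧸ Ideal.span {n}) : ℂ := ψ (((a.out : R) : F) / n)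

theorem gA_mk {n : R} (hn : n ≠ 0) (x : R) : gA ψ n (Ideal.Quotient.mk _ x) = ψ ((x : F) / n) := by
  have hn' : (n : F) ≠ 0 := by simpa using hn
  obtain ⟨r, hr, e⟩ := out_eq n x
  rw [gA, e]
  refine h.psi_congr ?_
  convert hr using 1
  field_simp
  ring

theorem gA_sq {n : R} (hn : n ≠ 0) (a : R ⧸ Ideal.span {n}) :
    gA ψ n (1 * a ^ 2) = ψ (((a.out : R) : F) ^ 2 / n) := by
  conv_lhs => rw [← Ideal.Quotient.mk_out a, one_mul, ← map_pow, h.gA_mk hn]
  simp

theorem gq_eq {n : R} (hn : n ≠ 0) [Fintype (R ⧸ Ideal.span {n})] :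
    gq ψ n = (∑ a, gA ψ n (1 * a ^ 2)) / (Real.sqrt (Fintype.card (R ⧸ Ideal.span {n})) : ℂ) := by
  rw [gq, finsum_eq_sum_of_fintype, Nat.card_eq_fintype_card]
  simp only [h.gA_sq hn]

theorem norm_gq {n : R} (hn : n ≠ 0) : ‖gq ψ n‖ = 1 := by
  have := h.finite_R hn
  have := Fintype.ofFinite (R ⧸ Ideal.span {n})
  have hn' : (n : F) ≠ 0 := by simpa using hn
  have h0 : gA ψ n 0 = 1 := by
    rw [← map_zero (Ideal.Quotient.mk (Ideal.span {n})), h.gA_mk hn]
    simpa using h.psi_zero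
  have hadd : ∀ x y, gA ψ n (x + y) = gA ψ n x * gA ψ n y := fun x y => by
    obtain ⟨x, rfl⟩ := Ideal.Quotient.mk_surjective x
    obtain ⟨y, rfl⟩ := Ideal.Quotient.mk_surjective y
    rw [← map_add, h.gA_mk hn, h.gA_mk hn, h.gA_mk hn, ← h.psi_add, ← add_div]
    rfl
  have key := (qc (gA ψ n) h0 hadd 1).norm_sum (fun x => h.norm_psi _) fun a ha => by
    obtain ⟨a, rfl⟩ := Ideal.Quotient.mk_surjective a
    by_contra hcon
    push Not at hcon
    refine ha ?_
    have h1 := h.nd_psi (y := (a : F) / n) fun z hz => by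
      have := hcon (Ideal.Quotient.mk _ ⟨z, h.intR z hz⟩)
      change gA ψ n (2 * 1 * _ * _) = 1 at this
      rw [mul_one, ← map_ofNat (Ideal.Quotient.mk (Ideal.span {n})) 2, ← map_mul, ← map_mul,
        h.gA_mk hn] at this
      rw [← this]
      congr 1
      change _ = (2 * z * a : F) / n
      ring
    rw [← map_zero (Ideal.Quotient.mk (Ideal.span {n}))]
    refine mk_eq _ h1 ?_
    simp only [ZeroMemClass.coe_zero]
    field_simp
    ring
  have hpos : (0 : ℝ) < Real.sqrt (Fintype.card (R ⧸ Ideal.span {n})) :=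
    Real.sqrt_pos.2 (by exact_mod_cast Fintype.card_pos)
  rw [h.gq_eq hn, norm_div, Complex.norm_real, Real.norm_of_nonneg hpos.le, div_eq_one_iff_eq hpos.ne']
  exact key

theorem key {w : F} (hw : w ^ 2 + w + 1 = 0) {n : R} (hn : n ≠ 0) {n0 t : F} (hn0 : n0 ∈ Λ)
    (e : (n : F) = n0 * t ^ 2) {d : ℂ}
    (hd : HasAvg (fun u : Λ => co ψ ((n0 * N ^ 2)⁻¹ * (u : F) ^ 2)) d) :
    ∃ r : ℝ, 0 < r ∧ gq ψ n * d = r := by
  have := h.finite_R hn
  have := Fintype.ofFinite (R ⧸ Ideal.span {n})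
  have hn' : (n : F) ≠ 0 := by simpa using hn
  have hN := h.castne
  have h00 : n0 ≠ 0 := left_ne_zero_of_mul (e ▸ hn')
  have ht : t ≠ 0 := fun h0 => hn' (by rw [e, h0]; ring)
  obtain ⟨k1, hk1⟩ := h.pow (n : F)
  obtain ⟨k2, hk2⟩ := h.pow t
  set j := k1 + k2 with hj
  set m : F := (N : F) ^ (2 * j) * n with hm
  have hm0 : m ≠ 0 := mul_ne_zero (pow_ne_zero _ hN) hn'
  have hmi : IsIntegral ℤ m :=
    h.inter _ (mul_mem (pow_mem (natCast_mem R N) _) n.2) (h.pow_le hk1 (by omega))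
  set c : F := (m * N ^ 2)⁻¹ with hc
  obtain ⟨J, hJ⟩ := h.pow c
  have := h.finite_L J
  have := Fintype.ofFinite (Λ ⧸ Ideal.span {(N : Λ) ^ J})
  have hNJ : (N : Λ) ^ J ≠ 0 := pow_ne_zero _ (by exact_mod_cast h.ne)
  have h1 := hasAvg_mul _ (h.pA_surj hn (j + 1)) _ (h.pB_surj hNJ) (h.crt hn (j + 1) hNJ)
    (fun a => gA ψ n (1 * a ^ 2)) (gB ψ c ((N : Λ) ^ J))
  obtain ⟨r, hr, e1⟩ := mil_O hw h.ne h.dvd hmi hm0 (h1.congr fun u => by
    rw [← hc, ← h.psi_mul_co]
    congr 1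
    · change _ = gA ψ n (1 * Ideal.Quotient.mk _ (h.toR (j + 1) u) ^ 2)
      rw [one_mul, ← map_pow (Ideal.Quotient.mk (Ideal.span {n})), h.gA_mk hn]
      congr 1
      change _ = ((N : F)⁻¹ ^ (j + 1) * u) ^ 2 / n
      rw [hc, hm, inv_pow]
      field_simp
      ring
    · exact (h.gB_mk (by simpa using hJ) (h.toL u)).symm)
  set τ : F := ((N : F) ^ j * t)⁻¹ with hτ
  have hτ0 : τ ≠ 0 := inv_ne_zero (mul_ne_zero (pow_ne_zero _ hN) ht)
  let q := qc (co ψ) h.co_zero h.co_add (n0 * N ^ 2)⁻¹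
  let p0 : Λ →+ F := Λ.subtype.toAddMonoidHom
  let p1 : Λ →+ F := (AddMonoidHom.mulLeft τ).comp p0
  have hL : q.Large p0.range := by
    refine ⟨((AddMonoidHom.mulLeft (n0 * N)).comp p0).range, ?_, fun y hy => ?_⟩
    · rintro _ ⟨u, rfl⟩
      change co ψ ((n0 * N ^ 2)⁻¹ * (n0 * N * u) ^ 2) = 1
      refine h.co_L ?_
      rw [show (n0 * N ^ 2)⁻¹ * (n0 * N * u) ^ 2 = n0 * u ^ 2 by field_simp]
      exact mul_mem hn0 (pow_mem u.2 2)
    · have := h.nd_co (y := y / N) fun z hz => by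
        have h2 := hy _ ⟨⟨z, h.intL z hz⟩, rfl⟩
        change co ψ (2 * (n0 * N ^ 2)⁻¹ * y * (n0 * N * z)) = 1 at h2
        rw [← h2]
        congr 1
        field_simp
      rw [mul_div_cancel₀ _ hN] at this
      exact ⟨⟨y, this⟩, rfl⟩
  have hle : p0.range ≤ p1.range := by
    rintro _ ⟨u, rfl⟩
    refine ⟨⟨(N : F) ^ j * t * u, mul_mem (h.pow_le hk2 (by omega)) u.2⟩, ?_⟩
    change τ * ((N : F) ^ j * t * u) = u
    rw [hτ]
    field_simp
  obtain ⟨s, hs, e2⟩ := q.two_large hL hle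
    (HasAvg.range p0 Subtype.val_injective (φ := q.φ) hd)
    (HasAvg.range p1 ((mul_right_injective₀ hτ0).comp Subtype.val_injective) (φ := q.φ)
      ((h.avgL hJ).congr fun u => by
        change co ψ ((n0 * N ^ 2)⁻¹ * (τ * u) ^ 2) = _
        congr 1
        rw [hc, hm, hτ, e]
        field_simp
        ring))
  have hpos : (0 : ℝ) < Fintype.card (R ⧸ Ideal.span {n}) := by exact_mod_cast Fintype.card_pos
  have hs0 := Real.sqrt_pos.2 hpos
  refine ⟨s * r * (Fintype.card (R ⧸ Ideal.span {n}) /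
    Real.sqrt (Fintype.card (R ⧸ Ideal.span {n}))), by positivity, ?_⟩
  have h3 : (Fintype.card (R ⧸ Ideal.span {n}) : ℂ) ≠ 0 := by exact_mod_cast hpos.ne'
  have h4 : ((Real.sqrt (Fintype.card (R ⧸ Ideal.span {n})) : ℝ) : ℂ) ≠ 0 := by
    exact_mod_cast hs0.ne'
  rw [h.gq_eq hn, e2]
  push_cast
  rw [← e1, show (mean fun a => gA ψ n (1 * a ^ 2)) =
    (∑ a, gA ψ n (1 * a ^ 2)) / (Fintype.card (R ⧸ Ideal.span {n}) : ℂ) from rfl]
  field_simp

theorem exists_decomp {n : F} (hn : n ≠ 0) :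
    ∃ n0 t : F, n0 ∈ Λ ∧ N * n0⁻¹ ∈ Λ ∧ n = n0 * t ^ 2 := by
  have := h.pid
  have hN := h.castne
  obtain ⟨k, hk⟩ := h.pow n
  have h1 : (N : F) ^ (2 * k) * n ∈ Λ := h.pow_le hk (by omega)
  have h2 : (⟨_, h1⟩ : Λ) ≠ 0 := fun e =>
    mul_ne_zero (pow_ne_zero _ hN) hn (congrArg Subtype.val e)
  obtain ⟨b, d, e, hd⟩ := exists_sq_mul _ h2
  have hd0 : (d : F) ≠ 0 := by simpa using hd.ne_zero
  obtain ⟨i, hi⟩ := h.pow (d : F)⁻¹
  have h3 : d ∣ (N : Λ) ^ (i + 1) :=
    ⟨⟨_, h.pow_le hi (Nat.le_succ i)⟩, Subtype.ext (by simp; field_simp)⟩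
  obtain ⟨a, ha⟩ := (hd.dvd_pow_iff_dvd (Nat.succ_ne_zero i)).1 h3
  refine ⟨d, b / N ^ k, d.2, ?_, ?_⟩
  · have : (N : F) = d * a := by simpa using congrArg Subtype.val ha
    rw [show N * (d : F)⁻¹ = a by rw [this]; field_simp]
    exact a.2
  · have : (N : F) ^ (2 * k) * n = b ^ 2 * d := by simpa using congrArg Subtype.val e
    field_simp
    linear_combination this

theorem inv_mem {l : F} (hl : l ∈ Λ) (hk : 1 + N * l ≠ 0) : (1 + N * l)⁻¹ ∈ Λ := by
  obtain ⟨i, hi⟩ := h.pow (1 + N * l)⁻¹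
  have hkL : 1 + N * l ∈ Λ := add_mem (one_mem _) (mul_mem (natCast_mem Λ N) hl)
  have h1 : IsCoprime (⟨_, hkL⟩ : Λ) ((N : Λ) ^ i) :=
    IsCoprime.pow_right ⟨1, -⟨l, hl⟩, Subtype.ext (by simp; ring)⟩
  obtain ⟨a, b, hab⟩ := h1
  have h2 : (a : F) * (1 + N * l) + b * N ^ i = 1 := by simpa using congrArg Subtype.val hab
  convert add_mem a.2 (mul_mem b.2 hi) using 1
  field_simp
  linear_combination -h2

/-- The normalised quadratic Gauss sum is a class function. -/
theorem gq_class {w : F} (hw : w ^ 2 + w + 1 = 0) {n n' : R} (hn' : n' ≠ 0) {s l : F}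
    (hl : l ∈ Λ) (e : (n' : F) = n * (1 + N ^ 3 * l) * s ^ 2) : gq ψ n' = gq ψ n := by
  have hn'F : (n' : F) ≠ 0 := by simpa using hn'
  have hnF : (n : F) ≠ 0 := fun h0 => hn'F (by rw [e, h0]; ring)
  have hn : n ≠ 0 := by simpa using hnF
  have hk : (1 + N ^ 3 * l : F) ≠ 0 := fun h0 => hn'F (by rw [e, h0]; ring)
  have hN := h.castne
  obtain ⟨n0, t, h1, h2, e1⟩ := h.exists_decomp hnF
  have h00 : n0 ≠ 0 := left_ne_zero_of_mul (e1 ▸ hnF)
  obtain ⟨d, hd⟩ := h.exists_avgL (n0 * N ^ 2)⁻¹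
  have hl2 : (N : F) ^ 2 * l ∈ Λ := mul_mem (pow_mem (natCast_mem Λ N) 2) hl
  have e3 : (1 + N ^ 3 * l : F) = 1 + N * (N ^ 2 * l) := by ring
  have hki : (1 + N ^ 3 * l : F)⁻¹ ∈ Λ := by
    rw [e3]
    exact h.inv_mem hl2 (e3 ▸ hk)
  have hkL : (1 + N ^ 3 * l : F) ∈ Λ :=
    add_mem (one_mem _) (mul_mem (pow_mem (natCast_mem Λ N) 3) hl)
  obtain ⟨r, hr, a1⟩ := h.key hw hn h1 e1 hd
  obtain ⟨r', hr', a2⟩ := h.key hw hn' (n0 := n0 * (1 + N ^ 3 * l)) (t := t * s) (mul_mem h1 hkL)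
    (by rw [e, e1]; ring) (hd.congr fun u => h.co_congr (by
      convert neg_mem (mul_mem (mul_mem (mul_mem h2 hki) hl) (pow_mem u.2 2)) using 1
      field_simp
      ring))
  have b1 := congrArg norm a1
  have b2 := congrArg norm a2
  rw [norm_mul, h.norm_gq (by assumption), one_mul, Complex.norm_real,
    Real.norm_of_nonneg (by positivity)] at b1 b2
  have hd0 : d ≠ 0 := by
    rw [← norm_ne_zero_iff, b1]
    exact hr.ne'
  refine mul_right_cancel₀ hd0 ?_
  rw [a1, a2, ← b1, ← b2]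

end SAr

end Crest.Agent.T27.G58
end
end

-- ▼ part T27/GauAx_82
section

/-!
# Row 27 frame: `GauAx` from reciprocity and the class invariance of the quadratic Gauss sum
-/

set_option autoImplicit false

noncomputable section

namespace Crest.Agent.T27

open scoped ComplexConjugate

variable [Fr0]

/-- The normalised quadratic Gauss sum. -/
def Qn (n : O) : ℂ := (∑ x ∈ res n, eq (x ^ 2) n) / (Real.sqrt (nr n) : ℂ)

namespace G82

/-- `∑_{x mod n} e(a x² / n)`. -/
def Qa (a n : O) : ℂ := ∑ x ∈ res n, eq (a * x ^ 2) n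

theorem Qn_eq (n : O) : Qn n = Qa 1 n / (Real.sqrt (nr n) : ℂ) := by
  simp only [Qn, Qa, one_mul]


theorem sqrt_mul (m n : O) :
    (Real.sqrt (nr (m * n)) : ℂ) = (Real.sqrt (nr m) : ℂ) * (Real.sqrt (nr n) : ℂ) := by
  rw [nr_mul, Real.sqrt_mul (Nat.cast_nonneg _), Complex.ofReal_mul]

theorem sqrt_sq (y : O) : (Real.sqrt (nr (y ^ 2)) : ℂ) = nm y := by
  rw [nr_pow, Real.sqrt_sq (Nat.cast_nonneg _)]
  simp

theorem per (a n x y : O) (h : n ∣ x - y) : eq (a * x ^ 2) n = eq (a * y ^ 2) n :=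
  eq_congr (h.trans ⟨a * (x + y), by ring⟩)

theorem Qa_crt {m n : O} (hm : m ≠ 0) (hn : n ≠ 0) (h : IsCoprime m n) (a : O) :
    Qa a (m * n) = Qa (a * n) m * Qa (a * m) n := by
  rw [Qa, sum_res_crt hm hn h _ (per a (m * n)), Qa, Qa, Finset.sum_mul_sum]
  refine Finset.sum_congr rfl fun x _ => Finset.sum_congr rfl fun y _ => ?_
  rw [← eq_crt hm hn]
  exact eq_congr ⟨2 * a * x * y, by ring⟩

theorem Qa_unit_mul {u n : O} (hu : IsUnit u) (hn : n ≠ 0) (a : O) :
    Qa (u * a) (u * n) = Qa a n := by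
  rw [Qa, Qa, sum_res_assoc (m := n) (n := u * n) hn (associated_unit_mul_right n u hu)
    _ (per a n)]
  refine Finset.sum_congr rfl fun x _ => ?_
  rw [mul_assoc, eq_mul_mul hu.ne_zero]

theorem Qa_mul_sq {a n y : O} (hn : n ≠ 0) (hy : y ≠ 0) (h : IsCoprime a y) :
    Qa a (n * y ^ 2) = nm y * Qa a n := by
  classical
  have hny := mul_ne_zero hn hy
  have e0 : n * y ^ 2 = n * y * y := by ring
  have h2 : ∀ x, y ∣ 2 * a * x ↔ y ∣ x := fun x =>
    ⟨fun hd => ((isCoprime_of_isUnit y isUnit_two).mul_right h.symm).dvd_of_dvd_mul_left hd,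
      fun hd => hd.mul_left _⟩
  have e1 : ∀ x, ∑ t ∈ res y, eq (a * (x + n * y * t) ^ 2) (n * y * y) =
      nm y * if y ∣ x then eq (a * x ^ 2) (n * y * y) else 0 := fun x => by
    have : ∀ t, eq (a * (x + n * y * t) ^ 2) (n * y * y) =
        eq (a * x ^ 2) (n * y * y) * eq (2 * a * x * t) y := fun t => by
      rw [← eq_mul_mul hny (2 * a * x * t) y, ← eq_add]
      exact eq_congr ⟨a * n * t ^ 2, by ring⟩
    simp only [this, ← Finset.mul_sum, sum_res_eq_char hy, h2]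
    split_ifs <;> ring
  have hper : ∀ x x', y * n ∣ x - x' → (if y ∣ x then eq (a * x ^ 2) (n * y * y) else 0) =
      if y ∣ x' then eq (a * x' ^ 2) (n * y * y) else 0 := fun x x' hd => by
    obtain ⟨t, ht⟩ := hd
    obtain rfl : x = x' + y * n * t := by rw [← ht]; ring
    by_cases hx : y ∣ x'
    · rw [if_pos hx, if_pos (hx.add ⟨n * t, by ring⟩)]
      obtain ⟨z, rfl⟩ := hx
      exact eq_congr ⟨a * (2 * z * t + n * t ^ 2), by ring⟩
    · rw [if_neg hx, if_neg fun h' => hx ((dvd_add_left ⟨n * t, by ring⟩).1 h')]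
  rw [Qa, e0, sum_res_mul hny hy _ (per a _), Finset.sum_congr rfl fun x _ => e1 x,
    ← Finset.mul_sum, mul_comm n y, sum_res_mul hy hn _ (by rwa [mul_comm y n] at hper ⊢)]
  congr 1
  have e2 : ∀ x, ∑ t ∈ res n, (if y ∣ x + y * t then eq (a * (x + y * t) ^ 2) (y * n * y) else 0) =
      if y ∣ 0 - x then Qa a n else 0 := fun x => by
    rw [zero_sub, dvd_neg]
    by_cases hx : y ∣ x
    · rw [if_pos hx]
      obtain ⟨z, rfl⟩ := hx
      rw [Qa, ← sum_res_affine hn _ (per a n) isCoprime_one_left z]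
      refine Finset.sum_congr rfl fun t _ => ?_
      rw [if_pos ⟨z + t, by ring⟩, ← eq_mul_mul (mul_ne_zero hy hy) (a * (1 * t + z) ^ 2) n]
      congr 1 <;> ring
    · rw [if_neg hx]
      exact Finset.sum_eq_zero fun t _ =>
        if_neg fun h' => hx ((dvd_add_left (dvd_mul_right y t)).1 h')
  rw [Finset.sum_congr rfl fun x _ => e2 x]
  exact Gauss_delta (f := fun _ => Qa a n) hy (fun _ _ _ => rfl) 0

theorem sum_sq_prime {p : O} (hp : Prime p) (h : Primary p) (f : O → ℂ)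
    (hf : ∀ x y, p ∣ x - y → f x = f y) :
    ∑ x ∈ res p, f (x ^ 2) = ∑ x ∈ res p, (quad p x + 1) * f x := by
  classical
  have hp0 := hp.ne_zero
  have : Fact (p ≠ 0) := ⟨hp0⟩
  have : (Ideal.span {p}).IsMaximal :=
    PrincipalIdealRing.isMaximal_of_irreducible hp.irreducible
  let : Field (O ⧸ Ideal.span {p}) := Ideal.Quotient.field _
  let : Fintype (O ⧸ Ideal.span {p}) := Fintype.ofFinite _
  have hc : Fintype.card (O ⧸ Ideal.span {p}) = nm p := by
    rw [← Nat.card_eq_fintype_card, card_quot hp0]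
  have h6 := (nm_prime_mod_six hp h).1
  have hF : ringChar (O ⧸ Ideal.span {p}) ≠ 2 := by
    rw [Ne, FiniteField.even_card_iff_char_two, hc]
    omega
  have hq : ∀ a, quad p a =
      (quadraticChar (O ⧸ Ideal.span {p}) (Ideal.Quotient.mk _ a) : ℤ) := by
    intro a
    rw [Symbol_quad_prime hp h, quad1]
    by_cases ha : p ∣ a
    · rw [if_pos ha, Ideal.Quotient.eq_zero_iff_mem.2 (Ideal.mem_span_singleton.2 ha)]
      simp
    · have ha' : Ideal.Quotient.mk (Ideal.span {p}) a ≠ 0 := fun h0 =>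
        ha (Ideal.mem_span_singleton.1 (Ideal.Quotient.eq_zero_iff_mem.1 h0))
      rw [if_neg ha, quadraticChar_eq_pow_of_char_ne_two hF ha', hc,
        show nm p / 2 = (nm p - 1) / 2 by omega, ← map_pow,
        ← map_one (Ideal.Quotient.mk (Ideal.span {p})), Ideal.Quotient.mk_eq_mk_iff_sub_mem,
        Ideal.mem_span_singleton]
      split_ifs <;> simp
  let g : O ⧸ Ideal.span {p} → ℂ := fun t => f (Quotient.out t)
  have hg : ∀ x, g (Ideal.Quotient.mk _ x) = f x := fun x => hf _ _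
    (Ideal.mem_span_singleton.1 ((Ideal.Quotient.mk_eq_mk_iff_sub_mem _ _).1
      (Ideal.Quotient.mk_out _)))
  have h1 := sum_res_eq_quot hp0 fun t => g (t ^ 2)
  have h2 := sum_res_eq_quot hp0 fun t =>
    (((quadraticChar (O ⧸ Ideal.span {p}) t : ℤ) : ℂ) + 1) * g t
  simp only [← map_pow, hg, ← hq] at h1 h2
  rw [h1, h2, ← Finset.sum_fiberwise Finset.univ (fun t : O ⧸ Ideal.span {p} => t ^ 2)]
  refine Finset.sum_congr rfl fun t _ => ?_
  rw [Finset.sum_congr rfl (g := fun _ => g t) fun x hx => by rw [(Finset.mem_filter.1 hx).2],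
    Finset.sum_const, nsmul_eq_mul]
  have h3 := quadraticChar_card_sqrts hF t
  rw [Set.toFinset_ofPred] at h3
  congr 1
  exact_mod_cast h3

theorem Qa_prime {p : O} (hp : Prime p) (h : Primary p) {a : O} (ha : IsCoprime a p) :
    Qa a p = quad p a * gs 3 p 1 := by
  have h1 := sum_sq_prime hp h (fun x => eq (a * x) p) fun x y hxy =>
    eq_congr (by rw [← mul_sub]; exact hxy.mul_left _)
  have h2 := sum_res_eq_char hp.ne_zero a
  rw [if_neg fun hd => hp.not_isUnit (ha.isUnit_of_dvd' hd dvd_rfl)] at h2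
  have h3 := gs_mul_unit 3 h.po ha 1
  rw [one_mul, sym_pow_three h, conj_quad] at h3
  rw [← h3, Qa, h1, gs]
  simp only [add_mul, one_mul, Finset.sum_add_distrib, h2, add_zero,
    sym_pow_add_six h _ three_ne_zero, sym_pow_three h]

theorem Qa_one (a : O) : Qa a 1 = 1 := by
  have h := sum_res_eq_char (n := (1 : O)) one_ne_zero 0
  rw [if_pos (one_dvd _)] at h
  rw [Qa, Finset.sum_congr rfl fun x _ => eq_congr (y := 0 * x) (one_dvd _), h]
  simp

theorem Qa_sqfree {n : O} (hn : Primary n) (hs : Squarefree n) {a : O} (ha : IsCoprime a n) :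
    Qa a n = quad n a * gs 3 n 1 := by
  refine Primary.induction
    (P := fun n => Squarefree n → ∀ a, IsCoprime a n → Qa a n = quad n a * gs 3 n 1) ?_ ?_ hn hs a ha
  · intro _ a _
    rw [Qa_one, quad_unit_left isUnit_one, gs_one, one_mul]
  · intro p n hp hp' hn ih hs a ha
    have hc : IsCoprime p n := (squarefree_mul_iff.1 hs).1.isCoprime
    rw [Qa_crt hp.ne_zero hn.ne_zero hc, Qa_prime hp hp' (ha.of_mul_right_left.mul_left hc.symm),
      ih (squarefree_mul_iff.1 hs).2.2 _ (ha.of_mul_right_right.mul_left hc),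
      gs_mul 3 hp'.po hn.po hc, sym_pow_three hp', sym_pow_three hn, quad_mul_right',
      quad_mul_right', quad_mul_left hp.ne_zero hn.ne_zero]
    ring

/-- Every non-zero element is a unit times a squarefree primary element times a square. -/
theorem exists_sq {n : O} (hn : n ≠ 0) : ∃ u r c : O, IsUnit u ∧ Primary r ∧ Squarefree r ∧
    c ≠ 0 ∧ n = u * r * c ^ 2 := by
  obtain ⟨u, m, hu, hm, rfl⟩ := exists_eq_unit_mul_primary hn
  have h1 := squarefree_prod_primes (s := (pf m).filter fun p => vp p m % 2 = 1)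
    fun q hq => BasicB.pf_sub (Finset.mem_filter.1 hq).1
  refine ⟨u, _, _, hu, h1.2.1, h1.1,
    (BasicB.primary_prod_pow (s := pf m) (fun _ => BasicB.pf_sub) fun p => vp p m / 2).ne_zero,
    ?_⟩
  rw [mul_assoc]
  congr 1
  refine (BasicB.eq_mod_mul_div hm 2).trans ?_
  congr 1
  rw [Finset.prod_filter]
  refine Finset.prod_congr rfl fun p _ => ?_
  split_ifs with h2
  · rw [h2, pow_one]
  · rw [show vp p m % 2 = 0 by omega, pow_zero]

theorem Qa_eval {u r c a : O} (hu : IsUnit u) (hr : Primary r) (hs : Squarefree r) (hc : c ≠ 0)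
    (ha : IsCoprime a r) (hac : IsCoprime a c) :
    Qa a (u * r * c ^ 2) = nm c * (quad r u * quad r a * gs 3 r 1) := by
  obtain ⟨v, hv⟩ := hu.exists_right_inv
  have hv' : IsUnit v := IsUnit.of_mul_eq_one_right u hv
  have h1 : quad r v = quad r u := by
    have h2 := quad_sq hr (isCoprime_of_isUnit r hu)
    have h3 : quad r u * quad r v = 1 := by rw [← quad_mul_right', hv, quad_one_right]
    linear_combination quad r u * h3 - quad r v * h2
  rw [Qa_mul_sq (mul_ne_zero hu.ne_zero hr.ne_zero) hc hac,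
    show Qa a (u * r) = Qa (u * (v * a)) (u * r) by rw [← mul_assoc, hv, one_mul],
    Qa_unit_mul hu hr.ne_zero, Qa_sqfree hr hs ((isCoprime_of_isUnit r hv').symm.mul_left ha),
    quad_mul_right', h1]

theorem Qa_eq {n a : O} (hn : n ≠ 0) (ha : IsCoprime a n) : Qa a n = quad n a * Qa 1 n := by
  obtain ⟨u, r, c, hu, hr, hs, hc, rfl⟩ := exists_sq hn
  have h1 : IsCoprime a r := ha.of_mul_right_left.of_mul_right_right
  have h2 : IsCoprime a c := by
    have := ha.of_mul_right_right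
    rw [sq] at this
    exact this.of_mul_right_left
  rw [Qa_eval hu hr hs hc h1 h2, Qa_eval hu hr hs hc isCoprime_one_left isCoprime_one_left,
    quad_mul_left (mul_ne_zero hu.ne_zero hr.ne_zero) (pow_ne_zero _ hc), quad_unit_mul_left hu,
    sq c, quad_mul_left hc hc, ← sq, quad_sq' hc h2.symm, quad_one_right]
  ring

theorem Qn_three {n : O} (hn : Primary n) (hs : Squarefree n) : gam 3 n = Qn n := by
  rw [Qn_eq, Qa_sqfree hn hs isCoprime_one_left, quad_one_right, one_mul, gam]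

theorem Qn_mul_sq {n y : O} (hn : n ≠ 0) (hy : y ≠ 0) : Qn (n * y ^ 2) = Qn n := by
  have h0 : (nm y : ℂ) ≠ 0 := Nat.cast_ne_zero.2 fun h => hy (nm_eq_zero.1 h)
  rw [Qn_eq, Qn_eq, Qa_mul_sq hn hy isCoprime_one_left, sqrt_mul, sqrt_sq, mul_comm,
    mul_div_mul_right _ _ h0]

theorem Qn_unit_mul {u r : O} (hu : IsUnit u) (hr : Primary r) (hs : Squarefree r) :
    Qn (u * r) = quad r u * gam 3 r := by
  have h := Qa_eval (a := 1) hu hr hs one_ne_zero isCoprime_one_left isCoprime_one_left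
  rw [one_pow, mul_one, quad_one_right] at h
  rw [Qn_eq, h, nr_unit_mul hu, gam]
  simp only [BasicA.nm_of_isUnit isUnit_one, Nat.cast_one]
  ring

theorem norm_Qn {n : O} (hn : n ≠ 0) : ‖Qn n‖ = 1 := by
  obtain ⟨u, r, c, hu, hr, hs, hc, rfl⟩ := exists_sq hn
  rw [Qn_mul_sq (mul_ne_zero hu.ne_zero hr.ne_zero) hc, Qn_unit_mul hu hr hs, norm_mul,
    norm_gam (by omega) hr.po hs, mul_one, ← sym_pow_three hr, norm_pow,
    norm_sym hr (isCoprime_of_isUnit r hu), one_pow]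


theorem Qn_sq {n : O} (hn : n ≠ 0) : Qn n ^ 2 * quad n (-1) = 1 := by
  have h1 : conj (Qn n) = quad n (-1) * Qn n := by
    rw [Qn_eq, map_div₀, Complex.conj_ofReal, ← mul_div_assoc,
      ← Qa_eq hn isCoprime_one_left.neg_left, Qa, Qa, map_sum]
    congr 1
    exact Finset.sum_congr rfl fun x _ => by rw [← eq_neg, neg_mul]
  have h2 := Gauss_conj_mul (norm_Qn hn)
  rw [h1] at h2
  linear_combination h2

theorem Qn_coprime {m n : O} (hm : m ≠ 0) (hn : n ≠ 0) (h : IsCoprime m n) :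
    Qn (m * n) = Qn m * Qn n * (quad m n * quad n m) := by
  rw [Qn_eq, Qn_eq, Qn_eq, Qa_crt hm hn h, one_mul, one_mul, Qa_eq hm h.symm, Qa_eq hn h, sqrt_mul]
  ring

section rec

variable {R : O → O → ℂ} (hR : RecAx R)
include hR

theorem R_mul_right {m n n' : O} (hm : m ≠ 0) (hn : n ≠ 0) (hn' : n' ≠ 0) :
    R m (n * n') = R m n * R m n' := by
  have h1 := hR.anti m (n * n') hm (mul_ne_zero hn hn')
  have h2 := hR.anti m n hm hn
  have h3 := hR.anti m n' hm hn'
  rw [hR.mul_left n n' m hn hn' hm] at h1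
  linear_combination R m n * R m n' * h1 - R m (n * n') * R m n' * R n' m * h2 - R m (n * n') * h3

theorem R3_sq {m n : O} (hm : m ≠ 0) (hn : n ≠ 0) : R m n ^ 3 * R m n ^ 3 = 1 := by
  rw [← pow_add]
  exact hR.pow_six m n hm hn

theorem R3_comm {m n : O} (hm : m ≠ 0) (hn : n ≠ 0) : R m n ^ 3 = R n m ^ 3 := by
  have h1 : R m n ^ 3 * R n m ^ 3 = 1 := by rw [← mul_pow, hR.anti m n hm hn, one_pow]
  have h2 := R3_sq hR hn hm
  linear_combination R n m ^ 3 * h1 - R m n ^ 3 * h2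

theorem R3_coprime {m n : O} (hm : m ≠ 0) (hn : n ≠ 0) (h : IsCoprime m n) :
    quad m n * quad n m = R m n ^ 3 := by
  rw [← sym_pow_three' hm, hR.recip m n hm hn h, mul_pow, sym_pow_three' hn, mul_assoc, ← sq,
    quad_sq' hn h.symm, mul_one]

theorem R3_mul_sq_left {m y n : O} (hm : m ≠ 0) (hy : y ≠ 0) (hn : n ≠ 0) :
    R (m * y ^ 2) n ^ 3 = R m n ^ 3 := by
  rw [hR.mul_left _ _ _ hm (pow_ne_zero _ hy) hn, sq, hR.mul_left _ _ _ hy hy hn, mul_pow, mul_pow,
    R3_sq hR hy hn, mul_one]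

theorem Qn_mul {m n : O} (hm : m ≠ 0) (hn : n ≠ 0) : Qn (m * n) = Qn m * Qn n * R m n ^ 3 := by
  have key : ∀ m n : O, Squarefree m → Squarefree n → Qn (m * n) = Qn m * Qn n * R m n ^ 3 := by
    intro m n hm hn
    let _ : GCDMonoid O := IsBezout.toGCDDomain O
    obtain ⟨m', n', h1, h2, h3⟩ := extract_gcd m n
    generalize gcd m n = d at h1 h2
    subst h1 h2
    have hc : IsCoprime m' n' := (gcd_isUnit_iff m' n').1 h3
    have hd : d ≠ 0 := left_ne_zero_of_mul hm.ne_zero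
    have hm' : m' ≠ 0 := right_ne_zero_of_mul hm.ne_zero
    have hn' : n' ≠ 0 := right_ne_zero_of_mul hn.ne_zero
    have c1 : IsCoprime d m' := (squarefree_mul_iff.1 hm).1.isCoprime
    have c2 : IsCoprime d n' := (squarefree_mul_iff.1 hn).1.isCoprime
    have e1 := Qn_sq hd
    rw [← sym_pow_three' hd, ← hR.self d hd] at e1
    have e2 := R3_sq hR hd hn'
    have e3 := R3_sq hR hd hm'
    rw [show d * m' * (d * n') = m' * n' * d ^ 2 by ring, Qn_mul_sq (mul_ne_zero hm' hn') hd,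
      Qn_coprime hm' hn' hc, Qn_coprime hd hm' c1, Qn_coprime hd hn' c2, R3_coprime hR hm' hn' hc,
      R3_coprime hR hd hm' c1, R3_coprime hR hd hn' c2,
      hR.mul_left _ _ _ hd hm' (mul_ne_zero hd hn'), R_mul_right hR hd hd hn',
      R_mul_right hR hm' hd hn', mul_pow, mul_pow, mul_pow, R3_comm hR hm' hd]
    generalize R d n' ^ 3 = A at *
    generalize R d m' ^ 3 = B at *
    generalize R d d ^ 3 = C at *
    linear_combination (-(Qn m' * Qn n' * R m' n' ^ 3)) *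
      (A * A * (B * B) * e1 + B * B * e2 + e3)
  obtain ⟨u, r, c, hu, -, hs, hc, rfl⟩ := exists_sq hm
  obtain ⟨u', r', c', hu', -, hs', hc', rfl⟩ := exists_sq hn
  have s1 : Squarefree (u * r) := (squarefree_mul_iff.2 ⟨hu.isRelPrime_left, hu.squarefree, hs⟩)
  have s2 : Squarefree (u' * r') :=
    (squarefree_mul_iff.2 ⟨hu'.isRelPrime_left, hu'.squarefree, hs'⟩)
  rw [show u * r * c ^ 2 * (u' * r' * c' ^ 2) = u * r * (u' * r') * (c * c') ^ 2 by ring,
    Qn_mul_sq (mul_ne_zero s1.ne_zero s2.ne_zero) (mul_ne_zero hc hc'), Qn_mul_sq s1.ne_zero hc,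
    Qn_mul_sq s2.ne_zero hc', R3_mul_sq_left hR s1.ne_zero hc hn, R3_comm hR s1.ne_zero hn,
    R3_mul_sq_left hR s2.ne_zero hc' s1.ne_zero, R3_comm hR s2.ne_zero s1.ne_zero, key _ _ s1 s2]

end rec

end G82

/-- **`GauAx`** from reciprocity and the class invariance of the quadratic Gauss sum. -/
theorem gauAx_of_82 {R : O → O → ℂ} (hR : RecAx R)
    (hQ : ∀ n n' : O, n ≠ 0 → n' ≠ 0 → cls n = cls n' → Qn n = Qn n') : GauAx R Qn where
  congr n n' h := by
    by_cases hn' : n' = 0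
    · rw [hn', map_zero, cls_eq_zero] at h
      rw [h, hn']
    · exact hQ n n' (ne_zero_of_cls_eq h hn') hn' h
  norm _ hn := G82.norm_Qn hn
  mul _ _ hm hn := G82.Qn_mul hR hm hn
  mul_sq _ _ hn hy := G82.Qn_mul_sq hn hy
  three _ hn hs := G82.Qn_three hn hs

end Crest.Agent.T27
end
end

-- ▼ part T27/GsMod_58

/-!
# Row 27: the quadratic Gauss sum `Qn` of a frame `O ≅ O_F[1/N]` is a class function
-/

set_option autoImplicit false
set_option linter.unusedSectionVars false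

noncomputable section

namespace Crest.Agent.T27.G58

open NumberField

variable {F : Type} [Field F] [NumberField F] {N : ℕ} [hG : SGood F N]

theorem sAr_pow {k : ℕ} (hk : k ≠ 0) (hd : 2 * discr F ∣ ((N ^ k : ℕ) : ℤ)) :
    SAr (RS F N) (LS F N) (N ^ k) (psiS N) where
  intR _ := mem_LocS_of_isIntegral
  intL _ := mem_LocS_of_isIntegral
  inter _ := isIntegral_of_mem_RS_LS
  split y := ⟨_, sPart_spec hG.ne y⟩
  pow y := by
    obtain ⟨i, hi⟩ := exists_pow_mul_mem_LS hG.ne y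
    obtain ⟨k, rfl⟩ := Nat.exists_eq_succ_of_ne_zero hk
    refine ⟨i, ?_⟩
    rw [show (((N ^ (k + 1) : ℕ) : F)) ^ i * y = (N : F) ^ (k * i) * ((N : F) ^ i * y) by
      push_cast; ring]
    exact mul_mem (pow_mem (natCast_mem _ N) _) hi
  invN := inv_mem_RS_of_dvd (k := k) dvd_rfl
  ne := pow_ne_zero k hG.ne
  dvd := hd
  pid := inferInstance
  psi _ hl _ hr := psiS_add_of_mem hG.ne hl hr

theorem two_discr_dvd : 2 * discr F ∣ ((N ^ 2 : ℕ) : ℤ) := by
  have h1 : (2 : ℤ) ∣ N := by exact_mod_cast (Dvd.dvd.trans (by norm_num) hG.six : 2 ∣ N)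
  have h2 : discr F ∣ (N : ℤ) := Int.natAbs_dvd.1 (by exact_mod_cast hG.disc)
  push_cast
  rw [sq]
  exact mul_dvd_mul h1 h2

variable [Fr0] {j : O →+* F}

theorem Qn_eq_gq (E : O ≃+* RS F N) (hE : ∀ x, (E x : F) = j x)
    (heq : ∀ x n, eq x n = psiS N (j x / j n)) {n : O} (hn : n ≠ 0) :
    Qn n = gq (psiS N) (E n) := by
  have h := sAr_pow (F := F) (N := N) two_ne_zero two_discr_dvd
  have hn' : E n ≠ 0 := by simpa using hn
  have : Fact (n ≠ 0) := ⟨hn⟩
  have := Fintype.ofFinite (O ⧸ Ideal.span {n})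
  have := h.finite_R hn'
  have := Fintype.ofFinite (RS F N ⧸ Ideal.span {E n})
  let Φ : (O ⧸ Ideal.span {n}) ≃+* (RS F N ⧸ Ideal.span {E n}) :=
    Ideal.quotientEquiv _ _ E (by simp [Ideal.map_span])
  have hΦ : ∀ x, Φ (Ideal.Quotient.mk _ x) = Ideal.Quotient.mk _ (E x) := fun x => rfl
  rw [h.gq_eq hn', Qn, ← Equiv.sum_comp Φ.toEquiv, ← sum_res_eq_quot hn,
    ← Fintype.card_congr Φ.toEquiv, ← Nat.card_eq_fintype_card, card_quot hn]
  congr 1
  refine Finset.sum_congr rfl fun x _ => ?_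
  change _ = SAr.gA (psiS N) (E n) (1 * Φ (Ideal.Quotient.mk _ x) ^ 2)
  rw [hΦ, one_mul, ← map_pow (Ideal.Quotient.mk (Ideal.span {E n})), h.gA_mk hn', heq, ← map_pow E,
    hE, hE]

/-- The class function property, at level `3 k` when `2 disc ∣ N^k`. -/
theorem Qn_class (E : O ≃+* RS F N) (hE : ∀ x, (E x : F) = j x)
    (heq : ∀ x n, eq x n = psiS N (j x / j n)) {k J : ℕ} (hk : k ≠ 0)
    (hd : 2 * discr F ∣ ((N ^ k : ℕ) : ℤ)) (hJ : 3 * k ≤ J) {m n : O} (hn : n ≠ 0) {s l : F}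
    (hl : l ∈ LS F N) (e : j n = j m * (1 + (N : F) ^ J * l) * s ^ 2) : Qn n = Qn m := by
  have hn' : E n ≠ 0 := by simpa using hn
  have hm : m ≠ 0 := by
    rintro rfl
    refine hn' (Subtype.ext ?_)
    rw [hE, e]
    simp
  have hw : j om ^ 2 + j om + 1 = 0 := by simpa using congrArg j om_sq_add
  obtain ⟨i, rfl⟩ := Nat.exists_eq_add_of_le hJ
  rw [Qn_eq_gq E hE heq hn, Qn_eq_gq E hE heq hm]
  refine (sAr_pow hk hd).gq_class hw hn' (s := s) (l := (N : F) ^ i * l)
    (mul_mem (pow_mem (natCast_mem _ N) i) hl) ?_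
  rw [hE, hE, e]
  push_cast
  ring

end Crest.Agent.T27.G58
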