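import Mathlib
import Crest.Agent.T27.HeckeA_87
import Crest.Agent.PVc.R17.Contour

-- ▼ part T27/KerA_65
section

/-!
# Row 27, kernel (A): unfolding on a commutative group with an invariant measure

`U` is a countable group mapping to `G` by `lam`; a weight `ϖ` has `∑_u ϖ (g + lam u) = 1`.
`RD` is the abstract data of a radial Poisson formula.
-/

set_option autoImplicit false
set_option linter.unusedSectionVars false

noncomputable section

namespace Crest.Agent.T27.Ker65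

open MeasureTheory
open scoped ENNReal

variable {G : Type*} [AddCommGroup G] [MeasurableSpace G] [MeasurableAdd G] [MeasurableNeg G]
  {μ : Measure G} [μ.IsAddLeftInvariant] [μ.IsNegInvariant]
  {U : Type*} [CommGroup U] [Countable U] {lam : U → G}

/-- weights for the action of `U` by translations -/
structure IsW (lam : U → G) (ϖ : G → ℝ) : Prop where
  mul : ∀ u v, lam (u * v) = lam u + lam v
  meas : Measurable ϖ
  nonneg : ∀ g, 0 ≤ ϖ g
  sum : ∀ g, HasSum (fun u => ϖ (g + lam u)) 1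

namespace IsW

variable {ϖ ϖ' : G → ℝ}

theorem lam_one (h : IsW lam ϖ) : lam 1 = 0 := by
  have := h.mul 1 1
  rw [mul_one] at this
  exact left_eq_add.1 this

theorem lam_inv (h : IsW lam ϖ) (u : U) : lam u⁻¹ = -lam u := by
  have := h.mul u u⁻¹
  rw [mul_inv_cancel, h.lam_one] at this
  exact (neg_eq_of_add_eq_zero_right this.symm).symm

theorem sum_sub (h : IsW lam ϖ) (g : G) : HasSum (fun u => ϖ (g - lam u)) 1 := by
  have := (Equiv.inv U).hasSum_iff.2 (h.sum g)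
  simpa only [Function.comp_def, Equiv.inv_apply, h.lam_inv, ← sub_eq_add_neg] using this

theorem le_one (h : IsW lam ϖ) (g : G) : ϖ g ≤ 1 := by
  have := le_hasSum (h.sum g) 1 fun _ _ => h.nonneg _
  rwa [h.lam_one, add_zero] at this

theorem shift (h : IsW lam ϖ) (g₀ : G) : IsW lam fun g => ϖ (g + g₀) :=
  ⟨h.mul, h.meas.comp (measurable_add_const g₀), fun _ => h.nonneg _, fun g => by
    simpa only [add_right_comm] using h.sum (g + g₀)⟩

theorem refl (h : IsW lam ϖ) (g₀ : G) : IsW lam fun g => ϖ (g₀ - g) :=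
  ⟨h.mul, h.meas.comp (measurable_id.const_sub g₀),
    fun _ => h.nonneg _, fun g => by simpa only [← sub_sub] using h.sum_sub (g₀ - g)⟩

theorem lsum (h : IsW lam ϖ) (g : G) : ∑' u, ENNReal.ofReal (ϖ (g - lam u)) = 1 := by
  rw [← ENNReal.ofReal_tsum_of_nonneg (fun _ => h.nonneg _) (h.sum_sub g).summable,
    (h.sum_sub g).tsum_eq, ENNReal.ofReal_one]

theorem lunfold (h : IsW lam ϖ) {F : G → ℝ≥0∞} (hF : Measurable F) :
    ∑' u, ∫⁻ g, ENNReal.ofReal (ϖ g) * F (g + lam u) ∂μ = ∫⁻ g, F g ∂μ := by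
  have h1 : ∀ u, ∫⁻ g, ENNReal.ofReal (ϖ g) * F (g + lam u) ∂μ =
      ∫⁻ g, ENNReal.ofReal (ϖ (g - lam u)) * F g ∂μ := fun u => by
    rw [← lintegral_add_right_eq_self (fun g => ENNReal.ofReal (ϖ (g - lam u)) * F g) (lam u)]
    simp only [add_sub_cancel_right]
  simp only [h1]
  rw [← lintegral_tsum (f := fun u g => ENNReal.ofReal (ϖ (g - lam u)) * F g)
    fun u => ((h.meas.comp (measurable_sub_const _)).ennreal_ofReal.mul hF).aemeasurable]
  simp only [ENNReal.tsum_mul_right, h.lsum, one_mul]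

theorem lindep (h : IsW lam ϖ) (h' : IsW lam ϖ') {a : G → ℝ≥0∞} (ha : Measurable a)
    (hi : ∀ g u, a (g + lam u) = a g) :
    ∫⁻ g, ENNReal.ofReal (ϖ g) * a g ∂μ = ∫⁻ g, ENNReal.ofReal (ϖ' g) * a g ∂μ := by
  rw [← h.lunfold (F := fun g => ENNReal.ofReal (ϖ' g) * a g) (h'.meas.ennreal_ofReal.mul ha),
    ← lintegral_tsum (f := fun u g => ENNReal.ofReal (ϖ g) *
      (ENNReal.ofReal (ϖ' (g + lam u)) * a (g + lam u)))
      fun u => (h.meas.ennreal_ofReal.mul ((h'.meas.ennreal_ofReal.mul ha).comp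
      (measurable_add_const _))).aemeasurable]
  refine lintegral_congr fun g => ?_
  simp only [hi]
  rw [ENNReal.tsum_mul_left, ENNReal.tsum_mul_right,
    ← ENNReal.ofReal_tsum_of_nonneg (fun _ => h'.nonneg _) (h'.sum g).summable,
    (h'.sum g).tsum_eq, ENNReal.ofReal_one, one_mul]

theorem integrable_mul (h : IsW lam ϖ) {F : G → ℂ} (hF : Integrable F μ) (u : U) :
    Integrable (fun g => (ϖ g : ℂ) * F (g + lam u)) μ :=
  (hF.comp_add_right (lam u)).bdd_mul (c := 1)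
    (Complex.measurable_ofReal.comp h.meas).aestronglyMeasurable (Filter.Eventually.of_forall
      fun g => by rw [Complex.norm_real, Real.norm_of_nonneg (h.nonneg g)]; exact h.le_one g)

theorem unfold (h : IsW lam ϖ) {F : G → ℂ} (hF : Integrable F μ) :
    HasSum (fun u => ∫ g, (ϖ g : ℂ) * F (g + lam u) ∂μ) (∫ g, F g ∂μ) := by
  have h1 : ∀ u, ∫ g, (ϖ g : ℂ) * F (g + lam u) ∂μ = ∫ g, (ϖ (g - lam u) : ℂ) * F g ∂μ := fun u => by
    rw [← integral_add_right_eq_self (fun g => (ϖ (g - lam u) : ℂ) * F g) (lam u)]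
    simp only [add_sub_cancel_right]
  have h2 : ∀ u, Integrable (fun g => (ϖ (g - lam u) : ℂ) * F g) μ := fun u => by
    have := (h.integrable_mul hF u).comp_add_right (-lam u)
    simpa only [← sub_eq_add_neg, sub_add_cancel] using this
  simp only [h1]
  have h3 : Summable fun u => ∫ g, ‖(ϖ (g - lam u) : ℂ) * F g‖ ∂μ := by
    refine summable_of_sum_le (fun u => integral_nonneg fun _ => norm_nonneg _)
      (c := ∫ g, ‖F g‖ ∂μ) fun s => ?_
    rw [← integral_finsetSum _ fun u _ => (h2 u).norm]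
    refine integral_mono (integrable_finsetSum _ fun u _ => (h2 u).norm) hF.norm fun g => ?_
    simp only [norm_mul, Complex.norm_real, Real.norm_of_nonneg (h.nonneg _), ← Finset.sum_mul]
    exact mul_le_of_le_one_left (norm_nonneg _)
      (sum_le_hasSum s (fun _ _ => h.nonneg _) (h.sum_sub g))
  have h4 := hasSum_integral_of_summable_integral_norm h2 h3
  have h5 : ∀ g, ∑' u, (ϖ (g - lam u) : ℂ) * F g = F g := fun g => by
    rw [tsum_mul_right, ← Complex.ofReal_tsum, (h.sum_sub g).tsum_eq, Complex.ofReal_one, one_mul]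
  simpa only [h5] using h4

theorem unfold_norm (h : IsW lam ϖ) {F : G → ℂ} (hF : Integrable F μ) :
    HasSum (fun u => ∫ g, ‖(ϖ g : ℂ) * F (g + lam u)‖ ∂μ) (∫ g, ‖F g‖ ∂μ) := by
  have h1 := h.unfold (μ := μ) (F := fun g => (‖F g‖ : ℂ)) hF.norm.ofReal
  simp only [← Complex.ofReal_mul, integral_complex_ofReal] at h1
  simpa only [norm_mul, Complex.norm_real, Real.norm_of_nonneg (h.nonneg _)] using
    Complex.hasSum_ofReal.1 h1

/-- unfolding of a double series -/
theorem unfold₂ (h : IsW lam ϖ) {K : Type*} [Countable K] {F : K → G → ℂ}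
    (hm : ∀ k, Measurable (F k)) (hF : ∀ k, Integrable (F k) μ)
    (hs : Summable fun k => ∫ g, ‖F k g‖ ∂μ) :
    Integrable (fun g => ∑' z : K × U, (ϖ g : ℂ) * F z.1 (g + lam z.2)) μ ∧
    HasSum (fun k => ∫ g, F k g ∂μ)
      (∫ g, ∑' z : K × U, (ϖ g : ℂ) * F z.1 (g + lam z.2) ∂μ) := by
  have h1 : ∀ z : K × U, Integrable (fun g => (ϖ g : ℂ) * F z.1 (g + lam z.2)) μ :=
    fun z => h.integrable_mul (hF z.1) z.2
  have h2 : Summable fun z : K × U => ∫ g, ‖(ϖ g : ℂ) * F z.1 (g + lam z.2)‖ ∂μ := by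
    refine (summable_prod_of_nonneg fun z => integral_nonneg fun _ => norm_nonneg _).2
      ⟨fun k => (h.unfold_norm (hF k)).summable, ?_⟩
    simpa only [fun k => (h.unfold_norm (μ := μ) (hF k)).tsum_eq] using hs
  have h3 : ∀ z : K × U, Measurable fun g => (ϖ g : ℂ) * F z.1 (g + lam z.2) := fun z =>
    (Complex.measurable_ofReal.comp h.meas).mul ((hm z.1).comp (measurable_add_const _))
  refine ⟨⟨(Measurable.tsum h3).aestronglyMeasurable, ?_⟩,
    (hasSum_integral_of_summable_integral_norm h1 h2).prod_fiberwise fun k => h.unfold (hF k)⟩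
  refine lt_of_le_of_lt (lintegral_mono fun g => enorm_tsum_le_tsum_enorm) ?_
  rw [lintegral_tsum fun z => (h3 z).enorm.aemeasurable]
  simp only [← fun z => ofReal_integral_norm_eq_lintegral_enorm (h1 z)]
  rw [← ENNReal.ofReal_tsum_of_nonneg (fun z => integral_nonneg fun _ => norm_nonneg _) h2]
  exact ENNReal.ofReal_lt_top

/-- the image of the quotient measure under an invariant homomorphism to `ℝ` -/
theorem haar (h : IsW lam ϖ) (l : G →+ ℝ) (hl : Measurable l) (hl0 : ∀ u, l (lam u) = 0)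
    (hs : Function.Surjective l) (hμ : μ ≠ 0) {a b : ℝ} (hab : a < b)
    (hf : ∫⁻ g, ENNReal.ofReal (ϖ g) * (Set.Ioo a b).indicator 1 (l g) ∂μ < ∞) :
    ∃ c : ℝ, 0 < c ∧ ∀ ϖ' : G → ℝ, IsW lam ϖ' → ∀ B : ℝ → ℂ, Integrable B →
      Integrable (fun g => (ϖ' g : ℂ) * B (l g)) μ ∧
        ∫ g, (ϖ' g : ℂ) * B (l g) ∂μ = c * ∫ t, B t := by
  have key : ∀ ϖ' : G → ℝ, IsW lam ϖ' → ∀ s : Set ℝ, MeasurableSet s →
      ((μ.withDensity fun g => ENNReal.ofReal (ϖ' g)).map l) s =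
        ∫⁻ g, ENNReal.ofReal (ϖ' g) * s.indicator 1 (l g) ∂μ := fun ϖ' h' s hs => by
    rw [← lintegral_indicator_one hs, lintegral_map (measurable_one.indicator hs) hl]
    exact lintegral_withDensity_eq_lintegral_mul _ h'.meas.ennreal_ofReal
        ((measurable_one.indicator hs).comp hl)
  have ind : ∀ ϖ' : G → ℝ, IsW lam ϖ' → (μ.withDensity fun g => ENNReal.ofReal (ϖ' g)).map l =
      (μ.withDensity fun g => ENNReal.ofReal (ϖ g)).map l := fun ϖ' h' => by
    ext s hs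
    rw [key _ h' s hs, key _ h s hs]
    exact h'.lindep h ((measurable_one.indicator hs).comp hl) fun g u => by
      simp only [map_add, hl0, add_zero]
  obtain ⟨ν, hν⟩ : ∃ ν, ν = (μ.withDensity fun g => ENNReal.ofReal (ϖ g)).map l := ⟨_, rfl⟩
  rw [← hν] at ind
  have inv : ∀ (t : ℝ) (s : Set ℝ), MeasurableSet s → ν ((fun x => t + x) ⁻¹' s) = ν s := by
    intro t s hs'
    obtain ⟨g₀, rfl⟩ := hs t
    have e1 := key _ (h.shift g₀) _ (measurable_const_add (l g₀) hs')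
    rw [ind _ (h.shift g₀)] at e1
    rw [e1, hν, key _ h s hs',
      ← lintegral_add_right_eq_self (fun g => ENNReal.ofReal (ϖ g) * s.indicator 1 (l g)) g₀]
    refine lintegral_congr fun g => ?_
    rw [map_add, add_comm (l g)]
    rfl
  have : ν.IsAddLeftInvariant := ⟨fun t => by
    ext s hs'
    rw [Measure.map_apply (measurable_const_add t) hs', inv t s hs']⟩
  have : IsLocallyFiniteMeasure ν := ⟨fun x => by
    refine ⟨(fun y => ((a + b) / 2 - x) + y) ⁻¹' Set.Ioo a b,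
      (isOpen_Ioo.preimage (by fun_prop)).mem_nhds ?_, ?_⟩
    · simp only [Set.mem_preimage, Set.mem_Ioo]
      constructor <;> linarith
    · rw [inv _ _ measurableSet_Ioo, hν, key _ h _ measurableSet_Ioo]
      exact hf⟩
  have e := Measure.isAddLeftInvariant_eq_smul ν volume
  obtain ⟨c, hc⟩ : ∃ c, c = Measure.addHaarScalarFactor ν volume := ⟨_, rfl⟩
  rw [← hc] at e
  refine ⟨c, ?_, fun ϖ' h' B hB => ?_⟩
  · rcases (NNReal.coe_nonneg c).eq_or_lt with h0 | h0
    · exfalso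
      have h1 : c = 0 := NNReal.coe_eq_zero.1 h0.symm
      have h2 := key _ h _ MeasurableSet.univ
      rw [← hν, e, h1, zero_smul] at h2
      have h3 := h.lunfold (μ := μ) (F := fun _ => 1) measurable_const
      simp only [Set.indicator_univ, Pi.one_apply, Measure.coe_zero, Pi.zero_apply] at h2
      simp only [← h2, tsum_zero, lintegral_const, one_mul] at h3
      exact hμ (Measure.measure_univ_eq_zero.1 h3.symm)
    · exact h0
  · have h1 : Integrable B ((μ.withDensity fun g => ENNReal.ofReal (ϖ' g)).map l) := by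
      rw [ind _ h', e]
      exact hB.smul_measure_nnreal
    have h2 : ∀ᵐ g ∂μ, ENNReal.ofReal (ϖ' g) < ∞ :=
      Filter.Eventually.of_forall fun _ => ENNReal.ofReal_lt_top
    have h3 := (integrable_withDensity_iff_integrable_smul' h'.meas.ennreal_ofReal h2).1
      ((integrable_map_measure h1.1 hl.aemeasurable).1 h1)
    have h4 := integral_map hl.aemeasurable h1.1
    rw [integral_withDensity_eq_integral_toReal_smul h'.meas.ennreal_ofReal h2, ind _ h', e,
      integral_smul_nnreal_measure] at h4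
    simp only [ENNReal.toReal_ofReal (h'.nonneg _), Complex.real_smul, Function.comp] at h3 h4
    exact ⟨h3, h4.symm⟩

end IsW

end Crest.Agent.T27.Ker65
end
end

-- ▼ part T27/KerB_65

/-!
# Row 27, kernel (B): abstract radial Poisson summation

`RD` is the data: a group `G` with an invariant measure, a logarithmic norm `l`, a profile `Φ`,
units `lam u` and rows `pt k`.  `Θ f g = ∑_{k, u} f k * Φ (g + lam u + pt k)`.
-/

set_option autoImplicit false
set_option linter.unusedSectionVars false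

noncomputable section

namespace Crest.Agent.T27.Ker65

open MeasureTheory Complex
open scoped ENNReal

/-- the data of a radial Poisson formula -/
structure RD (G : Type*) [AddCommGroup G] [MeasurableSpace G] (μ : Measure G) (U : Type*)
    [CommGroup U] (K : Type*) where
  l : G →+ ℝ
  Φ : G → ℝ
  lam : U → G
  pt : K → G
  l_meas : Measurable l
  Φ_meas : Measurable Φ
  Φ_nonneg : ∀ g, 0 ≤ Φ g
  Φ_pos : 0 < μ (Function.support Φ)
  lam_mul : ∀ u v, lam (u * v) = lam u + lam v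
  l_lam : ∀ u, l (lam u) = 0
  l_pt : ∀ k, 0 ≤ l (pt k)
  sum_pt : Summable fun k => Real.exp (-(2 * l (pt k)))
  int : ∀ σ : ℝ, 0 < σ → Integrable (fun g => Real.exp (σ * l g) * Φ g) μ
  flow : ∀ L : ℝ, 0 ≤ L → ∃ g₀, l g₀ = L ∧ ∀ g, Φ (g + g₀) ≤ Φ g
  sumU : ∀ g, Summable fun u => Φ (g + lam u)
  posU : ∀ g, ∃ u, 0 < Φ (g + lam u)
  theta : ∃ g₀, l g₀ = 0 ∧ ∀ g, (∑' z : K × U, Φ (g + lam z.2 + pt z.1)) + 1 =
    Real.exp (-l g) * ((∑' z : K × U, Φ (g₀ - g + lam z.2 + pt z.1)) + 1)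

namespace RD

variable {G : Type*} [AddCommGroup G] [MeasurableSpace G] [MeasurableAdd G] [MeasurableNeg G]
  {μ : Measure G} [μ.IsAddLeftInvariant] [μ.IsNegInvariant] [SFinite μ]
  {U : Type*} [CommGroup U] [Countable U] {K : Type*} [Countable K] (D : RD G μ U K)

/-- the theta series -/
def Θ (f : K → ℂ) (g : G) : ℂ := ∑' z : K × U, f z.1 * (D.Φ (g + D.lam z.2 + D.pt z.1) : ℂ)

/-- the radial average -/
def av (b : ℝ → ℂ) (t : ℝ) : ℂ := ∫ g, b (D.l g - t) * (D.Φ g : ℂ) ∂μ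

theorem exists_W : ∃ ϖ, IsW D.lam ϖ := by
  have hp : ∀ g, 0 < ∑' u, D.Φ (g + D.lam u) := fun g => by
    obtain ⟨u, hu⟩ := D.posU g
    exact (D.sumU g).tsum_pos (fun _ => D.Φ_nonneg _) u hu
  refine ⟨fun g => D.Φ g / ∑' u, D.Φ (g + D.lam u), D.lam_mul, D.Φ_meas.div (Measurable.tsum
    fun u => D.Φ_meas.comp (measurable_add_const _)), fun g => div_nonneg (D.Φ_nonneg g) (hp g).le,
    fun g => ?_⟩
  have h1 : ∀ v, ∑' u, D.Φ (g + D.lam v + D.lam u) = ∑' u, D.Φ (g + D.lam u) := fun v => by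
    rw [← (Equiv.mulLeft v).tsum_eq fun u => D.Φ (g + D.lam u)]
    simp only [Equiv.coe_mulLeft, D.lam_mul, add_assoc]
  simp only [h1]
  simpa only [div_self (hp g).ne'] using (D.sumU g).hasSum.div_const (∑' u, D.Φ (g + D.lam u))

theorem surj : Function.Surjective D.l := fun L => by
  rcases le_total 0 L with h | h
  · exact (D.flow L h).imp fun _ h => h.1
  · obtain ⟨g, hg, -⟩ := D.flow (-L) (by linarith)
    exact ⟨-g, by rw [map_neg, hg, neg_neg]⟩

theorem integrable_I {b : ℝ → ℂ} {C σ : ℝ} (hb : Measurable b) (hσ : 0 < σ)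
    (hC : ∀ t, ‖b t‖ ≤ C * Real.exp (σ * t)) (t : ℝ) :
    Integrable (fun g => b (D.l g - t) * (D.Φ g : ℂ)) μ ∧
      ∫ g, ‖b (D.l g - t) * (D.Φ g : ℂ)‖ ∂μ ≤
        C * Real.exp (-(σ * t)) * ∫ g, Real.exp (σ * D.l g) * D.Φ g ∂μ := by
  have h1 : ∀ g, ‖b (D.l g - t) * (D.Φ g : ℂ)‖ ≤
      C * Real.exp (-(σ * t)) * (Real.exp (σ * D.l g) * D.Φ g) := fun g => by
    rw [norm_mul, norm_real, Real.norm_of_nonneg (D.Φ_nonneg g), ← mul_assoc, mul_assoc C,
      ← Real.exp_add, show -(σ * t) + σ * D.l g = σ * (D.l g - t) by ring]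
    exact mul_le_mul_of_nonneg_right (hC _) (D.Φ_nonneg g)
  have h2 := (D.int σ hσ).const_mul (C * Real.exp (-(σ * t)))
  have h3 : Integrable (fun g => b (D.l g - t) * (D.Φ g : ℂ)) μ :=
    h2.mono' ((hb.comp (D.l_meas.sub_const t)).mul
      (measurable_ofReal.comp D.Φ_meas)).aestronglyMeasurable (Filter.Eventually.of_forall h1)
  exact ⟨h3, (integral_mono h3.norm h2 h1).trans_eq (integral_const_mul _ _)⟩

theorem unfoldΘ {ϖ : G → ℝ} (h : IsW D.lam ϖ) {b : ℝ → ℂ} {C σ B : ℝ} (hb : Measurable b)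
    (hσ : 2 ≤ σ) (hC : ∀ t, ‖b t‖ ≤ C * Real.exp (σ * t)) {f : K → ℂ} (hf : ∀ k, ‖f k‖ ≤ B) :
    Integrable (fun g => (ϖ g : ℂ) * b (D.l g) * D.Θ f g) μ ∧
    HasSum (fun k => f k * D.av b (D.l (D.pt k))) (∫ g, (ϖ g : ℂ) * b (D.l g) * D.Θ f g ∂μ) := by
  have hC0 : 0 ≤ C := by simpa using (norm_nonneg _).trans (hC 0)
  have h1 := fun k => D.integrable_I hb (by linarith) hC (D.l (D.pt k))
  have e : ∀ k g, b (D.l g) * (D.Φ (g + D.pt k) : ℂ) =
      (fun g => b (D.l g - D.l (D.pt k)) * (D.Φ g : ℂ)) (g + D.pt k) := fun k g => by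
    simp only [map_add, add_sub_cancel_right]
  have h2 := h.unfold₂ (μ := μ) (F := fun k g => f k * (b (D.l g) * (D.Φ (g + D.pt k) : ℂ)))
    (fun k => ((hb.comp D.l_meas).mul (measurable_ofReal.comp
      (D.Φ_meas.comp (measurable_add_const _)))).const_mul _)
    (fun k => by
      simp only [e]
      exact ((h1 k).1.comp_add_right _).const_mul _)
    (by
      refine Summable.of_nonneg_of_le (fun k => integral_nonneg fun _ => norm_nonneg _)
        (fun k => ?_) (D.sum_pt.mul_left (B * C * ∫ g, Real.exp (σ * D.l g) * D.Φ g ∂μ))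
      simp only [e, norm_mul (f k)]
      rw [integral_const_mul, integral_add_right_eq_self
        (fun g => ‖b (D.l g - D.l (D.pt k)) * (D.Φ g : ℂ)‖)]
      have h3 : 0 ≤ ∫ g, Real.exp (σ * D.l g) * D.Φ g ∂μ :=
        integral_nonneg fun g => mul_nonneg (Real.exp_pos _).le (D.Φ_nonneg g)
      have h4 : Real.exp (-(σ * D.l (D.pt k))) ≤ Real.exp (-(2 * D.l (D.pt k))) :=
        Real.exp_le_exp.2 (by nlinarith [D.l_pt k])
      have h5 := (norm_nonneg _).trans (hf k)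
      calc _ ≤ B * (C * Real.exp (-(2 * D.l (D.pt k))) * ∫ g, Real.exp (σ * D.l g) * D.Φ g ∂μ) :=
            mul_le_mul (hf k) ((h1 k).2.trans (by gcongr))
              (integral_nonneg fun _ => norm_nonneg _) h5
        _ = _ := by ring)
  have e2 : ∀ g, ∑' z : K × U, (ϖ g : ℂ) * (f z.1 * (b (D.l (g + D.lam z.2)) *
      (D.Φ (g + D.lam z.2 + D.pt z.1) : ℂ))) = (ϖ g : ℂ) * b (D.l g) * D.Θ f g := fun g => by
    rw [Θ, ← tsum_mul_left]
    refine tsum_congr fun z => ?_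
    rw [map_add, D.l_lam, add_zero]
    ring
  have e3 : ∀ k, ∫ g, f k * (b (D.l g) * (D.Φ (g + D.pt k) : ℂ)) ∂μ =
      f k * D.av b (D.l (D.pt k)) := fun k => by
    simp only [e]
    rw [integral_const_mul, integral_add_right_eq_self
      (fun g => b (D.l g - D.l (D.pt k)) * (D.Φ g : ℂ)), av]
  simpa only [e2, e3] using h2

theorem Θ_one (g : G) :
    D.Θ (fun _ => 1) g = ((∑' z : K × U, D.Φ (g + D.lam z.2 + D.pt z.1) : ℝ) : ℂ) := by
  simp only [Θ, one_mul, ofReal_tsum]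

theorem exists_c : ∃ c : ℝ, 0 < c ∧ ∀ ϖ : G → ℝ, IsW D.lam ϖ → ∀ B : ℝ → ℂ, Integrable B →
    Integrable (fun g => (ϖ g : ℂ) * B (D.l g)) μ ∧
      ∫ g, (ϖ g : ℂ) * B (D.l g) ∂μ = c * ∫ t, B t := by
  obtain ⟨ϖ, h⟩ := D.exists_W
  obtain ⟨g₀, -, hθ⟩ := D.theta
  refine h.haar D.l D.l_meas D.l_lam D.surj (fun h0 => by simpa [h0] using D.Φ_pos)
    (a := -3) (b := -1) (by norm_num) ?_
  have h1 := (D.unfoldΘ h (b := fun t => (Real.exp (2 * t + 6) : ℂ)) (C := Real.exp 6) (σ := 2)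
    (B := 1) (by fun_prop) le_rfl (fun t => by
      rw [norm_real, Real.norm_of_nonneg (Real.exp_pos _).le, Real.exp_add, mul_comm])
    (f := fun _ => 1) (fun _ => by simp)).1.2
  refine lt_of_le_of_lt (lintegral_mono fun g => ?_) h1
  by_cases hg : D.l g ∈ Set.Ioo (-3 : ℝ) (-1)
  · beta_reduce
    rw [Set.indicator_of_mem hg, Pi.one_apply, mul_one, D.Θ_one, ← ofReal_mul, ← ofReal_mul,
      ← ofReal_norm, norm_real]
    refine ENNReal.ofReal_le_ofReal (le_trans ?_ (le_abs_self _))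
    have h2 : 0 ≤ ∑' z : K × U, D.Φ (g₀ - g + D.lam z.2 + D.pt z.1) :=
      tsum_nonneg fun _ => D.Φ_nonneg _
    have h3 := Real.add_one_le_exp (-D.l g)
    have h4 : 1 ≤ ∑' z : K × U, D.Φ (g + D.lam z.2 + D.pt z.1) := by
      nlinarith [hθ g, hg.2, Real.exp_pos (-D.l g)]
    have h5 : 1 ≤ Real.exp (2 * D.l g + 6) := Real.one_le_exp (by linarith [hg.1])
    rw [mul_assoc]
    exact le_mul_of_one_le_right (h.nonneg g) (one_le_mul_of_one_le_of_one_le h5 h4)
  · rw [Set.indicator_of_notMem hg, mul_zero]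
    exact zero_le

/-- the volume of the quotient -/
def c : ℝ := D.exists_c.choose

theorem c_pos : 0 < D.c := D.exists_c.choose_spec.1

theorem c_spec {ϖ : G → ℝ} (h : IsW D.lam ϖ) {B : ℝ → ℂ} (hB : Integrable B) :
    Integrable (fun g => (ϖ g : ℂ) * B (D.l g)) μ ∧
      ∫ g, (ϖ g : ℂ) * B (D.l g) ∂μ = D.c * ∫ t, B t := D.exists_c.choose_spec.2 ϖ h B hB

theorem average {ϖ : G → ℝ} (h : IsW D.lam ϖ) {b : ℝ → ℂ} {C B : ℝ} (hb : Measurable b)
    (hC : ∀ t, ‖b t‖ ≤ C * Real.exp (2 * t)) (hi : Integrable b) {f : K → ℂ} (hf : ∀ k, ‖f k‖ ≤ B)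
    (f₀ : ℂ) (L : ℝ) :
    ∫ g, (ϖ g : ℂ) * b (D.l g - L) * (D.Θ f g + f₀) ∂μ =
      ∑' k, f k * D.av b (L + D.l (D.pt k)) + f₀ * (D.c * ∫ t, b t) := by
  have h1 := D.unfoldΘ h (b := fun t => b (t - L)) (C := C * Real.exp (-(2 * L))) (σ := 2)
    (hb.comp (measurable_sub_const L)) le_rfl (fun t => by
      rw [mul_assoc, ← Real.exp_add, show -(2 * L) + 2 * t = 2 * (t - L) by ring]
      exact hC _) hf
  have h2 := D.c_spec h (hi.comp_sub_right L)
  simp only [mul_add]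
  rw [integral_add h1.1 (h2.1.mul_const _), integral_mul_const, h2.2, ← h1.2.tsum_eq,
    integral_sub_right_eq_self, mul_comm _ f₀]
  congr 1
  refine tsum_congr fun k => ?_
  simp only [av, sub_sub, add_comm]

/-- radial Poisson summation -/
theorem poisson {b : ℝ → ℂ} {C B B' : ℝ} (hb : Measurable b)
    (hC : ∀ t, ‖b t‖ ≤ C * Real.exp (2 * t)) (hi : Integrable b)
    (hd : ∀ t, b (-t) * cexp t = b t) {f f' : K → ℂ} (hf : ∀ k, ‖f k‖ ≤ B)
    (hf' : ∀ k, ‖f' k‖ ≤ B') {f₀ f₀' : ℂ} {g₁ : G}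
    (hθ : ∀ g, D.Θ f g + f₀ = cexp (D.l g₁ - D.l g) * (D.Θ f' (g₁ - g) + f₀')) (L : ℝ) :
    ∑' k, f k * D.av b (L + D.l (D.pt k)) + f₀ * (D.c * ∫ t, b t) =
      cexp (D.l g₁ - L) *
        (∑' k, f' k * D.av b (D.l g₁ - L + D.l (D.pt k)) + f₀' * (D.c * ∫ t, b t)) := by
  obtain ⟨ϖ, h⟩ := D.exists_W
  rw [← D.average h hb hC hi hf, ← D.average (h.refl g₁) hb hC hi hf', ← integral_const_mul,
    ← integral_sub_left_eq_self _ μ g₁]
  refine integral_congr_ae (Filter.Eventually.of_forall fun g => ?_)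
  simp only [hθ (g₁ - g), sub_sub_cancel, map_sub]
  rw [← hd (D.l g - (D.l g₁ - L)), show -(D.l g - (D.l g₁ - L)) = D.l g₁ - D.l g - L by ring]
  have : cexp (D.l g₁ - (D.l g₁ - D.l g : ℝ)) =
      cexp (D.l g₁ - L) * cexp ((D.l g - (D.l g₁ - L) : ℝ)) := by
    rw [← Complex.exp_add]
    congr 1
    push_cast
    ring
  rw [this]
  ring

end RD

end Crest.Agent.T27.Ker65
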