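import Crest.Agent.T27.LS2Defs_81
import Crest.Agent.PVc.R17.WeightAuxA

-- ▼ part T27/LS2Ker_81
section

/-!
# Row 27, quadratic large sieve: definitions, squarefree kernels and sieving identities

Plan of the proof (files `LS2*_81.lean`):
* `LS ξ` : large sieve bound `K + N^ξ`;  `LSw ξ` : its weighted dual form over all squarefree rows;
  `Core ξ` : the bound `M` for one block of columns when `N^ξ ≤ M`.
* `Core 2`, `LS ξ → LSw ξ`, `LSw ξ → Core (2 - 1/ξ)`, `Core ξ → LS ξ`.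
-/

set_option autoImplicit false

noncomputable section

namespace Crest.Agent.T27.LS

open scoped ComplexConjugate
open Classical

variable [LF]

/-- Squarefree primary elements. -/
def SP (n : O) : Prop := Primary n ∧ Squarefree n

/-- Squarefree primary elements of norm at most `X`. -/
def sp (X : ℝ) : Finset O := (ball ⌊X⌋₊).filter SP

theorem mem_sp {n : O} {X : ℝ} (hX : 0 ≤ X) : n ∈ sp X ↔ SP n ∧ nr n ≤ X := by
  rw [sp, Finset.mem_filter, mem_ball, Nat.le_floor_iff hX]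
  exact ⟨fun h => ⟨h.2, h.1.2⟩, fun h => ⟨⟨rep_of_prim h.1.1, h.2⟩, h.1⟩⟩

/-- `∑_{c primary} gw (y N(c)²)`. -/
def th2 (y : ℝ) : ℝ := ∑' c : Prm, gw (y * nr (c : O) ^ 2)

/-- The remainder of `th2` after removing the main term `κ / √y`. -/
def Er (κ y : ℝ) : ℝ := th2 y - κ / Real.sqrt y

/-- All squarefree rows of norm at most `V`. -/
def sqf (V : ℝ) : Finset O := (ball ⌊V⌋₊).filter Squarefree

theorem mem_sqf {a : O} {V : ℝ} (hV : 0 ≤ V) :
    a ∈ sqf V ↔ (Rep a ∧ Squarefree a) ∧ nr a ≤ V := by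
  rw [sqf, Finset.mem_filter, mem_ball, Nat.le_floor_iff hV]
  tauto

theorem squarefree_of_mem_sqf {a : O} {V : ℝ} (h : a ∈ sqf V) : Squarefree a := by
  rw [sqf, Finset.mem_filter] at h
  exact h.2

theorem rep_of_mem_sqf {a : O} {V : ℝ} (h : a ∈ sqf V) : Rep a := by
  rw [sqf, Finset.mem_filter, mem_ball] at h
  exact h.1.1

theorem ne_zero_of_mem_sqf {a : O} {V : ℝ} (h : a ∈ sqf V) : a ≠ 0 :=
  (squarefree_of_mem_sqf h).ne_zero

/-- Non-zero rows whose squarefree kernel has norm at most `V`. -/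
def PP (V : ℝ) : Set O := {k | ∃ a ∈ sqf V, ∃ c : O, Primary c ∧ k = a * c ^ 2}

/-- The norm of the product of a finite set (of primes). -/
def nP (D : Finset O) : ℝ := ∏ p ∈ D, nr p

/-- The cofactor of `∏ G` in the squarefree element `n`. -/
def cof (G : Finset O) (n : O) : O := ∏ p ∈ pf n \ G, p

/-- Contribution of the kernel `a` on the original side, as a functional of a test function. -/
def origA (n₁ n₂ a : O) (f : ℝ → ℂ) : ℂ :=
  quad n₁ a * quad n₂ a * ∑ D ∈ (pf n₁ ∪ pf n₂).powerset, (-1) ^ D.card * f (nr a * nP D ^ 2)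

/-- Contribution of the kernel `a` on the dual side for the cofactors `m₁, m₂` and the set `G` of
common primes. -/
def dualB (G : Finset O) (m₁ m₂ a : O) (f : ℝ → ℂ) : ℂ :=
  ∑ E ∈ G.powerset, (-1) ^ E.card / ((nP E * Real.sqrt (nr m₁) * Real.sqrt (nr m₂) : ℝ) : ℂ) *
    (quad m₁ a * quad m₂ a) * ∑ D ∈ (pf m₁ ∪ pf m₂).powerset, (-1) ^ D.card *
      f (nr a * nP D ^ 2 / (nP (E.filter (· ∣ a)) ^ 2 * nr m₁ * nr m₂))

/-- Contribution of the kernel `a` on the dual side, as a functional of a test function. -/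
def dualA (n₁ n₂ a : O) (f : ℝ → ℂ) : ℂ :=
  dualB (pf n₁ ∩ pf n₂) (cof (pf n₁ ∩ pf n₂) n₁) (cof (pf n₁ ∩ pf n₂) n₂) a f

/-- Euler factors. -/
def eu (ψ : ℝ → ℂ) (S : Finset O) : ℂ := ∏ p ∈ S, (1 - ψ (nr p) ^ 2)

/-- Large sieve inequality with exponent `ξ`. -/
def LSv (ξ : ℝ) : Prop :=
  ∀ ε : ℝ, 0 < ε → ∃ C : ℝ, 0 < C ∧ ∀ (K N : ℝ) (β : O → ℂ), 1 ≤ K → 1 ≤ N →
    ∑ k ∈ sp K, ‖∑ n ∈ sp N, β n * quad n k‖ ^ 2 ≤
      C * (K * N) ^ ε * (K + N ^ ξ) * ∑ n ∈ sp N, ‖β n‖ ^ 2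

/-- Weighted large sieve over all squarefree rows of norm `≤ V`, with constant `D`, for all column
lengths `N' ≤ N`. -/
def Sieve (ξ V N D : ℝ) : Prop :=
  ∀ N' : ℝ, 1 ≤ N' → N' ≤ N → ∀ (I : Finset O) (m : O → O) (γ : O → ℂ), Set.InjOn m I →
    (∀ i ∈ I, SP (m i) ∧ nr (m i) ≤ N') →
      ∑ a ∈ sqf V, ‖∑ i ∈ I, γ i * quad (m i) a‖ ^ 2 / (N' + nr a ^ ξ) ≤ D * ∑ i ∈ I, ‖γ i‖ ^ 2

/-- Weighted dual form of the large sieve with exponent `ξ`. -/
def LSw (ξ : ℝ) : Prop :=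
  ∀ ε : ℝ, 0 < ε → ∃ C : ℝ, 0 < C ∧ ∀ V N : ℝ, 1 ≤ V → 1 ≤ N → Sieve ξ V N (C * (V * N) ^ ε)

/-- A block of columns: a dyadic range and a class. -/
def Blk (N : ℝ) (S : Finset O) : Prop :=
  (∀ n ∈ S, SP n ∧ N / 2 ≤ nr n ∧ nr n ≤ N) ∧ ∀ n₁ ∈ S, ∀ n₂ ∈ S, cls n₁ = cls n₂

/-- The large sieve for one block of columns and long rows. -/
def Core (ξ : ℝ) : Prop :=
  ∀ ε : ℝ, 0 < ε → ∃ C : ℝ, 0 < C ∧ ∀ (M N : ℝ) (S : Finset O) (β : O → ℂ), 1 ≤ N → N ^ ξ ≤ M →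
    Blk N S → ∑ k ∈ sp M, ‖∑ n ∈ S, β n * quad n k‖ ^ 2 ≤
      C * (M * N) ^ ε * M * ∑ n ∈ S, ‖β n‖ ^ 2

/-! ### Elementary facts -/

theorem ne_zero_of_SP {n : O} (h : SP n) : n ≠ 0 := prim_ne h.1


theorem nr_prod (D : Finset O) : nr (∏ p ∈ D, p) = nP D := by
  rw [nP, nr, nm_prod]; push_cast; rfl

theorem one_le_nP {D : Finset O} (h : ∀ p ∈ D, p ≠ 0) : 1 ≤ nP D := by
  rw [← nr_prod]; exact one_le_nr (Finset.prod_ne_zero_iff.2 h)

theorem nP_pos {D : Finset O} (h : ∀ p ∈ D, p ≠ 0) : 0 < nP D :=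
  lt_of_lt_of_le one_pos (one_le_nP h)

theorem ne_zero_of_subset_pf {D : Finset O} {n : O} (h : D ⊆ pf n) : ∀ p ∈ D, p ≠ 0 :=
  fun _ hp => (pf_sub (h hp)).1.ne_zero

theorem nP_mono {D E : Finset O} (h : D ⊆ E) (hE : ∀ p ∈ E, p ≠ 0) : nP D ≤ nP E := by
  rw [nP, nP, ← Finset.prod_sdiff h]
  have h1 : 1 ≤ nP (E \ D) := one_le_nP fun p hp => hE p (Finset.sdiff_subset hp)
  have h2 : 0 < nP D := nP_pos fun p hp => hE p (h hp)
  rw [nP] at h1 h2
  nlinarith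

theorem cof_primes (G : Finset O) (n : O) : ∀ q ∈ pf n \ G, Prime q ∧ Primary q :=
  fun _ hq => pf_sub (Finset.sdiff_subset hq)

theorem pf_cof (G : Finset O) (n : O) : pf (cof G n) = pf n \ G :=
  (squarefree_prod_primes (cof_primes G n)).2.2

theorem primary_cof (G : Finset O) (n : O) : Primary (cof G n) :=
  (squarefree_prod_primes (cof_primes G n)).2.1

theorem prod_mul_cof {G : Finset O} {n : O} (hn : Primary n) (hs : Squarefree n) (h : G ⊆ pf n) :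
    (∏ p ∈ G, p) * cof G n = n := by
  have h1 := eq_rad hn hs
  rw [← Finset.prod_sdiff h] at h1
  rw [cof, mul_comm]; exact h1

theorem SP_cof (n : O) (G : Finset O) : SP (cof G n) :=
  ⟨primary_cof G n, (squarefree_prod_primes (cof_primes G n)).1⟩

theorem SP_prod {n : O} {G : Finset O} (h : G ⊆ pf n) : SP (∏ p ∈ G, p) :=
  ⟨(squarefree_prod_primes fun _ hq => pf_sub (h hq)).2.1,
    (squarefree_prod_primes fun _ hq => pf_sub (h hq)).1⟩

theorem pf_prod {n : O} {G : Finset O} (h : G ⊆ pf n) : pf (∏ p ∈ G, p) = G :=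
  (squarefree_prod_primes fun _ hq => pf_sub (h hq)).2.2

theorem nr_cof {n : O} (hn : SP n) {G : Finset O} (h : G ⊆ pf n) :
    nr (cof G n) = nr n / nP G := by
  have h1 := congrArg nr (prod_mul_cof hn.1 hn.2 h)
  rw [nr_mul, nr_prod] at h1
  rw [eq_div_iff (nP_pos (ne_zero_of_subset_pf h)).ne', ← h1, mul_comm]

/-! ### Kernels -/


theorem ker_exists_sq {k : O} (hk : k ≠ 0) :
    ∃ a c : O, c ^ 2 * a = k ∧ Squarefree a ∧ Primary c := by
  induction h : nm k using Nat.strong_induction_on generalizing k with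
  | _ n ih =>
    by_cases hs : Squarefree k
    · exact ⟨k, 1, by simp, hs, primary_one⟩
    · unfold Squarefree at hs
      push Not at hs
      obtain ⟨y, hy, hy'⟩ := hs
      have hy0 : y ≠ 0 := by
        rintro rfl
        exact hk (by simpa using hy)
      obtain ⟨x, hxp, hxy⟩ := prim_ex hy0
      have hx : ¬ IsUnit x := fun h => hy' (hxy.isUnit h)
      obtain ⟨k', rfl⟩ : x * x ∣ k := (mul_dvd_mul hxy.dvd hxy.dvd).trans hy
      have hk' : k' ≠ 0 := right_ne_zero_of_mul hk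
      have hx0 : x ≠ 0 := prim_ne hxp
      have h1 : nm x ≠ 0 := fun h => hx0 (nm_eq_zero.1 h)
      have h2 : nm x ≠ 1 := fun h => hx (isUnit_iff_nm.2 h)
      have h3 : nm k' ≠ 0 := fun h => hk' (nm_eq_zero.1 h)
      have h4 : nm k' < n := by
        rw [← h, nm_mul, nm_mul]
        have h5 : 2 ≤ nm x := by omega
        have h6 : 1 < nm x * nm x := by nlinarith
        exact lt_mul_of_one_lt_left (Nat.pos_of_ne_zero h3) h6
      obtain ⟨a, c, hac, ha, hc⟩ := ih _ h4 hk' rfl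
      exact ⟨a, x * c, by rw [← hac]; ring, ha, prim_mul hxp hc⟩

theorem lt_nr_of_not_mem_PP {V : ℝ} {k : O} (hr : Rep k) (hk : k ≠ 0) (h : k ∉ PP V) :
    V < nr k := by
  obtain ⟨a, c, hac, ha, hc⟩ := ker_exists_sq hk
  by_contra hV
  push Not at hV
  have h1 : nr a ≤ nr k := by exact_mod_cast nm_le_of_dvd (Dvd.intro_left _ hac) hk
  have h0 : 0 ≤ V := (Nat.cast_nonneg _).trans hV
  have h2 : Rep a := (rep_mul_iff (prim_pow hc 2)).1 (hac ▸ hr)
  exact h ⟨a, (mem_sqf h0).2 ⟨⟨h2, ha⟩, h1.trans hV⟩, c, hc, by rw [← hac, mul_comm]⟩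

theorem not_mem_PP_of_squarefree {V : ℝ} (hV : 0 ≤ V) {k : O} (hk : Squarefree k)
    (h : V < nr k) : k ∉ PP V := by
  rintro ⟨a, ha, c, -, rfl⟩
  have hu : IsUnit c := hk c ⟨a, by ring⟩
  rw [nr_mul, nr_pow, nr_unit hu] at h
  have := ((mem_sqf hV).1 ha).2
  simp only [one_pow, mul_one] at h
  exact absurd this (not_le.2 h)

theorem prod_dvd_mul_sq_iff {E : Finset O} (hE : ∀ p ∈ E, Prime p ∧ Primary p) (a c : O) :
    (∏ p ∈ E, p) ∣ a * c ^ 2 ↔ (∏ p ∈ E.filter (fun p => ¬ p ∣ a), p) ∣ c := by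
  rw [prod_primes_dvd_iff hE, prod_primes_dvd_iff fun p hp => hE p (Finset.mem_filter.1 hp).1]
  constructor
  · intro h p hp
    obtain ⟨hp1, hp2⟩ := Finset.mem_filter.1 hp
    exact (hE p hp1).1.dvd_of_dvd_pow (((hE p hp1).1.dvd_or_dvd (h p hp1)).resolve_left hp2)
  · intro h p hp
    by_cases hpa : p ∣ a
    · exact hpa.mul_right _
    · exact ((h p (Finset.mem_filter.2 ⟨hp, hpa⟩)).pow two_ne_zero).mul_left _

theorem tsum_dvd {T : O → Prop} (hT : ∀ {d c : O}, Primary d → (T (d * c) ↔ T c)) {d : O}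
    (hd : Primary d) (f : O → ℂ) :
    ∑' k : {k // T k}, (if d ∣ (k : O) then f k else 0) = ∑' c : {k // T k}, f (d * c) := by
  have hinj : Function.Injective
      (fun c : {k // T k} => (⟨d * c, (hT hd).2 c.2⟩ : {k // T k})) := fun a b h =>
    Subtype.ext (mul_left_cancel₀ (prim_ne hd) (congrArg Subtype.val h))
  rw [← hinj.tsum_eq (f := fun k : {k // T k} => if d ∣ (k : O) then f k else 0)]
  · exact tsum_congr fun c => if_pos (dvd_mul_right d c)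
  · intro k hk
    by_contra hk'
    refine hk (if_neg fun ⟨c, hc⟩ => hk' ⟨⟨c, (hT hd).1 (hc ▸ k.2)⟩, Subtype.ext hc.symm⟩)

/-- Legendre's sieve. -/
theorem tsum_sieve {T : O → Prop} (hT : ∀ {d c : O}, Primary d → (T (d * c) ↔ T c))
    {S : Finset O} (hS : ∀ p ∈ S, Prime p ∧ Primary p) {f : O → ℂ}
    (hf : Summable fun c : {k // T k} => f c) :
    ∑' c : {k // T k}, (if ∀ p ∈ S, ¬ p ∣ (c : O) then f c else 0) =
      ∑ D ∈ S.powerset, (-1) ^ D.card * ∑' c : {k // T k}, f ((∏ p ∈ D, p) * c) := by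
  have h1 : ∀ c : O, (if ∀ p ∈ S, ¬ p ∣ c then f c else 0) =
      ∑ D ∈ S.powerset, (-1) ^ D.card * (if (∏ p ∈ D, p) ∣ c then f c else 0) := by
    intro c
    have h2 : (if ∀ p ∈ S, ¬ p ∣ c then f c else 0) =
        (∏ p ∈ S, (1 - if p ∣ c then (1 : ℂ) else 0)) * f c := by
      split_ifs with h
      · rw [Finset.prod_eq_one fun p hp => by rw [if_neg (h p hp), sub_zero], one_mul]
      · push Not at h
        obtain ⟨p, hp, hpc⟩ := h
        rw [Finset.prod_eq_zero hp (by rw [if_pos hpc, sub_self]), zero_mul]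
    rw [h2, Finset.prod_sub, Finset.sum_mul]
    refine Finset.sum_congr rfl fun D hD => ?_
    rw [Finset.prod_const_one, mul_one, Finset.prod_boole, mul_assoc, boole_mul,
      prod_primes_dvd_iff fun p hp => hS p (Finset.mem_powerset.1 hD hp)]
    congr
  simp only [h1]
  rw [Summable.tsum_finsetSum]
  · refine Finset.sum_congr rfl fun D hD => ?_
    rw [tsum_mul_left, tsum_dvd hT (prim_prod fun p hp => (hS p (Finset.mem_powerset.1 hD hp)).2)]
  · intro D _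
    exact (hf.indicator {c | (∏ p ∈ D, p) ∣ (c : O)}).mul_left _

theorem ker_assoc {a b c d : O} (ha : Squarefree a) (hb : Squarefree b) (hc : c ≠ 0)
    (h : a * c ^ 2 = b * d ^ 2) : Associated c d := by
  obtain ⟨c', d', g, hcd, rfl, rfl⟩ := UniqueFactorizationMonoid.exists_reduced_factors c hc d
  have hg : g ≠ 0 := left_ne_zero_of_mul hc
  have h1 : a * c' ^ 2 = b * d' ^ 2 := by
    apply mul_left_cancel₀ (pow_ne_zero 2 hg)
    linear_combination h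
  have h2 : IsRelPrime (c' ^ 2) (d' ^ 2) := hcd.pow
  have h3 : IsUnit c' := hb c' (by
    rw [← sq]; exact h2.dvd_of_dvd_mul_right ⟨a, by rw [← h1, mul_comm]⟩)
  have h4 : IsUnit d' := ha d' (by
    rw [← sq]; exact h2.symm.dvd_of_dvd_mul_right ⟨b, by rw [h1, mul_comm]⟩)
  exact (associated_mul_unit_left g c' h3).trans (associated_mul_unit_left g d' h4).symm

/-- Every non-zero row has exactly one representation `a c²`, `a` a squarefree row, `c` primary. -/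
theorem tsum_kernel (V : ℝ) {f : O → ℂ} (hf : Summable fun k : Row => f k) :
    ∑ a ∈ sqf V, ∑' c : Prm, f (a * (c : O) ^ 2) =
      ∑' k : Row, (if (k : O) ∈ PP V then f k else 0) := by
  let φ : sqf V × Prm → Row := fun z => ⟨z.1 * (z.2 : O) ^ 2, by
    rw [mul_comm]; exact (rep_mul_iff (prim_pow z.2.2 2)).2 (rep_of_mem_sqf z.1.2)⟩
  have hinj : Function.Injective φ := by
    rintro ⟨a, c⟩ ⟨b, d⟩ h
    have h1 : (a : O) * (c : O) ^ 2 = b * (d : O) ^ 2 := congrArg Subtype.val h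
    have h2 : c = d := Subtype.ext (prim_eq c.2 d.2
      (ker_assoc (squarefree_of_mem_sqf a.2) (squarefree_of_mem_sqf b.2) (prim_ne c.2) h1))
    subst h2
    rw [Subtype.ext (mul_right_cancel₀ (pow_ne_zero 2 (prim_ne c.2)) h1)]
  have hs : Summable fun z => f (φ z) := hf.comp_injective hinj
  rw [← hinj.tsum_eq (f := fun k : Row => if (k : O) ∈ PP V then f k else 0)]
  · have e : ∀ z, (if ((φ z : Row) : O) ∈ PP V then f (φ z) else 0) = f (φ z) := fun z =>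
      if_pos ⟨z.1, z.1.2, z.2, z.2.2, rfl⟩
    rw [tsum_congr e, hs.tsum_prod, tsum_fintype, ← Finset.sum_coe_sort (sqf V)]
  · intro k hk
    by_contra hk'
    refine hk (if_neg fun ⟨a, ha, c, hc, h⟩ => hk' ⟨(⟨a, ha⟩, ⟨c, hc⟩), Subtype.ext h.symm⟩)

/-! ### The sum `th2` -/

theorem summable_th2 {y : ℝ} (hy : 0 < y) : Summable (fun c : Prm => gw (y * nr (c : O) ^ 2)) := by
  have h1 : Summable fun c : Prm => gw (y * nr (c : O)) :=
    (summable_gw hy).comp_injective (i := fun c : Prm => (⟨c, rep_of_prim c.2⟩ : Row))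
      fun a b h => Subtype.ext (congrArg Subtype.val h :)
  refine Summable.of_nonneg_of_le (fun c => (gw_pos _).le) (fun c => ?_) h1
  have := one_le_nr (prim_ne c.2)
  exact gw_anti (by positivity) (mul_le_mul_of_nonneg_left (by nlinarith) hy.le)

theorem measurable_Er (κ : ℝ) : Measurable (fun x : ℝ => Er κ (Real.exp x)) := by
  have h : Antitone fun x : ℝ => th2 (Real.exp x) := by
    intro x y hxy
    refine (summable_th2 (Real.exp_pos y)).tsum_le_tsum (fun c => ?_)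
      (summable_th2 (Real.exp_pos x))
    have := nr_pos (prim_ne c.2)
    exact gw_anti (by positivity)
      (mul_le_mul_of_nonneg_right (Real.exp_le_exp.2 hxy) (sq_nonneg _))
  exact h.measurable.sub (by fun_prop)

theorem exists_Er : ∃ κ : ℝ, ∀ η : ℝ, 0 < η → η < 1 / 2 → ∃ C : ℝ, ∀ y : ℝ, 0 < y →
    |Er κ y| ≤ C * y ^ (-η) := LF.th2_asymp

end Crest.Agent.T27.LS
end
end

-- ▼ part T27/LS2Pois_81
section

/-!
# Row 27, quadratic large sieve: Poisson summation for a pair of columns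
-/

set_option autoImplicit false

noncomputable section

namespace Crest.Agent.T27.LS

open scoped ComplexConjugate
open Classical

variable [LF]

/-- The Poisson formula for the quadratic character modulo `q`. -/
def PoisQ (q : O) : Prop := ∀ X : ℝ, 0 < X →
  ∑' k : Row, quad q k * (gw (nr (k : O) / X) : ℂ) =
    ((X / Real.sqrt (nr q) : ℝ) : ℂ) * ∑' k : Row, quad q k * (gw (X * nr (k : O) / nr q) : ℂ)

theorem Pois_norm_le (q k : O) (x : ℝ) : ‖quad q k * (gw x : ℂ)‖ ≤ gw x := by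
  rw [norm_mul, Complex.norm_real, Real.norm_of_nonneg (gw_pos x).le]
  exact mul_le_of_le_one_left (gw_pos x).le (norm_quad_le q k)

theorem Pois_summable_gw {X W : ℝ} (hX : 0 < X) (hW : 0 < W) :
    Summable (fun k : Row => gw (X * nr (k : O) / W)) := by
  refine (summable_gw' (div_pos hW hX)).congr fun k => ?_
  congr 1
  field_simp

theorem Pois_step {q e : O} (hq : Primary q) (hP : PoisQ q) (he : Primary e) {X : ℝ}
    (hX : 0 < X) :
    ∑' c : Row, quad q (e * c) * (gw (nr (e * c) / X) : ℂ) =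
      ((X / (nr e * Real.sqrt (nr q)) : ℝ) : ℂ) * ∑' k : Row,
        if e ∣ (k : O) then quad q k * (gw (X * nr (k : O) / (nr e ^ 2 * nr q)) : ℂ) else 0 := by
  have hNe := nr_pos (prim_ne he)
  have hNq := nr_pos (prim_ne hq)
  have h1 := hP _ (div_pos hX hNe)
  have h2 : ∀ c : O, quad q (e * c) * (gw (nr (e * c) / X) : ℂ) =
      quad q e * (quad q c * (gw (nr c / (X / nr e)) : ℂ)) := fun c => by
    rw [quad_mul_right hq, nr_mul, mul_assoc]
    congr 4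
    field_simp
  have h3 : ∀ c : O, quad q (e * c) * (gw (X * nr (e * c) / (nr e ^ 2 * nr q)) : ℂ) =
      quad q e * (quad q c * (gw (X / nr e * nr c / nr q) : ℂ)) := fun c => by
    have h5 : X * nr (e * c) / (nr e ^ 2 * nr q) = X / nr e * nr c / nr q := by
      rw [nr_mul]
      field_simp
    rw [quad_mul_right hq, h5, mul_assoc]
  rw [tsum_dvd rep_mul_iff he
    (fun k => quad q k * (gw (X * nr k / (nr e ^ 2 * nr q)) : ℂ))]
  simp only [h2, h3]
  rw [tsum_mul_left, tsum_mul_left, h1, div_div]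
  ring

theorem Pois_quad_sq {q : O} (hq : Primary q) (c : O) :
    quad q c ^ 2 = if ∀ p ∈ pf q, ¬ p ∣ c then 1 else 0 := by
  split_ifs with h
  · exact quad_sq hq ((isCoprime_iff_pf hq c).2 h)
  · rw [quad_zero hq fun h' => h ((isCoprime_iff_pf hq c).1 h')]
    norm_num

theorem Pois_kernel {q a : O} (hq : Primary q) {E : Finset O}
    (hE : ∀ p ∈ E, Prime p ∧ Primary p)
    (hd : Disjoint E (pf q)) (ha : a ≠ 0) {X : ℝ} (hX : 0 < X) :
    ∑' c : Prm, (if (∏ p ∈ E, p) ∣ a * (c : O) ^ 2 then quad q (a * (c : O) ^ 2) *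
      (gw (X * nr (a * (c : O) ^ 2) / (nr (∏ p ∈ E, p) ^ 2 * nr q)) : ℂ) else 0) =
      quad q a * ∑ D ∈ (pf q).powerset, (-1) ^ D.card *
        (th2 (nr a * nP D ^ 2 / (nP (E.filter (· ∣ a)) ^ 2 * nr q) * X) : ℂ) := by
  set E₂ := E.filter (fun p => ¬ p ∣ a) with hE₂
  have hE₂' : ∀ p ∈ E₂, Prime p ∧ Primary p := fun p hp => hE p (Finset.filter_subset _ _ hp)
  obtain ⟨-, hp₂, hpf₂⟩ := squarefree_prod_primes hE₂'
  have hN₁ : 0 < nP (E.filter (· ∣ a)) :=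
    nP_pos fun p hp => (hE p (Finset.filter_subset _ _ hp)).1.ne_zero
  have hN₂ : 0 < nP E₂ := nP_pos fun p hp => (hE₂' p hp).1.ne_zero
  have hNE : nr (∏ p ∈ E, p) = nP (E.filter (· ∣ a)) * nP E₂ := by
    rw [nr_prod, nP, nP, nP, Finset.prod_filter_mul_prod_filter_not]
  have hNq := nr_pos (prim_ne hq)
  have hNa := nr_pos ha
  set Y : ℝ := nr a / (nP (E.filter (· ∣ a)) ^ 2 * nr q) * X with hY
  have hY0 : 0 < Y := by positivity
  let χ : O → ℂ := fun c => (gw (Y * nr c ^ 2) : ℂ)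
  have hχ : Summable fun c : Prm => χ c := Complex.summable_ofReal.2 (summable_th2 hY0)
  have h1 : ∀ c : O, (if (∏ p ∈ E, p) ∣ a * c ^ 2 then quad q (a * c ^ 2) *
      (gw (X * nr (a * c ^ 2) / (nr (∏ p ∈ E, p) ^ 2 * nr q)) : ℂ) else 0) =
      if (∏ p ∈ E₂, p) ∣ c then (quad q (a * c ^ 2) *
        (gw (X * nr (a * c ^ 2) / (nr (∏ p ∈ E, p) ^ 2 * nr q)) : ℂ)) else 0 := fun c => by
    rw [if_congr (prod_dvd_mul_sq_iff hE a c) rfl rfl]
  have h2 : ∀ c : O,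
      quad q (a * ((∏ p ∈ E₂, p) * c) ^ 2) * (gw (X * nr (a * ((∏ p ∈ E₂, p) * c) ^ 2) /
        (nr (∏ p ∈ E, p) ^ 2 * nr q)) : ℂ) =
      quad q a * if ∀ p ∈ pf q, ¬ p ∣ c then χ c else 0 := fun c => by
    have h3 : quad q (∏ p ∈ E₂, p) ^ 2 = 1 := by
      refine quad_sq hq (isCoprime_of_disjoint_pf hq (prim_ne hp₂) ?_)
      rw [hpf₂]
      exact (hd.mono_left (Finset.filter_subset _ _)).symm
    have h4 : X * nr (a * ((∏ p ∈ E₂, p) * c) ^ 2) / (nr (∏ p ∈ E, p) ^ 2 * nr q) =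
        Y * nr c ^ 2 := by
      rw [nr_mul, nr_pow, nr_mul, nr_prod E₂, hNE, hY]
      field_simp
    rw [h4, quad_mul_right hq, sq, quad_mul_right hq, ← sq,
      quad_mul_right hq, mul_pow, h3, one_mul, Pois_quad_sq hq]
    simp only [χ]
    split_ifs <;> simp
  simp only [h1]
  rw [tsum_dvd prim_mul_iff hp₂ (fun c => quad q (a * c ^ 2) *
        (gw (X * nr (a * c ^ 2) / (nr (∏ p ∈ E, p) ^ 2 * nr q)) : ℂ))]
  simp only [h2]
  rw [tsum_mul_left, tsum_sieve prim_mul_iff (fun p hp => pf_sub hp) hχ]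
  congr 1
  refine Finset.sum_congr rfl fun D hD => ?_
  rw [th2, Complex.ofReal_tsum]
  congr 1
  refine tsum_congr fun c => ?_
  simp only [χ]
  congr 2
  rw [nr_mul, nr_prod, hY]
  ring

/-- Dual side: Poisson summation modulo `q = m₁ m₂`. -/
theorem dual_est (V : ℝ) {X : ℝ} (hX : 0 < X) {n₁ n₂ : O} (h₁ : SP n₁) (h₂ : SP n₂)
    (h4 : cls n₁ = cls n₂) :
    ‖(∑' k : Row, (gw (nr (k : O) / X) : ℂ) * (quad n₁ k * quad n₂ k)) -
        (X : ℂ) * ∑ a ∈ sqf V, dualA n₁ n₂ a (fun y => (th2 (y * X) : ℂ))‖ ≤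
      2 ^ (pf n₁).card * X * ((if n₁ = n₂ then gw 0 else 0) +
        ∑' h : Row, if V < nr (h : O) then gw (X * nr (h : O) / (nr n₁ * nr n₂)) else 0) := by
  simp only [dualA]
  set G := pf n₁ ∩ pf n₂ with hG
  set m₁ := cof G n₁ with hm₁
  set m₂ := cof G n₂ with hm₂
  have hG₁ : G ⊆ pf n₁ := Finset.inter_subset_left
  have hG₂ : G ⊆ pf n₂ := Finset.inter_subset_right
  have hGp : ∀ p ∈ G, Prime p ∧ Primary p := fun p hp => pf_sub (hG₁ hp)
  have e₁ : (∏ p ∈ G, p) * m₁ = n₁ := prod_mul_cof h₁.1 h₁.2 hG₁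
  have e₂ : (∏ p ∈ G, p) * m₂ = n₂ := prod_mul_cof h₂.1 h₂.2 hG₂
  have s₁ : SP m₁ := SP_cof n₁ G
  have s₂ : SP m₂ := SP_cof n₂ G
  have sg : SP (∏ p ∈ G, p) := SP_prod hG₁
  have hz₁ := ne_zero_of_SP s₁
  have hz₂ := ne_zero_of_SP s₂
  have hzg := ne_zero_of_SP sg
  have hN₁ := one_le_nr hz₁
  have hN₂ := one_le_nr hz₂
  have hcop : IsCoprime m₁ m₂ := by
    refine isCoprime_of_disjoint_pf s₁.1 hz₂ ?_
    rw [hm₁, hm₂, pf_cof, pf_cof, Finset.disjoint_left]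
    intro p hp hp'
    exact (Finset.mem_sdiff.1 hp).2
      (Finset.mem_inter.2 ⟨(Finset.mem_sdiff.1 hp).1, (Finset.mem_sdiff.1 hp').1⟩)
  have hq : Primary (m₁ * m₂) := prim_mul s₁.1 s₂.1
  have hqs : Squarefree (m₁ * m₂) := (squarefree_mul_iff).2 ⟨hcop.isRelPrime, s₁.2, s₂.2⟩
  have hpq : pf (m₁ * m₂) = pf m₁ ∪ pf m₂ := pf_mul hz₁ hz₂
  have hdis : Disjoint G (pf (m₁ * m₂)) := by
    rw [hpq, hm₁, hm₂, pf_cof, pf_cof, Finset.disjoint_union_right]
    exact ⟨Finset.disjoint_sdiff, Finset.disjoint_sdiff⟩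
  have hg4 : PoisQ (m₁ * m₂) :=
    LF.pois m₁ m₂ s₁.1 s₂.1 hqs (LF.cls_cancel _ _ _ sg.1 s₁.1 s₂.1 (by rw [e₁, e₂, h4]))
  have hNq : nr (m₁ * m₂) = nr m₁ * nr m₂ := nr_mul _ _
  have hNq1 : 1 ≤ nr (m₁ * m₂) := one_le_nr (prim_ne hq)
  -- the sieve and Poisson summation
  let φ : Finset O → O → ℂ := fun E k => if (∏ p ∈ E, p) ∣ k then quad (m₁ * m₂) k *
    (gw (X * nr k / (nr (∏ p ∈ E, p) ^ 2 * nr (m₁ * m₂))) : ℂ) else 0
  let w : Finset O → ℝ := fun E => X / (nr (∏ p ∈ E, p) * Real.sqrt (nr (m₁ * m₂)))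
  have hE0 : ∀ E ∈ G.powerset, (∏ p ∈ E, p) ≠ 0 := fun E hE =>
    Finset.prod_ne_zero_iff.2 (ne_zero_of_subset_pf ((Finset.mem_powerset.1 hE).trans hG₁))
  have hφ : ∀ E k, ‖φ E k‖ ≤ gw (X * nr k / (nr (∏ p ∈ E, p) ^ 2 * nr (m₁ * m₂))) :=
    fun E k => by
      simp only [φ]
      split_ifs
      · exact Pois_norm_le _ _ _
      · rw [norm_zero]
        exact (gw_pos _).le
  have hφs : ∀ E ∈ G.powerset, Summable (fun k : Row => φ E k) := fun E hE => by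
    have := nr_pos (hE0 E hE)
    exact Summable.of_norm_bounded (Pois_summable_gw hX (by positivity)) fun k => hφ E k
  have hA : ∑' k : Row, (gw (nr (k : O) / X) : ℂ) * (quad n₁ k * quad n₂ k) =
      ∑ E ∈ G.powerset, (-1) ^ E.card * ((w E : ℂ) * ∑' k : Row, φ E k) := by
    have h1 : ∀ k : O, (gw (nr k / X) : ℂ) * (quad n₁ k * quad n₂ k) =
        if ∀ p ∈ G, ¬ p ∣ k then quad (m₁ * m₂) k * (gw (nr k / X) : ℂ) else 0 := fun k => by
      have h2 := Pois_quad_sq sg.1 k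
      rw [pf_prod hG₁] at h2
      have h3 : quad n₁ k * quad n₂ k = quad (∏ p ∈ G, p) k ^ 2 * quad (m₁ * m₂) k := by
        conv_lhs => rw [← e₁, ← e₂]
        rw [quad_mul_left sg.1 s₁.1, quad_mul_left sg.1 s₂.1, quad_mul_left s₁.1 s₂.1]
        ring
      rw [h3, h2]
      split_ifs <;> simp [mul_comm]
    simp only [h1]
    rw [tsum_sieve rep_mul_iff hGp (f := fun k => quad (m₁ * m₂) k * (gw (nr k / X) : ℂ))
      (Summable.of_norm_bounded (summable_gw' hX) fun k => Pois_norm_le _ _ _)]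
    exact Finset.sum_congr rfl fun E hE => by
      rw [Pois_step hq hg4 (prim_prod fun p hp => (hGp p (Finset.mem_powerset.1 hE hp)).2) hX]
  have hB : (X : ℂ) * ∑ a ∈ sqf V, dualB G m₁ m₂ a (fun y => (th2 (y * X) : ℂ)) =
      ∑ E ∈ G.powerset, (-1) ^ E.card * ((w E : ℂ) *
        (∑' k : Row, if (k : O) ∈ PP V then φ E k else 0)) := by
    simp only [dualB]
    rw [Finset.sum_comm, Finset.mul_sum]
    refine Finset.sum_congr rfl fun E hE => ?_
    have hE' := Finset.mem_powerset.1 hE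
    rw [← tsum_kernel V (hφs E hE), Finset.mul_sum, Finset.mul_sum, Finset.mul_sum]
    refine Finset.sum_congr rfl fun a ha => ?_
    simp only [φ]
    rw [Pois_kernel hq (fun p hp => hGp p (hE' hp)) (hdis.mono_left hE') (ne_zero_of_mem_sqf ha) hX,
      hpq, quad_mul_left s₁.1 s₂.1]
    simp only [w, nr_prod, hNq, Real.sqrt_mul (zero_le_one.trans hN₁), mul_assoc]
    push_cast
    ring
  set R : ℝ := (if n₁ = n₂ then gw 0 else 0) +
    ∑' h : Row, if V < nr (h : O) then gw (X * nr (h : O) / (nr n₁ * nr n₂)) else 0 with hR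
  have hNn : 0 < nr n₁ * nr n₂ := mul_pos (nr_pos (prim_ne h₁.1)) (nr_pos (prim_ne h₂.1))
  have hrest : ∀ E ∈ G.powerset,
      ‖∑' k : Row, if (k : O) ∈ PP V then 0 else φ E k‖ ≤ R := fun E hE => by
    have h1 : Summable fun h : Row =>
        if V < nr (h : O) then gw (X * nr (h : O) / (nr n₁ * nr n₂)) else 0 := by
      refine Summable.of_nonneg_of_le (fun h => ?_) (fun h => ?_) (Pois_summable_gw hX hNn)
      · split_ifs
        · exact (gw_pos _).le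
        · exact le_rfl
      · split_ifs
        · exact le_rfl
        · exact (gw_pos _).le
    refine tsum_of_norm_bounded ((hasSum_ite_eq (⟨0, rep_zero⟩ : Row)
      (if n₁ = n₂ then gw 0 else 0)).add h1.hasSum) fun k => ?_
    have h2 : (0 : ℝ) ≤ if V < nr (k : O) then gw (X * nr (k : O) / (nr n₁ * nr n₂)) else 0 := by
      split_ifs
      · exact (gw_pos _).le
      · exact le_rfl
    have h3 : (0 : ℝ) ≤ if k = ⟨0, rep_zero⟩ then (if n₁ = n₂ then gw 0 else 0) else 0 := by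
      split_ifs
      · exact (gw_pos _).le
      · exact le_rfl
      · exact le_rfl
    by_cases hk : (k : O) ∈ PP V
    · rw [if_pos hk, norm_zero]
      exact add_nonneg h3 h2
    rw [if_neg hk]
    by_cases hk0 : (k : O) = 0
    · refine le_add_of_le_of_nonneg ?_ h2
      rw [if_pos (Subtype.ext hk0)]
      split_ifs with hn
      · refine (hφ E k).trans (le_of_eq ?_)
        rw [hk0, nr, nm_zero, Nat.cast_zero, mul_zero, zero_div]
      · have h5 : quad (m₁ * m₂) k = 0 := by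
          refine quad_zero hq fun h => hn ?_
          rw [hk0, isCoprime_zero_right] at h
          rw [← e₁, ← e₂, prim_eq_one s₁.1 (isUnit_of_mul_isUnit_left h),
            prim_eq_one s₂.1 (isUnit_of_mul_isUnit_right h)]
        simp [φ, h5]
    · refine le_add_of_nonneg_of_le h3 ?_
      rw [if_pos (lt_nr_of_not_mem_PP k.2 hk0 hk)]
      have h7 := nr_pos hk0
      refine (hφ E k).trans (gw_anti (by positivity) ?_)
      have h5 := nr_pos (hE0 E hE)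
      have h6 : nr (∏ p ∈ E, p) ≤ nr (∏ p ∈ G, p) := by
        rw [nr_prod, nr_prod]
        exact nP_mono (Finset.mem_powerset.1 hE) (ne_zero_of_subset_pf hG₁)
      refine div_le_div_of_nonneg_left (by positivity) (by positivity) ?_
      conv_rhs => rw [← e₁, ← e₂]
      rw [nr_mul (∏ p ∈ G, p), nr_mul (∏ p ∈ G, p), hNq]
      calc nr (∏ p ∈ E, p) ^ 2 * (nr m₁ * nr m₂) ≤ nr (∏ p ∈ G, p) ^ 2 * (nr m₁ * nr m₂) := by
            gcongr
        _ = _ := by ring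
  have hsplit : ∀ E ∈ G.powerset, ∑' k : Row, φ E k =
      (∑' k : Row, if (k : O) ∈ PP V then φ E k else 0) +
      ∑' k : Row, if (k : O) ∈ PP V then 0 else φ E k := fun E hE => by
    rw [← Summable.tsum_add]
    · refine tsum_congr fun k => ?_
      split_ifs <;> simp
    · refine Summable.of_norm_bounded (hφs E hE).norm fun k => ?_
      split_ifs <;> simp
    · refine Summable.of_norm_bounded (hφs E hE).norm fun k => ?_
      split_ifs <;> simp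
  have hR0 : 0 ≤ R := (norm_nonneg _).trans (hrest ∅ (Finset.empty_mem_powerset G))
  rw [hA, hB, ← Finset.sum_sub_distrib]
  have hterm : ∀ E ∈ G.powerset, ‖((-1) ^ E.card * ((w E : ℂ) * ∑' k : Row, φ E k)) -
      (-1) ^ E.card * ((w E : ℂ) * (∑' k : Row, if (k : O) ∈ PP V then φ E k else 0))‖ ≤
      X * R := fun E hE => by
    have h1 : ((-1) ^ E.card * ((w E : ℂ) * ∑' k : Row, φ E k)) -
        (-1) ^ E.card * ((w E : ℂ) * (∑' k : Row, if (k : O) ∈ PP V then φ E k else 0)) =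
        (-1) ^ E.card * (w E : ℂ) * ∑' k : Row, if (k : O) ∈ PP V then 0 else φ E k := by
      rw [hsplit E hE]
      ring
    have h2 := one_le_nr (hE0 E hE)
    have h3 : 1 ≤ Real.sqrt (nr (m₁ * m₂)) := Real.one_le_sqrt.2 hNq1
    have h5 : 0 ≤ w E := by positivity
    have h6 : w E ≤ X := div_le_self hX.le (one_le_mul_of_one_le_of_one_le h2 h3)
    rw [h1, norm_mul, norm_mul, norm_pow, norm_neg, norm_one, one_pow, one_mul,
      Complex.norm_real, Real.norm_of_nonneg h5]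
    gcongr
    exact hrest E hE
  refine (norm_sum_le _ _).trans ((Finset.sum_le_card_nsmul _ _ _ hterm).trans ?_)
  rw [Finset.card_powerset, nsmul_eq_mul, Nat.cast_pow, Nat.cast_ofNat]
  calc (2 : ℝ) ^ G.card * (X * R) ≤ 2 ^ (pf n₁).card * (X * R) := by
        gcongr
        norm_num
    _ = _ := by ring

end Crest.Agent.T27.LS
end
end

-- ▼ part T27/LS2Eval_81
section

/-!
# Row 27, quadratic large sieve: evaluation of `origA`, `dualA` at multiplicative test functions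
-/

set_option autoImplicit false

noncomputable section

namespace Crest.Agent.T27.LS

open scoped ComplexConjugate
open Classical

/-- Multiplicative test functions. -/
def MulF (ψ : ℝ → ℂ) : Prop := ψ 1 = 1 ∧ ∀ x y, 0 < x → 0 < y → ψ (x * y) = ψ x * ψ y

theorem mulF_cpow (s : ℂ) : MulF (fun y : ℝ => (y : ℂ) ^ (-s)) := by
  refine ⟨by simp, fun x y hx hy => ?_⟩
  simp only
  rw [Complex.ofReal_mul, Complex.mul_cpow_ofReal_nonneg hx.le hy.le]

variable [LF]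

theorem Eval_prod {ψ : ℝ → ℂ} (hψ : MulF ψ) (t : O → ℝ) (D : Finset O) (h : ∀ p ∈ D, 0 < t p) :
    ψ (∏ p ∈ D, t p) = ∏ p ∈ D, ψ (t p) := by
  induction D using Finset.induction_on with
  | empty => simpa using hψ.1
  | insert p D hp ih =>
    have h' : ∀ q ∈ D, 0 < t q := fun q hq => h q (Finset.mem_insert_of_mem hq)
    rw [Finset.prod_insert hp, Finset.prod_insert hp,
      hψ.2 _ _ (h p (Finset.mem_insert_self _ _)) (Finset.prod_pos h'), ih h']

theorem Eval_alt (S : Finset O) (t : O → ℂ) :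
    ∑ D ∈ S.powerset, (-1) ^ D.card * ∏ p ∈ D, t p = ∏ p ∈ S, (1 - t p) := by
  simp only [sub_eq_add_neg, Finset.prod_one_add, Finset.prod_neg]

theorem Eval_inner {ψ : ℝ → ℂ} (hψ : MulF ψ) {c : ℝ} (hc : 0 < c) {S : Finset O}
    (hS : ∀ p ∈ S, p ≠ 0) :
    ∑ D ∈ S.powerset, (-1) ^ D.card * ψ (c * nP D ^ 2) = ψ c * eu ψ S := by
  rw [eu, ← Eval_alt, Finset.mul_sum]
  refine Finset.sum_congr rfl fun D hD => ?_
  have h0 : ∀ p ∈ D, p ≠ 0 := fun p hp => hS p (Finset.mem_powerset.1 hD hp)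
  have h1 := nP_pos h0
  rw [hψ.2 _ _ hc (by positivity), sq, hψ.2 _ _ h1 h1, nP,
    Eval_prod hψ _ _ fun p hp => nr_pos (h0 p hp), Finset.prod_pow]
  ring

theorem Eval_eu_union (ψ : ℝ → ℂ) (A B : Finset O) :
    eu ψ (A \ (A ∩ B) ∪ B \ (A ∩ B)) = eu ψ (A \ (A ∩ B)) * eu ψ (B \ (A ∩ B)) := by
  refine Finset.prod_union (Finset.disjoint_left.2 fun p h1 h2 => ?_)
  simp only [Finset.mem_sdiff, Finset.mem_inter] at h1 h2
  exact h1.2 ⟨h1.1, h2.1⟩

theorem Eval_eu_union' (ψ : ℝ → ℂ) (A B : Finset O) :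
    eu ψ (A ∪ B) = eu ψ (A ∩ B) * (eu ψ (A \ (A ∩ B)) * eu ψ (B \ (A ∩ B))) := by
  rw [← Eval_eu_union, eu, eu, eu, ← Finset.prod_union]
  · congr 1
    ext p
    simp only [Finset.mem_sdiff, Finset.mem_inter, Finset.mem_union]
    tauto
  · refine Finset.disjoint_left.2 fun p h1 h2 => ?_
    simp only [Finset.mem_sdiff, Finset.mem_union] at h2
    exact h2.elim (fun h => h.2 h1) fun h => h.2 h1

theorem Eval_ne_zero (n₁ n₂ : O) : ∀ p ∈ pf n₁ ∪ pf n₂, p ≠ 0 := fun p hp =>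
  (Finset.mem_union.1 hp).elim (ne_zero_of_subset_pf subset_rfl p)
    (ne_zero_of_subset_pf subset_rfl p)

theorem Eval_quad {n : O} (h : SP n) {G : Finset O} (hG : G ⊆ pf n) (a : O) :
    quad n a = quad (∏ p ∈ G, p) a * quad (cof G n) a := by
  rw [← quad_mul_left (SP_prod hG).1 (primary_cof G n), prod_mul_cof h.1 h.2 hG]

omit [LF] in
theorem Eval_four {ψ : ℝ → ℂ} (hψ : MulF ψ) {x P y z : ℝ} (hx : 0 < x) (hP : 0 < P) (hy : 0 < y)
    (hz : 0 < z) : ψ (x * (P * P) * y * z) = ψ x * (ψ P * ψ P) * ψ y * ψ z := by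
  rw [hψ.2 _ z (by positivity) hz, hψ.2 _ y (by positivity) hy, hψ.2 x _ hx (by positivity),
    hψ.2 _ _ hP hP]

theorem Eval_dualB {ψ : ℝ → ℂ} (hψ : MulF ψ) {G : Finset O} (hG : ∀ p ∈ G, p ≠ 0) {m₁ m₂ a : O}
    (h₁ : m₁ ≠ 0) (h₂ : m₂ ≠ 0) (ha : a ≠ 0) :
    dualB G m₁ m₂ a ψ =
      (ψ (nr a) * ∏ p ∈ G, (1 - (if p ∣ a then ψ (nr p)⁻¹ ^ 2 else 1) / (nr p : ℂ))) *
        (ψ (nr m₁)⁻¹ / (Real.sqrt (nr m₁) : ℂ) * quad m₁ a) *
        (ψ (nr m₂)⁻¹ / (Real.sqrt (nr m₂) : ℂ) * quad m₂ a) * eu ψ (pf m₁ ∪ pf m₂) := by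
  rw [← Eval_alt, dualB]
  simp only [Finset.mul_sum _ _ (ψ (nr a)), Finset.sum_mul]
  refine Finset.sum_congr rfl fun E hE => ?_
  have h0 : ∀ p ∈ E.filter (· ∣ a), 0 < (nr p)⁻¹ := fun p hp =>
    inv_pos.2 (nr_pos (hG p (Finset.mem_powerset.1 hE (Finset.mem_filter.1 hp).1)))
  have p0 := Finset.prod_pos h0
  have p1 := inv_pos.2 (nr_pos h₁)
  have p2 := inv_pos.2 (nr_pos h₂)
  have p3 := nr_pos ha
  have e : ∀ D : Finset O, nr a * nP D ^ 2 / (nP (E.filter (· ∣ a)) ^ 2 * nr m₁ * nr m₂) =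
      nr a * ((∏ p ∈ E.filter (· ∣ a), (nr p)⁻¹) * ∏ p ∈ E.filter (· ∣ a), (nr p)⁻¹) *
        (nr m₁)⁻¹ * (nr m₂)⁻¹ * nP D ^ 2 := fun D => by
    rw [Finset.prod_inv_distrib, ← nP.eq_1 (E.filter (· ∣ a))]
    ring
  simp only [e]
  rw [Eval_inner hψ (mul_pos (mul_pos (mul_pos p3 (mul_pos p0 p0)) p1) p2) (Eval_ne_zero m₁ m₂),
    Eval_four hψ p3 p0 p1 p2, Eval_prod hψ _ _ h0, Finset.prod_div_distrib, ← Finset.prod_filter, Finset.prod_pow, nP]
  push_cast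
  ring

theorem Eval_origA_smul (n₁ n₂ a : O) (c : ℂ) (f : ℝ → ℂ) :
    origA n₁ n₂ a (fun y => c * f y) = c * origA n₁ n₂ a f := by
  simp only [origA, Finset.mul_sum]
  exact Finset.sum_congr rfl fun _ _ => by ring

theorem Eval_dualA_smul (n₁ n₂ a : O) (c : ℂ) (f : ℝ → ℂ) :
    dualA n₁ n₂ a (fun y => c * f y) = c * dualA n₁ n₂ a f := by
  simp only [dualA, dualB, Finset.mul_sum]
  exact Finset.sum_congr rfl fun _ _ => Finset.sum_congr rfl fun _ _ => by ring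

theorem orig_eval {ψ : ℝ → ℂ} (hψ : MulF ψ) {n₁ n₂ a : O} (h₁ : SP n₁) (h₂ : SP n₂)
    (ha : a ≠ 0) :
    origA n₁ n₂ a ψ =
      (quad (∏ p ∈ pf n₁ ∩ pf n₂, p) a ^ 2 * ψ (nr a) * eu ψ (pf n₁ ∩ pf n₂)) *
        (eu ψ (pf (cof (pf n₁ ∩ pf n₂) n₁)) * quad (cof (pf n₁ ∩ pf n₂) n₁) a) *
        (eu ψ (pf (cof (pf n₁ ∩ pf n₂) n₂)) * quad (cof (pf n₁ ∩ pf n₂) n₂) a) := by
  rw [origA, Eval_inner hψ (nr_pos ha) (Eval_ne_zero n₁ n₂), Eval_eu_union', pf_cof, pf_cof,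
    Eval_quad h₁ (Finset.inter_subset_left (s₂ := pf n₂)) a,
    Eval_quad h₂ (Finset.inter_subset_right (s₁ := pf n₁)) a]
  ring

theorem dual_eval {ψ : ℝ → ℂ} (hψ : MulF ψ) (n₁ n₂ : O) {a : O} (ha : a ≠ 0) :
    dualA n₁ n₂ a ψ =
      (ψ (nr a) * ∏ p ∈ pf n₁ ∩ pf n₂, (1 - (if p ∣ a then ψ (nr p)⁻¹ ^ 2 else 1) / (nr p : ℂ))) *
        (ψ (nr (cof (pf n₁ ∩ pf n₂) n₁))⁻¹ / (Real.sqrt (nr (cof (pf n₁ ∩ pf n₂) n₁)) : ℂ) *
          eu ψ (pf (cof (pf n₁ ∩ pf n₂) n₁)) * quad (cof (pf n₁ ∩ pf n₂) n₁) a) *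
        (ψ (nr (cof (pf n₁ ∩ pf n₂) n₂))⁻¹ / (Real.sqrt (nr (cof (pf n₁ ∩ pf n₂) n₂)) : ℂ) *
          eu ψ (pf (cof (pf n₁ ∩ pf n₂) n₂)) * quad (cof (pf n₁ ∩ pf n₂) n₂) a) := by
  rw [dualA, Eval_dualB hψ (ne_zero_of_subset_pf Finset.inter_subset_left)
    (ne_zero_of_SP (SP_cof n₁ _)) (ne_zero_of_SP (SP_cof n₂ _)) ha, pf_cof, pf_cof, Eval_eu_union]
  ring

/-- The main terms of the two sides coincide. -/
theorem main_cancel (κ : ℝ) {X : ℝ} (hX : 0 < X) {n₁ n₂ a : O} (h₁ : SP n₁) (h₂ : SP n₂)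
    (ha : a ≠ 0) :
    (X : ℂ) * dualA n₁ n₂ a (fun y => ((κ / Real.sqrt (y * X) : ℝ) : ℂ)) =
      origA n₁ n₂ a (fun y => ((κ / Real.sqrt (y / X) : ℝ) : ℂ)) := by
  set ψ : ℝ → ℂ := fun y => (((Real.sqrt y)⁻¹ : ℝ) : ℂ) with hψd
  have hψ : MulF ψ := ⟨by simp [hψd], fun x y hx _ => by
    simp only [hψd, Real.sqrt_mul hx.le, mul_inv, Complex.ofReal_mul]⟩
  have e1 : (fun y => ((κ / Real.sqrt (y * X) : ℝ) : ℂ)) =
      fun y => ((κ / Real.sqrt X : ℝ) : ℂ) * ψ y := by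
    funext y
    simp only [hψd, Real.sqrt_mul' y hX.le, ← Complex.ofReal_mul]
    congr 1
    ring
  have e2 : (fun y => ((κ / Real.sqrt (y / X) : ℝ) : ℂ)) =
      fun y => ((κ * Real.sqrt X : ℝ) : ℂ) * ψ y := by
    funext y
    simp only [hψd, Real.sqrt_div' y hX.le, ← Complex.ofReal_mul]
    congr 1
    rw [div_div_eq_mul_div, div_eq_mul_inv]
  have e3 : (X : ℂ) * ((κ / Real.sqrt X : ℝ) : ℂ) = ((κ * Real.sqrt X : ℝ) : ℂ) := by
    rw [← Complex.ofReal_mul]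
    congr 1
    have h1 := Real.mul_self_sqrt hX.le
    have h2 := (Real.sqrt_pos.2 hX).ne'
    field_simp
    linear_combination -κ * h1
  have e4 : ∀ m : O, m ≠ 0 → ψ (nr m)⁻¹ / (Real.sqrt (nr m) : ℂ) = 1 := fun m hm => by
    simp only [hψd, Real.sqrt_inv, inv_inv]
    exact div_self (Complex.ofReal_ne_zero.2 (Real.sqrt_pos.2 (nr_pos hm)).ne')
  rw [e1, e2, Eval_origA_smul, Eval_dualA_smul, ← mul_assoc, e3, orig_eval hψ h₁ h₂ ha,
    dual_eval hψ n₁ n₂ ha, e4 _ (ne_zero_of_SP (SP_cof n₁ _)), e4 _ (ne_zero_of_SP (SP_cof n₂ _)),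
    one_mul, one_mul]
  have hG : pf n₁ ∩ pf n₂ ⊆ pf n₁ := Finset.inter_subset_left
  have hg := SP_prod hG
  have key : ∏ p ∈ pf n₁ ∩ pf n₂, (1 - (if p ∣ a then ψ (nr p)⁻¹ ^ 2 else 1) / (nr p : ℂ)) =
      quad (∏ p ∈ pf n₁ ∩ pf n₂, p) a ^ 2 * eu ψ (pf n₁ ∩ pf n₂) := by
    by_cases h : ∃ p ∈ pf n₁ ∩ pf n₂, p ∣ a
    · obtain ⟨p, hp, hpa⟩ := h
      have hp' := (pf_sub (hG hp)).1
      have hn := nr_pos hp'.ne_zero
      rw [quad_zero hg.1 fun hc =>
        hp'.not_isUnit (hc.isUnit_of_dvd' (Finset.dvd_prod_of_mem _ hp) hpa),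
        zero_pow two_ne_zero, zero_mul]
      refine Finset.prod_eq_zero hp ?_
      simp only [if_pos hpa, hψd, Real.sqrt_inv, inv_inv]
      rw [← Complex.ofReal_pow, Real.sq_sqrt hn.le, div_self (Complex.ofReal_ne_zero.2 hn.ne'),
        sub_self]
    · push Not at h
      rw [quad_sq hg.1 (IsCoprime.prod_left fun p hp =>
        (pf_sub (hG hp)).1.irreducible.coprime_iff_not_dvd.2 (h p hp)), one_mul, eu]
      refine Finset.prod_congr rfl fun p hp => ?_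
      have hn := nr_pos (pf_sub (hG hp)).1.ne_zero
      simp only [if_neg (h p hp), hψd]
      rw [← Complex.ofReal_pow, inv_pow, Real.sq_sqrt hn.le, Complex.ofReal_inv, one_div]
  rw [key]
  ring

end Crest.Agent.T27.LS
end
end

-- ▼ part T27/LS2Pair_81
section

/-!
# Row 27, quadratic large sieve: the sum over the rows with large kernel for a pair of columns
-/

set_option autoImplicit false

noncomputable section

namespace Crest.Agent.T27.LS

open scoped ComplexConjugate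
open Classical

variable [LF]

theorem pair_summable {X : ℝ} (hX : 0 < X) (n₁ n₂ : O) :
    Summable fun k : Row => (gw (nr (k : O) / X) : ℂ) * (quad n₁ k * quad n₂ k) := by
  refine Summable.of_norm_bounded (summable_gw' hX) fun k => ?_
  rw [norm_mul, norm_mul, Complex.norm_real, Real.norm_of_nonneg (gw_pos _).le]
  exact mul_le_of_le_one_right (gw_pos _).le
    (mul_le_one₀ (norm_quad_le _ _) (norm_nonneg _) (norm_quad_le _ _))

theorem pair_quad_sq {n : O} (h : SP n) (a c : O) :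
    quad n (a * c ^ 2) = if ∀ p ∈ pf n, ¬ p ∣ c then quad n a else 0 := by
  rw [quad_mul_right h.1, sq, quad_mul_right h.1, ← sq]
  split_ifs with hc
  · rw [quad_sq h.1 ((isCoprime_iff_pf h.1 c).2 hc), mul_one]
  · rw [quad_zero h.1 fun h' => hc ((isCoprime_iff_pf h.1 c).1 h')]
    simp

theorem pair_row {X : ℝ} (hX : 0 < X) {n₁ n₂ a : O} (h₁ : SP n₁) (h₂ : SP n₂) (ha : a ≠ 0) :
    (∑' c : Prm, (gw (nr (a * (c : O) ^ 2) / X) : ℂ) *
        (quad n₁ (a * (c : O) ^ 2) * quad n₂ (a * (c : O) ^ 2))) =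
      origA n₁ n₂ a (fun y => (th2 (y / X) : ℂ)) := by
  have hS : ∀ p ∈ pf n₁ ∪ pf n₂, Prime p ∧ Primary p := fun p hp => by
    rcases Finset.mem_union.1 hp with h | h <;> exact pf_sub h
  have hg : Summable fun c : Prm => (gw (nr a / X * nr (c : O) ^ 2) : ℂ) :=
    Complex.summable_ofReal.2 (summable_th2 (div_pos (nr_pos ha) hX))
  have hs := tsum_sieve prim_mul_iff hS (f := fun c => (gw (nr a / X * nr c ^ 2) : ℂ)) hg
  have e1 : ∀ c : O,
      (gw (nr (a * c ^ 2) / X) : ℂ) * (quad n₁ (a * c ^ 2) * quad n₂ (a * c ^ 2)) =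
      quad n₁ a * quad n₂ a * (if ∀ p ∈ pf n₁ ∪ pf n₂, ¬ p ∣ c then
        (gw (nr a / X * nr c ^ 2) : ℂ) else 0) := by
    intro c
    have e : nr (a * c ^ 2) / X = nr a / X * nr c ^ 2 := by rw [nr_mul, nr_pow]; ring
    rw [pair_quad_sq h₁, pair_quad_sq h₂, e]
    simp only [Finset.forall_mem_union]
    by_cases k₁ : ∀ p ∈ pf n₁, ¬ p ∣ c <;> by_cases k₂ : ∀ p ∈ pf n₂, ¬ p ∣ c
    · rw [if_pos k₁, if_pos k₂, if_pos ⟨k₁, k₂⟩]; ring
    · rw [if_neg k₂, if_neg (c := _ ∧ _) fun h => k₂ h.2]; ring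
    · rw [if_neg k₁, if_neg (c := _ ∧ _) fun h => k₁ h.1]; ring
    · rw [if_neg k₁, if_neg (c := _ ∧ _) fun h => k₁ h.1]; ring
  rw [tsum_congr fun c : Prm => e1 c, tsum_mul_left, hs, origA]
  congr 1
  refine Finset.sum_congr rfl fun T hT => ?_
  rw [th2, Complex.ofReal_tsum]
  congr 1
  refine tsum_congr fun c => ?_
  have e : nr a / X * nr ((∏ p ∈ T, p) * c) ^ 2 = nr a * nP T ^ 2 / X * nr (c : O) ^ 2 := by
    rw [nr_mul, nr_prod]; ring
  rw [e]

theorem pair_origA_sub (n₁ n₂ a : O) (f g : ℝ → ℂ) :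
    origA n₁ n₂ a (fun y => f y - g y) = origA n₁ n₂ a f - origA n₁ n₂ a g := by
  simp only [origA, mul_sub, Finset.sum_sub_distrib]

theorem pair_dualA_sub (n₁ n₂ a : O) (f g : ℝ → ℂ) :
    dualA n₁ n₂ a (fun y => f y - g y) = dualA n₁ n₂ a f - dualA n₁ n₂ a g := by
  simp only [dualA, dualB, mul_sub, Finset.sum_sub_distrib]

/-- Original side. -/
theorem orig_eq (V : ℝ) {X : ℝ} (hX : 0 < X) {n₁ n₂ : O} (h₁ : SP n₁) (h₂ : SP n₂) :
    (∑' k : Row, if (k : O) ∈ PP V then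
      (gw (nr (k : O) / X) : ℂ) * (quad n₁ k * quad n₂ k) else 0) =
      ∑ a ∈ sqf V, origA n₁ n₂ a (fun y => (th2 (y / X) : ℂ)) := by
  rw [← tsum_kernel V (f := fun k => (gw (nr k / X) : ℂ) * (quad n₁ k * quad n₂ k))
    (pair_summable hX n₁ n₂)]
  exact Finset.sum_congr rfl fun a ha => pair_row hX h₁ h₂ (ne_zero_of_mem_sqf ha)

theorem pair_est (κ V : ℝ) {X : ℝ} (hX : 0 < X) {n₁ n₂ : O} (h₁ : SP n₁) (h₂ : SP n₂)
    (h4 : cls n₁ = cls n₂) :
    ‖(∑' k : Row, if (k : O) ∈ PP V then 0 else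
          (gw (nr (k : O) / X) : ℂ) * (quad n₁ k * quad n₂ k)) -
        ∑ a ∈ sqf V, ((X : ℂ) * dualA n₁ n₂ a (fun y => (Er κ (y * X) : ℂ)) -
          origA n₁ n₂ a (fun y => (Er κ (y / X) : ℂ)))‖ ≤
      2 ^ (pf n₁).card * X * ((if n₁ = n₂ then gw 0 else 0) +
        ∑' h : Row, if V < nr (h : O) then gw (X * nr (h : O) / (nr n₁ * nr n₂)) else 0) := by
  have hF := pair_summable hX n₁ n₂
  have hP : Summable fun k : Row =>
      if (k : O) ∈ PP V then (gw (nr (k : O) / X) : ℂ) * (quad n₁ k * quad n₂ k) else 0 :=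
    (hF.indicator {k : Row | (k : O) ∈ PP V}).congr fun k => by rw [Set.indicator_apply]; rfl
  have e1 : (∑' k : Row, if (k : O) ∈ PP V then 0 else
        (gw (nr (k : O) / X) : ℂ) * (quad n₁ k * quad n₂ k)) =
      (∑' k : Row, (gw (nr (k : O) / X) : ℂ) * (quad n₁ k * quad n₂ k)) -
        ∑' k : Row, if (k : O) ∈ PP V then
          (gw (nr (k : O) / X) : ℂ) * (quad n₁ k * quad n₂ k) else 0 := by
    rw [← hF.tsum_sub hP]
    refine tsum_congr fun k => ?_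
    split_ifs <;> simp
  have e2 : ∀ a ∈ sqf V, (X : ℂ) * dualA n₁ n₂ a (fun y => (Er κ (y * X) : ℂ)) -
      origA n₁ n₂ a (fun y => (Er κ (y / X) : ℂ)) =
      (X : ℂ) * dualA n₁ n₂ a (fun y => (th2 (y * X) : ℂ)) -
        origA n₁ n₂ a (fun y => (th2 (y / X) : ℂ)) := by
    intro a ha
    have h := main_cancel κ hX h₁ h₂ (ne_zero_of_mem_sqf ha)
    simp only [Er, Complex.ofReal_sub]
    rw [pair_origA_sub, pair_dualA_sub, ← h]
    ring
  rw [e1, Finset.sum_congr rfl e2, Finset.sum_sub_distrib, ← orig_eq V hX h₁ h₂, ← Finset.mul_sum]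
  convert dual_est V hX h₁ h₂ h4 using 2
  ring

end Crest.Agent.T27.LS
end
end

-- ▼ part T27/LS2Bil_81
section

/-!
# Row 27, quadratic large sieve: bilinear forms with coefficients depending on the gcd
-/

set_option autoImplicit false

noncomputable section

namespace Crest.Agent.T27.LS

open scoped ComplexConjugate
open Classical

variable [LF]

theorem bil_filter {U T G : Finset O} (hT : T ⊆ U) (hG : G ⊆ T) :
    (U \ G).powerset.filter (fun E => G ∪ E ⊆ T) = (T \ G).powerset := by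
  ext E
  simp only [Finset.mem_filter, Finset.mem_powerset, Finset.union_subset_iff, Finset.subset_sdiff]
  exact ⟨fun h => ⟨h.2.2, h.1.2⟩, fun h => ⟨⟨h.1.trans hT, h.2⟩, hG, h.1⟩⟩

/-- Möbius inversion on the Boolean lattice. -/
theorem bil_mob {U T : Finset O} (hT : T ⊆ U) (F : Finset O → ℂ) :
    F T = ∑ G ∈ U.powerset, ∑ E ∈ (U \ G).powerset,
      if G ∪ E ⊆ T then (-1) ^ E.card * F G else 0 := by
  have h1 : ∀ G ∈ U.powerset, (∑ E ∈ (U \ G).powerset,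
      if G ∪ E ⊆ T then (-1) ^ E.card * F G else 0) = if T = G then F G else 0 := by
    intro G _
    by_cases hG : G ⊆ T
    · rw [← Finset.sum_filter, bil_filter hT hG, ← Finset.sum_mul]
      have h2 : ∑ E ∈ (T \ G).powerset, (-1 : ℂ) ^ E.card = if T \ G = ∅ then 1 else 0 := by
        exact_mod_cast congrArg (Int.cast : ℤ → ℂ)
          (Finset.sum_powerset_neg_one_pow_card (x := T \ G))
      rw [h2]
      by_cases h : T = G
      · rw [if_pos h, if_pos (Finset.sdiff_eq_empty_iff_subset.2 h.subset), one_mul]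
      · rw [if_neg h, if_neg fun h' =>
          h (Finset.Subset.antisymm (Finset.sdiff_eq_empty_iff_subset.1 h') hG), zero_mul]
    · rw [if_neg fun h : T = G => hG h.symm.subset]
      exact Finset.sum_eq_zero fun E _ => if_neg fun h => hG (Finset.subset_union_left.trans h)
  rw [Finset.sum_congr rfl h1, Finset.sum_ite_eq, if_pos (Finset.mem_powerset.2 hT)]

theorem bil_count {U T : Finset O} (hT : T ⊆ U) (x : ℝ) :
    (∑ G ∈ U.powerset, ∑ E ∈ (U \ G).powerset, if G ∪ E ⊆ T then x else 0) =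
      3 ^ T.card * x := by
  have h1 : ∀ G ∈ U.powerset, (∑ E ∈ (U \ G).powerset, if G ∪ E ⊆ T then x else 0) =
      if G ⊆ T then 1 ^ G.card * 2 ^ (T.card - G.card) * x else 0 := by
    intro G _
    by_cases hG : G ⊆ T
    · rw [← Finset.sum_filter, bil_filter hT hG, if_pos hG, Finset.sum_const, Finset.card_powerset,
        Finset.card_sdiff_of_subset hG, nsmul_eq_mul, one_pow, one_mul]
      push_cast
      rfl
    · rw [if_neg hG]
      exact Finset.sum_eq_zero fun E _ => if_neg fun h => hG (Finset.subset_union_left.trans h)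
  have h2 : U.powerset.filter (fun G => G ⊆ T) = T.powerset := by
    ext G
    simp only [Finset.mem_filter, Finset.mem_powerset]
    exact ⟨fun h => h.2, fun h => ⟨h.trans hT, h⟩⟩
  rw [Finset.sum_congr rfl h1, ← Finset.sum_filter, h2, ← Finset.sum_mul,
    Finset.sum_pow_mul_eq_add_pow]
  norm_num

theorem bil_one {ξ V N D Λ : ℝ} (hS : Sieve ξ V N D) (hD : 0 ≤ D) (hΛ : 0 ≤ Λ) {S : Finset O}
    (hSP : ∀ n ∈ S, SP n ∧ nr n ≤ N) (γ : O → ℂ) (c : O → ℂ) (η : O → ℂ) {G : Finset O}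
    {H : ℝ} (hG : ∀ n ∈ S, G ⊆ pf n) (hη : ∀ n ∈ S, ‖η (cof G n)‖ ≤ H)
    (hc : ∀ n ∈ S, ∀ a ∈ sqf V, ‖c a‖ * H ^ 2 * (N / nP G + nr a ^ ξ) ≤ Λ) :
    ∑ a ∈ sqf V, ‖c a‖ * ‖∑ n ∈ S, γ n * (η (cof G n) * quad (cof G n) a)‖ ^ 2 ≤
      Λ * D * ∑ n ∈ S, ‖γ n‖ ^ 2 := by
  rcases S.eq_empty_or_nonempty with rfl | ⟨n₀, hn₀⟩
  · simp
  have hH := (norm_nonneg _).trans (hη n₀ hn₀)
  rcases hH.eq_or_lt with rfl | hH
  · refine (Finset.sum_eq_zero fun a _ => ?_).trans_le (by positivity)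
    rw [Finset.sum_eq_zero fun n hn => by
      rw [norm_le_zero_iff.1 (hη n hn), zero_mul, mul_zero]]
    simp
  have hP := one_le_nP (ne_zero_of_subset_pf (hG n₀ hn₀))
  have h1 : ∀ n ∈ S, SP (cof G n) ∧ nr (cof G n) ≤ N / nP G := fun n hn =>
    ⟨SP_cof n G, by
      rw [nr_cof (hSP n hn).1 (hG n hn)]
      exact div_le_div_of_nonneg_right (hSP n hn).2 (zero_le_one.trans hP)⟩
  have h2 : 1 ≤ N / nP G := (one_le_nr (ne_zero_of_SP (h1 n₀ hn₀).1)).trans (h1 n₀ hn₀).2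
  have h3 : 1 ≤ N := (one_le_nr (ne_zero_of_SP (hSP n₀ hn₀).1)).trans (hSP n₀ hn₀).2
  have h4 := hS (N / nP G) h2 (div_le_self (zero_le_one.trans h3) hP) S (cof G)
    (fun n => γ n * η (cof G n)) (fun n hn n' hn' h => by
      rw [← prod_mul_cof (hSP n hn).1.1 (hSP n hn).1.2 (hG n hn),
        ← prod_mul_cof (hSP n' hn').1.1 (hSP n' hn').1.2 (hG n' hn'), h]) h1
  have h5 : ∑ n ∈ S, ‖γ n * η (cof G n)‖ ^ 2 ≤ H ^ 2 * ∑ n ∈ S, ‖γ n‖ ^ 2 := by
    rw [Finset.mul_sum]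
    refine Finset.sum_le_sum fun n hn => ?_
    rw [norm_mul, mul_pow, mul_comm]
    exact mul_le_mul_of_nonneg_right (pow_le_pow_left₀ (norm_nonneg _) (hη n hn) 2) (sq_nonneg _)
  have h6 := mul_le_mul_of_nonneg_left (h4.trans (mul_le_mul_of_nonneg_left h5 hD))
    (div_nonneg hΛ (sq_nonneg H))
  rw [Finset.mul_sum] at h6
  refine le_trans (Finset.sum_le_sum fun a ha => ?_) (h6.trans_eq (by field_simp))
  have h7 : 0 < N / nP G + nr a ^ ξ :=
    add_pos_of_pos_of_nonneg (one_pos.trans_le h2)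
      (Real.rpow_nonneg (zero_le_one.trans (one_le_nr (ne_zero_of_mem_sqf ha))) ξ)
  simp only [← mul_assoc]
  rw [mul_div_assoc', ← div_mul_eq_mul_div, div_div]
  refine mul_le_mul_of_nonneg_right ?_ (sq_nonneg _)
  rw [le_div_iff₀ (by positivity), ← mul_assoc]
  exact hc n₀ hn₀ a ha

theorem bil_two {ξ V N D Λ : ℝ} (hS : Sieve ξ V N D) (hD : 0 ≤ D) (hΛ : 0 ≤ Λ) {S : Finset O}
    (hSP : ∀ n ∈ S, SP n ∧ nr n ≤ N) (β : O → ℂ) (c : O → ℂ) (η : O → ℂ) {G : Finset O}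
    {H : ℝ} (hG : ∀ n ∈ S, G ⊆ pf n) (hη : ∀ n ∈ S, ‖η (cof G n)‖ ≤ H)
    (hc : ∀ n ∈ S, ∀ a ∈ sqf V, ‖c a‖ * H ^ 2 * (N / nP G + nr a ^ ξ) ≤ Λ) :
    ‖∑ n₁ ∈ S, ∑ n₂ ∈ S, β n₁ * conj (β n₂) * ∑ a ∈ sqf V, c a *
        (η (cof G n₁) * quad (cof G n₁) a) * (η (cof G n₂) * quad (cof G n₂) a)‖ ≤
      Λ * D * ∑ n ∈ S, ‖β n‖ ^ 2 := by
  have h1 := bil_one hS hD hΛ hSP β c η hG hη hc
  have h2 := bil_one hS hD hΛ hSP (fun n => conj (β n)) c η hG hη hc
  simp only [Complex.norm_conj] at h2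
  have h3 : ∑ n₁ ∈ S, ∑ n₂ ∈ S, β n₁ * conj (β n₂) * ∑ a ∈ sqf V, c a *
        (η (cof G n₁) * quad (cof G n₁) a) * (η (cof G n₂) * quad (cof G n₂) a) =
      ∑ a ∈ sqf V, c a * ((∑ n ∈ S, β n * (η (cof G n) * quad (cof G n) a)) *
        ∑ n ∈ S, conj (β n) * (η (cof G n) * quad (cof G n) a)) := by
    simp only [Finset.sum_mul_sum]
    simp only [Finset.mul_sum]
    rw [Finset.sum_comm (s := sqf V)]
    refine Finset.sum_congr rfl fun n₁ _ => ?_
    rw [Finset.sum_comm (s := sqf V)]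
    exact Finset.sum_congr rfl fun n₂ _ => Finset.sum_congr rfl fun a _ => by ring
  rw [h3]
  refine (norm_sum_le _ _).trans (le_trans (Finset.sum_le_sum (g := fun a =>
    (‖c a‖ * ‖∑ n ∈ S, β n * (η (cof G n) * quad (cof G n) a)‖ ^ 2 +
      ‖c a‖ * ‖∑ n ∈ S, conj (β n) * (η (cof G n) * quad (cof G n) a)‖ ^ 2) / 2) fun a _ => ?_) ?_)
  · rw [norm_mul, norm_mul, ← mul_add, mul_div_assoc]
    refine mul_le_mul_of_nonneg_left ?_ (norm_nonneg _)
    rw [le_div_iff₀' two_pos, ← mul_assoc]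
    exact two_mul_le_add_sq _ _
  · rw [← Finset.sum_div, Finset.sum_add_distrib]
    linarith

theorem bil {ξ V N D Λ : ℝ} (hS : Sieve ξ V N D) (hD : 0 ≤ D) (hΛ : 0 ≤ Λ) {S : Finset O}
    (hSP : ∀ n ∈ S, SP n ∧ nr n ≤ N) (β : O → ℂ) (c : Finset O → O → ℂ) (η : O → ℂ)
    (H : Finset O → ℝ) (hη : ∀ n ∈ S, ∀ G ⊆ pf n, ‖η (cof G n)‖ ≤ H G)
    (hc : ∀ n ∈ S, ∀ G ⊆ pf n, ∀ a ∈ sqf V, ‖c G a‖ * H G ^ 2 * (N / nP G + nr a ^ ξ) ≤ Λ) :
    ‖∑ n₁ ∈ S, ∑ n₂ ∈ S, β n₁ * conj (β n₂) * ∑ a ∈ sqf V, c (pf n₁ ∩ pf n₂) a *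
        (η (cof (pf n₁ ∩ pf n₂) n₁) * quad (cof (pf n₁ ∩ pf n₂) n₁) a) *
        (η (cof (pf n₁ ∩ pf n₂) n₂) * quad (cof (pf n₁ ∩ pf n₂) n₂) a)‖ ≤
      Λ * D * ∑ n ∈ S, 3 ^ (pf n).card * ‖β n‖ ^ 2 := by
  set U : Finset O := S.biUnion pf with hU
  have hsub : ∀ n ∈ S, pf n ⊆ U := fun n hn => Finset.subset_biUnion_of_mem pf hn
  set T : Finset O → O → O → ℂ := fun G n₁ n₂ => β n₁ * conj (β n₂) * ∑ a ∈ sqf V, c G a *
    (η (cof G n₁) * quad (cof G n₁) a) * (η (cof G n₂) * quad (cof G n₂) a) with hT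
  have h1 : ∑ n₁ ∈ S, ∑ n₂ ∈ S, T (pf n₁ ∩ pf n₂) n₁ n₂ =
      ∑ G ∈ U.powerset, ∑ E ∈ (U \ G).powerset, (-1) ^ E.card *
        ∑ n₁ ∈ S.filter (fun n => G ∪ E ⊆ pf n), ∑ n₂ ∈ S.filter (fun n => G ∪ E ⊆ pf n),
          T G n₁ n₂ := by
    rw [Finset.sum_congr rfl fun n₁ h₁ => Finset.sum_congr rfl fun n₂ _ =>
      bil_mob (Finset.inter_subset_left.trans (hsub n₁ h₁)) (fun G => T G n₁ n₂)]
    rw [Finset.sum_congr rfl fun n₁ _ => Finset.sum_comm, Finset.sum_comm]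
    refine Finset.sum_congr rfl fun G _ => ?_
    rw [Finset.sum_congr rfl fun n₁ _ => Finset.sum_comm, Finset.sum_comm]
    refine Finset.sum_congr rfl fun E _ => ?_
    rw [Finset.mul_sum, Finset.sum_filter]
    refine Finset.sum_congr rfl fun n₁ _ => ?_
    by_cases h : G ∪ E ⊆ pf n₁
    · rw [if_pos h, Finset.mul_sum, Finset.sum_filter]
      refine Finset.sum_congr rfl fun n₂ _ => ?_
      simp only [Finset.subset_inter_iff, h, true_and]
    · rw [if_neg h]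
      exact Finset.sum_eq_zero fun n₂ _ => if_neg fun h' => h (h'.trans Finset.inter_subset_left)
  have h2 : ∑ n ∈ S, 3 ^ (pf n).card * ‖β n‖ ^ 2 = ∑ G ∈ U.powerset, ∑ E ∈ (U \ G).powerset,
      ∑ n ∈ S.filter (fun n => G ∪ E ⊆ pf n), ‖β n‖ ^ 2 := by
    rw [Finset.sum_congr rfl fun n hn => (bil_count (hsub n hn) (‖β n‖ ^ 2)).symm, Finset.sum_comm]
    refine Finset.sum_congr rfl fun G _ => ?_
    rw [Finset.sum_comm]
    exact Finset.sum_congr rfl fun E _ => (Finset.sum_filter _ _).symm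
  change ‖∑ n₁ ∈ S, ∑ n₂ ∈ S, T (pf n₁ ∩ pf n₂) n₁ n₂‖ ≤ _
  rw [h1, h2, Finset.mul_sum]
  refine (norm_sum_le _ _).trans (Finset.sum_le_sum fun G _ => ?_)
  rw [Finset.mul_sum]
  refine (norm_sum_le _ _).trans (Finset.sum_le_sum fun E _ => ?_)
  rw [norm_mul, norm_pow, norm_neg, norm_one, one_pow, one_mul]
  have h3 : ∀ n ∈ S.filter (fun n => G ∪ E ⊆ pf n), n ∈ S ∧ G ⊆ pf n := fun n hn =>
    ⟨(Finset.mem_filter.1 hn).1, Finset.subset_union_left.trans (Finset.mem_filter.1 hn).2⟩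
  exact bil_two hS hD hΛ (fun n hn => hSP n (h3 n hn).1) β (c G) η (fun n hn => (h3 n hn).2)
    (fun n hn => hη n (h3 n hn).1 G (h3 n hn).2) fun n hn => hc n (h3 n hn).1 G (h3 n hn).2

end Crest.Agent.T27.LS
end
end

-- ▼ part T27/LS2Bnd_81
section

/-!
# Row 27, quadratic large sieve: bounds for the Mellin transforms
-/

set_option autoImplicit false

noncomputable section

namespace Crest.Agent.T27.LS

open scoped ComplexConjugate
open Classical

variable [LF]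

omit [LF] in
theorem Bnd_norm_psi (s : ℂ) {y : ℝ} (hy : 0 < y) : ‖(y : ℂ) ^ (-s)‖ = y ^ (-s.re) := by
  rw [Complex.norm_cpow_eq_rpow_re_of_pos hy, Complex.neg_re]

omit [LF] in
theorem Bnd_norm_psi_le {s : ℂ} (hs : 0 ≤ s.re) {y : ℝ} (hy : 1 ≤ y) : ‖(y : ℂ) ^ (-s)‖ ≤ 1 := by
  rw [Bnd_norm_psi s (by linarith)]
  exact Real.rpow_le_one_of_one_le_of_nonpos hy (by linarith)

theorem Bnd_prod_le {T : Finset O} {n : O} {w : ℝ} (hT : T ⊆ pf n) (hw : 2 ^ (pf n).card ≤ w)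
    {f : O → ℂ} (hf : ∀ p ∈ T, ‖f p‖ ≤ 1) : ‖∏ p ∈ T, (1 - f p)‖ ≤ w := by
  rw [norm_prod]
  calc ∏ p ∈ T, ‖1 - f p‖ ≤ ∏ _p ∈ T, (2 : ℝ) := by
        refine Finset.prod_le_prod (fun _ _ => norm_nonneg _) fun p hp => ?_
        have := norm_sub_le (1 : ℂ) (f p)
        rw [norm_one] at this
        linarith [hf p hp]
    _ = 2 ^ T.card := by simp
    _ ≤ 2 ^ (pf n).card := pow_le_pow_right₀ one_le_two (Finset.card_le_card hT)
    _ ≤ w := hw

theorem Bnd_eu {s : ℂ} (hs : 0 ≤ s.re) {T : Finset O} {n : O} {w : ℝ} (hT : T ⊆ pf n)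
    (hw : 2 ^ (pf n).card ≤ w) : ‖eu (fun y => (y : ℂ) ^ (-s)) T‖ ≤ w := by
  refine Bnd_prod_le hT hw fun p hp => ?_
  rw [norm_pow]
  exact pow_le_one₀ (norm_nonneg _) (Bnd_norm_psi_le hs (one_le_nr (ne_zero_of_subset_pf hT p hp)))

theorem Bnd_dual_c {s : ℂ} (hs' : s.re ≤ 1 / 2) {T : Finset O} {n : O} {w : ℝ} (hT : T ⊆ pf n)
    (hw : 2 ^ (pf n).card ≤ w) (a : O) :
    ‖∏ p ∈ T, (1 - (if p ∣ a then ((((nr p)⁻¹ : ℝ) : ℂ) ^ (-s)) ^ 2 else 1) / (nr p : ℂ))‖ ≤ w := by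
  refine Bnd_prod_le hT hw fun p hp => ?_
  have h1 := one_le_nr (ne_zero_of_subset_pf hT p hp)
  have h0 : 0 < nr p := by linarith
  rw [norm_div, Complex.norm_real, Real.norm_eq_abs, abs_of_pos h0, div_le_one h0]
  split_ifs
  · rw [norm_pow, Bnd_norm_psi s (inv_pos.2 h0), Real.inv_rpow h0.le, Real.rpow_neg h0.le, inv_inv,
      ← Real.rpow_natCast, ← Real.rpow_mul h0.le]
    calc nr p ^ (s.re * ((2 : ℕ) : ℝ)) ≤ nr p ^ (1 : ℝ) :=
          Real.rpow_le_rpow_of_exponent_le h1 (by push_cast; linarith)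
      _ = nr p := Real.rpow_one _
  · simpa using h1

theorem Bnd_eta {s : ℂ} (hs : 0 ≤ s.re) {m n : O} {w : ℝ} (hm : m ≠ 0) (hT : pf m ⊆ pf n)
    (hw : 2 ^ (pf n).card ≤ w) :
    ‖(((nr m)⁻¹ : ℝ) : ℂ) ^ (-s) / (Real.sqrt (nr m) : ℂ) * eu (fun y => (y : ℂ) ^ (-s)) (pf m)‖ ≤
      nr m ^ (s.re - 1 / 2) * w := by
  have h0 := nr_pos hm
  rw [norm_mul, norm_div, Bnd_norm_psi s (inv_pos.2 h0), Real.inv_rpow h0.le, Real.rpow_neg h0.le,
    inv_inv, Complex.norm_real, Real.norm_eq_abs, abs_of_nonneg (Real.sqrt_nonneg _),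
    Real.sqrt_eq_rpow, ← Real.rpow_sub h0]
  exact mul_le_mul_of_nonneg_left (Bnd_eu hs hT hw) (by positivity)

theorem Bnd_fin {S : Finset O} {w : ℝ} (hw : ∀ n ∈ S, 2 ^ (pf n).card ≤ w) (β : O → ℂ) :
    ∑ n ∈ S, 3 ^ (pf n).card * ‖β n‖ ^ 2 ≤ w ^ 2 * ∑ n ∈ S, ‖β n‖ ^ 2 := by
  rw [Finset.mul_sum]
  refine Finset.sum_le_sum fun n hn => mul_le_mul_of_nonneg_right ?_ (by positivity)
  calc (3 : ℝ) ^ (pf n).card ≤ (2 ^ 2) ^ (pf n).card := pow_le_pow_left₀ (by norm_num) (by norm_num) _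
    _ = (2 ^ (pf n).card) ^ 2 := by rw [← pow_mul, ← pow_mul, mul_comm]
    _ ≤ w ^ 2 := pow_le_pow_left₀ (by positivity) (hw n hn) 2

theorem Bnd_basic {N w : ℝ} {S : Finset O} (hB : Blk N S) (hw : ∀ n ∈ S, 2 ^ (pf n).card ≤ w)
    (hne : S.Nonempty) : 1 ≤ w ∧ 1 ≤ N := by
  obtain ⟨n, hn⟩ := hne
  exact ⟨le_trans (one_le_pow₀ one_le_two) (hw n hn),
    le_trans (one_le_nr (ne_zero_of_SP (hB.1 n hn).1)) (hB.1 n hn).2.2⟩

theorem Bnd_pf_cof (G : Finset O) (n : O) : pf (cof G n) ⊆ pf n := by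
  rw [pf_cof]; exact Finset.sdiff_subset

theorem bnd_orig {ξ V N D w : ℝ} (hξ : 0 ≤ ξ) (hV : 1 ≤ V) (hS : Sieve ξ V N D) (hD : 0 ≤ D)
    {S : Finset O} (hB : Blk N S) (hw : ∀ n ∈ S, 2 ^ (pf n).card ≤ w) (β : O → ℂ) {s : ℂ}
    (hs : 0 ≤ s.re) :
    ‖∑ n₁ ∈ S, ∑ n₂ ∈ S, β n₁ * conj (β n₂) *
        ∑ a ∈ sqf V, origA n₁ n₂ a (fun y => (y : ℂ) ^ (-s))‖ ≤
      w ^ 5 * (N + V ^ ξ) * D * ∑ n ∈ S, ‖β n‖ ^ 2 := by
  rcases S.eq_empty_or_nonempty with rfl | hne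
  · simp
  obtain ⟨hw1, hN1⟩ := Bnd_basic hB hw hne
  have hV0 : 0 ≤ V := by linarith
  have hVξ : 0 ≤ V ^ ξ := by positivity
  have key := bil (Λ := w ^ 3 * (N + V ^ ξ)) hS hD (by positivity)
    (fun n hn => ⟨(hB.1 n hn).1, (hB.1 n hn).2.2⟩) β
    (fun G a => quad (∏ p ∈ G, p) a ^ 2 * ((nr a : ℝ) : ℂ) ^ (-s) * eu (fun y => (y : ℂ) ^ (-s)) G)
    (fun m => eu (fun y => (y : ℂ) ^ (-s)) (pf m)) (fun _ => w)
    (fun n hn G _ => Bnd_eu hs (Bnd_pf_cof G n) (hw n hn)) (fun n hn G hG a ha => by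
      have ha0 := ne_zero_of_mem_sqf ha
      have h1 : ‖quad (∏ p ∈ G, p) a ^ 2 * ((nr a : ℝ) : ℂ) ^ (-s) *
          eu (fun y => (y : ℂ) ^ (-s)) G‖ ≤ w := by
        rw [norm_mul, norm_mul, norm_pow]
        calc _ ≤ 1 * 1 * w := by
              gcongr
              · exact pow_le_one₀ (norm_nonneg _) (norm_quad_le _ _)
              · exact Bnd_norm_psi_le hs (one_le_nr ha0)
              · exact Bnd_eu hs hG (hw n hn)
          _ = w := by ring
      have h2 : N / nP G ≤ N := div_le_self (by linarith) (one_le_nP (ne_zero_of_subset_pf hG))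
      have h3 : nr a ^ ξ ≤ V ^ ξ := Real.rpow_le_rpow (nr_pos ha0).le ((mem_sqf hV0).1 ha).2 hξ
      have h4 : 0 ≤ N / nP G := div_nonneg (by linarith) (nP_pos (ne_zero_of_subset_pf hG)).le
      have h5 : 0 ≤ nr a ^ ξ := Real.rpow_nonneg (nr_pos ha0).le _
      calc _ ≤ w * w ^ 2 * (N + V ^ ξ) := by gcongr
        _ = w ^ 3 * (N + V ^ ξ) := by ring)
  refine le_trans (le_of_eq ?_) (key.trans ?_)
  · refine congrArg norm ?_
    refine Finset.sum_congr rfl fun n₁ h₁ => Finset.sum_congr rfl fun n₂ h₂ => ?_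
    refine congrArg (fun z => β n₁ * conj (β n₂) * z) ?_
    exact Finset.sum_congr rfl fun a ha =>
      orig_eval (mulF_cpow s) (hB.1 n₁ h₁).1 (hB.1 n₂ h₂).1 (ne_zero_of_mem_sqf ha)
  · calc _ ≤ w ^ 3 * (N + V ^ ξ) * D * (w ^ 2 * ∑ n ∈ S, ‖β n‖ ^ 2) :=
          mul_le_mul_of_nonneg_left (Bnd_fin hw β) (by positivity)
      _ = _ := by ring

theorem bnd_lo {ξ V N D w : ℝ} (hV : 1 ≤ V) (hS : Sieve ξ V N D) (hD : 0 ≤ D)
    {S : Finset O} (hB : Blk N S) (hw : ∀ n ∈ S, 2 ^ (pf n).card ≤ w) (β : O → ℂ) {s : ℂ}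
    (hs : 0 ≤ s.re) (hs' : s.re ≤ 1 / 2) :
    ‖∑ n₁ ∈ S, ∑ n₂ ∈ S, β n₁ * conj (β n₂) *
        ∑ a ∈ (sqf V).filter (fun a => nr a ^ ξ ≤ N / nP (pf n₁ ∩ pf n₂)),
          dualA n₁ n₂ a (fun y => (y : ℂ) ^ (-s))‖ ≤
      4 * w ^ 5 * N ^ (2 * s.re) * D * ∑ n ∈ S, ‖β n‖ ^ 2 := by
  rcases S.eq_empty_or_nonempty with rfl | hne
  · simp
  obtain ⟨hw1, hN1⟩ := Bnd_basic hB hw hne
  have hNs : 0 ≤ N ^ (2 * s.re) := by positivity
  have key := bil (Λ := 4 * w ^ 3 * N ^ (2 * s.re)) hS hD (by positivity)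
    (fun n hn => ⟨(hB.1 n hn).1, (hB.1 n hn).2.2⟩) β
    (fun G a => if nr a ^ ξ ≤ N / nP G then ((nr a : ℝ) : ℂ) ^ (-s) *
      ∏ p ∈ G, (1 - (if p ∣ a then ((((nr p)⁻¹ : ℝ) : ℂ) ^ (-s)) ^ 2 else 1) / (nr p : ℂ)) else 0)
    (fun m => (((nr m)⁻¹ : ℝ) : ℂ) ^ (-s) / (Real.sqrt (nr m) : ℂ) *
      eu (fun y => (y : ℂ) ^ (-s)) (pf m)) (fun G => (N / nP G / 2) ^ (s.re - 1 / 2) * w)
    (fun n hn G hG => by
      have hP := nP_pos (ne_zero_of_subset_pf hG)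
      refine (Bnd_eta hs (ne_zero_of_SP (SP_cof n G)) (Bnd_pf_cof G n)
        (hw n hn)).trans (mul_le_mul_of_nonneg_right ?_ (by linarith))
      refine Real.rpow_le_rpow_of_nonpos (by positivity) ?_ (by linarith)
      rw [nr_cof (hB.1 n hn).1 hG, div_right_comm]
      exact div_le_div_of_nonneg_right (hB.1 n hn).2.1 hP.le)
    (fun n hn G hG a ha => by
      have ha0 := ne_zero_of_mem_sqf ha
      have hP := nP_pos (ne_zero_of_subset_pf hG)
      split_ifs with hc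
      · have h1 : ‖((nr a : ℝ) : ℂ) ^ (-s) * ∏ p ∈ G, (1 - (if p ∣ a then
            ((((nr p)⁻¹ : ℝ) : ℂ) ^ (-s)) ^ 2 else 1) / (nr p : ℂ))‖ ≤ w := by
          rw [norm_mul]
          calc _ ≤ 1 * w := by
                gcongr
                · exact Bnd_norm_psi_le hs (one_le_nr ha0)
                · exact Bnd_dual_c hs' hG (hw n hn) a
            _ = w := by ring
        have h2 : N / nP G ≤ N := div_le_self (by linarith) (one_le_nP (ne_zero_of_subset_pf hG))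
        set y := N / nP G / 2 with hy
        have hy0 : 0 < y := by positivity
        have h3 : (y ^ (s.re - 1 / 2)) ^ 2 * y = y ^ (2 * s.re) := by
          rw [← Real.rpow_natCast, ← Real.rpow_mul hy0.le, ← Real.rpow_add_one hy0.ne']
          congr 1; push_cast; ring
        have h4 : y ^ (2 * s.re) ≤ N ^ (2 * s.re) :=
          Real.rpow_le_rpow hy0.le (by linarith) (by linarith)
        have h5 : 0 ≤ nr a ^ ξ := Real.rpow_nonneg (nr_pos ha0).le _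
        have h6 : N / nP G + nr a ^ ξ ≤ 4 * y := by linarith
        calc _ ≤ w * (y ^ (s.re - 1 / 2) * w) ^ 2 * (4 * y) := by gcongr
          _ = 4 * w ^ 3 * ((y ^ (s.re - 1 / 2)) ^ 2 * y) := by ring
          _ ≤ 4 * w ^ 3 * N ^ (2 * s.re) := by rw [h3]; gcongr
      · simp only [norm_zero, zero_mul]; positivity)
  refine le_trans (le_of_eq ?_) (key.trans ?_)
  · refine congrArg norm ?_
    refine Finset.sum_congr rfl fun n₁ h₁ => Finset.sum_congr rfl fun n₂ h₂ => ?_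
    refine congrArg (fun z => β n₁ * conj (β n₂) * z) ?_
    rw [Finset.sum_filter]
    refine Finset.sum_congr rfl fun a ha => ?_
    split_ifs
    · exact dual_eval (mulF_cpow s) n₁ n₂ (ne_zero_of_mem_sqf ha)
    · simp
  · calc _ ≤ 4 * w ^ 3 * N ^ (2 * s.re) * D * (w ^ 2 * ∑ n ∈ S, ‖β n‖ ^ 2) :=
          mul_le_mul_of_nonneg_left (Bnd_fin hw β) (by positivity)
      _ = _ := by ring

theorem bnd_hi {ξ V N D w : ℝ} (hξ : 1 ≤ ξ) (hV : 1 ≤ V) (hS : Sieve ξ V N D) (hD : 0 ≤ D)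
    {S : Finset O} (hB : Blk N S) (hw : ∀ n ∈ S, 2 ^ (pf n).card ≤ w) (β : O → ℂ) {s : ℂ}
    (hs : 0 ≤ s.re) (hs' : s.re ≤ 1 / 2) :
    ‖∑ n₁ ∈ S, ∑ n₂ ∈ S, β n₁ * conj (β n₂) *
        ∑ a ∈ (sqf V).filter (fun a => ¬ nr a ^ ξ ≤ N / nP (pf n₁ ∩ pf n₂)),
          dualA n₁ n₂ a (fun y => (y : ℂ) ^ (-s))‖ ≤
      2 * w ^ 5 * V ^ (ξ - s.re) * D * ∑ n ∈ S, ‖β n‖ ^ 2 := by
  rcases S.eq_empty_or_nonempty with rfl | hne
  · simp
  obtain ⟨hw1, hN1⟩ := Bnd_basic hB hw hne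
  have hV0 : 0 ≤ V := by linarith
  have hVs : 0 ≤ V ^ (ξ - s.re) := by positivity
  have key := bil (Λ := 2 * w ^ 3 * V ^ (ξ - s.re)) hS hD (by positivity)
    (fun n hn => ⟨(hB.1 n hn).1, (hB.1 n hn).2.2⟩) β
    (fun G a => if ¬ nr a ^ ξ ≤ N / nP G then ((nr a : ℝ) : ℂ) ^ (-s) *
      ∏ p ∈ G, (1 - (if p ∣ a then ((((nr p)⁻¹ : ℝ) : ℂ) ^ (-s)) ^ 2 else 1) / (nr p : ℂ)) else 0)
    (fun m => (((nr m)⁻¹ : ℝ) : ℂ) ^ (-s) / (Real.sqrt (nr m) : ℂ) *
      eu (fun y => (y : ℂ) ^ (-s)) (pf m)) (fun _ => w)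
    (fun n hn G _ => by
      have hm := ne_zero_of_SP (SP_cof n G)
      refine (Bnd_eta hs hm (Bnd_pf_cof G n) (hw n hn)).trans
        (mul_le_of_le_one_left (by linarith) ?_)
      exact Real.rpow_le_one_of_one_le_of_nonpos (one_le_nr hm) (by linarith))
    (fun n hn G hG a ha => by
      have ha0 := ne_zero_of_mem_sqf ha
      have hP := nP_pos (ne_zero_of_subset_pf hG)
      have ha1 := nr_pos ha0
      by_cases hc : nr a ^ ξ ≤ N / nP G
      · rw [if_neg (not_not.2 hc)]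
        simp only [norm_zero, zero_mul]; positivity
      · rw [if_pos hc]
        have h1 : ‖((nr a : ℝ) : ℂ) ^ (-s) * ∏ p ∈ G, (1 - (if p ∣ a then
            ((((nr p)⁻¹ : ℝ) : ℂ) ^ (-s)) ^ 2 else 1) / (nr p : ℂ))‖ ≤ nr a ^ (-s.re) * w := by
          rw [norm_mul, Bnd_norm_psi s ha1]
          exact mul_le_mul_of_nonneg_left (Bnd_dual_c hs' hG (hw n hn) a) (by positivity)
        have h3 : nr a ^ (-s.re) * nr a ^ ξ = nr a ^ (ξ - s.re) := by
          rw [← Real.rpow_add ha1]; congr 1; ring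
        have h4 : nr a ^ (ξ - s.re) ≤ V ^ (ξ - s.re) :=
          Real.rpow_le_rpow ha1.le ((mem_sqf hV0).1 ha).2 (by linarith)
        have h5 : 0 ≤ N / nP G := by positivity
        have h6 : N / nP G + nr a ^ ξ ≤ 2 * nr a ^ ξ := by linarith [not_le.1 hc]
        calc _ ≤ nr a ^ (-s.re) * w * w ^ 2 * (2 * nr a ^ ξ) := by gcongr
          _ = 2 * w ^ 3 * (nr a ^ (-s.re) * nr a ^ ξ) := by ring
          _ ≤ 2 * w ^ 3 * V ^ (ξ - s.re) := by rw [h3]; gcongr)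
  refine le_trans (le_of_eq ?_) (key.trans ?_)
  · refine congrArg norm ?_
    refine Finset.sum_congr rfl fun n₁ h₁ => Finset.sum_congr rfl fun n₂ h₂ => ?_
    refine congrArg (fun z => β n₁ * conj (β n₂) * z) ?_
    rw [Finset.sum_filter]
    refine Finset.sum_congr rfl fun a ha => ?_
    by_cases hc : nr a ^ ξ ≤ N / nP (pf n₁ ∩ pf n₂)
    · rw [if_neg (not_not.2 hc), if_neg (not_not.2 hc)]; simp
    · rw [if_pos hc, if_pos hc]
      exact dual_eval (mulF_cpow s) n₁ n₂ (ne_zero_of_mem_sqf ha)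
  · calc _ ≤ 2 * w ^ 3 * V ^ (ξ - s.re) * D * (w ^ 2 * ∑ n ∈ S, ‖β n‖ ^ 2) :=
          mul_le_mul_of_nonneg_left (Bnd_fin hw β) (by positivity)
      _ = _ := by ring

end Crest.Agent.T27.LS
end
end

-- ▼ part T27/LS2Avg_81
section

/-!
# Row 27, quadratic large sieve: averaging over the scale (Mellin transform)
-/

set_option autoImplicit false

noncomputable section

namespace Crest.Agent.T27.LS

open scoped ComplexConjugate
open Classical MeasureTheory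
open Crest.Agent.R17 (Wc Wm)
open Crest.Agent.R17.WA (Wc_eq_integral differentiable_Wm integrable_Wm_mul_pow)

/-- Finite combinations of evaluations at positive points. -/
def FC (L : (ℝ → ℂ) → ℂ) : Prop :=
  ∃ μ : ℝ →₀ ℂ, (∀ y ∈ μ.support, 0 < y) ∧ ∀ f, L f = ∑ y ∈ μ.support, μ y * f y

/-- The size condition on the remainder term. -/
def ErB (E : ℝ → ℝ) : Prop :=
  ∀ η : ℝ, 0 < η → η < 1 / 2 → ∃ C : ℝ, ∀ y : ℝ, 0 < y → |E y| ≤ C * y ^ (-η)

theorem avg_fc_mk {L : (ℝ → ℂ) → ℂ} (s : Finset ℝ) (μ : ℝ → ℂ) (hs : ∀ y ∈ s, 0 < y)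
    (h : ∀ f, L f = ∑ y ∈ s, μ y * f y) : FC L := by
  refine ⟨Finsupp.onFinset s (fun y => if y ∈ s then μ y else 0) (fun y hy => ?_), fun y hy =>
    hs y (Finsupp.support_onFinset_subset hy), fun f => ?_⟩
  · by_contra hc
    exact hy (if_neg hc)
  · rw [h f, Finset.sum_subset Finsupp.support_onFinset_subset]
    · refine Finset.sum_congr rfl fun y hy => ?_
      rw [Finsupp.onFinset_apply, if_pos hy]
    · intro y _ hy
      rw [Finsupp.notMem_support_iff.1 hy, zero_mul]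

theorem FC.zero : FC (fun _ => 0) :=
  avg_fc_mk ∅ (fun _ => 0) (by simp) (by simp)

theorem FC.eval {y : ℝ} (hy : 0 < y) : FC (fun f => f y) :=
  avg_fc_mk {y} (fun _ => 1) (by simpa using hy) (by simp)

theorem FC.const_mul {L : (ℝ → ℂ) → ℂ} (h : FC L) (c : ℂ) : FC (fun f => c * L f) := by
  obtain ⟨μ, h0, h1⟩ := h
  refine avg_fc_mk μ.support (fun y => c * μ y) h0 fun f => ?_
  simp only [h1 f, Finset.mul_sum, mul_assoc]

theorem FC.add {L L' : (ℝ → ℂ) → ℂ} (h : FC L) (h' : FC L') : FC (fun f => L f + L' f) := by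
  obtain ⟨μ, h0, h1⟩ := h
  obtain ⟨ν, k0, k1⟩ := h'
  refine avg_fc_mk (μ.support ∪ ν.support) (fun y => μ y + ν y) (fun y hy => ?_) fun f => ?_
  · rcases Finset.mem_union.1 hy with hy | hy
    exacts [h0 y hy, k0 y hy]
  · simp only [h1 f, k1 f, add_mul, Finset.sum_add_distrib]
    congr 1
    · refine Finset.sum_subset Finset.subset_union_left fun y _ hy => ?_
      rw [Finsupp.notMem_support_iff.1 hy, zero_mul]
    · refine Finset.sum_subset Finset.subset_union_right fun y _ hy => ?_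
      rw [Finsupp.notMem_support_iff.1 hy, zero_mul]

theorem FC.sum {α : Type*} (s : Finset α) {L : α → (ℝ → ℂ) → ℂ} (h : ∀ i ∈ s, FC (L i)) :
    FC (fun f => ∑ i ∈ s, L i f) := by
  induction s using Finset.induction_on with
  | empty => simpa using FC.zero
  | insert a s ha ih =>
    simp only [Finset.sum_insert ha]
    exact (h a (Finset.mem_insert_self _ _)).add (ih fun i hi => h i (Finset.mem_insert_of_mem hi))

theorem avg_cpow {r : ℝ} (hr : 0 < r) (s : ℂ) :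
    (r : ℂ) ^ s = Complex.exp ((Real.log r : ℂ) * s) := by
  rw [Complex.cpow_def_of_ne_zero (by exact_mod_cast hr.ne'), Complex.ofReal_log hr.le]

theorem avg_gauss (b : ℝ) : Integrable (fun v : ℝ => Real.exp (-v ^ 2 + b * v)) := by
  have := (integrable_cexp_quadratic (b := 1) (by simp) (b : ℂ) 0).norm
  refine this.congr (Filter.Eventually.of_forall fun v => ?_)
  simp only [Complex.norm_exp]
  congr 1
  have : (-1 * (v : ℂ) ^ 2 + (b : ℂ) * v + 0) = ((-v ^ 2 + b * v : ℝ) : ℂ) := by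
    push_cast; ring
  rw [this, Complex.ofReal_re]

theorem avg_Wm (σ b : ℝ) :
    Integrable (fun u : ℝ => ‖Wm (((-σ : ℝ) : ℂ) + u * Complex.I + (b : ℂ))‖) := by
  refine (integrable_Wm_mul_pow (b - σ) 0).congr (Filter.Eventually.of_forall fun u => ?_)
  simp only [pow_zero, mul_one]
  congr 2
  push_cast; ring

theorem avg_kernel (σ b : ℝ) (s : Finset ℝ) (μ : ℝ → ℂ) (hs : ∀ y ∈ s, 0 < y) {B w : ℝ}
    (hw : 0 < w) (hB : ∀ z : ℂ, z.re = σ → ‖∑ y ∈ s, μ y * (y : ℂ) ^ (-z)‖ ≤ B) :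
    ‖∑ y ∈ s, μ y * Wc (w / y) b‖ ≤
      (1 / (2 * Real.pi) * ∫ u : ℝ, ‖Wm (((-σ : ℝ) : ℂ) + u * Complex.I + (b : ℂ))‖) *
        (w ^ σ * B) := by
  have hre : ∀ u : ℝ, (-(((-σ : ℝ) : ℂ) + u * Complex.I)).re = σ := fun u => by simp
  have hcont : Continuous fun u : ℝ => Wm (((-σ : ℝ) : ℂ) + u * Complex.I + (b : ℂ)) :=
    differentiable_Wm.continuous.comp (by fun_prop)
  have hint : ∀ r : ℝ, 0 < r → Integrable (fun u : ℝ =>
      Wm (((-σ : ℝ) : ℂ) + u * Complex.I + (b : ℂ)) *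
        (r : ℂ) ^ (-(((-σ : ℝ) : ℂ) + u * Complex.I))) := by
    intro r hr
    refine ((avg_Wm σ b).mul_const (r ^ σ)).mono' ?_ (Filter.Eventually.of_forall fun u => ?_)
    · refine (hcont.mul ?_).aestronglyMeasurable
      simp only [avg_cpow hr]
      fun_prop
    · rw [norm_mul, Complex.norm_cpow_eq_rpow_re_of_pos hr, hre]
  have e : ∑ y ∈ s, μ y * Wc (w / y) b = (1 / (2 * Real.pi) : ℂ) * ∫ u : ℝ,
      Wm (((-σ : ℝ) : ℂ) + u * Complex.I + (b : ℂ)) *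
        ((w : ℂ) ^ (-(((-σ : ℝ) : ℂ) + u * Complex.I)) *
          ∑ y ∈ s, μ y * (y : ℂ) ^ (-(-(((-σ : ℝ) : ℂ) + u * Complex.I)))) := by
    have e1 : ∀ u : ℝ, Wm (((-σ : ℝ) : ℂ) + u * Complex.I + (b : ℂ)) *
        ((w : ℂ) ^ (-(((-σ : ℝ) : ℂ) + u * Complex.I)) *
          ∑ y ∈ s, μ y * (y : ℂ) ^ (-(-(((-σ : ℝ) : ℂ) + u * Complex.I)))) =
        ∑ y ∈ s, μ y * (Wm (((-σ : ℝ) : ℂ) + u * Complex.I + (b : ℂ)) *
          ((w / y : ℝ) : ℂ) ^ (-(((-σ : ℝ) : ℂ) + u * Complex.I))) := by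
      intro u
      rw [Finset.mul_sum, Finset.mul_sum]
      refine Finset.sum_congr rfl fun y hy => ?_
      rw [avg_cpow hw, avg_cpow (hs y hy), avg_cpow (div_pos hw (hs y hy)),
        Real.log_div hw.ne' (hs y hy).ne', Complex.ofReal_sub, sub_mul, sub_eq_add_neg,
        Complex.exp_add, mul_neg (Real.log y : ℂ) (-_)]
      ring
    simp only [e1]
    rw [integral_finsetSum _ fun y hy => (hint _ (div_pos hw (hs y hy))).const_mul _,
      Finset.mul_sum]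
    refine Finset.sum_congr rfl fun y hy => ?_
    rw [integral_const_mul, Wc_eq_integral (div_pos hw (hs y hy)) (-σ) b]
    ring
  rw [e, norm_mul, mul_assoc]
  have e2 : ‖(1 / (2 * Real.pi) : ℂ)‖ = 1 / (2 * Real.pi) := by
    rw [show (1 / (2 * Real.pi) : ℂ) = ((1 / (2 * Real.pi) : ℝ) : ℂ) by push_cast; ring,
      Complex.norm_real, Real.norm_of_nonneg (by positivity)]
  rw [e2]
  refine mul_le_mul_of_nonneg_left ?_ (by positivity)
  rw [← integral_mul_const]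
  refine norm_integral_le_of_norm_le ((avg_Wm σ b).mul_const _)
    (Filter.Eventually.of_forall fun u => ?_)
  rw [norm_mul, norm_mul, Complex.norm_cpow_eq_rpow_re_of_pos hw, hre]
  exact mul_le_mul_of_nonneg_left
    (mul_le_mul_of_nonneg_left (hB _ (hre u)) (Real.rpow_nonneg hw.le _)) (norm_nonneg _)

theorem avg_mellin_int {E : ℝ → ℝ} (hEm : Measurable (fun x : ℝ => E (Real.exp x)))
    (hE : ErB E) {σ : ℝ} (h0 : 0 < σ) (h1 : σ < 1 / 2) :
    Integrable (fun x : ℝ => |E (Real.exp x)| * Real.exp (σ * x)) := by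
  obtain ⟨C₁, hC₁⟩ := hE (σ / 2) (by linarith) (by linarith)
  obtain ⟨C₂, hC₂⟩ := hE ((σ + 1 / 2) / 2) (by linarith) (by linarith)
  have hm : AEStronglyMeasurable (fun x : ℝ => |E (Real.exp x)| * Real.exp (σ * x)) volume :=
    (hEm.abs.mul (by fun_prop)).aestronglyMeasurable
  rw [← integrableOn_univ, ← Set.Iic_union_Ioi (a := (0 : ℝ))]
  refine IntegrableOn.union ?_ ?_
  · refine ((integrableOn_exp_mul_Iic (half_pos h0) 0).const_mul C₁).mono' hm.restrict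
      (Filter.Eventually.of_forall fun x => ?_)
    rw [Real.norm_of_nonneg (by positivity)]
    refine (mul_le_mul_of_nonneg_right (hC₁ _ (Real.exp_pos x)) (Real.exp_pos _).le).trans
      (le_of_eq ?_)
    rw [← Real.exp_mul, mul_assoc, ← Real.exp_add]
    congr 2; ring
  · refine ((exp_neg_integrableOn_Ioi 0 (half_pos (sub_pos.2 h1))).const_mul C₂).mono' hm.restrict
      (Filter.Eventually.of_forall fun x => ?_)
    rw [Real.norm_of_nonneg (by positivity)]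
    refine (mul_le_mul_of_nonneg_right (hC₂ _ (Real.exp_pos x)) (Real.exp_pos _).le).trans
      (le_of_eq ?_)
    rw [← Real.exp_mul, mul_assoc, ← Real.exp_add]
    congr 2; ring

/-- Mellin transform of a finite combination of dilates of `E`, smoothed by a log-Gaussian. -/
theorem mel {E : ℝ → ℝ} (hEm : Measurable (fun x : ℝ => E (Real.exp x)))
    (hE : ErB E) {σ : ℝ} (h0 : 0 < σ)
    (h1 : σ < 1 / 2) (b : ℝ) : ∃ C : ℝ, 0 < C ∧ ∀ (L : (ℝ → ℂ) → ℂ) (M B : ℝ), FC L → 0 < M →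
      (∀ s : ℂ, s.re = σ → ‖L (fun y => (y : ℂ) ^ (-s))‖ ≤ B) →
      MeasureTheory.Integrable (fun v : ℝ =>
        L (fun y => (E (y * (M * Real.exp v)) : ℂ)) * (Real.exp (-v ^ 2 + b * v) : ℂ)) ∧
      ‖∫ v : ℝ, L (fun y => (E (y * (M * Real.exp v)) : ℂ)) * (Real.exp (-v ^ 2 + b * v) : ℂ)‖
        ≤ C * (M ^ (-σ) * B) := by
  obtain ⟨CE, hCE⟩ := hE σ h0 h1
  have hI := avg_mellin_int hEm hE h0 h1
  set cW : ℝ := 1 / (2 * Real.pi) * ∫ u : ℝ, ‖Wm (((-σ : ℝ) : ℂ) + u * Complex.I + (b : ℂ))‖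
    with hcW
  have hcW0 : 0 ≤ cW := mul_nonneg (by positivity) (integral_nonneg fun _ => norm_nonneg _)
  set I : ℝ := ∫ x : ℝ, |E (Real.exp x)| * Real.exp (σ * x) with hIdef
  have hI0 : 0 ≤ I := integral_nonneg fun _ => by positivity
  refine ⟨cW * I + 1, by positivity, fun L M B hL hM hB => ?_⟩
  obtain ⟨μ, hs, hL⟩ := hL
  have hB0 : 0 ≤ B := (norm_nonneg _).trans (hB σ (by simp))
  simp only [hL] at hB ⊢
  -- the shifted terms
  set F : ℝ → ℝ → ℂ := fun a x => (E (Real.exp x) : ℂ) * Wc (Real.exp x / a) b with hF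
  have hsh : ∀ y : ℝ, 0 < y → ∀ v : ℝ, F (y * M) (v + Real.log (y * M)) =
      (E (y * (M * Real.exp v)) : ℂ) * (Real.exp (-v ^ 2 + b * v) : ℂ) := by
    intro y hy v
    have ha := mul_pos hy hM
    simp only [hF]
    rw [Real.exp_add, Real.exp_log ha, mul_div_cancel_right₀ _ ha.ne', Wc, Real.log_exp,
      show Real.exp v * (y * M) = y * (M * Real.exp v) by ring]
    push_cast
    rfl
  have hint : ∀ y : ℝ, 0 < y → Integrable (fun v : ℝ =>
      (E (y * (M * Real.exp v)) : ℂ) * (Real.exp (-v ^ 2 + b * v) : ℂ)) := by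
    intro y hy
    have ha := mul_pos hy hM
    refine ((avg_gauss (b - σ)).const_mul (CE * (y * M) ^ (-σ))).mono' ?_
      (Filter.Eventually.of_forall fun v => ?_)
    · have : Measurable fun v : ℝ => E (y * (M * Real.exp v)) := by
        have := hEm.comp (measurable_add_const (Real.log (y * M)))
        refine (congrArg Measurable (funext fun v => ?_)).mp this
        simp only [Function.comp]
        rw [Real.exp_add, Real.exp_log ha]
        congr 1; ring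
      exact ((Complex.measurable_ofReal.comp this).mul (by fun_prop)).aestronglyMeasurable
    · rw [norm_mul, Complex.norm_real, Complex.norm_real, Real.norm_eq_abs,
        Real.norm_of_nonneg (Real.exp_pos _).le]
      refine (mul_le_mul_of_nonneg_right (hCE _ (by positivity)) (Real.exp_pos _).le).trans
        (le_of_eq ?_)
      rw [← mul_assoc y, Real.mul_rpow ha.le (Real.exp_pos _).le, ← Real.exp_mul, mul_assoc,
        mul_assoc, mul_assoc, ← Real.exp_add]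
      congr 3; ring
  have hint' : ∀ y : ℝ, 0 < y → Integrable (F (y * M)) := by
    intro y hy
    have := (hint y hy).comp_sub_right (Real.log (y * M))
    simp only [← hsh y hy, sub_add_cancel] at this
    exact this
  simp only [Finset.sum_mul, mul_assoc]
  refine ⟨integrable_finsetSum _ fun y hy => (hint y (hs y hy)).const_mul _, ?_⟩
  have e : ∫ v : ℝ, ∑ y ∈ μ.support, μ y *
      ((E (y * (M * Real.exp v)) : ℂ) * (Real.exp (-v ^ 2 + b * v) : ℂ)) =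
      ∫ x : ℝ, ∑ y ∈ μ.support, μ y * F (y * M) x := by
    rw [integral_finsetSum _ fun y hy => (hint y (hs y hy)).const_mul _,
      integral_finsetSum _ fun y hy => (hint' y (hs y hy)).const_mul _]
    refine Finset.sum_congr rfl fun y hy => ?_
    rw [integral_const_mul, integral_const_mul,
      ← integral_add_right_eq_self (F (y * M)) (Real.log (y * M))]
    simp only [hsh y (hs y hy)]
  rw [e]
  have hb : ‖∫ x : ℝ, ∑ y ∈ μ.support, μ y * F (y * M) x‖ ≤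
      ∫ x : ℝ, |E (Real.exp x)| * Real.exp (σ * x) * (cW * (M ^ (-σ) * B)) := by
    refine norm_integral_le_of_norm_le (hI.mul_const _) (Filter.Eventually.of_forall fun x => ?_)
    have e1 : ∑ y ∈ μ.support, μ y * F (y * M) x =
        (E (Real.exp x) : ℂ) * ∑ y ∈ μ.support, μ y * Wc (Real.exp x / M / y) b := by
      rw [Finset.mul_sum]
      refine Finset.sum_congr rfl fun y _ => ?_
      simp only [hF]
      rw [div_div, mul_comm M y]
      ring
    have e2 : (Real.exp x / M) ^ σ = Real.exp (σ * x) * M ^ (-σ) := by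
      rw [Real.div_rpow (Real.exp_pos x).le hM.le, Real.rpow_neg hM.le, ← Real.exp_mul,
        mul_comm x σ, div_eq_mul_inv]
    have := avg_kernel σ b μ.support μ hs (div_pos (Real.exp_pos x) hM) hB
    rw [e2, ← hcW] at this
    rw [e1, norm_mul, Complex.norm_real, Real.norm_eq_abs, mul_assoc]
    refine mul_le_mul_of_nonneg_left (this.trans (le_of_eq ?_)) (abs_nonneg _)
    ring
  rw [integral_mul_const, ← hIdef] at hb
  have : 0 ≤ M ^ (-σ) * B := mul_nonneg (Real.rpow_nonneg hM.le _) hB0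
  nlinarith

/-- An inequality valid at every scale `X` is averaged over `X = M e^v` with weight `e^{-v²}`. -/
theorem avg [LF] {E : ℝ → ℝ} (hEm : Measurable (fun x : ℝ => E (Real.exp x)))
    (hE : ErB E) {σ τ : ℝ} (hσ0 : 0 < σ)
    (hσ1 : σ < 1 / 2) (hτ0 : 0 < τ) (hτ1 : τ < 1 / 2) (A : ℝ) :
    ∃ C : ℝ, 0 < C ∧ ∀ (L₀ L₁ L₂ : (ℝ → ℂ) → ℂ) (M T D B₀ B₁ B₂ : ℝ), FC L₀ → FC L₁ → FC L₂ →
      0 < M → 0 ≤ D →
      (∀ s : ℂ, s.re = σ → ‖L₀ (fun y => (y : ℂ) ^ (-s))‖ ≤ B₀) →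
      (∀ s : ℂ, s.re = σ → ‖L₁ (fun y => (y : ℂ) ^ (-s))‖ ≤ B₁) →
      (∀ s : ℂ, s.re = τ → ‖L₂ (fun y => (y : ℂ) ^ (-s))‖ ≤ B₂) →
      (∀ X : ℝ, 0 < X → gw (M / X) * T ≤ D * (X / M + (X / M) ^ (-A)) +
        ((X : ℂ) * (L₁ (fun y => (E (y * X) : ℂ)) + L₂ (fun y => (E (y * X) : ℂ))) -
          L₀ (fun y => (E (y / X) : ℂ))).re) →
      T ≤ C * (D + M ^ σ * B₀ + M ^ (1 - σ) * B₁ + M ^ (1 - τ) * B₂) := by
  obtain ⟨C₀, hC₀, m₀⟩ := mel hEm hE hσ0 hσ1 0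
  obtain ⟨C₁, hC₁, m₁⟩ := mel hEm hE hσ0 hσ1 1
  obtain ⟨C₂, hC₂, m₂⟩ := mel hEm hE hτ0 hτ1 1
  have hgi : Integrable (fun v : ℝ => gw (Real.exp (-v)) * Real.exp (-v ^ 2 + 0 * v)) := by
    obtain ⟨Cg, -, hg⟩ := gw_le_rpow (A := 2) one_lt_two
    refine ((avg_gauss 2).const_mul Cg).mono' ?_ (Filter.Eventually.of_forall fun v => ?_)
    · have : Monotone fun v : ℝ => gw (Real.exp (-v)) := fun x y h =>
        gw_anti (Real.exp_pos _) (Real.exp_le_exp.2 (neg_le_neg h))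
      exact (this.measurable.mul (by fun_prop)).aestronglyMeasurable
    · rw [Real.norm_of_nonneg (mul_pos (gw_pos _) (Real.exp_pos _)).le]
      refine (mul_le_mul_of_nonneg_right (hg _ (Real.exp_pos _)) (Real.exp_pos _).le).trans
        (le_of_eq ?_)
      rw [← Real.exp_mul, mul_assoc, ← Real.exp_add]
      congr 2; ring
  set c : ℝ := ∫ v : ℝ, gw (Real.exp (-v)) * Real.exp (-v ^ 2 + 0 * v) with hc
  have hc0 : 0 < c := by
    have hp : ∀ v : ℝ, 0 < gw (Real.exp (-v)) * Real.exp (-v ^ 2 + 0 * v) := fun v =>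
      mul_pos (gw_pos _) (Real.exp_pos _)
    rw [hc, integral_pos_iff_support_of_nonneg (fun v => (hp v).le) hgi]
    rw [show Function.support (fun v : ℝ => gw (Real.exp (-v)) * Real.exp (-v ^ 2 + 0 * v)) =
      Set.univ from Set.eq_univ_of_forall fun v => (hp v).ne']
    simp
  set J : ℝ := ∫ v : ℝ, (Real.exp (-v ^ 2 + 1 * v) + Real.exp (-v ^ 2 + -A * v)) with hJ
  have hJ0 : 0 ≤ J := integral_nonneg fun _ => by positivity
  refine ⟨(J + C₀ + C₁ + C₂) / c, by positivity,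
    fun L₀ L₁ L₂ M T D B₀ B₁ B₂ f₀ f₁ f₂ hM hD b₀ b₁ b₂ H => ?_⟩
  have hB₀ : 0 ≤ B₀ := (norm_nonneg _).trans (b₀ σ (by simp))
  have hB₁ : 0 ≤ B₁ := (norm_nonneg _).trans (b₁ σ (by simp))
  have hB₂ : 0 ≤ B₂ := (norm_nonneg _).trans (b₂ τ (by simp))
  obtain ⟨i₀, n₀⟩ := m₀ L₀ M⁻¹ B₀ f₀ (inv_pos.2 hM) b₀
  obtain ⟨i₁, n₁⟩ := m₁ L₁ M B₁ f₁ hM b₁
  obtain ⟨i₂, n₂⟩ := m₂ L₂ M B₂ f₂ hM b₂
  set g₀ : ℝ → ℂ := fun v =>
    L₀ (fun y => (E (y * (M⁻¹ * Real.exp v)) : ℂ)) * (Real.exp (-v ^ 2 + 0 * v) : ℂ) with hg₀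
  set g₁ : ℝ → ℂ := fun v =>
    L₁ (fun y => (E (y * (M * Real.exp v)) : ℂ)) * (Real.exp (-v ^ 2 + 1 * v) : ℂ) with hg₁
  set g₂ : ℝ → ℂ := fun v =>
    L₂ (fun y => (E (y * (M * Real.exp v)) : ℂ)) * (Real.exp (-v ^ 2 + 1 * v) : ℂ) with hg₂
  have iZ : Integrable (fun v : ℝ => (M : ℂ) * (g₁ v + g₂ v) - g₀ (-v)) :=
    ((i₁.add i₂).const_mul _).sub i₀.comp_neg
  have iR : Integrable (fun v : ℝ => ((M : ℂ) * (g₁ v + g₂ v) - g₀ (-v)).re) := iZ.re
  have iJ : Integrable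
      (fun v : ℝ => Real.exp (-v ^ 2 + 1 * v) + Real.exp (-v ^ 2 + -A * v)) :=
    (avg_gauss 1).add (avg_gauss (-A))
  have key : ∫ v : ℝ, gw (Real.exp (-v)) * Real.exp (-v ^ 2 + 0 * v) * T ≤
      ∫ v : ℝ, (D * (Real.exp (-v ^ 2 + 1 * v) + Real.exp (-v ^ 2 + -A * v)) +
        ((M : ℂ) * (g₁ v + g₂ v) - g₀ (-v)).re) := by
    refine integral_mono (hgi.mul_const T) ((iJ.const_mul D).add iR) fun v => ?_
    have hv := mul_le_mul_of_nonneg_right (H (M * Real.exp v) (by positivity))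
      (Real.exp_pos (-v ^ 2)).le
    have e1 : M / (M * Real.exp v) = Real.exp (-v) := by
      rw [Real.exp_neg]; field_simp
    have e2 : M * Real.exp v / M = Real.exp v := by field_simp
    have e3 : ∀ y : ℝ, y / (M * Real.exp v) = y * (M⁻¹ * Real.exp (-v)) := fun y => by
      rw [Real.exp_neg]; field_simp
    have e4 : Real.exp (-v ^ 2 + 1 * v) = Real.exp v * Real.exp (-v ^ 2) := by
      rw [← Real.exp_add]; congr 1; ring
    have e5 : Real.exp (-v ^ 2 + -A * v) = Real.exp v ^ (-A) * Real.exp (-v ^ 2) := by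
      rw [← Real.exp_mul, ← Real.exp_add]; congr 1; ring
    have e6 : Real.exp (-(-v) ^ 2 + 0 * -v) = Real.exp (-v ^ 2) := by congr 1; ring
    have e7 : Real.exp (-v ^ 2 + 0 * v) = Real.exp (-v ^ 2) := by congr 1; ring
    simp only [e1, e2, e3] at hv
    have e8 : (M : ℂ) * (g₁ v + g₂ v) - g₀ (-v) =
        (((M * Real.exp v : ℝ) : ℂ) * (L₁ (fun y => (E (y * (M * Real.exp v)) : ℂ)) +
          L₂ (fun y => (E (y * (M * Real.exp v)) : ℂ))) -
          L₀ (fun y => (E (y * (M⁻¹ * Real.exp (-v))) : ℂ))) * (Real.exp (-v ^ 2) : ℂ) := by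
      simp only [hg₀, hg₁, hg₂, e4, e6]
      simp only [Complex.ofReal_mul]
      ring
    simp only
    rw [e8, Complex.re_mul_ofReal, e4, e5, e7]
    linarith
  rw [integral_mul_const, integral_add (iJ.const_mul D) iR, integral_const_mul, ← hc, ← hJ]
    at key
  have r1 : ∫ v : ℝ, ((M : ℂ) * (g₁ v + g₂ v) - g₀ (-v)).re =
      ((M : ℂ) * ((∫ v, g₁ v) + ∫ v, g₂ v) - ∫ v, g₀ v).re := by
    have i12 : Integrable (fun v : ℝ => (M : ℂ) * (g₁ v + g₂ v)) := (i₁.add i₂).const_mul _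
    rw [← integral_neg_eq_self g₀, ← integral_add i₁ i₂, ← integral_const_mul,
      ← integral_sub i12 i₀.comp_neg]
    exact integral_re iZ
  have r2 : ((M : ℂ) * ((∫ v, g₁ v) + ∫ v, g₂ v) - ∫ v, g₀ v).re ≤
      M * (C₁ * (M ^ (-σ) * B₁) + C₂ * (M ^ (-τ) * B₂)) + C₀ * (M⁻¹ ^ (-σ) * B₀) := by
    refine (Complex.re_le_norm _).trans ((norm_sub_le _ _).trans (add_le_add ?_ n₀))
    rw [norm_mul, Complex.norm_real, Real.norm_of_nonneg hM.le]
    exact mul_le_mul_of_nonneg_left ((norm_add_le _ _).trans (add_le_add n₁ n₂)) hM.le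
  have p0 : M⁻¹ ^ (-σ) = M ^ σ := by
    rw [Real.inv_rpow hM.le, Real.rpow_neg hM.le, inv_inv]
  have p1 : ∀ t : ℝ, M ^ (1 - t) = M * M ^ (-t) := fun t => by
    rw [sub_eq_add_neg, Real.rpow_add hM, Real.rpow_one]
  rw [p0] at r2
  rw [r1] at key
  rw [p1, p1, div_mul_eq_mul_div, le_div_iff₀ hc0]
  have q0 : 0 ≤ M ^ σ * B₀ := mul_nonneg (Real.rpow_nonneg hM.le _) hB₀
  have q1 : 0 ≤ M * M ^ (-σ) * B₁ := mul_nonneg (mul_nonneg hM.le (Real.rpow_nonneg hM.le _)) hB₁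
  have q2 : 0 ≤ M * M ^ (-τ) * B₂ := mul_nonneg (mul_nonneg hM.le (Real.rpow_nonneg hM.le _)) hB₂
  have : c * T ≤ J * D + C₀ * (M ^ σ * B₀) + C₁ * (M * M ^ (-σ) * B₁) +
      C₂ * (M * M ^ (-τ) * B₂) := by linarith
  generalize M ^ σ * B₀ = x₀ at *
  generalize M * M ^ (-σ) * B₁ = x₁ at *
  generalize M * M ^ (-τ) * B₂ = x₂ at *
  nlinarith [mul_nonneg hJ0 q0, mul_nonneg hJ0 q1, mul_nonneg hJ0 q2, mul_nonneg hC₀.le hD,
    mul_nonneg hC₀.le q1, mul_nonneg hC₀.le q2, mul_nonneg hC₁.le hD, mul_nonneg hC₁.le q0,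
    mul_nonneg hC₁.le q2, mul_nonneg hC₂.le hD, mul_nonneg hC₂.le q0, mul_nonneg hC₂.le q1]

end Crest.Agent.T27.LS
end
end

-- ▼ part T27/LS2Core_81
section

/-!
# Row 27, quadratic large sieve: the recursive step
-/

set_option autoImplicit false

noncomputable section

namespace Crest.Agent.T27.LS

open scoped ComplexConjugate
open Classical

variable [LF]

omit [LF] in
/-- The numerical facts on the parameters `P = (M N)^δ`, `V = N^{1/ξ} P`. -/
theorem core_params {ξ δ M N P V : ℝ} (h1 : 1 ≤ ξ) (h2 : ξ ≤ 2) (hδ0 : 0 < δ) (hδ1 : δ ≤ 1 / 4)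
    (hN : 1 ≤ N) (hM : N ^ (2 - 1 / ξ) ≤ M) (hP : P = (M * N) ^ δ) (hV : V = N ^ (1 / ξ) * P) :
    N ≤ M ∧ 1 ≤ P ∧ 1 ≤ V ∧ N ^ δ ≤ P ∧ M ^ δ ≤ P ∧ (V * N) ^ δ ≤ P ^ 3 ∧ V ^ ξ ≤ M * P ^ 2 ∧
      N ^ (2 * δ) ≤ P ^ 2 ∧ M ^ (1 - δ) ≤ M ∧
      M ^ (1 - (1 / 2 - δ)) * V ^ (ξ - (1 / 2 - δ)) ≤ M * P ^ 5 ∧
      N * ((M / N ^ 2) ^ (-(3 / δ)) * V ^ (1 - 3 / δ)) ≤ 1 := by
  have hN0 : 0 < N := by linarith
  set η := 1 / ξ with hη
  have hξ0 : 0 < ξ := by linarith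
  have hη1 : η ≤ 1 := by rw [hη, div_le_one hξ0]; exact h1
  have hη2 : 1 / 2 ≤ η := by rw [hη]; exact one_div_le_one_div_of_le hξ0 h2
  have hξη : ξ * η = 1 := by rw [hη]; field_simp
  have hM0 : 0 < M := lt_of_lt_of_le (Real.rpow_pos_of_pos hN0 _) hM
  obtain ⟨x, rfl⟩ : ∃ x, N = Real.exp x := ⟨Real.log N, (Real.exp_log hN0).symm⟩
  obtain ⟨y, rfl⟩ : ∃ y, M = Real.exp y := ⟨Real.log M, (Real.exp_log hM0).symm⟩
  have hx : 0 ≤ x := by rwa [Real.one_le_exp_iff] at hN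
  rw [← Real.exp_mul, Real.exp_le_exp] at hM
  have hxy : x ≤ y := by nlinarith
  have hy : 0 ≤ y := by linarith
  set p := (y + x) * δ with hp
  have hp0 : 0 ≤ p := by positivity
  have hp1 : p ≤ y + x := by nlinarith
  have hP' : P = Real.exp p := by rw [hP, ← Real.exp_add, ← Real.exp_mul]
  have hV' : V = Real.exp (x * η + p) := by rw [hV, hP', ← Real.exp_mul, ← Real.exp_add]
  subst hP' hV'
  have hxη : x * η ≤ x := by nlinarith
  have hxη0 : 0 ≤ x * η := by positivity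
  simp only [← Real.exp_mul, ← Real.exp_add, ← Real.exp_nat_mul, ← Real.exp_sub,
    Real.exp_le_exp, Real.one_le_exp_iff, Real.exp_le_one_iff, Nat.cast_ofNat]
  refine ⟨hxy, hp0, by linarith, by nlinarith, by nlinarith, by nlinarith, ?_, by nlinarith,
    by nlinarith, ?_, ?_⟩
  · have : (x * η + p) * ξ = x + p * ξ := by linear_combination x * hξη
    rw [this]; nlinarith
  · have e : (x * η + p) * (ξ - (1 / 2 - δ)) =
        x * (2 - η) / 2 + p * (ξ - 1 / 2) + (x * η + p) * δ := by linear_combination x * hξη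
    rw [e]
    have a1 : p * (ξ - 1 / 2) ≤ 2 * p := by nlinarith
    have a2 : (x * η + p) * δ ≤ 2 * p := by nlinarith
    have a3 : y * δ ≤ p := by nlinarith
    nlinarith
  · have hA : 0 < 3 / δ := by positivity
    have e : p * (3 / δ) = 3 * (y + x) := by rw [hp]; field_simp
    have a1 : 0 ≤ (y - 2 * x + x * η) * (3 / δ) := mul_nonneg (by nlinarith) hA.le
    nlinarith

theorem fc_origA (n₁ n₂ : O) {a : O} (ha : a ≠ 0) : FC (origA n₁ n₂ a) := by
  refine FC.const_mul (FC.sum _ fun D hD => FC.const_mul (FC.eval ?_) _) _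
  rw [Finset.mem_powerset] at hD
  have : 0 < nP D := nP_pos fun p hp => by
    rcases Finset.mem_union.1 (hD hp) with h | h <;> exact (pf_sub h).1.ne_zero
  have := nr_pos ha
  positivity

theorem fc_dualA (n₁ n₂ : O) {a : O} (ha : a ≠ 0) : FC (dualA n₁ n₂ a) := by
  refine FC.sum _ fun E hE => FC.const_mul (FC.sum _ fun D hD => FC.const_mul (FC.eval ?_) _) _
  rw [Finset.mem_powerset] at hD hE
  have h1 : 0 < nP D := nP_pos fun p hp => by
    rcases Finset.mem_union.1 (hD hp) with h | h <;> exact (pf_sub h).1.ne_zero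
  have h2 : 0 < nP (E.filter (· ∣ a)) := nP_pos fun p hp =>
    (pf_sub (Finset.mem_inter.1 (hE (Finset.mem_filter.1 hp).1)).1).1.ne_zero
  have h3 := nr_pos ha
  have h4 := nr_pos (prim_ne (primary_cof (pf n₁ ∩ pf n₂) n₁))
  have h5 := nr_pos (prim_ne (primary_cof (pf n₁ ∩ pf n₂) n₂))
  positivity

theorem summable_tail (V : ℝ) {Y : ℝ} (hY : 0 < Y) :
    Summable (fun h : Row => if V < nr (h : O) then gw (Y * nr (h : O)) else 0) := by
  refine Summable.of_nonneg_of_le (fun h => ?_) (fun h => ?_) (summable_gw hY)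
  · split_ifs
    · exact (gw_pos _).le
    · exact le_rfl
  · split_ifs
    · exact le_rfl
    · exact (gw_pos _).le

theorem tail_le {A : ℝ} (hA : 1 < A) : ∃ C : ℝ, 0 < C ∧ ∀ V Y : ℝ, 0 < V → 0 < Y →
    ∑' h : Row, (if V < nr (h : O) then gw (Y * nr (h : O)) else 0) ≤
      C * (Y ^ (-A) * V ^ (1 - A)) := by
  obtain ⟨C₁, hC₁, h₁⟩ := gw_le_rpow hA
  obtain ⟨C₂, hC₂, h₂⟩ := sum_row_tail hA
  refine ⟨C₁ * C₂, by positivity, fun V Y hV hY => ?_⟩
  refine (summable_tail V hY).tsum_le_of_sum_le fun s => ?_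
  rw [← Finset.sum_filter]
  calc ∑ h ∈ s.filter (fun h : Row => V < nr (h : O)), gw (Y * nr (h : O))
      ≤ ∑ h ∈ s.filter (fun h : Row => V < nr (h : O)), C₁ * Y ^ (-A) * nr (h : O) ^ (-A) := by
        refine Finset.sum_le_sum fun h hh => ?_
        have hh' : 0 < nr (h : O) := by linarith [(Finset.mem_filter.1 hh).2]
        rw [mul_assoc, ← Real.mul_rpow hY.le hh'.le]
        exact h₁ _ (by positivity)
    _ ≤ C₁ * Y ^ (-A) * (C₂ * V ^ (1 - A)) := by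
        rw [← Finset.mul_sum]
        exact mul_le_mul_of_nonneg_left (h₂ V _ hV fun h hh => (Finset.mem_filter.1 hh).2.le)
          (by positivity)
    _ = _ := by ring

theorem sum_le_tsum_row (T : Finset O) (hT : ∀ k ∈ T, Rep k) {r : O → ℝ} (h0 : ∀ k, 0 ≤ r k)
    (hs : Summable fun k : Row => r k) : ∑ k ∈ T, r k ≤ ∑' k : Row, r k := by
  rw [← Finset.sum_subtype_of_mem r hT]
  exact hs.sum_le_tsum _ fun k _ => h0 k

theorem sum_norm_mul_le (S : Finset O) (β : O → ℂ) :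
    ∑ n₁ ∈ S, ∑ n₂ ∈ S, ‖β n₁‖ * ‖β n₂‖ ≤ S.card * ∑ n ∈ S, ‖β n‖ ^ 2 := by
  rw [← Finset.sum_mul_sum, ← sq]
  exact sq_sum_le_card_mul_sum_sq

theorem normSq_expand (S : Finset O) (β : O → ℂ) (k : O) :
    ((‖∑ n ∈ S, β n * quad n k‖ ^ 2 : ℝ) : ℂ) =
      ∑ n₁ ∈ S, ∑ n₂ ∈ S, β n₁ * conj (β n₂) * (quad n₁ k * quad n₂ k) := by
  rw [← Complex.normSq_eq_norm_sq, ← Complex.mul_conj, map_sum, Finset.sum_mul_sum]
  refine Finset.sum_congr rfl fun n₁ _ => Finset.sum_congr rfl fun n₂ _ => ?_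
  rw [map_mul, conj_quad]; ring

theorem summable_pair (V : ℝ) {X : ℝ} (hX : 0 < X) (n₁ n₂ : O) :
    Summable (fun k : Row => if (k : O) ∈ PP V then (0 : ℂ) else
      (gw (nr (k : O) / X) : ℂ) * (quad n₁ k * quad n₂ k)) := by
  refine Summable.of_norm_bounded (summable_gw' hX) fun k => ?_
  split_ifs
  · rw [norm_zero]; exact (gw_pos _).le
  · rw [norm_mul, norm_mul, Complex.norm_real, Real.norm_of_nonneg (gw_pos _).le]
    exact mul_le_of_le_one_right (gw_pos _).le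
      (mul_le_one₀ (norm_quad_le _ _) (norm_nonneg _) (norm_quad_le _ _))

/-- The inequality at a fixed scale `X`. -/
theorem point (κ : ℝ) {M N V X w : ℝ} (hV : 0 ≤ V) (hM : 0 ≤ M) (hX : 0 < X) {S : Finset O}
    (hB : Blk N S) (hw0 : 0 ≤ w) (hw : ∀ n ∈ S, 2 ^ (pf n).card ≤ w) (β : O → ℂ) (hN : 0 < N) :
    gw (M / X) * (∑ k ∈ (sp M).filter (fun k => V < nr k),
        ‖∑ n ∈ S, β n * quad n k‖ ^ 2) ≤
      w * X * (gw 0 + S.card *
        ∑' h : Row, if V < nr (h : O) then gw (X / N ^ 2 * nr (h : O)) else 0) *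
        ∑ n ∈ S, ‖β n‖ ^ 2 +
      (∑ n₁ ∈ S, ∑ n₂ ∈ S, β n₁ * conj (β n₂) *
        ∑ a ∈ sqf V, ((X : ℂ) * dualA n₁ n₂ a (fun y => (Er κ (y * X) : ℂ)) -
          origA n₁ n₂ a (fun y => (Er κ (y / X) : ℂ)))).re := by
  set F : O → ℝ := fun k => ‖∑ n ∈ S, β n * quad n k‖ ^ 2 with hF
  set t : ℝ := ∑' h : Row, if V < nr (h : O) then gw (X / N ^ 2 * nr (h : O)) else 0 with ht
  set g : O → O → O → ℂ := fun n₁ n₂ k =>
    if k ∈ PP V then (0 : ℂ) else (gw (nr k / X) : ℂ) * (quad n₁ k * quad n₂ k) with hg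
  set m : O → O → ℂ := fun n₁ n₂ =>
    ∑ a ∈ sqf V, ((X : ℂ) * dualA n₁ n₂ a (fun y => (Er κ (y * X) : ℂ)) -
          origA n₁ n₂ a (fun y => (Er κ (y / X) : ℂ))) with hm
  set r : O → ℝ := fun k => if k ∈ PP V then 0 else gw (nr k / X) * F k with hr
  have hrC : ∀ k, (r k : ℂ) = ∑ n₁ ∈ S, ∑ n₂ ∈ S, β n₁ * conj (β n₂) * g n₁ n₂ k := by
    intro k
    simp only [hr, hg]
    split_ifs
    · simp
    · rw [Complex.ofReal_mul, hF, normSq_expand, Finset.mul_sum]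
      refine Finset.sum_congr rfl fun n₁ _ => ?_
      rw [Finset.mul_sum]
      exact Finset.sum_congr rfl fun n₂ _ => by ring
  have hs : ∀ n₁ n₂, Summable (fun k : Row => β n₁ * conj (β n₂) * g n₁ n₂ k) :=
    fun n₁ n₂ => (summable_pair V hX n₁ n₂).mul_left _
  have hsC : Summable (fun k : Row => (r k : ℂ)) := by
    simp only [hrC]
    exact summable_sum fun n₁ _ => summable_sum fun n₂ _ => hs n₁ n₂
  have hsr : Summable (fun k : Row => r k) := Complex.summable_ofReal.1 hsC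
  have hr0 : ∀ k, 0 ≤ r k := fun k => by
    simp only [hr, hF]
    split_ifs
    · exact le_rfl
    · exact mul_nonneg (gw_pos _).le (sq_nonneg _)
  have e1 : ((∑' k : Row, r k : ℝ) : ℂ) =
      ∑ n₁ ∈ S, ∑ n₂ ∈ S, β n₁ * conj (β n₂) * ∑' k : Row, g n₁ n₂ k := by
    rw [Complex.ofReal_tsum]
    simp only [hrC]
    rw [Summable.tsum_finsetSum fun n₁ _ => summable_sum fun n₂ _ => hs n₁ n₂]
    refine Finset.sum_congr rfl fun n₁ _ => ?_
    rw [Summable.tsum_finsetSum fun n₂ _ => hs n₁ n₂]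
    exact Finset.sum_congr rfl fun n₂ _ => tsum_mul_left
  have h1 : gw (M / X) * ∑ k ∈ (sp M).filter (fun k => V < nr k), F k ≤ ∑' k : Row, r k := by
    rw [Finset.mul_sum]
    refine le_trans (Finset.sum_le_sum fun k hk => ?_) (sum_le_tsum_row _ (fun k hk =>
      rep_of_prim ((mem_sp hM).1 (Finset.mem_filter.1 hk).1).1.1) hr0 hsr)
    obtain ⟨hk1, hk2⟩ := Finset.mem_filter.1 hk
    obtain ⟨hk3, hk4⟩ := (mem_sp hM).1 hk1
    simp only [hr]
    rw [if_neg (not_mem_PP_of_squarefree hV hk3.2 hk2)]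
    have := nr_pos (ne_zero_of_SP hk3)
    exact mul_le_mul_of_nonneg_right (gw_anti (by positivity) (by gcongr)) (sq_nonneg _)
  have ht0 : 0 ≤ t := tsum_nonneg fun h => by
    split_ifs
    · exact (gw_pos _).le
    · exact le_rfl
  have hg0 := gw_pos 0
  have h2 : ∀ n₁ ∈ S, ∀ n₂ ∈ S, ‖β n₁ * conj (β n₂) * ((∑' k : Row, g n₁ n₂ k) - m n₁ n₂)‖ ≤
      w * X * ((if n₁ = n₂ then gw 0 * ‖β n₁‖ ^ 2 else 0) + t * (‖β n₁‖ * ‖β n₂‖)) := by
    intro n₁ h₁ n₂ h₂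
    have hp := pair_est κ V hX (hB.1 n₁ h₁).1 (hB.1 n₂ h₂).1 (hB.2 n₁ h₁ n₂ h₂)
    have a1 := nr_pos (ne_zero_of_SP (hB.1 n₁ h₁).1)
    have a2 := nr_pos (ne_zero_of_SP (hB.1 n₂ h₂).1)
    have ht' : (∑' h : Row, if V < nr (h : O) then gw (X * nr (h : O) / (nr n₁ * nr n₂)) else 0)
        ≤ t := by
      simp only [mul_div_right_comm X]
      refine Summable.tsum_le_tsum (fun h => ?_) (summable_tail V (by positivity))
        (summable_tail V (by positivity))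
      split_ifs with hh
      · have a3 : 0 < nr (h : O) := by linarith
        refine gw_anti (by positivity) ?_
        have : nr n₁ * nr n₂ ≤ N ^ 2 := by
          rw [sq]; exact mul_le_mul (hB.1 n₁ h₁).2.2 (hB.1 n₂ h₂).2.2 a2.le hN.le
        gcongr
      · exact le_rfl
    rw [norm_mul, norm_mul, Complex.norm_conj]
    have hp' : ‖(∑' k : Row, g n₁ n₂ k) - m n₁ n₂‖ ≤
        w * X * ((if n₁ = n₂ then gw 0 else 0) + t) := by
      refine hp.trans ?_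
      have : (0 : ℝ) ≤ if n₁ = n₂ then gw 0 else 0 := by split_ifs <;> linarith
      have := hw n₁ h₁
      have : 0 ≤ ∑' h : Row,
          if V < nr (h : O) then gw (X * nr (h : O) / (nr n₁ * nr n₂)) else 0 :=
        tsum_nonneg fun h => by
          split_ifs
          · exact (gw_pos _).le
          · exact le_rfl
      gcongr
    refine (mul_le_mul_of_nonneg_left hp' (by positivity)).trans (le_of_eq ?_)
    split_ifs with h
    · subst h; ring
    · ring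
  have h3 : ‖∑ n₁ ∈ S, ∑ n₂ ∈ S, β n₁ * conj (β n₂) * ((∑' k : Row, g n₁ n₂ k) - m n₁ n₂)‖ ≤
      w * X * (gw 0 + S.card * t) * ∑ n ∈ S, ‖β n‖ ^ 2 := by
    refine (norm_sum_le _ _).trans ?_
    refine (Finset.sum_le_sum fun n₁ h₁ => (norm_sum_le _ _).trans
      (Finset.sum_le_sum fun n₂ h₂ => h2 n₁ h₁ n₂ h₂)).trans ?_
    simp only [← Finset.mul_sum, Finset.sum_add_distrib]
    rw [mul_assoc (w * X)]
    refine mul_le_mul_of_nonneg_left ?_ (by positivity)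
    have a1 : ∑ n₁ ∈ S, ∑ n₂ ∈ S, (if n₁ = n₂ then gw 0 * ‖β n₁‖ ^ 2 else 0) =
        gw 0 * ∑ n ∈ S, ‖β n‖ ^ 2 := by
      rw [Finset.mul_sum]
      exact Finset.sum_congr rfl fun n hn => by rw [Finset.sum_ite_eq, if_pos hn]
    have a2 := sum_norm_mul_le S β
    simp only [← Finset.mul_sum] at a2
    rw [a1]
    nlinarith
  have e2 : (∑' k : Row, r k : ℝ) = (∑ n₁ ∈ S, ∑ n₂ ∈ S, β n₁ * conj (β n₂) *
      ((∑' k : Row, g n₁ n₂ k) - m n₁ n₂)).re +
      (∑ n₁ ∈ S, ∑ n₂ ∈ S, β n₁ * conj (β n₂) * m n₁ n₂).re := by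
    rw [← Complex.add_re, ← Complex.ofReal_re (∑' k : Row, r k), e1]
    congr 1
    simp only [← Finset.sum_add_distrib]
    refine Finset.sum_congr rfl fun n₁ _ => Finset.sum_congr rfl fun n₂ _ => ?_
    ring
  have h4 := (Complex.re_le_norm _).trans h3
  linarith

/-- Rows of small norm. -/
theorem small_rows {ξ M N V D : ℝ} (hξ : 0 ≤ ξ) (hV : 0 ≤ V) (hM : 0 ≤ M) (hN : 1 ≤ N)
    (hS : Sieve ξ V N D) {S : Finset O} (hB : Blk N S) (β : O → ℂ) :
    ∑ k ∈ (sp M).filter (fun k => ¬ V < nr k), ‖∑ n ∈ S, β n * quad n k‖ ^ 2 ≤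
      (N + V ^ ξ) * (D * ∑ n ∈ S, ‖β n‖ ^ 2) := by
  have h := hS N hN le_rfl S id β (Set.injOn_id _) fun i hi => ⟨(hB.1 i hi).1, (hB.1 i hi).2.2⟩
  have hp : 0 ≤ N + V ^ ξ := by positivity
  refine le_trans ?_ (mul_le_mul_of_nonneg_left h hp)
  rw [Finset.mul_sum]
  have hsub : (sp M).filter (fun k => ¬ V < nr k) ⊆ sqf V := fun k hk => by
    obtain ⟨h1, h2⟩ := Finset.mem_filter.1 hk
    exact (mem_sqf hV).2 ⟨⟨rep_of_prim ((mem_sp hM).1 h1).1.1, ((mem_sp hM).1 h1).1.2⟩,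
      not_lt.1 h2⟩
  refine le_trans (Finset.sum_le_sum_of_subset_of_nonneg hsub fun _ _ _ => sq_nonneg _)
    (Finset.sum_le_sum fun a ha => ?_)
  have h1 : 0 < N + nr a ^ ξ := by positivity
  have h2 : nr a ^ ξ ≤ V ^ ξ := Real.rpow_le_rpow (Nat.cast_nonneg _) ((mem_sqf hV).1 ha).2 hξ
  rw [← mul_div_assoc, le_div_iff₀ h1, mul_comm]
  exact mul_le_mul_of_nonneg_right (by linarith) (sq_nonneg _)

set_option maxHeartbeats 1000000 in
theorem Core_of_LSw {ξ : ℝ} (h1 : 1 ≤ ξ) (h2 : ξ ≤ 2) (h : LSw ξ) : Core (2 - 1 / ξ) := by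
  intro ε hε
  set δ : ℝ := min (ε / 13) (1 / 4) with hδ
  have hδ0 : 0 < δ := lt_min (by positivity) (by norm_num)
  have hδ1 : δ ≤ 1 / 4 := min_le_right _ _
  have hδ2 : δ ≤ ε / 13 := min_le_left _ _
  have hA : 1 < 3 / δ := by rw [lt_div_iff₀ hδ0]; linarith
  obtain ⟨κ, hE⟩ := exists_Er
  obtain ⟨C₁, hC₁, hS⟩ := h δ hδ0
  obtain ⟨C₂, hC₂, hw⟩ := pow_card_pf_le hδ0 2
  obtain ⟨C₃, hC₃, hav⟩ := avg (measurable_Er κ) hE (σ := δ) (τ := 1 / 2 - δ) hδ0 (by linarith)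
    (by linarith) (by linarith) (3 / δ - 1)
  obtain ⟨C₄, hC₄, htail⟩ := tail_le hA
  obtain ⟨c, hc, hcd⟩ := exists_card_le
  have hg0 := gw_pos 0
  refine ⟨2 * C₁ + C₃ * (C₂ * (gw 0 + c * C₄) + 8 * C₁ * C₂ ^ 5), by positivity,
    fun M N S β hN hM hB => ?_⟩
  obtain ⟨p1, p2, p3, p4, p5, p6, p7, p8, p9, p10, p11⟩ :=
    core_params h1 h2 hδ0 hδ1 hN hM rfl rfl
  set P : ℝ := (M * N) ^ δ with hP
  set V : ℝ := N ^ (1 / ξ) * P with hV
  have hN0 : 0 < N := by linarith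
  have hM0 : 0 < M := by linarith
  have hV0 : 0 < V := by linarith
  have hP0 : 0 < P := by linarith
  set B : ℝ := ∑ n ∈ S, ‖β n‖ ^ 2 with hBdef
  have hB0 : 0 ≤ B := Finset.sum_nonneg fun _ _ => sq_nonneg _
  set D : ℝ := C₁ * (V * N) ^ δ with hD
  have hD0 : 0 ≤ D := by positivity
  have hD1 : D ≤ C₁ * P ^ 3 := mul_le_mul_of_nonneg_left p6 hC₁.le
  have hSv : Sieve ξ V N D := hS V N p3 hN
  set w : ℝ := C₂ * P with hwdef
  have hw0 : 0 ≤ w := by positivity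
  have hw' : ∀ n ∈ S, 2 ^ (pf n).card ≤ w := fun n hn =>
    (hw n (ne_zero_of_SP (hB.1 n hn).1)).trans (mul_le_mul_of_nonneg_left
      ((Real.rpow_le_rpow (Nat.cast_nonneg _) (hB.1 n hn).2.2 hδ0.le).trans p4) hC₂.le)
  have hcard : (S.card : ℝ) ≤ c * N := hcd N S hN0.le fun n hn =>
    ⟨rep_of_prim (hB.1 n hn).1.1, ne_zero_of_SP (hB.1 n hn).1, (hB.1 n hn).2.2⟩
  have hNV : N + V ^ ξ ≤ 2 * M * P ^ 2 := by nlinarith [one_le_pow₀ (n := 2) p2]
  have hbig := hav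
    (fun f => ∑ n₁ ∈ S, ∑ n₂ ∈ S, β n₁ * conj (β n₂) * ∑ a ∈ sqf V, origA n₁ n₂ a f)
    (fun f => ∑ n₁ ∈ S, ∑ n₂ ∈ S, β n₁ * conj (β n₂) *
      ∑ a ∈ (sqf V).filter (fun a => nr a ^ ξ ≤ N / nP (pf n₁ ∩ pf n₂)), dualA n₁ n₂ a f)
    (fun f => ∑ n₁ ∈ S, ∑ n₂ ∈ S, β n₁ * conj (β n₂) *
      ∑ a ∈ (sqf V).filter (fun a => ¬ nr a ^ ξ ≤ N / nP (pf n₁ ∩ pf n₂)), dualA n₁ n₂ a f)
    M (∑ k ∈ (sp M).filter (fun k => V < nr k), ‖∑ n ∈ S, β n * quad n k‖ ^ 2)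
    (w * M * (gw 0 + c * C₄) * B) (w ^ 5 * (N + V ^ ξ) * D * B)
    (4 * w ^ 5 * N ^ (2 * δ) * D * B) (2 * w ^ 5 * V ^ (ξ - (1 / 2 - δ)) * D * B)
    (FC.sum _ fun n₁ _ => FC.sum _ fun n₂ _ => FC.const_mul
      (FC.sum _ fun a ha => fc_origA n₁ n₂ (ne_zero_of_mem_sqf ha)) _)
    (FC.sum _ fun n₁ _ => FC.sum _ fun n₂ _ => FC.const_mul
      (FC.sum _ fun a ha => fc_dualA n₁ n₂ (ne_zero_of_mem_sqf (Finset.mem_filter.1 ha).1)) _)
    (FC.sum _ fun n₁ _ => FC.sum _ fun n₂ _ => FC.const_mul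
      (FC.sum _ fun a ha => fc_dualA n₁ n₂ (ne_zero_of_mem_sqf (Finset.mem_filter.1 ha).1)) _)
    hM0 (by positivity)
    (fun s hs => bnd_orig (by linarith) p3 hSv hD0 hB hw' β (by linarith))
    (fun s hs => by
      have := bnd_lo p3 hSv hD0 hB hw' β (s := s) (by linarith) (by linarith)
      rwa [hs] at this)
    (fun s hs => by
      have := bnd_hi h1 p3 hSv hD0 hB hw' β (s := s) (by linarith) (by linarith)
      rwa [hs] at this)
    (fun X hX => by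
      refine (point κ hV0.le hM0.le hX hB hw0 hw' β hN0).trans (add_le_add ?_ (le_of_eq ?_))
      · have t1 := htail V (X / N ^ 2) hV0 (by positivity)
        have hu : 0 < X / M := by positivity
        have t2 : X / M * (X / N ^ 2) ^ (-(3 / δ)) =
            (X / M) ^ (-(3 / δ - 1)) * (M / N ^ 2) ^ (-(3 / δ)) := by
          have e : X / N ^ 2 = X / M * (M / N ^ 2) := by field_simp
          rw [e, Real.mul_rpow hu.le (by positivity), ← mul_assoc,
            show -(3 / δ - 1) = 1 + -(3 / δ) by ring, Real.rpow_add hu, Real.rpow_one]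
        have hv : 0 < (X / M) ^ (-(3 / δ - 1)) := by positivity
        set t : ℝ := ∑' h : Row, if V < nr (h : O) then gw (X / N ^ 2 * nr (h : O)) else 0
          with ht
        have t3 : X / M * (S.card * t) ≤ c * C₄ * (X / M) ^ (-(3 / δ - 1)) := by
          have t0 : 0 ≤ t :=
            tsum_nonneg fun h => by
              split_ifs
              · exact (gw_pos _).le
              · exact le_rfl
          calc _ ≤ X / M * (c * N * (C₄ * ((X / N ^ 2) ^ (-(3 / δ)) * V ^ (1 - 3 / δ)))) := by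
                gcongr
            _ = c * C₄ * (X / M * (X / N ^ 2) ^ (-(3 / δ))) * (N * V ^ (1 - 3 / δ)) := by ring
            _ = c * C₄ * (X / M) ^ (-(3 / δ - 1)) *
                (N * ((M / N ^ 2) ^ (-(3 / δ)) * V ^ (1 - 3 / δ))) := by rw [t2]; ring
            _ ≤ _ := mul_le_of_le_one_right (by positivity) p11
        have t4 : w * X * (gw 0 + S.card * t) * B =
            w * M * B * (gw 0 * (X / M) + X / M * (S.card * t)) := by
          field_simp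
        rw [t4]
        have t5 : w * M * (gw 0 + c * C₄) * B * (X / M + (X / M) ^ (-(3 / δ - 1))) =
            w * M * B * ((gw 0 + c * C₄) * (X / M + (X / M) ^ (-(3 / δ - 1)))) := by ring
        rw [t5]
        refine mul_le_mul_of_nonneg_left ?_ (by positivity)
        have a1 := mul_pos (mul_pos hc hC₄) hu
        have a2 := mul_pos hg0 hv
        have a3 : (gw 0 + c * C₄) * (X / M + (X / M) ^ (-(3 / δ - 1))) =
            gw 0 * (X / M) + gw 0 * (X / M) ^ (-(3 / δ - 1)) + c * C₄ * (X / M) +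
              c * C₄ * (X / M) ^ (-(3 / δ - 1)) := by ring
        rw [a3]
        linarith
      · congr 1
        simp only [← Finset.sum_add_distrib, ← mul_add, Finset.sum_filter_add_sum_filter_not,
          Finset.mul_sum, ← Finset.sum_sub_distrib]
        refine Finset.sum_congr rfl fun n₁ _ => Finset.sum_congr rfl fun n₂ _ =>
          Finset.sum_congr rfl fun a _ => by ring)
  have hsmall := small_rows (by linarith) hV0.le hM0.le hN hSv hB β
  rw [← Finset.sum_filter_add_sum_filter_not (sp M) (fun k => V < nr k)]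
  have hP13 : P ^ 13 ≤ (M * N) ^ ε := by
    rw [hP, ← Real.rpow_natCast, ← Real.rpow_mul (by positivity)]
    exact Real.rpow_le_rpow_of_exponent_le (by nlinarith) (by push_cast; linarith)
  have hpow : ∀ k ≤ 13, P ^ k ≤ (M * N) ^ ε := fun k hk =>
    (pow_le_pow_right₀ p2 hk).trans hP13
  set R : ℝ := (M * N) ^ ε with hR
  have b0 : (N + V ^ ξ) * (D * B) ≤ 2 * C₁ * (R * M * B) := by
    calc _ ≤ 2 * M * P ^ 2 * (C₁ * P ^ 3 * B) := by gcongr
      _ = 2 * C₁ * (P ^ 5 * M * B) := by ring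
      _ ≤ _ := by gcongr; exact hpow 5 (by norm_num)
  have b1 : w * M * (gw 0 + c * C₄) * B ≤ C₂ * (gw 0 + c * C₄) * (R * M * B) := by
    calc _ = C₂ * (gw 0 + c * C₄) * (P ^ 1 * M * B) := by rw [hwdef]; ring
      _ ≤ _ := by gcongr; exact hpow 1 (by norm_num)
  have b2 : M ^ δ * (w ^ 5 * (N + V ^ ξ) * D * B) ≤ 2 * C₁ * C₂ ^ 5 * (R * M * B) := by
    calc _ ≤ P * (w ^ 5 * (2 * M * P ^ 2) * (C₁ * P ^ 3) * B) := by gcongr
      _ = 2 * C₁ * C₂ ^ 5 * (P ^ 11 * M * B) := by rw [hwdef]; ring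
      _ ≤ _ := by gcongr; exact hpow 11 (by norm_num)
  have b3 : M ^ (1 - δ) * (4 * w ^ 5 * N ^ (2 * δ) * D * B) ≤
      4 * C₁ * C₂ ^ 5 * (R * M * B) := by
    calc _ ≤ M * (4 * w ^ 5 * P ^ 2 * (C₁ * P ^ 3) * B) := by gcongr
      _ = 4 * C₁ * C₂ ^ 5 * (P ^ 10 * M * B) := by rw [hwdef]; ring
      _ ≤ _ := by gcongr; exact hpow 10 (by norm_num)
  have b4 : M ^ (1 - (1 / 2 - δ)) * (2 * w ^ 5 * V ^ (ξ - (1 / 2 - δ)) * D * B) ≤
      2 * C₁ * C₂ ^ 5 * (R * M * B) := by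
    calc _ = 2 * w ^ 5 * (M ^ (1 - (1 / 2 - δ)) * V ^ (ξ - (1 / 2 - δ))) * D * B := by ring
      _ ≤ 2 * w ^ 5 * (M * P ^ 5) * (C₁ * P ^ 3) * B := by gcongr
      _ = 2 * C₁ * C₂ ^ 5 * (P ^ 13 * M * B) := by rw [hwdef]; ring
      _ ≤ _ := by gcongr
  have hT : 0 ≤ ∑ k ∈ (sp M).filter (fun k => V < nr k), ‖∑ n ∈ S, β n * quad n k‖ ^ 2 :=
    Finset.sum_nonneg fun _ _ => sq_nonneg _
  have b5 := hbig.trans (mul_le_mul_of_nonneg_left
    (add_le_add (add_le_add (add_le_add b1 b2) b3) b4) hC₃.le)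
  have b6 := hsmall.trans b0
  nlinarith

/-- The trivial large sieve: one Poisson summation. -/
theorem Core_two : Core 2 := by
  intro ε hε
  set δ : ℝ := ε / 2 with hδ
  have hδ0 : 0 < δ := by positivity
  have hA : 1 < 1 / δ + 1 := by
    have : 0 < 1 / δ := by positivity
    linarith
  obtain ⟨C₂, hC₂, hw⟩ := pow_card_pf_le hδ0 2
  obtain ⟨C₄, hC₄, htail⟩ := tail_le hA
  obtain ⟨c, hc, hcd⟩ := exists_card_le
  have hg0 := gw_pos 0
  have hg1 := gw_pos 1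
  set Q : ℝ := (1 / 2 : ℝ) ^ (1 - (1 / δ + 1)) with hQ
  have hQ0 : 0 < Q := by positivity
  refine ⟨(gw 1)⁻¹ * (C₂ * (gw 0 + c * C₄ * Q)), by positivity, fun M N S β hN hM hB => ?_⟩
  rw [Real.rpow_two] at hM
  have hN0 : 0 < N := by linarith
  have hNM : N ≤ M := by nlinarith
  have hM0 : 0 < M := by linarith
  have hMN : 1 ≤ M * N := by nlinarith
  set P : ℝ := (M * N) ^ δ with hP
  have hP1 : 1 ≤ P := Real.one_le_rpow hMN hδ0.le
  have hP0 : 0 < P := by linarith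
  set B : ℝ := ∑ n ∈ S, ‖β n‖ ^ 2 with hBdef
  have hB0 : 0 ≤ B := Finset.sum_nonneg fun _ _ => sq_nonneg _
  have hw' : ∀ n ∈ S, 2 ^ (pf n).card ≤ C₂ * P := fun n hn =>
    (hw n (ne_zero_of_SP (hB.1 n hn).1)).trans (mul_le_mul_of_nonneg_left
      (Real.rpow_le_rpow (Nat.cast_nonneg _) ((hB.1 n hn).2.2.trans (by nlinarith)) hδ0.le) hC₂.le)
  have hcard : (S.card : ℝ) ≤ c * N := hcd N S hN0.le fun n hn =>
    ⟨rep_of_prim (hB.1 n hn).1.1, ne_zero_of_SP (hB.1 n hn).1, (hB.1 n hn).2.2⟩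
  have h1 := point 0 (V := 1 / 2) (X := M * P) (by norm_num) hM0.le (by positivity) hB
    (by positivity) hw' β hN0
  have e1 : sqf (1 / 2) = ∅ := Finset.eq_empty_of_forall_notMem fun a ha => by
    have := ((mem_sqf (by norm_num)).1 ha).2
    linarith [one_le_nr (ne_zero_of_mem_sqf ha)]
  have e2 : (sp M).filter (fun k => 1 / 2 < nr k) = sp M := Finset.filter_true_of_mem fun k hk => by
    linarith [one_le_nr (ne_zero_of_SP ((mem_sp hM0.le).1 hk).1)]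
  rw [e1, e2] at h1
  simp only [Finset.sum_empty, mul_zero, Finset.sum_const_zero, Complex.zero_re, add_zero] at h1
  have t1 := htail (1 / 2) (M * P / N ^ 2) (by norm_num) (by positivity)
  set t : ℝ := ∑' h : Row, if 1 / 2 < nr (h : O) then gw (M * P / N ^ 2 * nr (h : O)) else 0
    with ht
  have t2 : (M * P / N ^ 2) ^ (-(1 / δ + 1)) ≤ N⁻¹ := by
    have a1 : P ≤ M * P / N ^ 2 := by
      rw [le_div_iff₀ (by positivity)]; nlinarith
    have a2 : 0 < 1 / δ := by positivity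
    calc _ ≤ P ^ (-(1 / δ + 1)) := Real.rpow_le_rpow_of_nonpos hP0 a1 (by linarith)
      _ ≤ P ^ (-(1 / δ)) := Real.rpow_le_rpow_of_exponent_le hP1 (by linarith)
      _ = (M * N)⁻¹ := by
          rw [hP, ← Real.rpow_mul (by linarith), mul_neg, mul_one_div_cancel hδ0.ne',
            Real.rpow_neg_one]
      _ ≤ N⁻¹ := inv_anti₀ hN0 (by nlinarith)
  have t3 : (S.card : ℝ) * t ≤ c * C₄ * Q := by
    have t0 : 0 ≤ t := tsum_nonneg fun h => by
      split_ifs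
      · exact (gw_pos _).le
      · exact le_rfl
    calc _ ≤ c * N * (C₄ * (N⁻¹ * Q)) := by
          refine mul_le_mul hcard (t1.trans ?_) t0 (by positivity)
          gcongr
      _ = _ := by field_simp
  have h2 : gw 1 ≤ gw (M / (M * P)) := gw_anti (by positivity) (by
    rw [div_le_one (by positivity)]; nlinarith)
  have h3 : (M * N) ^ ε = P * P := by
    rw [hP, ← Real.rpow_add (by linarith), hδ, add_halves]
  have hT : 0 ≤ ∑ k ∈ sp M, ‖∑ n ∈ S, β n * quad n k‖ ^ 2 :=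
    Finset.sum_nonneg fun _ _ => sq_nonneg _
  have h4 : gw 1 * ∑ k ∈ sp M, ‖∑ n ∈ S, β n * quad n k‖ ^ 2 ≤
      C₂ * P * (M * P) * (gw 0 + c * C₄ * Q) * B :=
    (mul_le_mul_of_nonneg_right h2 hT).trans (h1.trans (by gcongr))
  rw [← le_inv_mul_iff₀ hg1] at h4
  refine h4.trans (le_of_eq ?_)
  rw [h3]; ring

end Crest.Agent.T27.LS
end
end

-- ▼ part T27/LS2Dual_81
section

/-!
# Row 27, quadratic large sieve: duality and reciprocity
-/

set_option autoImplicit false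

noncomputable section

namespace Crest.Agent.T27.LS

open scoped ComplexConjugate
open Classical

variable [LF]

omit [LF] in
/-- The duality principle. -/
theorem duality {α β : Type*} (S : Finset α) (T : Finset β) (φ : α → β → ℂ) {B : ℝ} (hB : 0 ≤ B)
    (h : ∀ x : β → ℂ, ∑ a ∈ S, ‖∑ b ∈ T, x b * φ a b‖ ^ 2 ≤ B * ∑ b ∈ T, ‖x b‖ ^ 2)
    (y : α → ℂ) : ∑ b ∈ T, ‖∑ a ∈ S, y a * φ a b‖ ^ 2 ≤ B * ∑ a ∈ S, ‖y a‖ ^ 2 := by
  set u : β → ℂ := fun b => ∑ a ∈ S, y a * φ a b with hu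
  set U : ℝ := ∑ b ∈ T, ‖u b‖ ^ 2 with hU
  set Y : ℝ := ∑ a ∈ S, ‖y a‖ ^ 2 with hY
  have hU0 : 0 ≤ U := Finset.sum_nonneg fun _ _ => sq_nonneg _
  have hY0 : 0 ≤ Y := Finset.sum_nonneg fun _ _ => sq_nonneg _
  have h1 : (U : ℂ) = ∑ a ∈ S, y a * ∑ b ∈ T, conj (u b) * φ a b := by
    have : (U : ℂ) = ∑ b ∈ T, conj (u b) * u b := by
      rw [hU]; push_cast
      exact Finset.sum_congr rfl fun b _ => (Complex.conj_mul' (u b)).symm
    rw [this]
    simp only [Finset.mul_sum]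
    rw [Finset.sum_comm]
    refine Finset.sum_congr rfl fun b _ => ?_
    conv_lhs => rw [hu]
    simp only [Finset.mul_sum]
    exact Finset.sum_congr rfl fun a _ => by ring
  have h2 : U ≤ ∑ a ∈ S, ‖y a‖ * ‖∑ b ∈ T, conj (u b) * φ a b‖ := by
    have : U = ‖(U : ℂ)‖ := by rw [Complex.norm_real, Real.norm_of_nonneg hU0]
    rw [this, h1]
    refine (norm_sum_le _ _).trans (le_of_eq ?_)
    exact Finset.sum_congr rfl fun a _ => norm_mul _ _
  have h3 : U ^ 2 ≤ Y * (B * U) := by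
    refine (pow_le_pow_left₀ hU0 h2 2).trans ((Finset.sum_mul_sq_le_sq_mul_sq _ _ _).trans ?_)
    refine mul_le_mul_of_nonneg_left ((h fun b => conj (u b)).trans (le_of_eq ?_)) hY0
    simp only [Complex.norm_conj, hU]
  rcases hU0.eq_or_lt with h0 | h0
  · rw [← h0]; positivity
  · nlinarith

omit [LF] in
/-- Splitting a sum into `s.card` pieces according to a colouring. -/
theorem norm_sum_sq_le_fiber {α κ : Type*} (T : Finset α) (s : Finset κ) (g : α → κ)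
    (hg : ∀ b ∈ T, g b ∈ s) (x : α → ℂ) :
    ‖∑ b ∈ T, x b‖ ^ 2 ≤ s.card * ∑ j ∈ s, ‖∑ b ∈ T.filter (fun b => g b = j), x b‖ ^ 2 := by
  rw [← Finset.sum_fiberwise_of_maps_to hg x]
  exact (pow_le_pow_left₀ (norm_nonneg _) (norm_sum_le _ _) 2).trans sq_sum_le_card_mul_sum_sq

theorem Dual_SP_of_mem {n : O} {X : ℝ} (h : n ∈ sp X) : SP n := by
  rw [sp, Finset.mem_filter] at h
  exact h.2

/-- On one class, the symbol can be flipped. -/
theorem Dual_flip {n : O} (hn : SP n) (T : Finset O) (hT : ∀ k ∈ T, SP k) {j : Cl}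
    (h4 : ∀ k ∈ T, cls k = j) (x : O → ℂ) :
    ‖∑ k ∈ T, x k * quad n k‖ ≤ ‖∑ k ∈ T, x k * quad k n‖ := by
  have : ∑ k ∈ T, x k * quad n k = Rs (cls n) j * ∑ k ∈ T, x k * quad k n := by
    rw [Finset.mul_sum]
    refine Finset.sum_congr rfl fun k hk => ?_
    rw [LF.recip n k hn.1 (hT k hk).1, h4 k hk]
    ring
  rw [this, norm_mul]
  exact mul_le_of_le_one_left (norm_nonneg _) (LF.norm_Rs _ _)

/-- Flipping the symbol in a large sieve inequality. -/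
theorem flip_sieve {S T : Finset O} (hS : ∀ n ∈ S, SP n) (hT : ∀ k ∈ T, SP k) {B : ℝ}
    (h : ∀ x : O → ℂ, ∑ n ∈ S, ‖∑ k ∈ T, x k * quad k n‖ ^ 2 ≤ B * ∑ k ∈ T, ‖x k‖ ^ 2)
    (x : O → ℂ) : ∑ n ∈ S, ‖∑ k ∈ T, x k * quad n k‖ ^ 2 ≤
      Fintype.card Cl * B * ∑ k ∈ T, ‖x k‖ ^ 2 := by
  have hmap : ∀ k ∈ T, cls k ∈ (Finset.univ : Finset Cl) := fun k _ => Finset.mem_univ _
  have hj : ∀ j : Cl, ∑ n ∈ S, ‖∑ k ∈ T.filter (fun k => cls k = j), x k * quad n k‖ ^ 2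
      ≤ B * ∑ k ∈ T.filter (fun k => cls k = j), ‖x k‖ ^ 2 := fun j => by
    have h1 := h (fun k => if cls k = j then x k else 0)
    have h2 : ∑ k ∈ T, ‖(if cls k = j then x k else 0)‖ ^ 2 =
        ∑ k ∈ T.filter (fun k => cls k = j), ‖x k‖ ^ 2 := by
      rw [Finset.sum_filter]
      refine Finset.sum_congr rfl fun k _ => ?_
      split_ifs <;> simp
    rw [h2] at h1
    refine le_trans (Finset.sum_le_sum fun n hn => ?_) h1
    refine (pow_le_pow_left₀ (norm_nonneg _) (Dual_flip (hS n hn) _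
      (fun k hk => hT k (Finset.mem_filter.1 hk).1) (fun k hk => (Finset.mem_filter.1 hk).2) x)
      2).trans (le_of_eq ?_)
    rw [Finset.sum_filter]
    congr 2
    refine Finset.sum_congr rfl fun k _ => ?_
    split_ifs <;> simp
  calc ∑ n ∈ S, ‖∑ k ∈ T, x k * quad n k‖ ^ 2
      ≤ ∑ n ∈ S, Fintype.card Cl * ∑ j : Cl,
          ‖∑ k ∈ T.filter (fun k => cls k = j), x k * quad n k‖ ^ 2 := by
        refine Finset.sum_le_sum fun n _ => ?_
        have := norm_sum_sq_le_fiber T Finset.univ cls hmap (fun k => x k * quad n k)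
        rw [Finset.card_univ] at this
        refine this.trans (le_of_eq ?_)
        congr!
    _ = Fintype.card Cl * ∑ j : Cl, ∑ n ∈ S,
          ‖∑ k ∈ T.filter (fun k => cls k = j), x k * quad n k‖ ^ 2 := by
        rw [← Finset.mul_sum, Finset.sum_comm]
    _ ≤ Fintype.card Cl * ∑ j : Cl, B * ∑ k ∈ T.filter (fun k => cls k = j), ‖x k‖ ^ 2 := by
        gcongr with j _
        exact hj j
    _ = Fintype.card Cl * B * ∑ k ∈ T, ‖x k‖ ^ 2 := by
        rw [← Finset.mul_sum, Finset.sum_fiberwise_of_maps_to hmap]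
        ring

theorem card_Cl_pos : (0 : ℝ) < Fintype.card Cl := by
  have : Nonempty Cl := ⟨cls 1⟩
  exact_mod_cast Fintype.card_pos

/-- Duality and quadratic reciprocity: the exponent moves to the rows. -/
theorem LSv.swap {ξ : ℝ} (h : LSv ξ) {ε : ℝ} (hε : 0 < ε) : ∃ C : ℝ, 0 < C ∧
    ∀ (K N : ℝ) (β : O → ℂ), 1 ≤ K → 1 ≤ N →
      ∑ k ∈ sp K, ‖∑ n ∈ sp N, β n * quad n k‖ ^ 2 ≤
        C * (K * N) ^ ε * (N + K ^ ξ) * ∑ n ∈ sp N, ‖β n‖ ^ 2 := by
  obtain ⟨C, hC, h⟩ := h ε hε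
  have hc := card_Cl_pos
  refine ⟨Fintype.card Cl * C, by positivity, fun K N β hK hN => ?_⟩
  refine duality (sp N) (sp K) (fun n k => quad n k) (by positivity) (fun x => ?_) β
  refine (flip_sieve (fun _ => Dual_SP_of_mem) (fun _ => Dual_SP_of_mem)
    (fun y => h N K y hN hK) x).trans (le_of_eq ?_)
  rw [mul_comm N K]
  ring

/-- Reindexing along an injective map. -/
theorem Dual_reindex (S I : Finset O) (m : O → O) (γ : O → ℂ) (hm : Set.InjOn m I)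
    (hS : ∀ i ∈ I, m i ∈ S) : ∃ β : O → ℂ,
      (∀ F : O → ℂ, ∑ n ∈ S, β n * F n = ∑ i ∈ I, γ i * F (m i)) ∧
        ∑ n ∈ S, ‖β n‖ ^ 2 = ∑ i ∈ I, ‖γ i‖ ^ 2 := by
  refine ⟨fun n => ∑ i ∈ I.filter (fun i => m i = n), γ i, fun F => ?_, ?_⟩
  · rw [← Finset.sum_fiberwise_of_maps_to hS]
    refine Finset.sum_congr rfl fun n _ => ?_
    rw [Finset.sum_mul]
    exact Finset.sum_congr rfl fun i hi => by rw [(Finset.mem_filter.1 hi).2]
  · rw [← Finset.sum_fiberwise_of_maps_to hS]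
    refine Finset.sum_congr rfl fun n _ => ?_
    have hc : (I.filter (fun i => m i = n)).card ≤ 1 := by
      rw [Finset.card_le_one]
      intro a ha b hb
      rw [Finset.mem_filter] at ha hb
      exact hm ha.1 hb.1 (ha.2.trans hb.2.symm)
    rcases Finset.card_le_one_iff_subset_singleton.1 hc with ⟨a, ha⟩
    rcases Finset.subset_singleton_iff.1 ha with e | e <;> simp [e]

theorem sum_le_prod {α β : Type} (A : Finset α) (B : Finset β) (F : α → β → O) {S : Finset O}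
    (h : ∀ j ∈ S, ∃ a ∈ A, ∃ b ∈ B, j = F a b) (f : O → ℝ) (hf : ∀ j, 0 ≤ f j) :
    ∑ j ∈ S, f j ≤ ∑ a ∈ A, ∑ b ∈ B, f (F a b) := by
  rw [← Finset.sum_product']
  refine (Finset.sum_le_sum_of_subset_of_nonneg (t := (A ×ˢ B).image fun x => F x.1 x.2)
    (fun j hj => ?_) fun j _ _ => hf j).trans (Finset.sum_image_le_of_nonneg fun j _ => hf j)
  obtain ⟨a, ha, b, hb, rfl⟩ := h j hj
  exact Finset.mem_image.2 ⟨(a, b), Finset.mem_product.2 ⟨ha, hb⟩, rfl⟩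

/-- Every squarefree row is a unit of `U0` times a squarefree primary element. -/
theorem Dual_decomp {a : O} (hr : Rep a) (ha : Squarefree a) :
    ∃ e ∈ U0, ∃ k : O, SP k ∧ a = e * k := by
  rcases rep_iff.1 hr with h | ⟨u, hu, p, hp, rfl⟩
  · exact absurd h ha.ne_zero
  · exact ⟨u, hu, p, ⟨hp, ha.of_mul_right⟩, rfl⟩

omit [LF] in
/-- Number of dyadic blocks. -/
theorem Dual_log_le {ε V : ℝ} (hε : 0 < ε) (hV : 1 ≤ V) :
    ((Nat.log 2 ⌊V⌋₊ + 1 : ℕ) : ℝ) ≤ (1 + 1 / (ε * Real.log 2)) * V ^ ε := by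
  have hl : 0 < Real.log 2 := Real.log_pos one_lt_two
  have hf : ⌊V⌋₊ ≠ 0 := (Nat.floor_pos.2 hV).ne'
  have h1 : ((2 : ℝ)) ^ Nat.log 2 ⌊V⌋₊ ≤ V := by
    have := Nat.pow_log_le_self 2 hf
    exact le_trans (by exact_mod_cast this) (Nat.floor_le (by linarith))
  have h2 : (Nat.log 2 ⌊V⌋₊ : ℝ) * Real.log 2 ≤ V ^ ε / ε := by
    rw [← Real.log_pow]
    exact (Real.log_le_log (by positivity) h1).trans (Real.log_le_rpow_div (by linarith) hε)
  have h3 : (Nat.log 2 ⌊V⌋₊ : ℝ) ≤ 1 / (ε * Real.log 2) * V ^ ε := by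
    rw [one_div_mul_eq_div, le_div_iff₀ (by positivity)]
    rw [le_div_iff₀ hε] at h2
    linarith
  have h4 : 1 ≤ V ^ ε := Real.one_le_rpow hV hε.le
  push_cast
  linarith

/-- The dyadic decomposition of the rows. -/
theorem Dual_dyadic {ξ ε C V N W : ℝ} (h0 : 0 ≤ ξ) (hε : 0 < ε) (hC : 0 < C) (hV : 1 ≤ V)
    (hN : 1 ≤ N) (hW : 0 ≤ W) (f : O → ℝ) (hf : ∀ k, 0 ≤ f k)
    (h : ∀ K : ℝ, 1 ≤ K → ∑ k ∈ sp K, f k ≤ C * (K * N) ^ ε * (N + K ^ ξ) * W) :
    ∑ k ∈ sp V, f k / (N + nr k ^ ξ) ≤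
      ((Nat.log 2 ⌊V⌋₊ + 1 : ℕ) : ℝ) * (C * (2 * V * N) ^ ε * 2 ^ ξ * W) := by
  set J := Nat.log 2 ⌊V⌋₊ with hJ
  have hf0 : ⌊V⌋₊ ≠ 0 := (Nat.floor_pos.2 hV).ne'
  have hJV : ((2 : ℝ)) ^ J ≤ V := by
    have := Nat.pow_log_le_self 2 hf0
    exact le_trans (by exact_mod_cast this) (Nat.floor_le (by linarith))
  have hmap : ∀ k ∈ sp V, Nat.log 2 (nm k) ∈ Finset.range (J + 1) := fun k hk => by
    rw [Finset.mem_range, Nat.lt_succ_iff]
    refine Nat.log_mono_right ?_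
    rw [Nat.le_floor_iff (by linarith)]
    exact ((mem_sp (by linarith)).1 hk).2
  rw [← Finset.sum_fiberwise_of_maps_to hmap]
  refine (Finset.sum_le_card_nsmul _ _ (C * (2 * V * N) ^ ε * 2 ^ ξ * W) fun j hj => ?_).trans
    (le_of_eq (by rw [Finset.card_range, nsmul_eq_mul]))
  have hjJ : j ≤ J := by rwa [Finset.mem_range, Nat.lt_succ_iff] at hj
  have h2j : (1 : ℝ) ≤ 2 ^ j := one_le_pow₀ one_le_two
  have hjV : (2 : ℝ) ^ j ≤ V := (pow_le_pow_right₀ one_le_two hjJ).trans hJV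
  have hD : 0 < N + ((2 : ℝ) ^ j) ^ ξ := by positivity
  have h1 : ∑ k ∈ (sp V).filter (fun k => Nat.log 2 (nm k) = j), f k / (N + nr k ^ ξ) ≤
      (∑ k ∈ sp (2 * 2 ^ j), f k) / (N + ((2 : ℝ) ^ j) ^ ξ) := by
    rw [Finset.sum_div]
    refine (Finset.sum_le_sum fun k hk => ?_).trans
      (Finset.sum_le_sum_of_subset_of_nonneg (fun k hk => ?_) fun k _ _ => div_nonneg (hf k) hD.le)
    · obtain ⟨hk1, hk2⟩ := Finset.mem_filter.1 hk
      have hk0 : nm k ≠ 0 := fun e => ne_zero_of_SP (Dual_SP_of_mem hk1) (nm_eq_zero.1 e)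
      have : (2 : ℝ) ^ j ≤ nr k := by
        have := Nat.pow_log_le_self 2 hk0
        rw [hk2] at this
        exact_mod_cast this
      gcongr
      exact hf k
    · obtain ⟨hk1, hk2⟩ := Finset.mem_filter.1 hk
      rw [mem_sp (by positivity)]
      refine ⟨Dual_SP_of_mem hk1, ?_⟩
      have := Nat.lt_pow_succ_log_self one_lt_two (nm k)
      rw [hk2, Nat.succ_eq_add_one, pow_succ, mul_comm] at this
      exact_mod_cast this.le
  refine h1.trans ?_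
  rw [div_le_iff₀ hD]
  refine (h _ (by linarith)).trans ?_
  have h2 : (2 * (2 : ℝ) ^ j * N) ^ ε ≤ (2 * V * N) ^ ε := by gcongr
  have h3 : N + (2 * (2 : ℝ) ^ j) ^ ξ ≤ 2 ^ ξ * (N + ((2 : ℝ) ^ j) ^ ξ) := by
    rw [Real.mul_rpow (by norm_num) (by positivity), mul_add]
    have : (1 : ℝ) ≤ 2 ^ ξ := Real.one_le_rpow one_le_two h0
    nlinarith
  calc C * (2 * (2 : ℝ) ^ j * N) ^ ε * (N + (2 * (2 : ℝ) ^ j) ^ ξ) * W
      ≤ C * (2 * V * N) ^ ε * (2 ^ ξ * (N + ((2 : ℝ) ^ j) ^ ξ)) * W := by gcongr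
    _ = _ := by ring

theorem LSw_of_LS {ξ : ℝ} (h0 : 0 ≤ ξ) (h : LSv ξ) : LSw ξ := by
  intro ε hε
  have hε2 : 0 < ε / 2 := by positivity
  obtain ⟨C, hC, h⟩ := h.swap hε2
  have hl : 0 < Real.log 2 := Real.log_pos one_lt_two
  refine ⟨(U0.card + 1) * (1 + 1 / (ε / 2 * Real.log 2)) * (C * 2 ^ (ε / 2) * 2 ^ ξ), by positivity,
    fun V N hV hN N' hN' hNN I m γ hm hI => ?_⟩
  set W : ℝ := ∑ i ∈ I, ‖γ i‖ ^ 2 with hW
  have hW0 : 0 ≤ W := Finset.sum_nonneg fun _ _ => sq_nonneg _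
  set D : ℝ := ((Nat.log 2 ⌊V⌋₊ + 1 : ℕ) : ℝ) * (C * (2 * V * N') ^ (ε / 2) * 2 ^ ξ * W) with hD
  have hden : ∀ a : O, 0 < N' + nr a ^ ξ := fun a => by positivity
  have hE0 : ∀ e ∈ U0, e ≠ 0 := fun e he => (unit_of_mem he).ne_zero
  have hc : (U0.card : ℝ) ≤ U0.card + 1 := by linarith
  have he : ∀ e ∈ U0,
      ∑ k ∈ sp V, ‖∑ i ∈ I, γ i * quad (m i) (e * k)‖ ^ 2 / (N' + nr (e * k) ^ ξ) ≤ D := by
    intro e he
    have he0 : e ≠ 0 := hE0 e he
    obtain ⟨β, hβ1, hβ2⟩ := Dual_reindex (sp N') I m (fun i => γ i * quad (m i) e) hm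
      fun i hi => (mem_sp (by linarith)).2 (hI i hi)
    have hβ3 : ∑ n ∈ sp N', ‖β n‖ ^ 2 ≤ W := by
      rw [hβ2]
      refine Finset.sum_le_sum fun i _ => ?_
      rw [norm_mul]
      exact pow_le_pow_left₀ (by positivity)
        (mul_le_of_le_one_right (norm_nonneg _) (norm_quad_le _ _)) 2
    refine le_trans (Finset.sum_le_sum fun k hk => ?_) (Dual_dyadic h0 hε2 hC hV hN' hW0
      (fun k => ‖∑ n ∈ sp N', β n * quad n k‖ ^ 2) (fun _ => sq_nonneg _) fun K hK => ?_)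
    · have e1 : ∑ i ∈ I, γ i * quad (m i) (e * k) = ∑ n ∈ sp N', β n * quad n k := by
        rw [hβ1 fun n => quad n k]
        refine Finset.sum_congr rfl fun i hi => ?_
        rw [quad_mul_right (hI i hi).1.1, mul_assoc]
      have e2 : nr k ≤ nr (e * k) := by
        rw [nr_mul]
        exact le_mul_of_one_le_left (Nat.cast_nonneg _) (one_le_nr he0)
      rw [e1]
      gcongr
    · refine (h K N' β hK hN').trans ?_
      gcongr
  have h1 := sum_le_prod U0 (sp V) (fun e k => e * k) (S := sqf V)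
    (fun a ha => by
      obtain ⟨ha1, ha2⟩ := (mem_sqf (by linarith)).1 ha
      obtain ⟨e, he, k, hk, rfl⟩ := Dual_decomp ha1.1 ha1.2
      refine ⟨e, he, k, (mem_sp (by linarith)).2 ⟨hk, le_trans ?_ ha2⟩, rfl⟩
      rw [nr_mul]
      exact le_mul_of_one_le_left (Nat.cast_nonneg _) (one_le_nr (hE0 e he)))
    (fun a => ‖∑ i ∈ I, γ i * quad (m i) a‖ ^ 2 / (N' + nr a ^ ξ))
    (fun a => div_nonneg (sq_nonneg _) (hden a).le)
  refine h1.trans ((Finset.sum_le_card_nsmul _ _ D he).trans ?_)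
  rw [nsmul_eq_mul]
  have h2 := Dual_log_le hε2 hV
  have h3 : V ^ (ε / 2) ≤ (V * N) ^ (ε / 2) := by
    gcongr
    exact le_mul_of_one_le_right (by linarith) hN
  have h4 : (2 * V * N') ^ (ε / 2) ≤ 2 ^ (ε / 2) * (V * N) ^ (ε / 2) := by
    rw [← Real.mul_rpow (by norm_num) (by positivity), mul_assoc]
    gcongr
  have h5 : (V * N) ^ ε = (V * N) ^ (ε / 2) * (V * N) ^ (ε / 2) := by
    rw [← Real.rpow_add (by positivity)]; congr 1; ring
  calc (U0.card : ℝ) * D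
      ≤ (U0.card + 1) * (((1 + 1 / (ε / 2 * Real.log 2)) * (V * N) ^ (ε / 2)) *
          (C * (2 ^ (ε / 2) * (V * N) ^ (ε / 2)) * 2 ^ ξ * W)) := by
        rw [hD]
        gcongr
        exact h2.trans (by gcongr)
    _ = _ := by rw [h5]; ring

end Crest.Agent.T27.LS
end
end

-- ▼ part T27/LS2Red_81

/-!
# Row 27, quadratic large sieve: reduction to blocks, iteration
-/

set_option autoImplicit false

noncomputable section

namespace Crest.Agent.T27.LS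

open scoped ComplexConjugate
open Classical

variable [LF]

theorem LS_of_Core {ξ : ℝ} (h0 : 0 ≤ ξ) (h : Core ξ) : LSv ξ := by
  intro ε hε
  obtain ⟨C, hC, hcore⟩ := h (ε / 2 / (ξ + 1)) (by positivity)
  have hlog : 0 < Real.log 2 := Real.log_pos one_lt_two
  refine ⟨((Fintype.card Cl : ℝ) + 1) * (1 / (ε / 2 * Real.log 2) + 1) * (C * 2 ^ (ε / 2) * 2 ^ ξ),
    by positivity, fun K N β hK hN => ?_⟩
  set M : ℝ := max K ((2 * N) ^ ξ) with hM
  set s : Finset (ℕ × Cl) := Finset.range (Nat.log 2 ⌊N⌋₊ + 1) ×ˢ Finset.univ with hs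
  set g : O → ℕ × Cl := fun n => (Nat.log 2 (nm n), cls n) with hg
  have hKN : 1 ≤ K * N := one_le_mul_of_one_le_of_one_le hK hN
  have hgs : ∀ n ∈ sp N, g n ∈ s := by
    intro n hn
    have h1 := ((mem_sp (by linarith)).1 hn).2
    refine Finset.mem_product.2 ⟨Finset.mem_range.2 (Nat.lt_succ_of_le ?_), ?_⟩
    · exact Nat.log_mono_right (b := 2) (Nat.le_floor h1)
    · exact Finset.mem_univ _
  have hfl : ((2 ^ Nat.log 2 ⌊N⌋₊ : ℕ) : ℝ) ≤ N :=
    (Nat.cast_le.2 (Nat.pow_log_le_self 2 (Nat.floor_pos.2 hN).ne')).trans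
      (Nat.floor_le (by linarith))
  push_cast at hfl
  have hM1 : M ≤ 2 ^ ξ * (K + N ^ ξ) := by
    have a1 : (1 : ℝ) ≤ 2 ^ ξ := Real.one_le_rpow one_le_two h0
    have a2 : 0 ≤ N ^ ξ := by positivity
    refine max_le (by nlinarith) ?_
    rw [Real.mul_rpow (by norm_num) (by linarith)]
    nlinarith
  have hM2 : M * (2 * N) ≤ (2 * (K * N)) ^ (ξ + 1) := by
    have a1 : (1 : ℝ) ≤ (2 * N) ^ ξ := Real.one_le_rpow (by linarith) h0
    have a2 : M ≤ K * (2 * N) ^ ξ := max_le (by nlinarith) (by nlinarith)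
    have a3 : (2 * N) ^ ξ ≤ (2 * (K * N)) ^ ξ :=
      Real.rpow_le_rpow (by linarith) (by nlinarith) h0
    rw [Real.rpow_add_one (by positivity)]
    calc M * (2 * N) ≤ K * (2 * (K * N)) ^ ξ * (2 * N) := by
          refine mul_le_mul_of_nonneg_right (a2.trans ?_) (by linarith)
          exact mul_le_mul_of_nonneg_left a3 (by linarith)
      _ = _ := by ring
  have hM0 : 0 ≤ M := le_trans (by linarith) (le_max_left _ _)
  have hblk : ∀ j ∈ s, ∑ k ∈ sp K, ‖∑ n ∈ (sp N).filter (fun n => g n = j), β n * quad n k‖ ^ 2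
      ≤ C * 2 ^ (ε / 2) * 2 ^ ξ * (K * N) ^ (ε / 2) * (K + N ^ ξ) *
        ∑ n ∈ (sp N).filter (fun n => g n = j), ‖β n‖ ^ 2 := by
    rintro ⟨j, r⟩ hj
    have hj' : j ≤ Nat.log 2 ⌊N⌋₊ :=
      Nat.le_of_lt_succ (Finset.mem_range.1 (Finset.mem_product.1 hj).1)
    have h2j : (2 : ℝ) ^ (j + 1) ≤ 2 * N := by
      have := pow_le_pow_right₀ (one_le_two (α := ℝ)) hj'
      rw [pow_succ]
      linarith
    have h1j : (1 : ℝ) ≤ 2 ^ (j + 1) := one_le_pow₀ one_le_two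
    have hB : Blk (2 ^ (j + 1)) ((sp N).filter fun n => g n = (j, r)) := by
      constructor
      · intro n hn
        obtain ⟨hn1, hn2⟩ := Finset.mem_filter.1 hn
        have hSP := ((mem_sp (by linarith)).1 hn1).1
        have hj2 : Nat.log 2 (nm n) = j := congrArg Prod.fst hn2
        have hne : nm n ≠ 0 := fun h => ne_zero_of_SP hSP (nm_eq_zero.1 h)
        have b1 := Nat.pow_log_le_self 2 hne
        have b2 := (Nat.lt_pow_succ_log_self one_lt_two (nm n)).le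
        rw [hj2] at b1 b2
        refine ⟨hSP, ?_, by exact_mod_cast b2⟩
        rw [pow_succ, mul_div_cancel_right₀ _ two_ne_zero]
        exact_mod_cast b1
      · intro n₁ hn₁ n₂ hn₂
        have e1 : cls n₁ = r := congrArg Prod.snd (Finset.mem_filter.1 hn₁).2
        have e2 : cls n₂ = r := congrArg Prod.snd (Finset.mem_filter.1 hn₂).2
        rw [e1, e2]
    have hc := hcore M (2 ^ (j + 1)) _ β h1j
      ((Real.rpow_le_rpow (by linarith) h2j h0).trans (le_max_right _ _)) hB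
    refine le_trans (Finset.sum_le_sum_of_subset_of_nonneg (fun k hk => ?_)
      fun _ _ _ => sq_nonneg _) (hc.trans ?_)
    · rw [mem_sp (by linarith)] at hk
      exact (mem_sp hM0).2 ⟨hk.1, hk.2.trans (le_max_left _ _)⟩
    refine mul_le_mul_of_nonneg_right ?_ (Finset.sum_nonneg fun _ _ => sq_nonneg _)
    have a1 : (M * 2 ^ (j + 1)) ^ (ε / 2 / (ξ + 1)) ≤ 2 ^ (ε / 2) * (K * N) ^ (ε / 2) := by
      refine (Real.rpow_le_rpow (by positivity)
        ((mul_le_mul_of_nonneg_left h2j hM0).trans hM2) (by positivity)).trans (le_of_eq ?_)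
      rw [← Real.rpow_mul (by positivity), mul_div_cancel₀ _ (by positivity),
        Real.mul_rpow (by norm_num) (by linarith)]
    calc C * (M * 2 ^ (j + 1)) ^ (ε / 2 / (ξ + 1)) * M
        ≤ C * (2 ^ (ε / 2) * (K * N) ^ (ε / 2)) * (2 ^ ξ * (K + N ^ ξ)) := by gcongr
      _ = _ := by ring
  have hcard : (s.card : ℝ) ≤ ((Fintype.card Cl : ℝ) + 1) * (1 / (ε / 2 * Real.log 2) + 1) *
      (K * N) ^ (ε / 2) := by
    rw [hs, Finset.card_product, Finset.card_range, Finset.card_univ]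
    push_cast
    have a1 : (1 : ℝ) ≤ (K * N) ^ (ε / 2) := Real.one_le_rpow hKN (by positivity)
    have a2 : (Nat.log 2 ⌊N⌋₊ : ℝ) * Real.log 2 ≤ (K * N) ^ (ε / 2) / (ε / 2) := by
      refine le_trans ?_ (Real.log_le_rpow_div (by linarith) (by positivity))
      rw [← Real.log_pow]
      exact Real.log_le_log (by positivity) (by nlinarith)
    have a3 : (Nat.log 2 ⌊N⌋₊ : ℝ) ≤ 1 / (ε / 2 * Real.log 2) * (K * N) ^ (ε / 2) := by
      rw [one_div, ← div_eq_inv_mul, ← div_div, le_div_iff₀ hlog]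
      exact a2
    rw [mul_comm, mul_assoc]
    refine mul_le_mul (by linarith) ?_ (by positivity) (by positivity)
    rw [add_mul]
    linarith
  calc _ ≤ ∑ k ∈ sp K, s.card *
        ∑ j ∈ s, ‖∑ n ∈ (sp N).filter (fun n => g n = j), β n * quad n k‖ ^ 2 :=
        Finset.sum_le_sum fun k _ => by
          have := norm_sum_sq_le_fiber (sp N) s g hgs fun n => β n * quad n k
          refine this.trans (le_of_eq ?_)
          congr!
    _ = s.card * ∑ j ∈ s, ∑ k ∈ sp K,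
        ‖∑ n ∈ (sp N).filter (fun n => g n = j), β n * quad n k‖ ^ 2 := by
        rw [← Finset.mul_sum, Finset.sum_comm]
    _ ≤ (((Fintype.card Cl : ℝ) + 1) * (1 / (ε / 2 * Real.log 2) + 1) * (K * N) ^ (ε / 2)) *
        (C * 2 ^ (ε / 2) * 2 ^ ξ * (K * N) ^ (ε / 2) * (K + N ^ ξ) *
          ∑ n ∈ sp N, ‖β n‖ ^ 2) := by
        refine mul_le_mul hcard ((Finset.sum_le_sum hblk).trans (le_of_eq ?_))
          (Finset.sum_nonneg fun _ _ => Finset.sum_nonneg fun _ _ => sq_nonneg _) (by positivity)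
        rw [← Finset.mul_sum, Finset.sum_fiberwise_of_maps_to hgs]
    _ = _ := by
        have : (K * N) ^ ε = (K * N) ^ (ε / 2) * (K * N) ^ (ε / 2) := by
          rw [← Real.rpow_add (by linarith), add_halves]
        rw [this]
        ring

/-- The iteration `ξ ↦ 2 - 1/ξ` and the final duality. -/
theorem final_of_step (h2 : LSv 2) (step : ∀ ξ : ℝ, 1 ≤ ξ → ξ ≤ 2 → LSv ξ → LSv (2 - 1 / ξ))
    {ε : ℝ} (hε : 0 < ε) : ∃ C : ℝ, 0 < C ∧
    ∀ (K N : ℝ) (β : O → ℂ), 1 ≤ K → 1 ≤ N →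
      ∑ k ∈ sp K, ‖∑ n ∈ sp N, β n * quad k n‖ ^ 2 ≤
        C * (K * N) ^ ε * (K + N) * ∑ n ∈ sp N, ‖β n‖ ^ 2 := by
  have hall : ∀ j : ℕ, LSv (1 + 1 / ((j : ℝ) + 1)) := by
    intro j
    induction j with
    | zero => convert h2 using 1; norm_num
    | succ j ih =>
      have a1 : 0 ≤ 1 / ((j : ℝ) + 1) := by positivity
      have a2 : 1 / ((j : ℝ) + 1) ≤ 1 := by
        rw [div_le_one (by positivity)]
        linarith [Nat.cast_nonneg (α := ℝ) j]
      convert step _ (by linarith) (by linarith) ih using 1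
      push_cast
      field_simp
      ring
  obtain ⟨j, hj⟩ := exists_nat_one_div_lt (half_pos hε)
  obtain ⟨C, hC, h⟩ := hall j (ε / 2) (half_pos hε)
  refine ⟨C, hC, fun K N β hK hN => ?_⟩
  have hKN : 1 ≤ K * N := one_le_mul_of_one_le_of_one_le hK hN
  have hd := duality (sp N) (sp K) (fun n k => quad k n) (by positivity)
    (fun x => h N K x hN hK) β
  refine hd.trans (mul_le_mul_of_nonneg_right ?_ (Finset.sum_nonneg fun _ _ => sq_nonneg _))
  have a1 : (1 : ℝ) ≤ (K * N) ^ (ε / 2) := Real.one_le_rpow hKN (by positivity)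
  have a2 : K ^ (1 / ((j : ℝ) + 1)) ≤ (K * N) ^ (ε / 2) :=
    (Real.rpow_le_rpow_of_exponent_le hK hj.le).trans
      (Real.rpow_le_rpow (by linarith) (by nlinarith) (by positivity))
  have a3 : N + K ^ (1 + 1 / ((j : ℝ) + 1)) ≤ (K * N) ^ (ε / 2) * (K + N) := by
    rw [Real.rpow_add (by linarith), Real.rpow_one]
    nlinarith
  have : (K * N) ^ ε = (K * N) ^ (ε / 2) * (K * N) ^ (ε / 2) := by
    rw [← Real.rpow_add (by linarith), add_halves]
  rw [this, mul_comm N K]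
  calc _ ≤ C * (K * N) ^ (ε / 2) * ((K * N) ^ (ε / 2) * (K + N)) :=
        mul_le_mul_of_nonneg_left a3 (by positivity)
    _ = _ := by ring

end Crest.Agent.T27.LS
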