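import Crest.Agent.T27.ThA_54

-- ▼ part T27/UnfA_89
section

/-!
# Unfolding, part A: weights for translation lattices on `ℂ^r` and mean values of Fourier series
-/

set_option autoImplicit false

noncomputable section

namespace Crest.Agent.T27.TH.U89

open scoped ComplexConjugate ENNReal Topology
open MeasureTheory Filter NumberField

variable {F : Type} [Field F] [NumberField F] [Emb F]

/-- The Minkowski embedding as a ring homomorphism. -/
def emR : F →+* (Pl F → ℂ) := RingHom.pi fun j => Emb.σ j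


theorem em_add (x y : F) : em (x + y) = em x + em y := map_add emR x y
theorem em_zero : em (0 : F) = 0 := map_zero emR

theorem em_ne {x : F} (hx : x ≠ 0) (j : Pl F) : em x j ≠ 0 := (map_ne_zero (Emb.σ j)).2 hx

theorem em_injective : Function.Injective (em : F → Pl F → ℂ) := by
  intro x y h
  obtain ⟨j⟩ : Nonempty (Pl F) := inferInstance
  exact (Emb.σ j : F →+* ℂ).injective (congrFun h j)

theorem li_em : LinearIndependent ℝ fun i => em (integralBasis F i) := by
  rw [Fintype.linearIndependent_iff]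
  intro g hg
  have h := Fintype.linearIndependent_iff.1 (canonicalEmbedding.latticeBasis F).linearIndependent
    (fun i => (g i : ℂ)) (by
      funext φ
      simp only [Finset.sum_apply, Pi.smul_apply, canonicalEmbedding.latticeBasis_apply,
        canonicalEmbedding.apply_at, smul_eq_mul, Pi.zero_apply]
      have h1 := congrFun hg (InfinitePlace.mk φ)
      simp only [Finset.sum_apply, Pi.smul_apply, Complex.real_smul, em, Pi.zero_apply] at h1
      rcases InfinitePlace.mk_eq_iff.1 (Emb.mk_σ (InfinitePlace.mk φ)) with h2 | h2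
      · rw [h2] at h1; exact h1
      · have h3 := congrArg conj h1
        rw [map_sum, map_zero] at h3
        rw [← h2]
        simpa using h3)
  intro i
  exact_mod_cast h i

theorem card_basis : Fintype.card (Module.Free.ChooseBasisIndex ℤ (𝓞 F)) =
    Module.finrank ℝ (Pl F → ℂ) := by
  have := (Emb.tc : IsTotallyComplex F)
  rw [← Module.finrank_eq_card_chooseBasisIndex, RingOfIntegers.rank, IsTotallyComplex.finrank,
    Module.finrank_pi_fintype]
  simp [InfinitePlace.card_eq_nrRealPlaces_add_nrComplexPlaces, mul_comm]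

/-- A weight for the lattice `L`. -/
structure Wt (L : AddSubgroup F) (β : (Pl F → ℂ) → ℝ) : Prop where
  meas : Measurable β
  nonneg : ∀ z, 0 ≤ β z
  sum : ∀ z, HasSum (fun t : L => β (z + em (t : F))) 1
  int : Integrable β
  pos : 0 < ∫ z, β z

theorem exists_wt_latt {N : ℕ} (hN : N ≠ 0) : ∃ β, Wt (latt F N) β := by
  classical
  have hN' : (N : ℝ) ≠ 0 := by exact_mod_cast hN
  have hli : LinearIndependent ℝ fun i => em ((N : F) * integralBasis F i) := by
    have := (li_em (F := F)).units_smul (fun _ => Units.mk0 (N : ℝ) hN')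
    convert this using 1
    funext i j
    simp [em]
  let b := basisOfLinearIndependentOfCardEqFinrank hli card_basis
  have hb : ∀ i, b i = em ((N : F) * integralBasis F i) := fun i => by simp [b]
  let f : F →ₗ[ℤ] (Pl F → ℂ) := (emR.toAddMonoidHom.comp (AddMonoidHom.mulLeft (N : F))).toIntLinearMap
  have hf : ∀ y, f y = em ((N : F) * y) := fun y => rfl
  have hspan : ∀ v, v ∈ Submodule.span ℤ (Set.range b) ↔ ∃ t ∈ latt F N, em t = v := by
    intro v
    have : Set.range b = f '' Set.range (integralBasis F) := by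
      rw [← Set.range_comp]; congr 1; funext i; rw [hb]; rfl
    rw [this, ← Submodule.map_span, Submodule.mem_map]
    constructor
    · rintro ⟨y, hy, rfl⟩
      obtain ⟨x, rfl⟩ := (mem_span_integralBasis F).1 hy
      exact ⟨_, ⟨_, x.isIntegral_coe, rfl⟩, rfl⟩
    · rintro ⟨_, ⟨y, hy, rfl⟩, rfl⟩
      exact ⟨y, (mem_span_integralBasis F).2 ⟨⟨y, hy⟩, rfl⟩, rfl⟩
  have hD := ZSpan.fundamentalDomain_measurableSet b
  have hfin : volume (ZSpan.fundamentalDomain b) < ⊤ :=
    (ZSpan.fundamentalDomain_isBounded b).measure_lt_top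
  refine ⟨(ZSpan.fundamentalDomain b).indicator 1, measurable_one.indicator hD,
    fun z => Set.indicator_nonneg (fun _ _ => zero_le_one) z, fun z => ?_, ?_, ?_⟩
  · obtain ⟨⟨v, hv⟩, h1, h2⟩ := ZSpan.exist_unique_vadd_mem_fundamentalDomain b z
    obtain ⟨t, ht, rfl⟩ := (hspan v).1 hv
    have h3 : z + em t ∈ ZSpan.fundamentalDomain b := by rw [add_comm]; exact h1
    have := hasSum_single (f := fun t : latt F N =>
      (ZSpan.fundamentalDomain b).indicator (1 : (Pl F → ℂ) → ℝ) (z + em (t : F))) ⟨t, ht⟩ (by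
        intro s hs
        apply Set.indicator_of_notMem
        intro h4
        apply hs
        have h5 := h2 ⟨em (s : F), (hspan _).2 ⟨s, s.2, rfl⟩⟩ (by
          show em (s : F) + z ∈ _
          rw [add_comm]; exact h4)
        exact Subtype.ext (em_injective (congrArg Subtype.val h5)))
    rwa [Set.indicator_of_mem h3] at this
  · exact (integrable_indicator_iff hD).2 (integrableOn_const hfin.ne)
  · rw [integral_indicator_one hD]
    exact ENNReal.toReal_pos (ZSpan.measure_fundamentalDomain_ne_zero b) hfin.ne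

/-- A weight for a lattice containing `L'` with finite index. -/
theorem Wt.of_le {L L' : AddSubgroup F} {β : (Pl F → ℂ) → ℝ} (h : Wt L' β) (hle : L' ≤ L)
    [Finite (L ⧸ L'.addSubgroupOf L)] : ∃ β', Wt L β' := by
  classical
  have := Fintype.ofFinite (L ⧸ L'.addSubgroupOf L)
  set m : ℝ := (Fintype.card (L ⧸ L'.addSubgroupOf L) : ℝ) with hm
  have hm0 : 0 < m := by rw [hm]; exact_mod_cast Fintype.card_pos
  refine ⟨fun z => β z / m, h.meas.div_const _, fun z => div_nonneg (h.nonneg z) hm0.le,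
    fun z => ?_, h.int.div_const _, by rw [integral_div]; exact div_pos h.pos hm0⟩
  have hbij : Function.Bijective fun p : (L ⧸ L'.addSubgroupOf L) × L'.addSubgroupOf L =>
      (p.1.out : L) + (p.2 : L) := by
    constructor
    · rintro ⟨q, s⟩ ⟨q', s'⟩ h
      have h1 : q = q' := by
        have := congrArg (QuotientAddGroup.mk (s := L'.addSubgroupOf L)) h
        simpa only [QuotientAddGroup.mk_add_of_mem _ s.2, QuotientAddGroup.mk_add_of_mem _ s'.2,
          QuotientAddGroup.out_eq'] using this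
      subst h1
      exact Prod.ext rfl (Subtype.ext (add_left_cancel h))
    · intro x
      obtain ⟨s, hs⟩ := QuotientAddGroup.mk_out_eq_mul (L'.addSubgroupOf L) x
      exact ⟨(QuotientAddGroup.mk x, -s), by simp [hs]⟩
  let e := Equiv.ofBijective _ hbij
  have he : ∀ p, ((e p : L) : F) = (p.1.out : L) + ((p.2 : L) : F) := fun p => rfl
  rw [← e.hasSum_iff]
  have h1 : ∀ q : L ⧸ L'.addSubgroupOf L, HasSum (fun s : L'.addSubgroupOf L =>
      β (z + em ((e (q, s) : L) : F)) / m) (1 / m) := by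
    intro q
    have h2 := (h.sum (z + em ((q.out : L) : F))).div_const m
    rw [← (AddSubgroup.addSubgroupOfEquivOfLe hle).toEquiv.hasSum_iff] at h2
    simp only [he, em_add, ← add_assoc]
    exact h2
  have h3 : Summable fun p : (L ⧸ L'.addSubgroupOf L) × L'.addSubgroupOf L =>
      β (z + em ((e p : L) : F)) / m := by
    rw [summable_prod_of_nonneg (fun p => div_nonneg (h.nonneg _) hm0.le)]
    exact ⟨fun q => (h1 q).summable, summable_of_finite_support (Set.toFinite _)⟩
  have h4 := h3.hasSum.prod_fiberwise h1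
  have h5 : ∑' p : (L ⧸ L'.addSubgroupOf L) × L'.addSubgroupOf L,
      β (z + em ((e p : L) : F)) / m = 1 := by
    rw [← h4.tsum_eq, tsum_fintype, Finset.sum_const, Finset.card_univ, nsmul_eq_mul, ← hm]
    field_simp
  have h6 := h3.hasSum
  rw [h5] at h6
  exact h6

/-- The translation group of a lattice. -/
def Tr (L : AddSubgroup F) : Type := Multiplicative L

instance (L : AddSubgroup F) : Group (Tr L) := inferInstanceAs (Group (Multiplicative L))

instance : Countable F := Countable.of_equiv _ (integralBasis F).equivFun.toEquiv.symm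

instance (L : AddSubgroup F) : Countable (Tr L) := inferInstanceAs (Countable L)

instance (L : AddSubgroup F) : MulAction (Tr L) (Pl F → ℂ) where
  smul t z := z + em ((Multiplicative.toAdd t : L) : F)
  one_smul z := by
    show z + em ((0 : L) : F) = z
    simp [em_zero]
  mul_smul s t z := by
    show z + em (((Multiplicative.toAdd s : L) + (Multiplicative.toAdd t : L) : L) : F) =
      z + em ((Multiplicative.toAdd t : L) : F) + em ((Multiplicative.toAdd s : L) : F)
    rw [AddSubgroup.coe_add, em_add]; ring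

theorem Wt.isWt {L : AddSubgroup F} {β : (Pl F → ℂ) → ℝ} (h : Wt L β) : R17.IsWt (Tr L) β :=
  ⟨h.meas, h.nonneg, h.sum⟩

theorem Wt.shift {L : AddSubgroup F} {β : (Pl F → ℂ) → ℝ} (h : Wt L β) (z₀ : Pl F → ℂ) :
    Wt L fun z => β (z - z₀) := by
  refine ⟨h.meas.comp (measurable_id.sub_const z₀), fun z => h.nonneg _, fun z => ?_,
    h.int.comp_sub_right z₀, ?_⟩
  · simpa only [add_sub_right_comm] using h.sum (z - z₀)
  · rw [integral_sub_right_eq_self β z₀]; exact h.pos

/-- The mean value of a periodic function does not depend on the weight. -/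
theorem Wt.integral_eq {L : AddSubgroup F} {β β' : (Pl F → ℂ) → ℝ} (h : Wt L β) (h' : Wt L β')
    {f : (Pl F → ℂ) → ℂ} (hf : Measurable f) {B : ℝ} (hB : ∀ z, ‖f z‖ ≤ B)
    (hper : ∀ z, ∀ t ∈ L, f (z + em t) = f z) :
    ∫ z, (β z : ℂ) * f z = ∫ z, (β' z : ℂ) * f z := by
  have hi : Integrable fun z => (β' z : ℂ) * f z :=
    h'.int.ofReal.mul_bdd hf.aestronglyMeasurable (Eventually.of_forall hB)
  have h1 := (h.isWt.integral_unfold (μ := volume) (fun t => measurePreserving_add_right _ _)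
    (φ := fun z => (β' z : ℂ) * f z) ((Complex.measurable_ofReal.comp h'.meas).mul hf) hi).2
  rw [← h1]
  congr 1
  funext z
  congr 1
  have : ∀ t : Tr L, f (t • z) = f z := fun t => hper z _ (Multiplicative.toAdd t : L).2
  simp only [this]
  rw [tsum_mul_right, ← Complex.ofReal_tsum, (h'.isWt.sum z).tsum_eq]
  simp

omit [Emb F] in
theorem eV_add (z z' : Pl F → ℂ) : eV (z + z') = eV z * eV z' := by
  simp only [eV, Pi.add_apply, Complex.add_re, Finset.sum_add_distrib, Complex.ofReal_add,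
    mul_add, Complex.exp_add]

omit [Emb F] in
theorem norm_eV (z : Pl F → ℂ) : ‖eV z‖ = 1 := by
  rw [eV, Complex.norm_exp]
  simp

omit [Emb F] in
theorem eV_zero : eV (0 : Pl F → ℂ) = 1 := by simp [eV]

omit [Emb F] in
theorem continuous_eV : Continuous (eV : (Pl F → ℂ) → ℂ) := by
  unfold eV; fun_prop

theorem exists_eV_ne {r : F} (hr : r ≠ 0) : ∃ z : Pl F → ℂ, eV (fun j => em r j * z j) ≠ 1 := by
  classical
  obtain ⟨j⟩ : Nonempty (Pl F) := inferInstance
  refine ⟨Pi.single j ((em r j)⁻¹ * (1 / 4 : ℂ)), ?_⟩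
  have : ∑ i, (em r i * (Pi.single j ((em r j)⁻¹ * (1 / 4 : ℂ)) : Pl F → ℂ) i).re = 1 / 4 := by
    rw [Finset.sum_eq_single j]
    · rw [Pi.single_eq_same, ← mul_assoc, mul_inv_cancel₀ (em_ne hr j)]; simp
    · intro i _ hi; simp [hi]
    · simp
  rw [eV, this]
  have h2 : (4 * Real.pi * Complex.I * ((1 / 4 : ℝ) : ℂ) : ℂ) = Real.pi * Complex.I := by
    push_cast; ring
  rw [h2, Complex.exp_pi_mul_I]
  norm_num

theorem eF_int (hL : LatStmt F) {x : F} (hx : IsIntegral ℤ x) : eF x = 1 := by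
  rw [hL.eF_eq]
  obtain ⟨n, hn⟩ := (IsIntegrallyClosed.isIntegral_iff (R := ℤ) (K := ℚ)).1
    (Algebra.isIntegral_trace (L := ℚ) hx)
  rw [← hn]
  simp only [eq_intCast, Rat.cast_intCast]
  rw [mul_comm]
  exact Complex.exp_int_mul_two_pi_mul_I n

/-- Orthogonality. -/
theorem Wt.orth (hL : LatStmt F) {N : ℕ} {β : (Pl F → ℂ) → ℝ} (h : Wt (latt F N) β) {r : F}
    (hr : r ≠ 0) (hN : IsIntegral ℤ ((N : F) * r)) :
    ∫ z, (β z : ℂ) * eV (fun j => em r j * z j) = 0 := by
  obtain ⟨z₀, hz₀⟩ := exists_eV_ne hr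
  have hadd : ∀ z z' : Pl F → ℂ, eV (fun j => em r j * (z + z') j) =
      eV (fun j => em r j * z j) * eV (fun j => em r j * z' j) := by
    intro z z'
    rw [← eV_add]; congr 1; funext j; simp [mul_add]
  have hm : Measurable fun z : Pl F → ℂ => eV (fun j => em r j * z j) :=
    (continuous_eV.comp (by fun_prop)).measurable
  have h1 := h.integral_eq (h.shift z₀) hm (B := 1) (fun z => (norm_eV _).le) (by
    rintro z _ ⟨y, hy, rfl⟩
    rw [hadd]
    have : eV (fun j => em r j * em ((N : F) * y) j) = eF ((N * r) * y) := by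
      rw [eF]; congr 1; funext j; simp [em]; ring
    rw [this, eF_int hL (hN.mul hy), mul_one])
  rw [← integral_add_right_eq_self (fun z => (β (z - z₀) : ℂ) * eV (fun j => em r j * z j)) z₀]
    at h1
  simp only [add_sub_cancel_right, hadd, ← mul_assoc] at h1
  rw [integral_mul_const] at h1
  have h2 : (∫ z, (β z : ℂ) * eV (fun j => em r j * z j)) *
      (1 - eV (fun j => em r j * z₀ j)) = 0 := by linear_combination h1
  exact (mul_eq_zero.1 h2).resolve_right (sub_ne_zero.2 hz₀.symm)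

/-- Mean value of an absolutely convergent series against a weight of level `N`. -/
theorem Wt.integral_series (hL : LatStmt F) {N : ℕ} {β : (Pl F → ℂ) → ℝ} (h : Wt (latt F N) β)
    {a : F → ℂ} (ha : Summable fun r => ‖a r‖) (hN : ∀ r, a r ≠ 0 → IsIntegral ℤ ((N : F) * r)) :
    ∫ z, (β z : ℂ) * ∑' r, a r * eV (fun j => em r j * z j) = (∫ z, β z : ℝ) * a 0 := by
  have hw : Integrable fun z => (β z : ℂ) := h.int.ofReal
  have hi : ∀ r, Integrable fun z => (β z : ℂ) * (a r * eV (fun j => em r j * z j)) := fun r =>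
    hw.mul_bdd (c := ‖a r‖)
      (continuous_const.mul (continuous_eV.comp (by fun_prop))).aestronglyMeasurable
      (Eventually.of_forall fun z => by rw [norm_mul, norm_eV, mul_one])
  have hs : Summable fun r => ∫ z, ‖(β z : ℂ) * (a r * eV (fun j => em r j * z j))‖ := by
    simp only [norm_mul, norm_eV, mul_one, integral_mul_const]
    exact ha.mul_left _
  simp only [← tsum_mul_left]
  rw [← integral_tsum_of_summable_integral_norm hi hs, tsum_eq_single 0]
  · have : ∀ z : Pl F → ℂ, eV (fun j => em (0 : F) j * z j) = 1 := fun z => by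
      rw [← eV_zero (F := F)]; congr 1; funext j; simp [em]
    simp only [this, mul_one]
    rw [integral_mul_const, integral_complex_ofReal]
  · intro r hr
    by_cases h0 : a r = 0
    · simp [h0]
    · simp only [mul_left_comm _ (a r)]
      rw [integral_const_mul, h.orth hL hr (hN r h0), mul_zero]

/-- Mean value of a periodic absolutely convergent series against an arbitrary weight. -/
theorem Wt.mean_series (hL : LatStmt F) {L : AddSubgroup F} {β : (Pl F → ℂ) → ℝ} (h : Wt L β)
    {N : ℕ} (hN0 : N ≠ 0) {a : F → ℂ} (ha : Summable fun r => ‖a r‖)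
    (hN : ∀ r, a r ≠ 0 → IsIntegral ℤ ((N : F) * r)) {f : (Pl F → ℂ) → ℂ}
    (hf : ∀ z, f z = ∑' r, a r * eV (fun j => em r j * z j))
    (hper : ∀ z, ∀ t ∈ L, f (z + em t) = f z) :
    ∫ z, (β z : ℂ) * f z = (∫ z, β z : ℝ) * a 0 := by
  obtain ⟨β', h'⟩ := exists_wt_latt (F := F) hN0
  have hc : Continuous f := by
    rw [funext hf]
    exact continuous_tsum (fun r => continuous_const.mul (continuous_eV.comp (by fun_prop))) ha
      fun r z => by rw [norm_mul, norm_eV, mul_one]
  have hB : ∀ z, ‖f z‖ ≤ ∑' r, ‖a r‖ := fun z => by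
    rw [hf]
    exact tsum_of_norm_bounded ha.hasSum fun r => by rw [norm_mul, norm_eV, mul_one]
  -- shifting the argument
  have h1 : ∀ z₀, ∫ z, (β z : ℂ) * f (z + z₀) = ∫ z, (β z : ℂ) * f z := by
    intro z₀
    rw [h.integral_eq (h.shift z₀) hc.measurable hB hper,
      ← integral_add_right_eq_self (fun z => (β (z - z₀) : ℂ) * f z) z₀]
    simp only [add_sub_cancel_right]
  have h2 : ∀ z, ∫ z₀, (β' z₀ : ℂ) * f (z + z₀) = (∫ z, β' z : ℝ) * a 0 := by
    intro z
    have h3 := h'.integral_series hL (a := fun r => a r * eV (fun j => em r j * z j))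
      (by simpa only [norm_mul, norm_eV, mul_one] using ha)
      (fun r hr => hN r (left_ne_zero_of_mul hr))
    have h4 : eV (fun j => em (0 : F) j * z j) = 1 := by
      rw [← eV_zero (F := F)]; congr 1; funext j; simp [em]
    simp only [h4, mul_one] at h3
    rw [← h3]
    congr 1; funext z₀
    rw [hf]
    congr 1
    refine tsum_congr fun r => ?_
    rw [mul_assoc, ← eV_add]
    congr 2; funext j; simp [mul_add]
  have hint : Integrable (Function.uncurry fun z z₀ : Pl F → ℂ =>
      (β z : ℂ) * (β' z₀ : ℂ) * f (z + z₀)) (volume.prod volume) :=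
    (h.int.ofReal.mul_prod h'.int.ofReal).mul_bdd
      (hc.comp (continuous_fst.add continuous_snd)).aestronglyMeasurable
      (Eventually.of_forall fun p => hB _)
  have h5 := integral_integral_swap hint
  have h6 : ∀ z, ∫ z₀, (β z : ℂ) * (β' z₀ : ℂ) * f (z + z₀) =
      (β z : ℂ) * ((∫ z, β' z : ℝ) * a 0) := fun z => by
    simp only [mul_assoc]; rw [integral_const_mul, h2]
  have h7 : ∀ z₀, ∫ z, (β z : ℂ) * (β' z₀ : ℂ) * f (z + z₀) =
      (β' z₀ : ℂ) * ∫ z, (β z : ℂ) * f z := fun z₀ => by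
    rw [← h1 z₀, ← integral_const_mul]; congr 1; funext z; ring
  simp only [h6, h7] at h5
  rw [integral_mul_const, integral_mul_const, integral_complex_ofReal,
    integral_complex_ofReal] at h5
  have h8 : ((∫ z, β' z : ℝ) : ℂ) ≠ 0 := by exact_mod_cast h'.pos.ne'
  apply mul_left_cancel₀ h8
  rw [← h5]; ring

end Crest.Agent.T27.TH.U89
end
end

-- ▼ part T27/UnfB_89

/-!
# Unfolding, part B: finitely many orbits of rows, stabiliser lattices, Poincaré series
-/

set_option autoImplicit false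

noncomputable section

namespace Crest.Agent.T27.TH.U89

open scoped ComplexConjugate ENNReal Topology
open MeasureTheory Filter NumberField

variable {F : Type} [Field F]

/-- The bottom row. -/
def row (g : SL F) : F × F := (g 1 0, g 1 1)

theorem row_mul (g h : SL F) : row (g * h) = rmul (row g) (h : Mat F) := by
  simp [row, rmul, Matrix.mul_apply, Fin.sum_univ_two]

theorem det_eq (g : SL F) : g 0 0 * g 1 1 - g 0 1 * g 1 0 = 1 := by
  have := g.det_coe; rwa [Matrix.det_fin_two] at this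

theorem mul_ap (g h : SL F) (i j : Fin 2) : (g * h) i j = g i 0 * h 0 j + g i 1 * h 1 j := by
  rw [Matrix.SpecialLinearGroup.coe_mul, Matrix.mul_apply, Fin.sum_univ_two]

@[simp] theorem nT_00 (t : F) : nT t 0 0 = 1 := rfl
@[simp] theorem nT_01 (t : F) : nT t 0 1 = t := rfl
@[simp] theorem nT_10 (t : F) : nT t 1 0 = 0 := rfl
@[simp] theorem nT_11 (t : F) : nT t 1 1 = 1 := rfl

theorem nT_add (s t : F) : nT (s + t) = nT s * nT t := by
  refine Matrix.SpecialLinearGroup.ext _ _ fun i j => ?_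
  rw [mul_ap]
  fin_cases i <;> fin_cases j <;> simp [add_comm]

theorem nT_zero : nT (0 : F) = 1 := by
  refine Matrix.SpecialLinearGroup.ext _ _ fun i j => ?_
  fin_cases i <;> fin_cases j <;> simp [nT, mkSL]

theorem nT_neg (t : F) : nT (-t) = (nT t)⁻¹ := by
  rw [eq_inv_iff_mul_eq_one, ← nT_add, neg_add_cancel, nT_zero]

theorem nT_injective : Function.Injective (nT : F → SL F) := by
  intro s t h
  have := congrArg (fun g : SL F => g 0 1) h
  simpa [nT, mkSL] using this

theorem row_nT_mul (t : F) (g : SL F) : row (nT t * g) = row g := by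
  simp only [row, mul_ap]; simp

theorem exists_nT_mul {g h : SL F} (e : row g = row h) : ∃ t, g = nT t * h := by
  have h0 : g 1 0 = h 1 0 := congrArg Prod.fst e
  have h1 : g 1 1 = h 1 1 := congrArg Prod.snd e
  have dg := det_eq g
  have dh := det_eq h
  refine ⟨g 0 1 * h 0 0 - g 0 0 * h 0 1, Matrix.SpecialLinearGroup.ext _ _ fun i j => ?_⟩
  rw [h0, h1] at dg
  rw [mul_ap]
  fin_cases i <;> fin_cases j <;> simp [h0, h1]
  · linear_combination (-g 0 0) * dh + h 0 0 * dg
  · linear_combination (-g 0 1) * dh + h 0 1 * dg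

/-- The lattice of translations at the cusp `γ`. -/
def Lc (Δ : Subgroup (SL F)) (γ : SL F) : AddSubgroup F where
  carrier := {t | γ⁻¹ * nT t * γ ∈ Δ}
  zero_mem' := by simp [nT_zero]
  add_mem' := by
    intro s t hs ht
    have : γ⁻¹ * nT (s + t) * γ = (γ⁻¹ * nT s * γ) * (γ⁻¹ * nT t * γ) := by
      rw [nT_add]; group
    show _ ∈ Δ
    rw [this]; exact mul_mem hs ht
  neg_mem' := by
    intro t ht
    have : γ⁻¹ * nT (-t) * γ = (γ⁻¹ * nT t * γ)⁻¹ := by rw [nT_neg]; group
    show _ ∈ Δ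
    rw [this]; exact inv_mem ht

/-- The orbit of the bottom row of `γ`. -/
def Orb (Δ : Subgroup (SL F)) (γ : SL F) : Set (F × F) := {u | ∃ δ ∈ Δ, row (γ * δ) = u}

/-- Poincaré series with a weight at the cusp. -/
theorem hasSum_poinc {V : Type} {Δ : Subgroup (SL F)} {γ : SL F} {β : V → ℝ} {sh : F → V → V}
    (h0 : ∀ z, 0 ≤ β z) (hβ : ∀ z, HasSum (fun t : Lc Δ γ => β (sh t z)) 1)
    {z : SL F → V} (hz : ∀ t g, z (nT t * g) = sh t (z g)) {h : F × F → ℝ} (hh : ∀ u, 0 ≤ h u)
    (hs : Summable ((Orb Δ γ).indicator h)) :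
    HasSum (fun δ : Δ => β (z (γ * δ)) * h (row (γ * δ))) (∑' u, (Orb Δ γ).indicator h u) := by
  let f : Δ → F × F := fun δ => row (γ * δ)
  rw [← (Equiv.sigmaFiberEquiv f).hasSum_iff]
  have h1 : ∀ u, HasSum (fun δ : {δ // f δ = u} => β (z (γ * δ.1)) * h (row (γ * δ.1)))
      ((Orb Δ γ).indicator h u) := by
    intro u
    by_cases hu : u ∈ Orb Δ γ
    · rw [Set.indicator_of_mem hu]
      obtain ⟨δ₀, hδ₀, rfl⟩ := hu
      have e1 : ∀ t : F, γ * (γ⁻¹ * nT t * γ * δ₀) = nT t * (γ * δ₀) := fun t => by group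
      let g : Lc Δ γ → {δ // f δ = row (γ * δ₀)} := fun t =>
        ⟨⟨γ⁻¹ * nT (t : F) * γ * δ₀, mul_mem t.2 hδ₀⟩, by simp only [f, e1, row_nT_mul]⟩
      have hg : Function.Bijective g := by
        constructor
        · intro s t hst
          have := congrArg (fun x => (x.1 : SL F)) hst
          simp only [g, mul_left_inj, mul_right_inj] at this
          exact Subtype.ext (nT_injective this)
        · rintro ⟨δ, hδ⟩
          obtain ⟨t, ht⟩ := exists_nT_mul (show row (γ * (δ : SL F)) = row (γ * δ₀) from hδ)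
          have e2 : γ⁻¹ * nT t * γ * δ₀ = δ := by
            rw [mul_assoc, mul_assoc, ← ht]; group
          refine ⟨⟨t, ?_⟩, Subtype.ext (Subtype.ext e2)⟩
          show _ ∈ Δ
          rw [eq_mul_inv_of_mul_eq e2]
          exact mul_mem δ.2 (inv_mem hδ₀)
      rw [← (Equiv.ofBijective g hg).hasSum_iff]
      have h2 := (hβ (z (γ * δ₀))).mul_right (h (row (γ * δ₀)))
      rw [one_mul] at h2
      simp only [Function.comp_def, Equiv.ofBijective_apply, g, e1, hz, row_nT_mul]
      exact h2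
    · rw [Set.indicator_of_notMem hu]
      have : IsEmpty {δ // f δ = u} := ⟨fun δ => hu ⟨δ.1, δ.1.2, δ.2⟩⟩
      exact hasSum_empty
  refine HasSum.sigma_of_hasSum hs.hasSum h1 ?_
  refine (summable_sigma_of_nonneg (fun p => mul_nonneg (h0 _) (hh _))).2
    ⟨fun u => (h1 u).summable, ?_⟩
  exact hs.congr fun u => (h1 u).tsum_eq.symm

/-- An algebraic integer as an element of `𝓞 F`. -/
def mkO (x : F) (h : IsIntegral ℤ x) : 𝓞 F := ⟨x, h⟩

@[simp] theorem map_mkO (x : F) (h : IsIntegral ℤ x) : algebraMap (𝓞 F) F (mkO x h) = x := rfl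

theorem int_of_eq {x y : F} (h : IsIntegral ℤ x) (e : y = x) : IsIntegral ℤ y := e ▸ h

variable [NumberField F]

theorem exists_den (γ : SL F) : ∃ D : ℕ, D ≠ 0 ∧ ∀ i j, IsIntegral ℤ ((D : F) * γ i j) := by
  have h : ∀ x : F, ∃ D : ℕ, D ≠ 0 ∧ IsIntegral ℤ ((D : F) * x) := by
    intro x
    obtain ⟨y, hy, h⟩ := ((IsFractionRing.isAlgebraic_iff ℤ ℚ F).2
      (Algebra.IsAlgebraic.isAlgebraic x)).exists_integral_multiple
    refine ⟨y.natAbs, by simpa using hy, ?_⟩
    rcases Int.natAbs_eq y with h1 | h1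
    · rw [h1] at h; simpa using h
    · rw [h1] at h; simpa using h.neg
  choose D hD hD' using h
  refine ⟨∏ p : Fin 2 × Fin 2, D (γ p.1 p.2), Finset.prod_ne_zero_iff.2 fun p _ => hD _, ?_⟩
  intro i j
  rw [← Finset.prod_erase_mul _ _ (Finset.mem_univ (i, j)), Nat.cast_mul, mul_assoc]
  exact (isIntegral_natCast _).mul (hD' _)

omit [NumberField F] in
theorem den_inv {γ : SL F} {D : F} (h : ∀ i j, IsIntegral ℤ (D * γ i j)) (i j : Fin 2) :
    IsIntegral ℤ (D * (γ⁻¹ : SL F) i j) := by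
  rw [Matrix.SpecialLinearGroup.coe_inv, Matrix.adjugate_fin_two]
  fin_cases i <;> fin_cases j
  · simpa using h 1 1
  · simpa using (h 0 1).neg
  · simpa using (h 1 0).neg
  · simpa using h 0 0

theorem finite_quot {M : ℕ} (hM : M ≠ 0) : Finite (𝓞 F ⧸ Ideal.span {(M : 𝓞 F)}) :=
  Ideal.finiteQuotientOfFreeOfNeBot _ (by simpa using hM)

/-- Finitely many cosets contain all matrices of bounded denominator. -/
theorem exists_cosets {Δ : Subgroup (SL F)} (hΔ : Δ.relIndex (Gam0 F) ≠ 0) {M : ℕ} (hM : M ≠ 0) :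
    ∃ T : Finset (SL F), ∀ g : SL F, (∀ i j, IsIntegral ℤ ((M : F) * g i j)) →
      ∃ γ ∈ T, ∃ δ ∈ Δ, g = γ * δ := by
  classical
  have := finite_quot (F := F) (mul_ne_zero hM hM)
  let Q := 𝓞 F ⧸ Ideal.span {((M * M : ℕ) : 𝓞 F)}
  let X := {g : SL F // ∀ i j, IsIntegral ℤ ((M : F) * g i j)}
  let c : X → Fin 2 → Fin 2 → Q := fun g i j => Ideal.Quotient.mk _ (mkO _ (g.2 i j))
  have hM' : (M : F) ≠ 0 := by exact_mod_cast hM
  have hc : ∀ g g' : X, c g = c g' → g.1⁻¹ * g'.1 ∈ Gam0 F := by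
    intro g g' h
    have h1 : ∀ i j, ∃ y : F, IsIntegral ℤ y ∧ g'.1 i j = g.1 i j + M * y := by
      intro i j
      obtain ⟨y, hy⟩ := Ideal.mem_span_singleton'.1
        (Ideal.Quotient.eq.1 (congrFun (congrFun h i) j).symm)
      refine ⟨y, y.isIntegral_coe, mul_left_cancel₀ hM' ?_⟩
      have := congrArg (algebraMap (𝓞 F) F) hy
      simp only [map_mul, map_natCast, map_sub, map_mkO, Nat.cast_mul] at this
      linear_combination -this
    choose y hy hy' using h1
    intro i j
    have h2 : (g.1⁻¹ * g.1 : SL F) i j = (1 : Mat F) i j := by simp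
    rw [Matrix.SpecialLinearGroup.coe_mul, Matrix.mul_apply, Fin.sum_univ_two] at h2 ⊢
    have h3 : IsIntegral ℤ ((1 : Mat F) i j) := (Gam0 F).one_mem i j
    have h4 := (h3.add ((den_inv g.2 i 0).mul (hy 0 j))).add ((den_inv g.2 i 1).mul (hy 1 j))
    refine int_of_eq h4 ?_
    rw [hy', hy', ← h2]; ring
  have : (Δ.subgroupOf (Gam0 F)).FiniteIndex := ⟨hΔ⟩
  have := Fintype.ofFinite (Gam0 F ⧸ Δ.subgroupOf (Gam0 F))
  have := Fintype.ofFinite Q
  have : Nonempty X := ⟨⟨1, fun i j => (isIntegral_natCast _).mul ((Gam0 F).one_mem i j)⟩⟩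
  refine ⟨Finset.univ.image fun p : (Fin 2 → Fin 2 → Q) × (Gam0 F ⧸ Δ.subgroupOf (Gam0 F)) =>
    (Function.invFun c p.1).1 * (p.2.out : Gam0 F), fun g hg => ?_⟩
  have h1 := hc _ _ (Function.invFun_eq (f := c) ⟨⟨g, hg⟩, rfl⟩)
  obtain ⟨δ, hδ⟩ := QuotientGroup.mk_out_eq_mul (Δ.subgroupOf (Gam0 F)) ⟨_, h1⟩
  refine ⟨_, Finset.mem_image.2 ⟨(c ⟨g, hg⟩, QuotientGroup.mk ⟨_, h1⟩), Finset.mem_univ _, rfl⟩,
    ((δ : Gam0 F) : SL F)⁻¹, inv_mem δ.2, ?_⟩
  simp only [hδ, Subgroup.coe_mul]
  group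

omit [NumberField F] in
theorem xi_row {ξ : F × F → ℂ} {δ : SL F} (hδ : δ ∈ Del ξ) (γ : SL F) :
    ξ (row (γ * δ)) = ξ (row γ) := by
  rw [row_mul]
  exact congrFun (show tr ξ (δ : Mat F) = ξ from hδ.1) _

/-- The support of an admissible function is a finite disjoint union of orbits. -/
theorem exists_orbits {ξ : F × F → ℂ} (hξ : Adm ξ) : ∃ I : Finset (SL F),
    ∀ u, ξ u = ∑ γ ∈ I, ξ (row γ) * (Orb (Del ξ) γ).indicator 1 u := by
  classical
  obtain ⟨M, hM, hsupp⟩ := hξ.supp
  have hΔ : (Del ξ).relIndex (Gam0 F) ≠ 0 := by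
    rw [Del, Subgroup.inf_relIndex_right]; exact hξ.fin
  obtain ⟨T, hT⟩ := exists_cosets hΔ hM
  have hM' : (M : F) ≠ 0 := by exact_mod_cast hM
  let cls : SL F → Set (F × F) := Orb (Del ξ)
  have hcls : ∀ γ γ' u, u ∈ cls γ → u ∈ cls γ' → cls γ = cls γ' := by
    have key : ∀ γ γ' u, u ∈ cls γ → u ∈ cls γ' → cls γ ⊆ cls γ' := by
      rintro γ γ' _ ⟨δ, hδ, rfl⟩ ⟨δ', hδ', h⟩ _ ⟨ε, hε, rfl⟩
      refine ⟨δ' * δ⁻¹ * ε, mul_mem (mul_mem hδ' (inv_mem hδ)) hε, ?_⟩
      have e1 : γ' * (δ' * δ⁻¹ * ε) = (γ' * δ') * (δ⁻¹ * ε) := by group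
      have e2 : γ * ε = (γ * δ) * (δ⁻¹ * ε) := by group
      rw [e1, e2, row_mul, h, ← row_mul]
    intro γ γ' u h h'
    exact (key _ _ u h h').antisymm (key _ _ u h' h)
  refine ⟨(T.image cls).image (Function.invFun cls), fun u => ?_⟩
  have hval : ∀ γ, u ∈ cls γ → ξ (row γ) = ξ u := by
    rintro γ ⟨δ, hδ, rfl⟩; exact (xi_row hδ γ).symm
  by_cases hu : ξ u = 0
  · rw [hu, Finset.sum_eq_zero]
    intro γ _
    by_cases h : u ∈ cls γ
    · rw [hval γ h, hu, zero_mul]
    · rw [Set.indicator_of_notMem h, mul_zero]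
  obtain ⟨h1, h2, a, b, ha, hb, hab⟩ := hsupp u hu
  let g : SL F := mkSL (b / M) (-a / M) u.1 u.2 (by field_simp; linear_combination hab)
  obtain ⟨γ, hγ, δ, hδ, hg⟩ := hT g (by
    intro i j
    fin_cases i <;> fin_cases j
    · simpa [g, mkSL, mul_div_cancel₀ _ hM'] using hb
    · simpa [g, mkSL, mul_div_cancel₀ _ hM'] using ha.neg
    · simpa [g, mkSL] using h1
    · simpa [g, mkSL] using h2)
  have hu1 : u ∈ cls γ := ⟨δ, hδ, by rw [← hg]; rfl⟩
  have hγ₀ : cls (Function.invFun cls (cls γ)) = cls γ := Function.invFun_eq ⟨γ, rfl⟩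
  have hu2 : u ∈ cls (Function.invFun cls (cls γ)) := by rw [hγ₀]; exact hu1
  rw [Finset.sum_eq_single (Function.invFun cls (cls γ))]
  · rw [Set.indicator_of_mem hu2, hval _ hu2]; simp
  · intro γ' hγ' hne
    rw [Set.indicator_of_notMem, mul_zero]
    intro h
    obtain ⟨_, hs, rfl⟩ := Finset.mem_image.1 hγ'
    obtain ⟨γ'', -, rfl⟩ := Finset.mem_image.1 hs
    have e : cls (Function.invFun cls (cls γ'')) = cls γ'' := Function.invFun_eq ⟨γ'', rfl⟩
    exact hne (by rw [← e, hcls _ _ u h hu1])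
  · intro h
    exact absurd (Finset.mem_image_of_mem _ (Finset.mem_image_of_mem _ hγ)) h

variable [Emb F]

/-- There is a weight for the translation lattice at every cusp. -/
theorem exists_wt_cusp (hR : RowStmt F) {ξ : F × F → ℂ} (hξ : Adm ξ) (γ : SL F) :
    ∃ β, Wt (Lc (Del ξ) γ) β := by
  obtain ⟨D, hD, hD'⟩ := exists_den γ
  obtain ⟨N, hN, hN'⟩ := hR.transl _ (hR.adm_tr ξ (γ : Mat F) hξ (by simp))
  have hDi := den_inv hD'
  have hN0 : N * D * D ≠ 0 := by positivity
  have hle : latt F (N * D * D) ≤ Lc (Del ξ) γ := by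
    rintro _ ⟨y, hy, rfl⟩
    refine ⟨?_, ?_⟩
    · have h1 : tr (tr ξ γ) (nT (((N * D * D : ℕ) : F) * y) : SL F) = tr ξ γ :=
        (hN' _ ⟨D * D * y, ((isIntegral_natCast _).mul (isIntegral_natCast _)).mul hy, by
          push_cast; ring⟩).1
      show tr ξ ((γ⁻¹ * nT _ * γ : SL F) : Mat F) = ξ
      rw [mul_assoc, Matrix.SpecialLinearGroup.coe_mul, tr_mul, Matrix.SpecialLinearGroup.coe_mul,
        tr_mul, h1, ← tr_mul, ← Matrix.SpecialLinearGroup.coe_mul, inv_mul_cancel,
        Matrix.SpecialLinearGroup.coe_one, tr_one]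
    · intro i j
      have h2 : (γ⁻¹ * γ : SL F) i j = (1 : Mat F) i j := by simp
      rw [Matrix.SpecialLinearGroup.coe_mul, Matrix.mul_apply, Fin.sum_univ_two] at h2
      have h3 : IsIntegral ℤ ((1 : Mat F) i j) := (Gam0 F).one_mem i j
      have h4 := h3.add ((((isIntegral_natCast N).mul hy).mul (hDi i 0)).mul (hD' 1 j))
      refine int_of_eq h4 ?_
      rw [← h2]
      simp only [mul_ap, nT_00, nT_01, nT_10, nT_11]
      push_cast
      ring
  have hint : ∀ t ∈ Lc (Del ξ) γ, IsIntegral ℤ ((D : F) * D * t) := by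
    intro t ht
    have h1 : γ⁻¹ * nT t * γ ∈ Gam0 F := ht.2
    set δ := γ⁻¹ * nT t * γ with hδ
    have h2 : nT t = γ * δ * γ⁻¹ := by rw [hδ]; group
    have h3 := congrArg (fun g : SL F => g 0 1) h2
    simp only [Matrix.SpecialLinearGroup.coe_mul, Matrix.mul_apply, Fin.sum_univ_two] at h3
    have h4 : (nT t) 0 1 = t := rfl
    rw [h4] at h3
    have h5 := ((((hD' 0 0).mul (h1 0 0)).add ((hD' 0 1).mul (h1 1 0))).mul (hDi 0 1)).add
      ((((hD' 0 0).mul (h1 0 1)).add ((hD' 0 1).mul (h1 1 1))).mul (hDi 1 1))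
    refine int_of_eq h5 ?_
    rw [h3]; ring
  obtain ⟨β, hβ⟩ := exists_wt_latt (F := F) hN0
  have hfin := finite_quot (F := F) (mul_ne_zero (mul_ne_zero hD hD) hN0)
  let f : Lc (Del ξ) γ →+ 𝓞 F ⧸ Ideal.span {((D * D * (N * D * D) : ℕ) : 𝓞 F)} :=
    { toFun := fun t => Ideal.Quotient.mk _ (mkO _ (hint t t.2))
      map_zero' := by
        rw [← map_zero (Ideal.Quotient.mk _)]; congr 1
        apply RingOfIntegers.ext; simp
      map_add' := by
        intro s t
        rw [← map_add]; congr 1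
        apply RingOfIntegers.ext; simp [mul_add] }
  have hker : f.ker ≤ (latt F (N * D * D)).addSubgroupOf (Lc (Del ξ) γ) := by
    intro t ht
    obtain ⟨y, hy⟩ := Ideal.mem_span_singleton'.1 (Ideal.Quotient.eq_zero_iff_mem.1 ht)
    have hD0 : (D : F) * D ≠ 0 := by exact_mod_cast mul_ne_zero hD hD
    refine ⟨y, y.isIntegral_coe, mul_left_cancel₀ hD0 ?_⟩
    have := congrArg (algebraMap (𝓞 F) F) hy
    simp only [map_mul, map_natCast, map_mkO, Nat.cast_mul] at this
    simp only [Nat.cast_mul, AddSubgroup.coe_subtype]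
    linear_combination -this
  have : ((latt F (N * D * D)).addSubgroupOf (Lc (Del ξ) γ)).FiniteIndex :=
    AddSubgroup.finiteIndex_of_le hker
  exact hβ.of_le hle

end Crest.Agent.T27.TH.U89
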