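import Crest.Agent.T27.Fr_55
import Crest.Agent.PVc.R17.ReflDefs

/-!
# Row 27 (helper59): the twisted Voronoi formula on the frame (statement only)

`Rf.VorFr` is what the cubic theta function has to export; `Rf.VorFr → ReflStmt` is proved on the
frame.  The dual coefficients may depend on the modulus `D` through any finite invariant `γ D`
which is compatible with multiplication (`γ = cls` is allowed, a finer class as well).
-/

set_option autoImplicit false

noncomputable section

namespace Crest.Agent.T27.Rf

open scoped ComplexConjugate

variable [Fr0]

/-- Characters modulo `D` as functions on `O`. -/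
structure IsChr (D : O) (ψ : O → ℂ) : Prop where
  mul : ∀ x y, ψ (x * y) = ψ x * ψ y
  per : ∀ x y, D ∣ x - y → ψ x = ψ y
  zero : ∀ x, ¬ IsCoprime x D → ψ x = 0
  norm : ∀ x, IsCoprime x D → ‖ψ x‖ = 1

/-- The dual character. -/
def dualChr (D : O) (ψ : O → ℂ) (x : O) : ℂ := conj (ψ x) * cub D x


end Crest.Agent.T27.Rf
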